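import Crest.Agent.R183.Om4
import Crest.Agent.R183.Cic

/-!
R188 / Apl1 : the `p`-completion `A` of `B_∞ = B[p^{1/p^∞}, y^{1/p^∞}]` is a completely integrally
closed domain.  Abstract form: a ring with levels (`Lev`).   Author: helper245.
-/

set_option autoImplicit false
set_option linter.unusedSectionVars false

namespace Crest.Agent.R188.Apl

open Crest.Agent.R183.Om (Reg RegMod PData exists_series)
open Crest.Agent.R183.Cic (CIC)

/-- A ring `R` with levels `S e` (`= B[p^{1/p^e}, y^{1/p^e}]`) over a base `B`. -/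
structure Lev (p : ℕ) {B R : Type*} [CommRing B] [CommRing R] (j : B →+* R) (ϖ : ℕ → R)
    (S : ℕ → Subring R) : Prop where
  dat : PData p R ϖ
  reg : Reg (p : R)
  mono : Monotone S
  memB : ∀ e b, j b ∈ S e
  memϖ : ∀ e, ϖ e ∈ S e
  dense : ∀ x, ∃ e, ∃ y ∈ S e, (p : R) ∣ x - y
  cancel : ∀ e w, ϖ e * w ∈ S e → w ∈ S e
  pow : ∀ e, ∀ z ∈ S e, ∃ b, (p : R) ∣ z ^ p ^ e - j b
  lift : ∀ e b, ∃ z ∈ S e, (p : R) ∣ z ^ p ^ e - j b
  inj : ∀ b f, ϖ f ∣ j b → (p : B) ∣ b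
  dom : ∀ a b : B, (p : B) ∣ a * b → (p : B) ∣ a ∨ (p : B) ∣ b
  one : ¬ (p : B) ∣ 1
  cic : ∀ a b c : B, ¬ (p : B) ∣ b → ¬ (p : B) ∣ c →
    (∀ m : ℕ, ∃ x, (p : B) ∣ c * a ^ m - b ^ m * x) → ∃ x, (p : B) ∣ a - b * x

section

variable {p : ℕ} [hp : Fact p.Prime] {B R : Type*} [CommRing B] [CommRing R] {j : B →+* R}
  {ϖ : ℕ → R} {S : ℕ → Subring R}

omit hp in
lemma pow_congr {a b : R} (k : ℕ) {n : R} (h : n ∣ a - b) : n ∣ a ^ k - b ^ k :=
  h.trans (sub_dvd_pow_sub_pow _ _ _)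

lemma dvd_frob (a b : R) : (p : R) ∣ a ^ p - b ^ p - (a - b) ^ p := by
  have h := add_pow_prime_eq hp.out (a - b) b
  rw [sub_add_cancel] at h
  rw [h]
  refine ⟨(a - b) * b * ∑ k ∈ Finset.Ioo 0 p, (a - b) ^ (k - 1) * b ^ (p - k - 1) *
    ↑(p.choose k / p), ?_⟩
  ring

/-- `ϖ f` does not divide `x` for any `f` (content `0`) -/
def Unr (ϖ : ℕ → R) (x : R) : Prop := ∀ f, ¬ ϖ f ∣ x

namespace Lev

variable (L : Lev p j ϖ S)
include L

lemma dvd_le {e f : ℕ} (h : e ≤ f) : ϖ f ∣ ϖ e := by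
  obtain ⟨k, rfl⟩ := Nat.exists_eq_add_of_le h
  rw [← L.dat.roots' e k]
  exact dvd_pow_self _ (pow_ne_zero _ hp.out.ne_zero)

lemma dvd_p (f : ℕ) : ϖ f ∣ (p : R) := by
  rw [← L.dat.zero]; exact L.dvd_le (Nat.zero_le _)

lemma unr_of_not {e : ℕ} {z : R} {b : B} (h : (p : R) ∣ z ^ p ^ e - j b) (hb : ¬ (p : B) ∣ b) :
    Unr ϖ z := by
  intro f hf
  apply hb
  apply L.inj b f
  have h1 : ϖ f ∣ z ^ p ^ e := hf.trans (dvd_pow_self _ (pow_ne_zero _ hp.out.ne_zero))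
  have h2 : j b = z ^ p ^ e - (z ^ p ^ e - j b) := by ring
  rw [h2]
  exact dvd_sub h1 ((L.dvd_p f).trans h)

lemma dvd_of_dvd {e : ℕ} {z : R} {b : B} (h : (p : R) ∣ z ^ p ^ e - j b) (hb : (p : B) ∣ b) :
    ϖ e ∣ z := by
  apply L.dat.finj_iter L.reg e
  have h2 : z ^ p ^ e = (z ^ p ^ e - j b) + j b := by ring
  rw [h2]
  refine dvd_add h ?_
  have := map_dvd j hb
  rwa [map_natCast] at this

lemma not_dvd_of_unr {e : ℕ} {z : R} {b : B} (h : (p : R) ∣ z ^ p ^ e - j b) (hz : Unr ϖ z) :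
    ¬ (p : B) ∣ b := fun hb => hz e (L.dvd_of_dvd h hb)

/-- every element has a power congruent to an element of `B` -/
lemma exists_pow (z : R) : ∃ e b, (p : R) ∣ z ^ p ^ e - j b := by
  obtain ⟨e, y, hy, h⟩ := L.dense z
  obtain ⟨b, hb⟩ := L.pow e y hy
  refine ⟨e, b, ?_⟩
  have := dvd_add (pow_congr (p ^ e) h) hb
  have h2 : z ^ p ^ e - j b = (z ^ p ^ e - y ^ p ^ e) + (y ^ p ^ e - j b) := by ring
  rw [h2]; exact this

omit L in
lemma raise {e : ℕ} {z : R} {b : B} (h : (p : R) ∣ z ^ p ^ e - j b) (k : ℕ) :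
    (p : R) ∣ z ^ p ^ (e + k) - j (b ^ p ^ k) := by
  rw [pow_add, pow_mul, map_pow]
  exact pow_congr _ h

lemma exists_pow₂ (z w : R) : ∃ e b c, (p : R) ∣ z ^ p ^ e - j b ∧ (p : R) ∣ w ^ p ^ e - j c := by
  obtain ⟨e, b, hb⟩ := L.exists_pow z
  obtain ⟨f, c, hc⟩ := L.exists_pow w
  refine ⟨e + f, b ^ p ^ f, c ^ p ^ e, raise hb f, ?_⟩
  rw [add_comm]
  exact raise hc e

lemma unr_mul {x y : R} (hx : Unr ϖ x) (hy : Unr ϖ y) : Unr ϖ (x * y) := by
  obtain ⟨e, b, c, hb, hc⟩ := L.exists_pow₂ x y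
  have hb' := L.not_dvd_of_unr hb hx
  have hc' := L.not_dvd_of_unr hc hy
  refine L.unr_of_not (e := e) (b := b * c) ?_ fun h => (L.dom b c h).elim hb' hc'
  obtain ⟨u, hu⟩ := hb
  obtain ⟨v, hv⟩ := hc
  refine ⟨u * y ^ p ^ e + j b * v, ?_⟩
  rw [mul_pow, map_mul]
  linear_combination y ^ p ^ e * hu + j b * hv

lemma unr_one : Unr ϖ (1 : R) := by
  refine L.unr_of_not (e := 0) (b := 1) ?_ L.one
  rw [one_pow, map_one, sub_self]; exact dvd_zero _

lemma unr_pow {x : R} (hx : Unr ϖ x) (m : ℕ) : Unr ϖ (x ^ m) := by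
  induction m with
  | zero => rw [pow_zero]; exact L.unr_one
  | succ m ih => rw [pow_succ]; exact L.unr_mul ih hx

lemma unr_add {x : R} (hx : Unr ϖ x) (e : ℕ) (w : R) : Unr ϖ (x + ϖ e * w) := by
  intro f hf
  refine hx (max e f) ?_
  have h1 : ϖ (max e f) ∣ x + ϖ e * w := (L.dvd_le (le_max_right e f)).trans hf
  have h2 : ϖ (max e f) ∣ ϖ e * w := (L.dvd_le (le_max_left e f)).mul_right _
  exact (dvd_add_left h2).1 h1

/-- content modulo `p` -/
lemma content_aux {y : R} (hy : ¬ (p : R) ∣ y) : ∃ (e k : ℕ) (y0 : R), k < p ^ e ∧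
    y = ϖ e ^ k * y0 ∧ Unr ϖ y0 := by
  classical
  obtain ⟨e, r, hr, w, hw⟩ := L.dense y
  have hpe : 0 < p ^ e := pow_pos hp.out.pos e
  have hr' : ¬ (p : R) ∣ r := by
    intro h
    apply hy
    have : y = p * w + r := by rw [← hw]; ring
    rw [this]
    exact dvd_add (dvd_mul_right _ _) h
  -- maximal k
  have key : ∀ n ≤ p ^ e, (∃ k < n, ∃ r0 ∈ S e, r = ϖ e ^ k * r0 ∧ ¬ ϖ e ∣ r0) ∨
      ∃ r0 ∈ S e, r = ϖ e ^ n * r0 := by
    intro n hn
    induction n with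
    | zero => exact Or.inr ⟨r, hr, by ring⟩
    | succ n ih =>
      rcases ih (by omega) with ⟨k, hk, h⟩ | ⟨r0, hr0, h⟩
      · exact Or.inl ⟨k, by omega, h⟩
      · by_cases hd : ϖ e ∣ r0
        · obtain ⟨s, hs⟩ := hd
          refine Or.inr ⟨s, L.cancel e s (hs ▸ hr0), ?_⟩
          rw [h, hs]; ring
        · exact Or.inl ⟨n, by omega, r0, hr0, h, hd⟩
  rcases key (p ^ e) le_rfl with ⟨k, hk, r0, hr0, h, hd⟩ | ⟨r0, -, h⟩
  · refine ⟨e, k, r0 + ϖ e * (ϖ e ^ (p ^ e - k - 1) * w), hk, ?_, ?_⟩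
    · have h1 : y = r + p * w := by rw [← hw]; ring
      have h2 : (p : R) = ϖ e ^ k * (ϖ e * ϖ e ^ (p ^ e - k - 1)) := by
        rw [← pow_succ', ← pow_add, ← L.dat.pow_eq_p e]
        congr 1
        omega
      rw [h1, h]
      linear_combination w * h2
    · apply L.unr_add
      obtain ⟨b, hb⟩ := L.pow e r0 hr0
      exact L.unr_of_not hb fun h => hd (L.dvd_of_dvd hb h)
  · exact absurd (h ▸ (L.dat.pow_eq_p e).symm ▸ dvd_mul_right _ _) hr'

lemma regMod_of_unr {x : R} (hx : Unr ϖ x) : RegMod x (p : R) := by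
  intro y hy
  by_contra hn
  obtain ⟨e, k, y0, hk, rfl, h0⟩ := L.content_aux hn
  obtain ⟨z, hz⟩ := hy
  have h2 : (p : R) = ϖ e ^ k * (ϖ e * ϖ e ^ (p ^ e - k - 1)) := by
    rw [← pow_succ', ← pow_add, ← L.dat.pow_eq_p e]
    congr 1
    omega
  have h3 : ϖ e ^ k * (x * y0 - ϖ e * (ϖ e ^ (p ^ e - k - 1) * z)) = 0 := by
    linear_combination hz + z * h2
  have h4 := L.dat.reg_pow L.reg e k _ h3
  refine L.unr_mul hx h0 e ?_
  rw [sub_eq_zero] at h4
  rw [h4]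
  exact dvd_mul_right _ _

lemma regMod_pow {x : R} (hx : RegMod x (p : R)) : ∀ (m : ℕ) (y : R), (p : R) ^ m ∣ x * y →
    (p : R) ^ m ∣ y := by
  intro m
  induction m with
  | zero => intro y _; simp
  | succ m ih =>
    intro y hy
    obtain ⟨z, rfl⟩ := ih y ((pow_dvd_pow _ (Nat.le_succ m)).trans hy)
    obtain ⟨w, hw⟩ := hy
    have h1 : (p : R) ^ m * (x * z - p * w) = 0 := by rw [pow_succ] at hw; linear_combination hw
    have h2 : x * z - p * w = 0 := by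
      clear ih hw
      induction m with
      | zero => simpa using h1
      | succ m ihm =>
        rw [pow_succ', mul_assoc] at h1
        exact ihm (L.reg _ h1)
    obtain ⟨v, hv⟩ := hx z ⟨w, by linear_combination h2⟩
    exact ⟨v, by rw [hv]; ring⟩

/-- regular modulo powers of `ϖ` -/
lemma regMod_ϖ {x : R} (hx : RegMod x (p : R)) (e k : ℕ) (y : R) (h : ϖ e ^ k ∣ x * y) :
    ϖ e ^ k ∣ y := by
  obtain ⟨z, hz⟩ := h
  have hk : k ≤ p ^ e * k := Nat.le_mul_of_pos_left k (pow_pos hp.out.pos e)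
  have h1 : (p : R) ^ k = ϖ e ^ k * ϖ e ^ (p ^ e * k - k) := by
    rw [← L.dat.pow_eq_p e, ← pow_mul, ← pow_add]
    congr 1
    omega
  have h2 : (p : R) ^ k ∣ x * (ϖ e ^ (p ^ e * k - k) * y) := ⟨z, by
    rw [h1]; linear_combination ϖ e ^ (p ^ e * k - k) * hz⟩
  obtain ⟨w, hw⟩ := L.regMod_pow hx k _ h2
  refine ⟨w, ?_⟩
  have h3 : ϖ e ^ (p ^ e * k - k) * (y - ϖ e ^ k * w) = 0 := by
    rw [h1] at hw
    linear_combination hw
  have := L.dat.reg_pow L.reg e _ _ h3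
  linear_combination this

section Sep

variable (hsep : ∀ x : R, (∀ n : ℕ, (p : R) ^ n ∣ x) → x = 0)
include hsep

/-- content decomposition -/
theorem content {y : R} (hy : y ≠ 0) : ∃ (e k : ℕ) (y0 : R), y = ϖ e ^ k * y0 ∧ Unr ϖ y0 := by
  classical
  have h1 : ∃ n : ℕ, ¬ (p : R) ^ n ∣ y := by
    by_contra h
    push Not at h
    exact hy (hsep y h)
  have h2 := Nat.find_spec h1
  have h3 : Nat.find h1 ≠ 0 := by
    intro h0
    rw [h0, pow_zero] at h2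
    exact h2 (one_dvd _)
  obtain ⟨n, hn⟩ := Nat.exists_eq_succ_of_ne_zero h3
  obtain ⟨z, hz⟩ : (p : R) ^ n ∣ y := by
    by_contra h
    have := Nat.find_min' h1 h
    omega
  have h4 : ¬ (p : R) ∣ z := by
    rintro ⟨w, hw⟩
    apply h2
    rw [hn]
    exact ⟨w, by rw [hz, hw, Nat.succ_eq_add_one]; ring⟩
  obtain ⟨e, k, y0, -, hz0, h0⟩ := L.content_aux h4
  refine ⟨e, p ^ e * n + k, y0, ?_, h0⟩
  rw [hz, hz0, ← L.dat.pow_eq_p e]
  ring

lemma regMod_reg {x : R} (hx : RegMod x (p : R)) : Reg x := by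
  intro y hy
  refine hsep y fun n => L.regMod_pow hx n y ?_
  rw [hy]; exact dvd_zero _

theorem mul_ne_zero {x y : R} (hx : x ≠ 0) (hy : y ≠ 0) : x * y ≠ 0 := by
  obtain ⟨e, k, x0, rfl, h0⟩ := L.content hsep hx
  intro h
  rw [mul_assoc] at h
  have h1 := L.dat.reg_pow L.reg e k _ h
  exact hy (L.regMod_reg hsep (L.regMod_of_unr h0) y h1)

end Sep

lemma content_raise {y y0 : R} {e k : ℕ} (h : y = ϖ e ^ k * y0) {f : ℕ} (hf : e ≤ f) :
    ∃ l, y = ϖ f ^ l * y0 := by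
  obtain ⟨i, rfl⟩ := Nat.exists_eq_add_of_le hf
  refine ⟨p ^ i * k, ?_⟩
  rw [h, ← L.dat.roots' e i, ← pow_mul]

/-- Frobenius kills the difference modulo `ϖ_e` -/
lemma pow_congr_ϖ {u v : R} (e : ℕ) (h : ϖ e ∣ u - v) : (p : R) ∣ u ^ p ^ e - v ^ p ^ e := by
  have h1 : ∀ (e : ℕ) (u v : R), (p : R) ∣ (u - v) ^ p ^ e - (u ^ p ^ e - v ^ p ^ e) := by
    intro e
    induction e with
    | zero => intro u v; simp
    | succ e ih =>
      intro u v
      have h2 := dvd_frob (p := p) u v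
      have h3 := pow_congr (p ^ e) h2
      have h4 := ih (u ^ p) (v ^ p)
      rw [← pow_mul, ← pow_mul, ← pow_succ'] at h4
      have h5 : (u - v) ^ p ^ (e + 1) - (u ^ p ^ (e + 1) - v ^ p ^ (e + 1)) =
          -(((u ^ p - v ^ p) ^ p ^ e) - ((u - v) ^ p) ^ p ^ e) +
            ((u ^ p - v ^ p) ^ p ^ e - (u ^ p ^ (e + 1) - v ^ p ^ (e + 1))) := by
        rw [← pow_mul (u - v), ← pow_succ' p e]; ring
      rw [h5]
      exact dvd_add ((dvd_neg).2 h3) h4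
  have h2 : (p : R) ∣ (u - v) ^ p ^ e := by
    rw [← L.dat.pow_eq_p e]
    exact pow_dvd_pow_of_dvd h _
  have h3 : u ^ p ^ e - v ^ p ^ e = (u - v) ^ p ^ e - ((u - v) ^ p ^ e - (u ^ p ^ e - v ^ p ^ e)) := by
    ring
  rw [h3]
  exact dvd_sub h2 (h1 e u v)

omit L hp in
/-- `b^n ∣ c a^n` for all `n` -/
def AI (a b c : R) : Prop := ∀ n : ℕ, b ^ n ∣ c * a ^ n

omit L in
lemma AI.sub {a b c : R} (h : AI a b c) (x : R) : AI (a - b * x) b c := by
  intro n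
  rw [sub_eq_add_neg, add_pow, Finset.mul_sum]
  refine Finset.dvd_sum fun k hk => ?_
  rw [Finset.mem_range, Nat.lt_succ_iff] at hk
  obtain ⟨y, hy⟩ := h k
  have h1 : b ^ n = b ^ k * b ^ (n - k) := by rw [← pow_add]; congr 1; omega
  refine ⟨y * (-x) ^ (n - k) * (n.choose k : R), ?_⟩
  rw [h1, neg_mul_eq_mul_neg, mul_pow]
  linear_combination b ^ (n - k) * (-x) ^ (n - k) * (n.choose k : R) * hy

/-- `B/p` is root closed in its fraction field -/
lemma root_B {u v s : B} {Q : ℕ} (hQ : 0 < Q) (hv : ¬ (p : B) ∣ v)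
    (h : (p : B) ∣ u ^ Q - v ^ Q * s) : ∃ x, (p : B) ∣ u - v * x := by
  have hvp : ∀ n, ¬ (p : B) ∣ v ^ n := by
    intro n
    induction n with
    | zero => rw [pow_zero]; exact L.one
    | succ n ih => rw [pow_succ]; exact fun hh => (L.dom _ _ hh).elim ih hv
  refine L.cic u v (v ^ Q) hv (hvp Q) fun m => ?_
  have h1 : (p : B) ∣ u ^ (Q * (m / Q)) - v ^ (Q * (m / Q)) * s ^ (m / Q) := by
    rw [pow_mul, pow_mul, ← mul_pow]
    exact pow_congr _ h
  have h2 : Q * (m / Q) + m % Q = m := Nat.div_add_mod m Q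
  have h3 : m % Q < Q := Nat.mod_lt _ hQ
  refine ⟨v ^ (Q - m % Q) * s ^ (m / Q) * u ^ (m % Q), ?_⟩
  have h4 : v ^ Q * u ^ m - v ^ m * (v ^ (Q - m % Q) * s ^ (m / Q) * u ^ (m % Q)) =
      v ^ Q * u ^ (m % Q) * (u ^ (Q * (m / Q)) - v ^ (Q * (m / Q)) * s ^ (m / Q)) := by
    have h5 : v ^ m * v ^ (Q - m % Q) = v ^ Q * v ^ (Q * (m / Q)) := by
      rw [← pow_add, ← pow_add]; congr 1; omega
    have h6 : u ^ m = u ^ (Q * (m / Q)) * u ^ (m % Q) := by
      rw [← pow_add, h2]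
    rw [h6]
    linear_combination -(s ^ (m / Q) * u ^ (m % Q)) * h5
  rw [h4]
  exact h1.mul_left _

/-- division modulo `ϖ_e` -/
lemma div_step {a b c α β γ : R} {e : ℕ} (hα : α ∈ S e) (hβ : β ∈ S e) (hγ : γ ∈ S e)
    (ha : ϖ e ∣ a - α) (hb : (p : R) ∣ b - β) (hc : (p : R) ∣ c - γ) (ub : Unr ϖ b)
    (uc : Unr ϖ c) (h : AI a b c) : ∃ ξ ∈ S e, ∃ α' ∈ S e, α = β * ξ + ϖ e * α' := by
  obtain ⟨α1, hα1⟩ := L.pow e α hα
  obtain ⟨β1, hβ1⟩ := L.pow e β hβ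
  obtain ⟨γ1, hγ1⟩ := L.pow e γ hγ
  have ha1 : (p : R) ∣ a ^ p ^ e - j α1 := by
    have := dvd_add (L.pow_congr_ϖ e ha) hα1
    rwa [sub_add_sub_cancel] at this
  have hb1 : (p : R) ∣ b ^ p ^ e - j β1 := by
    have := dvd_add (pow_congr (p ^ e) hb) hβ1
    rwa [sub_add_sub_cancel] at this
  have hc1 : (p : R) ∣ c ^ p ^ e - j γ1 := by
    have := dvd_add (pow_congr (p ^ e) hc) hγ1
    rwa [sub_add_sub_cancel] at this
  have nb := L.not_dvd_of_unr hb1 ub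
  have nc := L.not_dvd_of_unr hc1 uc
  have hvp : ∀ n, ¬ (p : B) ∣ β1 ^ n := by
    intro n
    induction n with
    | zero => rw [pow_zero]; exact L.one
    | succ n ih => rw [pow_succ]; exact fun hh => (L.dom _ _ hh).elim ih nb
  have key : ∀ m : ℕ, ∃ x, (p : B) ∣ γ1 * α1 ^ m - β1 ^ m * x := by
    intro m
    obtain ⟨x, hx⟩ := h m
    obtain ⟨f, ξ, hξ⟩ := L.exists_pow x
    refine L.root_B (s := ξ ^ p ^ e) (Q := p ^ f) (pow_pos hp.out.pos f) (hvp m) ?_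
    have e1 : (p : R) ∣ (c * a ^ m) ^ p ^ e - j (γ1 * α1 ^ m) := by
      obtain ⟨u, hu⟩ := hc1
      obtain ⟨v, hv⟩ := pow_congr m ha1
      refine ⟨u * (a ^ p ^ e) ^ m + j γ1 * v, ?_⟩
      rw [mul_pow, ← pow_mul, mul_comm m, pow_mul, map_mul, map_pow]
      linear_combination (a ^ p ^ e) ^ m * hu + j γ1 * hv
    have e2 : (p : R) ∣ (b ^ m * x) ^ p ^ e - j (β1 ^ m) * x ^ p ^ e := by
      obtain ⟨v, hv⟩ := pow_congr m hb1
      refine ⟨v * x ^ p ^ e, ?_⟩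
      rw [mul_pow, ← pow_mul, mul_comm m, pow_mul, map_pow]
      linear_combination x ^ p ^ e * hv
    have e3 : (p : R) ∣ j (γ1 * α1 ^ m) - j (β1 ^ m) * x ^ p ^ e := by
      have : j (γ1 * α1 ^ m) - j (β1 ^ m) * x ^ p ^ e =
          ((b ^ m * x) ^ p ^ e - j (β1 ^ m) * x ^ p ^ e) -
            ((c * a ^ m) ^ p ^ e - j (γ1 * α1 ^ m)) := by rw [hx]; ring
      rw [this]; exact dvd_sub e2 e1
    have e4 := pow_congr (p ^ f) e3
    have e5 : (p : R) ∣ j ((γ1 * α1 ^ m) ^ p ^ f - (β1 ^ m) ^ p ^ f * ξ ^ p ^ e) := by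
      obtain ⟨v, hv⟩ := pow_congr (p ^ e) hξ
      obtain ⟨w, hw⟩ := e4
      refine ⟨w + j (β1 ^ m) ^ p ^ f * v, ?_⟩
      rw [map_sub, map_mul, map_pow, map_pow, map_pow j ξ]
      have h7 : (x ^ p ^ f) ^ p ^ e = (x ^ p ^ e) ^ p ^ f := by
        rw [← pow_mul, ← pow_mul, mul_comm]
      rw [mul_pow, ← h7] at hw
      linear_combination hw + j (β1 ^ m) ^ p ^ f * hv
    apply L.inj _ 0
    rwa [L.dat.zero]
  obtain ⟨x, hx⟩ := L.cic α1 β1 γ1 nb nc key
  obtain ⟨ξ, hξ, hξ1⟩ := L.lift e x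
  have h1 : (p : R) ∣ (β * ξ) ^ p ^ e - j (β1 * x) := by
    obtain ⟨u, hu⟩ := hβ1
    obtain ⟨v, hv⟩ := hξ1
    refine ⟨u * ξ ^ p ^ e + j β1 * v, ?_⟩
    rw [mul_pow, map_mul]
    linear_combination ξ ^ p ^ e * hu + j β1 * hv
  have h2 : (p : R) ∣ α ^ p ^ e - (β * ξ) ^ p ^ e := by
    have h3 := map_dvd j hx
    rw [map_natCast, map_sub] at h3
    have h4 : α ^ p ^ e - (β * ξ) ^ p ^ e = (α ^ p ^ e - j α1) + (j α1 - j (β1 * x)) -
        ((β * ξ) ^ p ^ e - j (β1 * x)) := by ring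
    rw [h4]
    exact dvd_sub (dvd_add hα1 h3) h1
  have h3 : (p : R) ∣ (α - β * ξ) ^ p ^ e := by
    have h5 : ∀ (e : ℕ) (u v : R), (p : R) ∣ u ^ p ^ e - v ^ p ^ e → (p : R) ∣ (u - v) ^ p ^ e := by
      intro e
      induction e with
      | zero => intro u v h; simpa using h
      | succ e ih =>
        intro u v h
        have h6 : (p : R) ∣ (u ^ p - v ^ p) ^ p ^ e := by
          apply ih
          rwa [← pow_mul, ← pow_mul, ← pow_succ']
        have h7 := pow_congr (p ^ e) (dvd_frob (p := p) u v)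
        rw [pow_succ', pow_mul]
        have h8 : ((u - v) ^ p) ^ p ^ e = (u ^ p - v ^ p) ^ p ^ e -
            ((u ^ p - v ^ p) ^ p ^ e - ((u - v) ^ p) ^ p ^ e) := by ring
        rw [h8]
        exact dvd_sub h6 h7
    exact h5 e _ _ h2
  obtain ⟨α', hα'⟩ := L.dat.finj_iter L.reg e h3
  refine ⟨ξ, hξ, α', L.cancel e α' ?_, by rw [← hα']; ring⟩
  rw [← hα']
  exact (S e).sub_mem hα ((S e).mul_mem hβ hξ)

/-- division modulo `p` -/
lemma div_p {a b c : R} (ub : Unr ϖ b) (uc : Unr ϖ c) (h : AI a b c) :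
    ∃ x w, a = b * x + p * w := by
  obtain ⟨e1, α, hα, haα⟩ := L.dense a
  obtain ⟨e2, β, hβ, hbβ⟩ := L.dense b
  obtain ⟨e3, γ, hγ, hcγ⟩ := L.dense c
  obtain ⟨e, h1, h2, h3⟩ : ∃ e, e1 ≤ e ∧ e2 ≤ e ∧ e3 ≤ e :=
    ⟨max e1 (max e2 e3), by omega, by omega, by omega⟩
  replace hα := L.mono h1 hα
  replace hβ := L.mono h2 hβ
  replace hγ := L.mono h3 hγ
  have ubm : ∀ m, RegMod (b ^ m) (p : R) := fun m => L.regMod_of_unr (L.unr_pow ub m)
  have key : ∀ k ≤ p ^ e, ∃ x, ∃ α' ∈ S e, ∃ w, a = b * x + ϖ e ^ k * α' + p * w := by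
    intro k
    induction k with
    | zero =>
      intro _
      obtain ⟨w, hw⟩ := haα
      exact ⟨0, α, hα, w, by rw [← hw]; ring⟩
    | succ k ih =>
      intro hk
      obtain ⟨x, α', hα', w, hx⟩ := ih (by omega)
      have hpk : (p : R) = ϖ e ^ k * (ϖ e * ϖ e ^ (p ^ e - k - 1)) := by
        rw [← pow_succ', ← pow_add, ← L.dat.pow_eq_p e]
        congr 1
        omega
      set a' := α' + ϖ e * (ϖ e ^ (p ^ e - k - 1) * w) with ha'
      have haa : a - b * x = ϖ e ^ k * a' := by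
        rw [hx, ha']
        linear_combination w * hpk
      have hai : AI a' b c := by
        intro m
        obtain ⟨y, hy⟩ := h.sub x m
        rw [haa] at hy
        obtain ⟨z, hz⟩ := L.regMod_ϖ (ubm m) e (k * m) y ⟨c * a' ^ m, by
          rw [← hy, pow_mul]; ring_nf⟩
        refine ⟨z, ?_⟩
        have h5 : ϖ e ^ (k * m) * (c * a' ^ m - b ^ m * z) = 0 := by
          rw [hz, mul_pow, ← pow_mul] at hy
          linear_combination hy
        have := L.dat.reg_pow L.reg e _ _ h5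
        linear_combination this
      obtain ⟨ξ, hξ, α2, hα2, hh⟩ := L.div_step (a := a') hα' hβ hγ
        ⟨ϖ e ^ (p ^ e - k - 1) * w, by rw [ha']; ring⟩ hbβ hcγ ub uc hai
      obtain ⟨u, hu⟩ := hbβ
      refine ⟨x + ϖ e ^ k * ξ, α2, hα2, w - ϖ e ^ k * u * ξ, ?_⟩
      rw [hx, hh]
      linear_combination -(ϖ e ^ k * ξ) * hu
  obtain ⟨x, α', -, w, hx⟩ := key (p ^ e) le_rfl
  refine ⟨x, α' + w, ?_⟩
  rw [hx, L.dat.pow_eq_p e]; ring

theorem dvd_of_unr [hA : IsAdicComplete (Ideal.span {(p : R)}) R] {a b c : R} (ub : Unr ϖ b)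
    (uc : Unr ϖ c) (h : AI a b c) : b ∣ a := by
  have hsep : ∀ x : R, (∀ n : ℕ, (p : R) ^ n ∣ x) → x = 0 := by
    intro x hx
    refine IsHausdorff.haus (I := Ideal.span {(p : R)}) inferInstance x fun n => ?_
    rw [SModEq.zero, smul_eq_mul, Ideal.mul_top, Ideal.span_singleton_pow,
      Ideal.mem_span_singleton]
    exact hx n
  have ubm : ∀ m, RegMod (b ^ m) (p : R) := fun m => L.regMod_of_unr (L.unr_pow ub m)
  have step : ∀ a : {a : R // AI a b c}, ∃ x : R, ∃ a' : {a : R // AI a b c},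
      (a : R) = b * x + p * a' := by
    rintro ⟨a, ha⟩
    obtain ⟨x, w, hw⟩ := L.div_p ub uc ha
    refine ⟨x, ⟨w, fun m => ?_⟩, hw⟩
    obtain ⟨y, hy⟩ := ha.sub x m
    have h1 : a - b * x = p * w := by rw [hw]; ring
    rw [h1] at hy
    obtain ⟨z, hz⟩ := L.regMod_pow (ubm m) m y ⟨c * w ^ m, by rw [← hy]; ring⟩
    refine ⟨z, ?_⟩
    have h5 : (p : R) ^ m * (c * w ^ m - b ^ m * z) = 0 := by
      rw [hz, mul_pow] at hy
      linear_combination hy
    have h6 : ∀ (m : ℕ) (x : R), (p : R) ^ m * x = 0 → x = 0 := by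
      intro m
      induction m with
      | zero => intro x hx; simpa using hx
      | succ m ih =>
        intro x hx
        rw [pow_succ, mul_assoc] at hx
        exact L.reg _ (ih _ hx)
    have := h6 _ _ h5
    linear_combination this
  choose X N hXN using step
  let s : ℕ → {a : R // AI a b c} := fun n => N^[n] ⟨a, h⟩
  have hs : ∀ n, (s n : R) = b * X (s n) + p * s (n + 1) := by
    intro n
    have : s (n + 1) = N (s n) := Function.iterate_succ_apply' N n _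
    rw [this]
    exact hXN (s n)
  have hsum : ∀ n, a = b * ∑ i ∈ Finset.range n, (p : R) ^ i * X (s i) + (p : R) ^ n * s n := by
    intro n
    induction n with
    | zero => simp [s]
    | succ n ih =>
      rw [Finset.sum_range_succ]
      have := hs n
      linear_combination ih + (p : R) ^ n * this
  obtain ⟨x, hx⟩ := exists_series (p : R) (fun i => X (s i))
  refine ⟨x, ?_⟩
  rw [← sub_eq_zero]
  refine hsep _ fun n => ?_
  obtain ⟨y, hy⟩ := hx n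
  refine ⟨s n - b * y, ?_⟩
  have := hsum n
  linear_combination this - b * hy

/-- **`R` is completely integrally closed.** -/
theorem cicR [hA : IsAdicComplete (Ideal.span {(p : R)}) R] : CIC R := by
  have hsep : ∀ x : R, (∀ n : ℕ, (p : R) ^ n ∣ x) → x = 0 := by
    intro x hx
    refine IsHausdorff.haus (I := Ideal.span {(p : R)}) inferInstance x fun n => ?_
    rw [SModEq.zero, smul_eq_mul, Ideal.mul_top, Ideal.span_singleton_pow,
      Ideal.mem_span_singleton]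
    exact hx n
  intro a b c hb hc h
  by_cases ha : a = 0
  · rw [ha]; exact dvd_zero _
  obtain ⟨e1, i1, a0, ha0, ua⟩ := L.content hsep ha
  obtain ⟨e2, i2, b0, hb0, ub⟩ := L.content hsep hb
  obtain ⟨e3, i3, c0, hc0, uc⟩ := L.content hsep hc
  obtain ⟨e, h1, h2, h3⟩ : ∃ e, e1 ≤ e ∧ e2 ≤ e ∧ e3 ≤ e :=
    ⟨max e1 (max e2 e3), by omega, by omega, by omega⟩
  obtain ⟨k, hk⟩ := L.content_raise ha0 h1
  obtain ⟨i, hi⟩ := L.content_raise hb0 h2
  obtain ⟨l, hl⟩ := L.content_raise hc0 h3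
  have ubm : ∀ m, RegMod (b0 ^ m) (p : R) := fun m => L.regMod_of_unr (L.unr_pow ub m)
  have hik : i ≤ k := by
    by_contra hlt
    push Not at hlt
    obtain ⟨y, hy⟩ := h (l + 1)
    rw [hk, hi, hl] at hy
    obtain ⟨r, hr⟩ : ∃ r, i * (l + 1) = (l + k * (l + 1)) + 1 + r := by
      refine ⟨i * (l + 1) - ((l + k * (l + 1)) + 1), ?_⟩
      have : (k + 1) * (l + 1) ≤ i * (l + 1) := Nat.mul_le_mul_right _ hlt
      have h9 : (k + 1) * (l + 1) = (l + k * (l + 1)) + 1 := by ring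
      omega
    have h5 : ϖ e ^ (l + k * (l + 1)) * (c0 * a0 ^ (l + 1) -
        ϖ e * (ϖ e ^ r * b0 ^ (l + 1) * y)) = 0 := by
      have e1 : (ϖ e ^ i * b0) ^ (l + 1) = ϖ e ^ (l + k * (l + 1)) * (ϖ e * ϖ e ^ r) *
          b0 ^ (l + 1) := by
        rw [mul_pow, ← pow_mul, hr, pow_add, pow_add, pow_one]; ring
      rw [e1] at hy
      have e2 : ϖ e ^ l * c0 * (ϖ e ^ k * a0) ^ (l + 1) =
          ϖ e ^ (l + k * (l + 1)) * (c0 * a0 ^ (l + 1)) := by
        rw [mul_pow, ← pow_mul, pow_add]; ring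
      rw [e2] at hy
      linear_combination hy
    have h6 := L.dat.reg_pow L.reg e _ _ h5
    refine L.unr_mul uc (L.unr_pow ua (l + 1)) e ⟨ϖ e ^ r * b0 ^ (l + 1) * y, ?_⟩
    linear_combination h6
  have hai : AI a0 b0 c0 := by
    intro m
    obtain ⟨y, hy⟩ := h m
    rw [hk, hi, hl] at hy
    have e1 : ϖ e ^ (i * m) * (ϖ e ^ (l + (k - i) * m) * (c0 * a0 ^ m) - b0 ^ m * y) = 0 := by
      have e3 : l + k * m = i * m + (l + (k - i) * m) := by
        obtain ⟨t, rfl⟩ := Nat.exists_eq_add_of_le hik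
        rw [Nat.add_sub_cancel_left]; ring
      have e2 : ϖ e ^ l * c0 * (ϖ e ^ k * a0) ^ m =
          ϖ e ^ (i * m) * ϖ e ^ (l + (k - i) * m) * (c0 * a0 ^ m) := by
        rw [← pow_add, ← e3, mul_pow, ← pow_mul, pow_add]; ring
      rw [e2, mul_pow, ← pow_mul] at hy
      linear_combination hy
    have h6 := L.dat.reg_pow L.reg e _ _ e1
    obtain ⟨z, hz⟩ := L.regMod_ϖ (ubm m) e (l + (k - i) * m) y ⟨c0 * a0 ^ m, by
      linear_combination -h6⟩
    refine ⟨z, ?_⟩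
    have h7 : ϖ e ^ (l + (k - i) * m) * (c0 * a0 ^ m - b0 ^ m * z) = 0 := by
      rw [hz] at h6
      linear_combination h6
    have := L.dat.reg_pow L.reg e _ _ h7
    linear_combination this
  obtain ⟨x, hx⟩ := L.dvd_of_unr ub uc hai
  refine ⟨ϖ e ^ (k - i) * x, ?_⟩
  rw [hk, hi, hx]
  have : ϖ e ^ k = ϖ e ^ i * ϖ e ^ (k - i) := by rw [← pow_add]; congr 1; omega
  rw [this]; ring

theorem isDomain [hA : IsAdicComplete (Ideal.span {(p : R)}) R] : IsDomain R := by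
  have hsep : ∀ x : R, (∀ n : ℕ, (p : R) ^ n ∣ x) → x = 0 := by
    intro x hx
    refine IsHausdorff.haus (I := Ideal.span {(p : R)}) inferInstance x fun n => ?_
    rw [SModEq.zero, smul_eq_mul, Ideal.mul_top, Ideal.span_singleton_pow,
      Ideal.mem_span_singleton]
    exact hx n
  have : Nontrivial R := by
    refine ⟨0, 1, fun h => ?_⟩
    exact L.unr_one 0 (h ▸ dvd_zero _)
  have : NoZeroDivisors R := ⟨fun {x y} h => by
    by_contra hh
    push Not at hh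
    exact L.mul_ne_zero hsep hh.1 hh.2 h⟩
  exact NoZeroDivisors.to_isDomain R

theorem isIntegrallyClosed [hA : IsAdicComplete (Ideal.span {(p : R)}) R] [IsDomain R] :
    IsIntegrallyClosed R := L.cicR.isIntegrallyClosed

end Lev

end

end Crest.Agent.R188.Apl
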