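import Crest.Agent.R188.Apl1
import Crest.Agent.R183.BInf7
import Crest.Agent.R183.Env1

/-!
R188 / Apl2 : the level structure `Lev` on `B_∞` and on its `p`-completion.   Author: helper245.
-/

set_option autoImplicit false
set_option linter.unusedSectionVars false

namespace Crest.Agent.R188.Apl

open Crest.Agent.R183 Crest.Agent.R183.Om Crest.Agent.R183.BInf
open Crest.Agent.R183.Cic (CIC)

/-! ### transfer to the completion -/

section Compl

universe u v w

variable {p : ℕ} [hp : Fact p.Prime] {B : Type w} {R : Type u} {C : Type v} [CommRing B]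
  [CommRing R] [CommRing C] {j : B →+* R} {ϖ : ℕ → R} {S : ℕ → Subring R}

/-- divisibility by `ϖ_e` does not change in the completion -/
lemma Lev.dvd_compl (L : Lev p j ϖ S) {ι : R →+* C} (h : IsCompl (p : R) ι) (e : ℕ) {s : R}
    (hs : ι (ϖ e) ∣ ι s) : ϖ e ∣ s := by
  have hpe : 0 < p ^ e := Nat.pow_pos hp.out.pos
  have hϖ := L.dat.pow_eq_p e
  have h1 : ι (p : R) ^ 1 ∣ ι (s * ϖ e ^ (p ^ e - 1)) := by
    obtain ⟨c, hc⟩ := hs
    refine ⟨c, ?_⟩
    rw [pow_one, map_mul, hc, map_pow, ← hϖ, map_pow]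
    have : ι (ϖ e) ^ p ^ e = ι (ϖ e) * ι (ϖ e) ^ (p ^ e - 1) := by
      rw [← pow_succ']; congr 1; omega
    rw [this]; ring
  have h2 := (h.dvd_iff 1 _).1 h1
  rw [pow_one] at h2
  obtain ⟨r, hr⟩ := h2
  refine ⟨r, ?_⟩
  have h3 : ϖ e ^ (p ^ e - 1) * (s - ϖ e * r) = 0 := by
    have h4 : (p : R) = ϖ e ^ (p ^ e - 1) * ϖ e := by
      rw [← hϖ, ← pow_succ]; congr 1; omega
    rw [h4] at hr
    linear_combination hr
  have := L.dat.reg_pow L.reg e _ _ h3
  linear_combination this

theorem Lev.compl (L : Lev p j ϖ S) {ι : R →+* C} (h : IsCompl (p : R) ι) :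
    Lev p (ι.comp j) (fun e => ι (ϖ e)) (fun e => (S e).map ι) := by
  obtain ⟨hd, hr⟩ := L.dat.completion h
  have hp0 : ι (p : R) = (p : C) := map_natCast ι p
  have hdvd : ∀ x : R, (p : C) ∣ ι x ↔ (p : R) ∣ x := by
    intro x
    have := h.dvd_iff 1 x
    rwa [pow_one, pow_one, hp0] at this
  refine
    { dat := hd
      reg := hr
      mono := fun e f hef => by
        rintro _ ⟨x, hx, rfl⟩
        exact ⟨x, L.mono hef hx, rfl⟩
      memB := fun e b => ⟨j b, L.memB e b, rfl⟩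
      memϖ := fun e => ⟨ϖ e, L.memϖ e, rfl⟩
      dense := ?_
      cancel := ?_
      pow := ?_
      lift := ?_
      inj := fun b f hb => L.inj b f (L.dvd_compl h f hb)
      dom := L.dom
      one := L.one
      cic := L.cic }
  · intro x
    obtain ⟨y, z, hz⟩ := h.dense 1 x
    obtain ⟨e, y', hy', hyy⟩ := L.dense y
    refine ⟨e, ι y', ⟨y', hy', rfl⟩, ?_⟩
    have h1 : x - ι y' = (x - ι y) + ι (y - y') := by rw [map_sub]; ring
    rw [h1, hz, pow_one, hp0]
    exact dvd_add (dvd_mul_right _ _) ((hdvd _).2 hyy)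
  · rintro e w ⟨s, hs, hw⟩
    obtain ⟨r, rfl⟩ := L.dvd_compl h e ⟨w, hw⟩
    refine ⟨r, L.cancel e r hs, ?_⟩
    rw [map_mul] at hw
    have h1 : ι (ϖ e) * (ι r - w) = 0 := by linear_combination hw
    have h2 : ι (ϖ e) ^ 1 * (ι r - w) = 0 := by rw [pow_one]; exact h1
    have := hd.reg_pow hr e 1 _ h2
    linear_combination this
  · rintro e _ ⟨z, hz, rfl⟩
    obtain ⟨b, hb⟩ := L.pow e z hz
    refine ⟨b, ?_⟩
    rw [← map_pow, RingHom.comp_apply, ← map_sub, hdvd]
    exact hb
  · intro e b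
    obtain ⟨z, hz, hb⟩ := L.lift e b
    refine ⟨ι z, ⟨z, hz, rfl⟩, ?_⟩
    rw [← map_pow, RingHom.comp_apply, ← map_sub, hdvd]
    exact hb

end Compl

/-! ### levels of `B_∞` -/

section Level

variable {d : ℕ} {p : ℕ} {B : Type*} [CommRing B] (t : Fin d → B) (hp : 0 < p)

theorem mem_SA_iff (e : ℕ) (x : BInf p t) :
    x ∈ SA p t hp e ↔ ∀ γ : Gam1 d p, (¬ ∃ n : Fin d → ℕ, (γ : Gam d p) = ex p hp e n) →
      (basis p t).repr x γ = 0 := by
  classical
  constructor
  · intro hx γ hγ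
    obtain ⟨c, rfl⟩ := exists_sum_level p t hp e x hx
    rw [map_sum, Finsupp.finsetSum_apply]
    refine Finset.sum_eq_zero fun j _ => ?_
    let γj : Gam1 d p := ⟨ex p hp e (fun i => (j i : ℕ)), ex_lt_one p hp e j⟩
    have h3 : mon p t (ex p hp e (fun i => (j i : ℕ))) = basis p t γj := (basis_apply p t γj).symm
    rw [h3, map_smul, Module.Basis.repr_self, Finsupp.smul_apply, smul_eq_mul,
      Finsupp.single_apply, if_neg, mul_zero]
    intro h4
    apply hγ
    exact ⟨fun i => (j i : ℕ), by rw [← h4]⟩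
  · intro h
    have h1 : x = Finsupp.linearCombination B (basis p t) ((basis p t).repr x) :=
      ((basis p t).linearCombination_repr x).symm
    rw [h1, Finsupp.linearCombination_apply, Finsupp.sum]
    refine Subalgebra.sum_mem _ fun γ _ => ?_
    by_cases hγ : ∃ n : Fin d → ℕ, (γ : Gam d p) = ex p hp e n
    · obtain ⟨n, hn⟩ := hγ
      rw [basis_apply, hn]
      exact Subalgebra.smul_mem _ (mon_ex_mem p t hp e n) _
    · rw [h γ hγ, zero_smul]
      exact Subalgebra.zero_mem _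

theorem mem_SA_of_natCast_mul (hreg : ∀ x : B, (p : B) * x = 0 → x = 0) (e : ℕ) (w : BInf p t)
    (h : (p : BInf p t) * w ∈ SA p t hp e) : w ∈ SA p t hp e := by
  rw [mem_SA_iff] at h ⊢
  intro γ hγ
  apply hreg
  rw [← repr_natCast_mul]
  exact h γ hγ

end Level

section Inst

variable {d : ℕ} {p : ℕ} [hpr : Fact p.Prime] {B : Type*} [CommRing B] {t : Fin d → B} {i0 : Fin d}

theorem rt_mem (e : ℕ) (i : Fin d) : rt p t hpr.out.pos e i ∈ SA p t hpr.out.pos e :=
  mon_ex_mem p t hpr.out.pos e _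

theorem mon_ex_pow (e : ℕ) (n : Fin d → ℕ) :
    mon p t (ex p hpr.out.pos e n) ^ p ^ e = algebraMap B (BInf p t) (∏ i, t i ^ n i) := by
  rw [← mon_nsmul, nsmul_ex, mon_natG]

theorem exists_pow_SA (e : ℕ) (z : BInf p t) (hz : z ∈ SA p t hpr.out.pos e) :
    ∃ b : B, (p : BInf p t) ∣ z ^ p ^ e - algebraMap B (BInf p t) b := by
  have hx' : z ∈ Submodule.span B (Set.range fun n : Fin d → ℕ =>
      mon p t (ex p hpr.out.pos e n)) := by
    rw [← SA_eq_span]; exact hz
  clear hz
  induction hx' using Submodule.span_induction with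
  | mem x hx =>
    obtain ⟨n, rfl⟩ := hx
    exact ⟨∏ i, t i ^ n i, by rw [mon_ex_pow, sub_self]; exact dvd_zero _⟩
  | zero =>
    exact ⟨0, by rw [map_zero, sub_zero, zero_pow (pow_ne_zero _ hpr.out.ne_zero)]; exact dvd_zero _⟩
  | add x y _ _ hx hy =>
    obtain ⟨b, hb⟩ := hx
    obtain ⟨c, hc⟩ := hy
    refine ⟨b + c, ?_⟩
    obtain ⟨r, hr⟩ := exists_add_pow_prime_pow_eq hpr.out x y e
    rw [hr, map_add]
    have h1 : x ^ p ^ e + y ^ p ^ e + (p : BInf p t) * x * y * r -
        (algebraMap B (BInf p t) b + algebraMap B (BInf p t) c) =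
        (x ^ p ^ e - algebraMap B (BInf p t) b) + (y ^ p ^ e - algebraMap B (BInf p t) c) +
          (p : BInf p t) * (x * y * r) := by ring
    rw [h1]
    exact dvd_add (dvd_add hb hc) (dvd_mul_right _ _)
  | smul a x _ hx =>
    obtain ⟨b, hb⟩ := hx
    refine ⟨a ^ p ^ e * b, ?_⟩
    have h1 : (a • x) ^ p ^ e - algebraMap B (BInf p t) (a ^ p ^ e * b) =
        algebraMap B (BInf p t) (a ^ p ^ e) * (x ^ p ^ e - algebraMap B (BInf p t) b) := by
      rw [smul_pow, map_mul, mul_sub]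
      congr 1
      exact Algebra.smul_def (a ^ p ^ e) (x ^ p ^ e)
    rw [h1]
    exact hb.mul_left _

theorem exists_lift_SA (h : PBasis p t i0) (e : ℕ) : ∀ b : B,
    ∃ z ∈ SA p t hpr.out.pos e, (p : BInf p t) ∣ z ^ p ^ e - algebraMap B (BInf p t) b := by
  induction e with
  | zero =>
    intro b
    exact ⟨algebraMap B _ b, Subalgebra.algebraMap_mem _ b, by
      rw [pow_zero, pow_one, sub_self]; exact dvd_zero _⟩
  | succ e ih =>
    intro b
    obtain ⟨c, a, ha⟩ := h.gen b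
    choose z hz hzc using fun α => ih (c α)
    refine ⟨∑ α, mon p t (ex p hpr.out.pos (e + 1) (fun i => (α.1 i : ℕ))) * z α,
      Subalgebra.sum_mem _ fun α _ => Subalgebra.mul_mem _ (mon_ex_mem p t _ _ _)
        (SA_mono p t _ (Nat.le_succ e) (hz α)), ?_⟩
    have hb : b = (∑ α : PIdx p i0, (∏ i, t i ^ (α.1 i : ℕ)) * c α ^ p) + p * a := by
      rw [← ha]; ring
    have hsum : ∀ (s : Finset (PIdx p i0)) (f : PIdx p i0 → BInf p t) (k : ℕ),
        (p : BInf p t) ∣ (∑ α ∈ s, f α) ^ p ^ k - ∑ α ∈ s, f α ^ p ^ k := by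
      classical
      intro s f k
      induction s using Finset.induction_on with
      | empty =>
        rw [Finset.sum_empty, Finset.sum_empty, zero_pow (pow_ne_zero _ hpr.out.ne_zero), sub_zero]
        exact dvd_zero _
      | insert α s hα ih =>
        rw [Finset.sum_insert hα, Finset.sum_insert hα]
        obtain ⟨r, hr⟩ := exists_add_pow_prime_pow_eq hpr.out (f α) (∑ α ∈ s, f α) k
        rw [hr]
        obtain ⟨q, hq⟩ := ih
        exact ⟨q + f α * (∑ α ∈ s, f α) * r, by linear_combination hq⟩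
    have h1 := hsum Finset.univ
      (fun α => mon p t (ex p hpr.out.pos (e + 1) (fun i => (α.1 i : ℕ))) * z α) (e + 1)
    have h2 : (p : BInf p t) ∣ (∑ α : PIdx p i0,
        (mon p t (ex p hpr.out.pos (e + 1) (fun i => (α.1 i : ℕ))) * z α) ^ p ^ (e + 1)) -
        algebraMap B (BInf p t) b := by
      rw [hb, map_add, map_sum, map_mul, map_natCast, ← sub_sub, ← Finset.sum_sub_distrib]
      refine dvd_sub (Finset.dvd_sum fun α _ => ?_) (dvd_mul_right _ _)
      rw [mul_pow, mon_ex_pow, map_mul, map_pow, ← mul_sub]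
      refine Dvd.dvd.mul_left ?_ _
      rw [pow_succ, pow_mul]
      exact pow_congr p (hzc α)
    have h3 := dvd_add h1 h2
    rwa [sub_add_sub_cancel] at h3

theorem dvd_of_rt_dvd (h : PBasis p t i0) (b : B) (f : ℕ)
    (hb : rt p t hpr.out.pos f i0 ∣ algebraMap B (BInf p t) b) : (p : B) ∣ b := by
  classical
  obtain ⟨w, hw⟩ := hb
  have hpf : 0 < p ^ f := Nat.pow_pos hpr.out.pos
  let j : Fin d → Fin (p ^ f) := fun i => if i = i0 then ⟨p ^ f - 1, by omega⟩ else ⟨0, hpf⟩
  let γ : Gam1 d p := ⟨ex p hpr.out.pos f (fun i => (j i : ℕ)), ex_lt_one p hpr.out.pos f j⟩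
  have h1 : rt p t hpr.out.pos f i0 ^ (p ^ f - 1) = basis p t γ := by
    rw [basis_apply]
    change _ = mon p t (ex p hpr.out.pos f (fun i => (j i : ℕ)))
    rw [mon_ex, Finset.prod_eq_single i0]
    · simp [j]
    · intro i _ hi
      simp [j, hi]
    · intro hh; exact absurd (Finset.mem_univ _) hh
  have h2 : rt p t hpr.out.pos f i0 ^ p ^ f = (p : BInf p t) := h.pdata.pow_eq_p f
  have h3 : algebraMap B (BInf p t) b * basis p t γ = (p : BInf p t) * w := by
    rw [← h1, hw, ← h2]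
    have : rt p t hpr.out.pos f i0 ^ p ^ f = rt p t hpr.out.pos f i0 *
        rt p t hpr.out.pos f i0 ^ (p ^ f - 1) := by
      rw [← pow_succ']; congr 1; omega
    rw [this]; ring
  have h4 := congrArg (fun x => (basis p t).repr x γ) h3
  rw [repr_natCast_mul, repr_algebraMap_mul, Module.Basis.repr_self, Finsupp.single_eq_same,
    mul_one] at h4
  exact ⟨_, h4⟩

/-- **the level structure of `B_∞`** -/
theorem lev_of_pbasis (h : PBasis p t i0)
    (dom : ∀ a b : B, (p : B) ∣ a * b → (p : B) ∣ a ∨ (p : B) ∣ b)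
    (cic : ∀ a b c : B, ¬ (p : B) ∣ b → ¬ (p : B) ∣ c →
      (∀ m : ℕ, ∃ x, (p : B) ∣ c * a ^ m - b ^ m * x) → ∃ x, (p : B) ∣ a - b * x) :
    Lev p (algebraMap B (BInf p t)) (fun e => rt p t hpr.out.pos e i0)
      (Sub p t hpr.out.pos) where
  dat := h.pdata
  reg := h.reg_p
  mono := Sub_mono p t hpr.out.pos
  memB := fun e b => Subalgebra.algebraMap_mem (SA p t hpr.out.pos e) b
  memϖ := fun e => rt_mem e i0
  dense := by
    intro x
    obtain ⟨e, he⟩ := exists_mem_SA p t hpr.out.pos x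
    exact ⟨e, x, he, by rw [sub_self]; exact dvd_zero _⟩
  cancel := by
    intro e w hw
    apply mem_SA_of_natCast_mul t hpr.out.pos h.reg e w
    have h1 : (p : BInf p t) * w = rt p t hpr.out.pos e i0 ^ (p ^ e - 1) *
        (rt p t hpr.out.pos e i0 * w) := by
      rw [← mul_assoc, ← pow_succ, ← h.pdata.pow_eq_p e]
      congr 2
      have : 0 < p ^ e := Nat.pow_pos hpr.out.pos
      omega
    rw [h1]
    exact Subalgebra.mul_mem _ (Subalgebra.pow_mem _ (rt_mem e i0) _) hw
  pow := exists_pow_SA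
  lift := exists_lift_SA h
  inj := dvd_of_rt_dvd h
  dom := dom
  one := fun h1 => h.nonunit (isUnit_of_dvd_one h1)
  cic := cic

end Inst

/-! ### the base `W(K)[[X_1, …, X_n]]` -/

section Witt

variable {n p : ℕ} [hp : Fact p.Prime] {K : Type*} [Field K] [CharP K p] [PerfectRing K p]

theorem dom_witt (a b : MvPowerSeries (Fin n) (WittVector p K))
    (h : (p : MvPowerSeries (Fin n) (WittVector p K)) ∣ a * b) :
    (p : MvPowerSeries (Fin n) (WittVector p K)) ∣ a ∨
      (p : MvPowerSeries (Fin n) (WittVector p K)) ∣ b := by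
  by_cases ha : (p : MvPowerSeries (Fin n) (WittVector p K)) ∣ a
  · exact Or.inl ha
  · exact Or.inr (regMod_witt ha b h)

theorem cic_witt (a b c : MvPowerSeries (Fin n) (WittVector p K))
    (hb : ¬ (p : MvPowerSeries (Fin n) (WittVector p K)) ∣ b)
    (hc : ¬ (p : MvPowerSeries (Fin n) (WittVector p K)) ∣ c)
    (h : ∀ m : ℕ, ∃ x, (p : MvPowerSeries (Fin n) (WittVector p K)) ∣ c * a ^ m - b ^ m * x) :
    ∃ x, (p : MvPowerSeries (Fin n) (WittVector p K)) ∣ a - b * x := by
  have hk : ∀ x : WittVector p K, WittVector.constantCoeff x = 0 ↔ (p : WittVector p K) ∣ x :=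
    fun x => Om.W_dvd_p_iff.symm
  have hs : Function.Surjective (WittVector.constantCoeff : WittVector p K →+* K) := fun x =>
    ⟨WittVector.teichmuller p x, Om.constCoeff_teich x⟩
  rw [natCast_dvd_iff_map _ hk] at hb hc
  have h1 : ∀ m : ℕ, (MvPowerSeries.map WittVector.constantCoeff b : MvPowerSeries (Fin n) K) ^ m ∣
      MvPowerSeries.map WittVector.constantCoeff c *
        (MvPowerSeries.map WittVector.constantCoeff a) ^ m := by
    intro m
    obtain ⟨x, hx⟩ := h m
    rw [natCast_dvd_iff_map _ hk, map_sub, map_mul, map_mul, map_pow, map_pow, sub_eq_zero] at hx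
    exact ⟨_, hx⟩
  obtain ⟨y, hy⟩ := (CIC.of_field K |>.mvPowerSeries n) _ _ _ hb hc h1
  obtain ⟨x, rfl⟩ := BInf.map_surjective (n := n) _ hs y
  refine ⟨x, ?_⟩
  rw [natCast_dvd_iff_map _ hk, map_sub, map_mul, hy, sub_self]

/-- the level structure of `B_∞` for `B = W(K)[[X_1, …, X_n]]` -/
theorem lev_witt (n p : ℕ) [hp : Fact p.Prime] (K : Type*) [Field K] [CharP K p]
    [PerfectRing K p] :
    Lev p (algebraMap (MvPowerSeries (Fin n) (WittVector p K)) (BInf p (tb n p (WittVector p K))))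
      (fun e => rt p (tb n p (WittVector p K)) hp.out.pos e 0)
      (Sub p (tb n p (WittVector p K)) hp.out.pos) :=
  lev_of_pbasis (pbasis_witt n p K) dom_witt cic_witt

end Witt

end Crest.Agent.R188.Apl
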