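import Crest.Agent.R188.Apl2
import Mathlib.FieldTheory.Minpoly.IsIntegrallyClosed
import Mathlib.RingTheory.Algebraic.Integral

/-!
R188 / Apl3 : regularity modulo `p` on integral closures; the absolute integral closure `A⁺`.
Author: helper245.
-/

set_option autoImplicit false
set_option linter.unusedSectionVars false

namespace Crest.Agent.R188.Apl

open Crest.Agent.R183 Crest.Agent.R183.Om
open Crest.Agent.R183.Cic (CIC)
open Polynomial

/-! ### (REG) -/

section Reg

variable {A : Type*} [CommRing A]

lemma RegMod.pow_left {D π : A} (h : RegMod D π) (n : ℕ) : RegMod (D ^ n) π := by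
  induction n with
  | zero => intro x hx; simpa using hx
  | succ n ih =>
    intro x hx
    rw [pow_succ, mul_assoc] at hx
    exact h _ (ih _ hx)

lemma RegMod.mul_left {D E π : A} (h : RegMod D π) (h' : RegMod E π) : RegMod (D * E) π := by
  intro x hx
  rw [mul_assoc] at hx
  exact h' _ (h _ hx)

lemma RegMod.of_dvd {D E π : A} (h : RegMod E π) (hd : D ∣ E) : RegMod D π := by
  intro x hx
  obtain ⟨c, rfl⟩ := hd
  apply h
  have : D * c * x = (D * x) * c := by ring
  rw [this]
  exact hx.mul_right _

/-- `D` regular modulo `π`, `π` regular ⇒ `D` regular modulo `π ^ n` -/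
lemma RegMod.pow_right {D π : A} (hπ : Reg π) (h : RegMod D π) (n : ℕ) : RegMod D (π ^ n) := by
  induction n with
  | zero => intro x _; simp
  | succ n ih =>
    intro x hx
    obtain ⟨y, hy⟩ := h x (by
      refine dvd_trans ?_ hx
      rw [pow_succ']
      exact dvd_mul_right _ _)
    subst hy
    obtain ⟨z, hz⟩ := hx
    have h1 : π * (D * y - π ^ n * z) = 0 := by
      rw [pow_succ'] at hz
      linear_combination hz
    have h2 := hπ _ h1
    have h3 : π ^ n ∣ D * y := ⟨z, by linear_combination h2⟩
    obtain ⟨w, hw⟩ := ih y h3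
    exact ⟨w, by rw [hw]; ring⟩

variable [IsDomain A] [IsIntegrallyClosed A] {L : Type*} [Field L] [Algebra A L] [FaithfulSMul A L]

/-- `D x`, `π x` integral, `D` regular modulo `π` ⇒ `x` integral. -/
theorem isIntegral_of_regMod {D π : A} (hπ : π ≠ 0) (hD0 : D ≠ 0) (hD : RegMod D π) {x : L}
    (h1 : IsIntegral A (algebraMap A L D * x)) (h2 : IsIntegral A (algebraMap A L π * x)) :
    IsIntegral A x := by
  have hinj := FaithfulSMul.algebraMap_injective A L
  have hπL : algebraMap A L π ≠ 0 := fun h => hπ (hinj (by rw [h, map_zero]))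
  have hreg : Reg π := fun y hy => (mul_eq_zero.1 hy).resolve_left hπ
  have e1 := IsIntegrallyClosed.minpoly_smul (R := A) hπ h1
  have e2 := IsIntegrallyClosed.minpoly_smul (R := A) hD0 h2
  have e3 : π • (algebraMap A L D * x) = D • (algebraMap A L π * x) := by
    rw [Algebra.smul_def, Algebra.smul_def]; ring
  rw [e3, e2] at e1
  set g := minpoly A (algebraMap A L D * x) with hg
  set h := minpoly A (algebraMap A L π * x) with hh
  have hhm : h.Monic := minpoly.monic h2
  have hdeg : h.natDegree = g.natDegree := by
    have := congrArg Polynomial.natDegree e1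
    rwa [natDegree_scaleRoots, natDegree_scaleRoots] at this
  have key : ∀ i : Fin h.natDegree, ∃ c, h.coeff i = π ^ (h.natDegree - i) * c := by
    intro i
    have h3 := congrArg (fun q => q.coeff (i : ℕ)) e1
    simp only [coeff_scaleRoots] at h3
    refine (RegMod.pow_right hreg (RegMod.pow_left hD (h.natDegree - i)) (h.natDegree - i)) _ ?_
    rw [mul_comm, h3, ← hdeg]
    exact dvd_mul_left _ _
  choose c hc using key
  refine ⟨X ^ h.natDegree + ∑ i : Fin h.natDegree, C (c i) * X ^ (i : ℕ), ?_, ?_⟩
  · exact monic_X_pow_add (degree_sum_fin_lt c)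
  · have h0 := minpoly.aeval A (algebraMap A L π * x)
    rw [← hh, aeval_eq_sum_range, Finset.sum_range_succ, Finset.sum_range] at h0
    have h4 : h.coeff h.natDegree = 1 := hhm
    rw [h4, one_smul] at h0
    rw [eval₂_add, eval₂_pow, eval₂_X, eval₂_finsetSum]
    have h5 : (algebraMap A L π) ^ h.natDegree * (x ^ h.natDegree +
        ∑ i : Fin h.natDegree, eval₂ (algebraMap A L) x (C (c i) * X ^ (i : ℕ))) = 0 := by
      rw [← h0, mul_add, ← mul_pow, add_comm, Finset.mul_sum]
      congr 1
      refine Finset.sum_congr rfl fun i _ => ?_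
      rw [eval₂_mul, eval₂_C, eval₂_pow, eval₂_X, hc i, Algebra.smul_def, map_mul, map_pow, mul_pow]
      have : (algebraMap A L π) ^ h.natDegree = (algebraMap A L π) ^ (h.natDegree - i) *
          (algebraMap A L π) ^ (i : ℕ) := by
        rw [← pow_add]; congr 1; have := i.2; omega
      rw [this]; ring
    exact (mul_eq_zero.1 h5).resolve_left (pow_ne_zero _ hπL)

/-- **(REG)** for the integral closure of `A` in a field -/
theorem regMod_integralClosure {D π : A} (hπ : π ≠ 0) (hD : RegMod D π) :
    RegMod (algebraMap A (integralClosure A L) D) (algebraMap A (integralClosure A L) π) := by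
  have hinj := FaithfulSMul.algebraMap_injective A L
  have hπL : algebraMap A L π ≠ 0 := fun h => hπ (hinj (by rw [h, map_zero]))
  rintro t ⟨s, hs⟩
  by_cases hD0 : D = 0
  · have h1 : π ∣ 1 := hD 1 (by rw [hD0, zero_mul]; exact dvd_zero _)
    have h2 := map_dvd (algebraMap A (integralClosure A L)) h1
    rw [map_one] at h2
    exact h2.trans (one_dvd _)
  have hs' : algebraMap A L D * (t : L) = algebraMap A L π * (s : L) := congrArg Subtype.val hs
  have h3 : IsIntegral A ((t : L) / algebraMap A L π) := by
    refine isIntegral_of_regMod hπ hD0 hD ?_ ?_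
    · have : algebraMap A L D * ((t : L) / algebraMap A L π) = s := by
        field_simp
        linear_combination hs'
      rw [this]; exact s.2
    · have : algebraMap A L π * ((t : L) / algebraMap A L π) = t := by
        field_simp
      rw [this]; exact t.2
  refine ⟨⟨_, h3⟩, Subtype.ext ?_⟩
  change (t : L) = algebraMap A L π * ((t : L) / algebraMap A L π)
  field_simp

end Reg

/-! ### fraction forms of (CIC) -/

section Frac

variable {A : Type*} [CommRing A] [IsDomain A] {K : Type*} [Field K] [Algebra A K]
  [IsFractionRing A K]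

theorem cic_frac (h : CIC A) (x : K) (c : A) (hc : c ≠ 0)
    (hx : ∀ m : ℕ, ∃ r : A, algebraMap A K r = algebraMap A K c * x ^ m) :
    ∃ r : A, algebraMap A K r = x := by
  obtain ⟨a, b, hb, rfl⟩ := IsFractionRing.div_surjective (A := A) x
  have hb0 : b ≠ 0 := nonZeroDivisors.ne_zero hb
  have hinj := IsFractionRing.injective A K
  have hbK : algebraMap A K b ≠ 0 := fun hh => hb0 (hinj (by rw [hh, map_zero]))
  obtain ⟨q, hq⟩ := h a b c hb0 hc fun m => by
    obtain ⟨r, hr⟩ := hx m
    refine ⟨r, hinj ?_⟩
    rw [map_mul, map_pow, map_mul, map_pow, hr, div_pow]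
    field_simp
  refine ⟨q, ?_⟩
  rw [hq, map_mul, mul_div_cancel_left₀ _ hbK]

end Frac

end Crest.Agent.R188.Apl
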