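/-
R188, block A5 (helper46): perfect rings of characteristic `p` (possibly zero rings).
-/
import Mathlib

set_option autoImplicit false
set_option linter.unusedSectionVars false
set_option linter.unusedVariables false

namespace Crest.Agent.R188.Prf

open TensorProduct Function

universe u v w

/-- a perfect ring of characteristic `p` (the zero ring is allowed). -/
structure IsPerf (p : ℕ) (R : Type u) [CommRing R] : Prop where
  p_zero : (p : R) = 0
  red : ∀ x : R, x ^ p = 0 → x = 0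
  surj : ∀ x : R, ∃ y, y ^ p = x

lemma add_pow_p {p : ℕ} [hp : Fact p.Prime] {R : Type u} [CommRing R] (h : (p : R) = 0)
    (x y : R) : (x + y) ^ p = x ^ p + y ^ p := by
  obtain ⟨r, hr⟩ := (Commute.all x y).exists_add_pow_prime_eq hp.out
  rw [hr, h]; ring

lemma neg_pow_p {p : ℕ} [hp : Fact p.Prime] {R : Type u} [CommRing R] (h : (p : R) = 0)
    (x : R) : (-x) ^ p = -x ^ p := by
  have h1 := add_pow_p h x (-x)
  rw [add_neg_cancel, zero_pow hp.out.ne_zero] at h1
  exact eq_neg_of_add_eq_zero_right h1.symm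

lemma sub_pow_p {p : ℕ} [hp : Fact p.Prime] {R : Type u} [CommRing R] (h : (p : R) = 0)
    (x y : R) : (x - y) ^ p = x ^ p - y ^ p := by
  rw [sub_eq_add_neg, add_pow_p h, neg_pow_p h, sub_eq_add_neg]

lemma add_pow_pn {p : ℕ} [hp : Fact p.Prime] {R : Type u} [CommRing R] (h : (p : R) = 0) (n : ℕ)
    (x y : R) : (x + y) ^ p ^ n = x ^ p ^ n + y ^ p ^ n := by
  induction n with
  | zero => simp
  | succ n ih => rw [pow_succ, pow_mul, ih, add_pow_p h, pow_mul, pow_mul]

lemma sub_pow_pn {p : ℕ} [hp : Fact p.Prime] {R : Type u} [CommRing R] (h : (p : R) = 0) (n : ℕ)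
    (x y : R) : (x - y) ^ p ^ n = x ^ p ^ n - y ^ p ^ n := by
  induction n with
  | zero => simp
  | succ n ih => rw [pow_succ, pow_mul, ih, sub_pow_p h, pow_mul, pow_mul]

lemma sum_pow_p {p : ℕ} [hp : Fact p.Prime] {R : Type u} [CommRing R] (h : (p : R) = 0)
    {ι : Type w} (s : Finset ι) (x : ι → R) : (∑ i ∈ s, x i) ^ p = ∑ i ∈ s, x i ^ p := by
  classical
  induction s using Finset.induction with
  | empty => simp [hp.out.ne_zero]
  | insert a s ha ih => rw [Finset.sum_insert ha, Finset.sum_insert ha, add_pow_p h, ih]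

lemma sum_pow_pn {p : ℕ} [hp : Fact p.Prime] {R : Type u} [CommRing R] (h : (p : R) = 0)
    {ι : Type w} (s : Finset ι) (x : ι → R) (n : ℕ) :
    (∑ i ∈ s, x i) ^ p ^ n = ∑ i ∈ s, x i ^ p ^ n := by
  induction n with
  | zero => simp
  | succ n ih =>
    rw [pow_succ, pow_mul, ih, sum_pow_p h]
    exact Finset.sum_congr rfl fun i _ => by rw [← pow_mul]

namespace IsPerf

variable {p : ℕ} [hp : Fact p.Prime] {R : Type u} [CommRing R] {S : Type v} [CommRing S]

include hp in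
lemma of_perfectRing [CharP R p] [PerfectRing R p] : IsPerf p R where
  p_zero := CharP.cast_eq_zero R p
  red x hx := by
    have : frobenius R p x = frobenius R p 0 := by
      rw [frobenius_def, frobenius_def, hx, zero_pow hp.out.ne_zero]
    exact (PerfectRing.bijective_frobenius (R := R) (p := p)).1 this
  surj x := by
    obtain ⟨y, hy⟩ := (PerfectRing.bijective_frobenius (R := R) (p := p)).2 x
    exact ⟨y, hy⟩

lemma charP (h : IsPerf p R) [Nontrivial R] : CharP R p := by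
  obtain ⟨q, hq⟩ := CharP.exists R
  have h1 : q ∣ p := (CharP.cast_eq_zero_iff R q p).1 h.p_zero
  rcases (Nat.dvd_prime hp.out).1 h1 with rfl | rfl
  · have h2 := CharP.cast_eq_zero R 1
    rw [Nat.cast_one] at h2
    exact absurd h2 one_ne_zero
  · exact hq

variable (h : IsPerf p R)

include h

lemma red_pow (n : ℕ) : ∀ {x : R}, x ^ p ^ n = 0 → x = 0 := by
  induction n with
  | zero => intro x hx; simpa using hx
  | succ n ih =>
    intro x hx
    rw [pow_succ, pow_mul] at hx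
    exact ih (h.red _ hx)

lemma red_any {n : ℕ} {x : R} (hx : x ^ n = 0) : x = 0 := by
  apply h.red_pow n
  have : n ≤ p ^ n := (Nat.lt_pow_self hp.out.one_lt).le
  rw [← Nat.add_sub_cancel' this, pow_add, hx, zero_mul]

lemma isReduced : IsReduced R := ⟨fun _ ⟨_, hn⟩ => h.red_any hn⟩

lemma pow_inj {x y : R} (hxy : x ^ p = y ^ p) : x = y := by
  rw [← sub_eq_zero] at hxy ⊢
  apply h.red
  rw [sub_pow_p h.p_zero, hxy]

lemma pow_pn_inj {n : ℕ} {x y : R} (hxy : x ^ p ^ n = y ^ p ^ n) : x = y := by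
  rw [← sub_eq_zero] at hxy ⊢
  apply h.red_pow n
  rw [sub_pow_pn h.p_zero, hxy]

/-- the `p`-th root. -/
noncomputable def rt (x : R) : R := (h.surj x).choose

@[simp] lemma rt_pow (x : R) : h.rt x ^ p = x := (h.surj x).choose_spec

@[simp] lemma pow_rt (x : R) : h.rt (x ^ p) = x := h.pow_inj (h.rt_pow _)

@[simp] lemma rt_zero : h.rt 0 = 0 := h.red _ (h.rt_pow 0)

@[simp] lemma rt_one : h.rt 1 = 1 := h.pow_inj (by rw [h.rt_pow, one_pow])

lemma rt_mul (x y : R) : h.rt (x * y) = h.rt x * h.rt y :=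
  h.pow_inj (by rw [h.rt_pow, mul_pow, h.rt_pow, h.rt_pow])

lemma rt_add (x y : R) : h.rt (x + y) = h.rt x + h.rt y :=
  h.pow_inj (by rw [h.rt_pow, add_pow_p h.p_zero, h.rt_pow, h.rt_pow])

/-- `x^{1/p^n}`. -/
noncomputable def rtn (n : ℕ) (x : R) : R := h.rt^[n] x

@[simp] lemma rtn_zero' (x : R) : h.rtn 0 x = x := rfl

lemma rtn_succ (n : ℕ) (x : R) : h.rtn (n + 1) x = h.rt (h.rtn n x) :=
  Function.iterate_succ_apply' _ _ _

lemma rtn_succ_pow (n : ℕ) (x : R) : h.rtn (n + 1) x ^ p = h.rtn n x := by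
  rw [rtn_succ, rt_pow]

lemma rtn_add_pow (n m : ℕ) (x : R) : h.rtn (n + m) x ^ p ^ m = h.rtn n x := by
  induction m with
  | zero => simp
  | succ m ih => rw [← add_assoc, pow_succ', pow_mul, rtn_succ_pow, ih]

lemma rtn_pow_of_le {n k : ℕ} (hk : n ≤ k) (x : R) : h.rtn k x ^ p ^ (k - n) = h.rtn n x := by
  obtain ⟨m, rfl⟩ := Nat.exists_eq_add_of_le hk
  rw [Nat.add_sub_cancel_left, rtn_add_pow]

@[simp] lemma rtn_pow (n : ℕ) (x : R) : h.rtn n x ^ p ^ n = x := by
  simpa using h.rtn_add_pow 0 n x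

lemma rtn_eq_of_pow {n : ℕ} {x y : R} (hxy : y ^ p ^ n = x) : h.rtn n x = y :=
  h.pow_pn_inj (by rw [rtn_pow, hxy])

lemma rtn_mul (n : ℕ) (x y : R) : h.rtn n (x * y) = h.rtn n x * h.rtn n y :=
  h.rtn_eq_of_pow (by rw [mul_pow, rtn_pow, rtn_pow])

lemma rtn_add (n : ℕ) (x y : R) : h.rtn n (x + y) = h.rtn n x + h.rtn n y :=
  h.rtn_eq_of_pow (by rw [add_pow_pn h.p_zero, rtn_pow, rtn_pow])

lemma rtn_rtn (n m : ℕ) (x : R) : h.rtn n (h.rtn m x) = h.rtn (n + m) x :=
  h.rtn_eq_of_pow (by rw [add_comm, rtn_add_pow])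

@[simp] lemma rtn_zero (n : ℕ) : h.rtn n (0 : R) = 0 :=
  h.rtn_eq_of_pow (zero_pow (pow_ne_zero _ hp.out.ne_zero))

@[simp] lemma rtn_one (n : ℕ) : h.rtn n (1 : R) = 1 := h.rtn_eq_of_pow (one_pow _)

lemma rtn_pow_comm (n k : ℕ) (x : R) : h.rtn n (x ^ k) = h.rtn n x ^ k :=
  h.rtn_eq_of_pow (by rw [← pow_mul, mul_comm, pow_mul, rtn_pow])

lemma map_rtn (hS : IsPerf p S) (φ : R →+* S) (n : ℕ) (x : R) :
    φ (h.rtn n x) = hS.rtn n (φ x) :=
  (hS.rtn_eq_of_pow (by rw [← map_pow, rtn_pow])).symm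

/-- torsion: `b f^{1/p^n} = 0` implies `b f^{1/p^k} = 0` for all `k`. -/
lemma mul_rtn_eq_zero {b f : R} {n : ℕ} (hb : b * h.rtn n f = 0) (k : ℕ) :
    b * h.rtn k f = 0 := by
  have key : ∀ m, b * h.rtn (n + m) f = 0 := by
    intro m
    apply h.red_pow m
    rw [mul_pow, rtn_add_pow]
    obtain ⟨t, ht⟩ : ∃ t, p ^ m = t + 1 :=
      ⟨p ^ m - 1, (Nat.sub_add_cancel (pow_pos hp.out.pos m)).symm⟩
    rw [ht, pow_succ, mul_assoc, hb, mul_zero]
  rcases le_total n k with hk | hk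
  · obtain ⟨m, rfl⟩ := Nat.exists_eq_add_of_le hk
    exact key m
  · obtain ⟨m, rfl⟩ := Nat.exists_eq_add_of_le hk
    rw [← h.rtn_add_pow k m f]
    obtain ⟨t, ht⟩ : ∃ t, p ^ m = t + 1 :=
      ⟨p ^ m - 1, (Nat.sub_add_cancel (pow_pos hp.out.pos m)).symm⟩
    rw [ht, pow_succ', ← mul_assoc, hb, zero_mul]

lemma mul_rtn_pow_eq_zero {b f : R} {n k j : ℕ} (hj : j ≠ 0) (hb : b * h.rtn n f = 0) :
    b * h.rtn k f ^ j = 0 := by
  obtain ⟨t, rfl⟩ := Nat.exists_eq_succ_of_ne_zero hj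
  rw [Nat.succ_eq_add_one, pow_succ', ← mul_assoc, h.mul_rtn_eq_zero hb, zero_mul]

/-- in a perfect ring, `f`-power torsion is killed by all `f^{1/p^k}`. -/
lemma pow_torsion {b f : R} {m : ℕ} (hb : b * f ^ m = 0) (k : ℕ) : b * h.rtn k f = 0 := by
  have h1 : b * f = 0 := by
    apply h.red_any (n := m + 1)
    rw [mul_pow]
    calc b ^ (m + 1) * f ^ (m + 1) = b ^ m * (b * f ^ m) * f := by ring
      _ = 0 := by rw [hb]; ring
  exact h.mul_rtn_eq_zero (n := 0) (by simpa using h1) k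

/-! ### the ideal `(f^{1/p^∞})` -/

/-- the ideal `(f^{1/p^∞})`. -/
noncomputable def pId (f : R) : Ideal R := Ideal.span (Set.range fun n => h.rtn n f)

lemma rtn_mem_pId (n : ℕ) (f : R) : h.rtn n f ∈ h.pId f := Ideal.subset_span ⟨n, rfl⟩

lemma self_mem_pId (f : R) : f ∈ h.pId f := by simpa using h.rtn_mem_pId 0 f

lemma mem_pId {f x : R} : x ∈ h.pId f ↔ ∃ n b, x = b * h.rtn n f := by
  constructor
  · intro hx
    refine Submodule.span_induction (p := fun x _ => ∃ n b, x = b * h.rtn n f) ?_ ?_ ?_ ?_ hx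
    · rintro _ ⟨n, rfl⟩
      exact ⟨n, 1, by simp⟩
    · exact ⟨0, 0, by simp⟩
    · rintro x y _ _ ⟨n, b, rfl⟩ ⟨m, c, rfl⟩
      refine ⟨n + m, b * h.rtn (n + m) f ^ (p ^ m - 1) + c * h.rtn (n + m) f ^ (p ^ n - 1), ?_⟩
      have e1 : h.rtn n f = h.rtn (n + m) f ^ (p ^ m - 1) * h.rtn (n + m) f := by
        rw [← pow_succ, Nat.sub_add_cancel (pow_pos hp.out.pos m), rtn_add_pow]
      have e2 : h.rtn m f = h.rtn (n + m) f ^ (p ^ n - 1) * h.rtn (n + m) f := by
        rw [← pow_succ, Nat.sub_add_cancel (pow_pos hp.out.pos n), add_comm n m, rtn_add_pow]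
      conv_lhs => rw [e1, e2]
      ring
    · rintro a x _ ⟨n, b, rfl⟩
      exact ⟨n, a * b, by rw [smul_eq_mul]; ring⟩
  · rintro ⟨n, b, rfl⟩
    exact Ideal.mul_mem_left _ _ (h.rtn_mem_pId n f)

lemma pId_radical {f x : R} (hx : x ^ p ∈ h.pId f) : x ∈ h.pId f := by
  obtain ⟨n, b, hb⟩ := h.mem_pId.1 hx
  refine h.mem_pId.2 ⟨n + 1, h.rt b, h.pow_inj ?_⟩
  rw [mul_pow, h.rt_pow, rtn_succ_pow, hb]

/-- quotient by a `p`-radical ideal. -/
lemma quot (I : Ideal R) (hI : ∀ x : R, x ^ p ∈ I → x ∈ I) : IsPerf p (R ⧸ I) where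
  p_zero := by rw [← map_natCast (Ideal.Quotient.mk I), h.p_zero, map_zero]
  red x hx := by
    obtain ⟨x, rfl⟩ := Ideal.Quotient.mk_surjective x
    rw [← map_pow, Ideal.Quotient.eq_zero_iff_mem] at hx
    exact Ideal.Quotient.eq_zero_iff_mem.2 (hI x hx)
  surj x := by
    obtain ⟨x, rfl⟩ := Ideal.Quotient.mk_surjective x
    exact ⟨Ideal.Quotient.mk I (h.rt x), by rw [← map_pow, rt_pow]⟩

lemma quot_pId (f : R) : IsPerf p (R ⧸ h.pId f) := h.quot _ fun _ hx => h.pId_radical hx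

lemma pId_map (hS : IsPerf p S) (φ : R →+* S) (f : R) : (h.pId f).map φ = hS.pId (φ f) := by
  unfold pId
  rw [Ideal.map_span, ← Set.range_comp]
  congr 2
  funext n
  exact h.map_rtn hS φ n f

omit h in
lemma of_surjective (h : IsPerf p R) (φ : R →+* S) (hφ : Surjective φ)
    (hk : ∀ x : R, φ x ^ p = 0 → φ x = 0) : IsPerf p S where
  p_zero := by rw [← map_natCast φ, h.p_zero, map_zero]
  red x hx := by
    obtain ⟨x, rfl⟩ := hφ x
    exact hk x hx
  surj x := by
    obtain ⟨x, rfl⟩ := hφ x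
    exact ⟨φ (h.rt x), by rw [← map_pow, rt_pow]⟩

end IsPerf

/-! ### tensor products -/

section Tensor

variable {p : ℕ} [hp : Fact p.Prime] {A : Type u} [CommRing A] {B : Type v} [CommRing B]
  [Algebra A B] {C : Type w} [CommRing C] [Algebra A C]

include hp in
theorem IsPerf.tensor (hA : IsPerf p A) (hB : IsPerf p B) (hC : IsPerf p C) :
    IsPerf p (B ⊗[A] C) := by
  have h0 : (p : B ⊗[A] C) = 0 := by
    rw [← map_natCast (Algebra.TensorProduct.includeLeftRingHom (R := A) (A := B) (B := C)),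
      hB.p_zero, map_zero]
  let F : B →+ C →+ B ⊗[A] C :=
    AddMonoidHom.mk' (fun b => AddMonoidHom.mk' (fun c => hB.rt b ⊗ₜ[A] hC.rt c)
      (fun c c' => by rw [hC.rt_add, TensorProduct.tmul_add])) (fun b b' => by
        ext c
        show hB.rt (b + b') ⊗ₜ[A] hC.rt c = hB.rt b ⊗ₜ[A] hC.rt c + hB.rt b' ⊗ₜ[A] hC.rt c
        rw [hB.rt_add, TensorProduct.add_tmul])
  have hAB : ∀ (a : A) (b : B), hB.rt (a • b) = hA.rt a • hB.rt b := by
    intro a b
    apply hB.pow_inj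
    rw [hB.rt_pow, smul_pow, hA.rt_pow, hB.rt_pow]
  have hAC : ∀ (a : A) (b : C), hC.rt (a • b) = hA.rt a • hC.rt b := by
    intro a b
    apply hC.pow_inj
    rw [hC.rt_pow, smul_pow, hA.rt_pow, hC.rt_pow]
  let ψ : B ⊗[A] C →+ B ⊗[A] C := TensorProduct.liftAddHom F (fun a b c => by
    show hB.rt (a • b) ⊗ₜ[A] hC.rt c = hB.rt b ⊗ₜ[A] hC.rt (a • c)
    rw [hAB, hAC, TensorProduct.smul_tmul])
  have hψ : ∀ b c, ψ (b ⊗ₜ c) = hB.rt b ⊗ₜ hC.rt c := fun b c => rfl
  have hψ2 : ∀ x, ψ (x ^ p) = x := by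
    intro x
    induction x using TensorProduct.induction_on with
    | zero => rw [zero_pow hp.out.ne_zero, map_zero]
    | tmul b c => rw [Algebra.TensorProduct.tmul_pow, hψ, hB.pow_rt, hC.pow_rt]
    | add x y hx hy => rw [add_pow_p h0, map_add, hx, hy]
  refine ⟨h0, fun x hx => ?_, fun x => ?_⟩
  · rw [← hψ2 x, hx, map_zero]
  · induction x using TensorProduct.induction_on with
    | zero => exact ⟨0, zero_pow hp.out.ne_zero⟩
    | tmul b c =>
      exact ⟨hB.rt b ⊗ₜ hC.rt c, by rw [Algebra.TensorProduct.tmul_pow, hB.rt_pow, hC.rt_pow]⟩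
    | add x y hx hy =>
      obtain ⟨x', rfl⟩ := hx
      obtain ⟨y', rfl⟩ := hy
      exact ⟨x' + y', add_pow_p h0 _ _⟩

end Tensor

/-! ### monoid algebras: a perfect free cover -/

section MonoidAlg

variable {p : ℕ} [hp : Fact p.Prime] {A : Type u} [CommRing A]

open MonoidAlgebra in
include hp in
/-- the monoid algebra of a commutative monoid on which `x ↦ x^p` is bijective. -/
theorem IsPerf.monoidAlgebra (hA : IsPerf p A) (G : Type v) [CommMonoid G]
    (hG : Bijective fun g : G => g ^ p) : IsPerf p (MonoidAlgebra A G) := by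
  classical
  have h0 : (p : MonoidAlgebra A G) = 0 := by
    rw [← map_natCast (algebraMap A (MonoidAlgebra A G)), hA.p_zero, map_zero]
  have hsum : ∀ x : MonoidAlgebra A G, x = x.coeff.sum fun g a => MonoidAlgebra.single g a := by
    intro x
    exact (MonoidAlgebra.sum_coeff_single x).symm
  refine ⟨h0, fun x hx => ?_, fun x => ?_⟩
  · have h1 : x ^ p = x.coeff.sum fun g a => MonoidAlgebra.single (g ^ p) (a ^ p) := by
      conv_lhs => rw [hsum x]
      unfold Finsupp.sum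
      rw [sum_pow_p h0]
      exact Finset.sum_congr rfl fun g _ => MonoidAlgebra.single_pow _ _ _
    have h2 : ∀ g, (x ^ p).coeff (g ^ p) = (x.coeff g) ^ p := by
      intro g
      rw [h1, Finsupp.sum, MonoidAlgebra.coeff_sum, Finsupp.finsetSum_apply]
      by_cases hg : g ∈ x.coeff.support
      · rw [Finset.sum_eq_single_of_mem g hg]
        · simp [MonoidAlgebra.coeff_single]
        · intro g' _ hne
          rw [MonoidAlgebra.coeff_single, Finsupp.single_apply, if_neg]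
          exact fun he => hne (hG.1 he)
      · rw [Finset.sum_eq_zero, Finsupp.notMem_support_iff.1 hg, zero_pow hp.out.ne_zero]
        intro g' hg'
        rw [MonoidAlgebra.coeff_single, Finsupp.single_apply, if_neg]
        intro he
        exact hg (hG.1 he ▸ hg')
    have h3 : ∀ g, x.coeff g = 0 := by
      intro g
      apply hA.red
      rw [← h2, hx]
      rfl
    apply MonoidAlgebra.coeff_injective
    ext g
    rw [h3 g]
    rfl
  · rw [hsum x]
    unfold Finsupp.sum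
    choose r hr using hG.2
    refine ⟨∑ g ∈ x.coeff.support, MonoidAlgebra.single (r g) (hA.rt (x.coeff g)), ?_⟩
    rw [sum_pow_p h0]
    refine Finset.sum_congr rfl fun g _ => ?_
    rw [MonoidAlgebra.single_pow, hA.rt_pow]
    congr 1
    exact hr g

end MonoidAlg

end Crest.Agent.R188.Prf
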