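import Crest.Agent.R188.Apl3
import Crest.Agent.R188.Wit2
import Mathlib.RingTheory.Ideal.GoingUp
import Mathlib.RingTheory.Jacobson.Ideal

/-!
R188 / Apl4 : content in the form (FAC); the absolute integral closure `A⁺`; tilt of its completion.
Author: helper245.
-/

set_option autoImplicit false
set_option linter.unusedSectionVars false

namespace Crest.Agent.R188.Apl

open Crest.Agent.R183 Crest.Agent.R183.Om
open Crest.Agent.R183.Cic (CIC)
open Crest.Agent.R188.Prf (IsPerf)

/-! ### (FAC) -/

section Fac

variable {p : ℕ} [hp : Fact p.Prime] {B R : Type*} [CommRing B] [CommRing R] {j : B →+* R}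
  {ϖ : ℕ → R} {S : ℕ → Subring R}

lemma hsep_of_complete (hA : IsAdicComplete (Ideal.span {(p : R)}) R) :
    ∀ x : R, (∀ n : ℕ, (p : R) ^ n ∣ x) → x = 0 := by
  intro x hx
  refine IsHausdorff.haus (I := Ideal.span {(p : R)}) inferInstance x fun n => ?_
  rw [SModEq.zero, smul_eq_mul, Ideal.mul_top, Ideal.span_singleton_pow,
    Ideal.mem_span_singleton]
  exact hx n

/-- every `a ≠ 0` divides `p ^ k * D` with `D` regular modulo `p`; the cofactor divides a power of
`p`. -/
theorem Lev.fac (L : Lev p j ϖ S) [hA : IsAdicComplete (Ideal.span {(p : R)}) R] {a : R}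
    (ha : a ≠ 0) :
    ∃ (e i m : ℕ) (D : R), a = ϖ e ^ i * D ∧ a * ϖ e ^ m = (p : R) ^ i * D ∧ RegMod D (p : R) := by
  obtain ⟨e, i, D, hD, uD⟩ := L.content (hsep_of_complete hA) ha
  refine ⟨e, i, p ^ e * i - i, D, hD, ?_, L.regMod_of_unr uD⟩
  have h1 : 0 < p ^ e := Nat.pow_pos hp.out.pos
  have h2 : i ≤ p ^ e * i := Nat.le_mul_of_pos_left i h1
  have h3 : ϖ e ^ i * ϖ e ^ (p ^ e * i - i) = (p : R) ^ i := by
    rw [← pow_add, Nat.add_sub_cancel' h2, pow_mul, L.dat.pow_eq_p]
  rw [hD, ← h3]; ring

end Fac

/-! ### the absolute integral closure -/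

section Plus

variable {A : Type*} [CommRing A] [IsDomain A] {F : Type*} [Field F] [Algebra A F]

section
variable [IsAlgClosed F]

theorem plus_exists_pow (a : integralClosure A F) {n : ℕ} (hn : 0 < n) :
    ∃ b : integralClosure A F, b ^ n = a := by
  obtain ⟨z, hz⟩ := IsAlgClosed.exists_pow_nat_eq (a : F) hn
  refine ⟨⟨z, ?_⟩, Subtype.ext hz⟩
  have : IsIntegral A (z ^ n) := by rw [hz]; exact a.2
  exact this.of_pow hn

theorem plus_exists_roots (a : integralClosure A F) (p : ℕ) (hp : 0 < p) :
    ∃ r : ℕ → integralClosure A F, r 0 = a ∧ ∀ n, r (n + 1) ^ p = r n := by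
  choose g hg using fun a : integralClosure A F => plus_exists_pow a hp
  refine ⟨fun n => g^[n] a, rfl, fun n => ?_⟩
  change (g^[n + 1] a) ^ p = g^[n] a
  rw [Function.iterate_succ_apply', hg]

end

variable [FaithfulSMul A F]

theorem plus_injective : Function.Injective (algebraMap A (integralClosure A F)) := by
  intro x y h
  apply FaithfulSMul.algebraMap_injective A F
  exact congrArg Subtype.val h

theorem plus_isIntegral : (algebraMap A (integralClosure A F)).IsIntegral :=
  fun x => Algebra.IsIntegral.isIntegral x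

theorem plus_isUnit_iff {a : A} : IsUnit (algebraMap A (integralClosure A F) a) ↔ IsUnit a := by
  have := (plus_isIntegral (A := A) (F := F)).isLocalHom plus_injective
  exact ⟨fun h => this.map_nonunit a h, fun h => h.map _⟩

theorem plus_natCast_ne_zero {n : ℕ} (hn : (n : A) ≠ 0) : (n : integralClosure A F) ≠ 0 := by
  intro h
  apply hn
  apply plus_injective (F := F)
  rw [map_natCast, h, map_zero]

theorem pdata_plus [IsAlgClosed F] {p : ℕ} [hp : Fact p.Prime] {ϖ : ℕ → A} (h0 : ϖ 0 = p)
    (hr : ∀ e, ϖ (e + 1) ^ p = ϖ e) (hpA : (p : A) ≠ 0) :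
    PData p (integralClosure A F) (fun e => algebraMap A (integralClosure A F) (ϖ e)) where
  zero := by rw [h0, map_natCast]
  roots := fun e => by rw [← map_pow, hr]
  wreg := by
    apply Reg.wreg
    intro x hx
    exact (mul_eq_zero.1 hx).resolve_left (plus_natCast_ne_zero hpA)
  fsurj := by
    intro x
    obtain ⟨y, hy⟩ := plus_exists_pow x hp.out.pos
    exact ⟨y, by rw [hy, sub_self]; exact dvd_zero _⟩
  finj := by
    rintro x ⟨y, hy⟩
    set c : F := algebraMap A F (ϖ 1) with hc
    have hcp : c ^ p = (p : F) := by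
      rw [hc, ← map_pow, hr 0, h0, map_natCast]
    have hpF : (p : F) ≠ 0 := by
      intro h
      apply hpA
      apply FaithfulSMul.algebraMap_injective A F
      rw [map_natCast, h, map_zero]
    have hc0 : c ≠ 0 := by
      intro h
      rw [h, zero_pow hp.out.ne_zero] at hcp
      exact hpF hcp.symm
    have h1 : ((x : F) / c) ^ p = (y : F) := by
      have h2 : ((x ^ p : integralClosure A F) : F) = ((p : integralClosure A F) * y :
        integralClosure A F) := congrArg Subtype.val hy
      have h3 : (x : F) ^ p = (p : F) * (y : F) := by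
        have e1 : ((x ^ p : integralClosure A F) : F) = (x : F) ^ p := rfl
        have e2 : (((p : integralClosure A F) * y : integralClosure A F) : F) =
          (p : F) * (y : F) := by
          rw [MulMemClass.coe_mul]
          congr 1
        rw [← e1, h2, e2]
      rw [div_pow, h3, hcp]
      field_simp
    have h2 : IsIntegral A ((x : F) / c) := by
      have : IsIntegral A (((x : F) / c) ^ p) := by rw [h1]; exact y.2
      exact this.of_pow hp.out.pos
    refine ⟨⟨_, h2⟩, Subtype.ext ?_⟩
    change (x : F) = c * ((x : F) / c)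
    field_simp

/-- every non-zero element of `A⁺` divides a non-zero element of `A` -/
theorem plus_exists_mul {c : integralClosure A F} (hc : c ≠ 0) :
    ∃ (c' : integralClosure A F) (a : A), a ≠ 0 ∧ c * c' = algebraMap A (integralClosure A F) a := by
  have hAl : Algebra.IsAlgebraic A (integralClosure A F) := inferInstance
  obtain ⟨d, a, ha, h⟩ := Algebra.IsAlgebraic.exists_smul_eq_mul A (1 : integralClosure A F) hc
  refine ⟨d, a, ha, ?_⟩
  rw [← h, Algebra.smul_def, mul_one]

/-- `A → A⁺` maps the Jacobson radical to the Jacobson radical -/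
theorem jac_of_isIntegral {A' B' : Type*} [CommRing A'] [CommRing B'] [Algebra A' B']
    [Algebra.IsIntegral A' B'] {x : A'} (hx : x ∈ (⊥ : Ideal A').jacobson) :
    algebraMap A' B' x ∈ (⊥ : Ideal B').jacobson := by
  rw [Ideal.jacobson, Ideal.mem_sInf] at hx ⊢
  rintro M ⟨-, hM⟩
  have := Ideal.isMaximal_comap_of_isIntegral_of_isMaximal (R := A') M
  exact hx ⟨bot_le, this⟩

end Plus

/-! ### completions -/

section Compl

universe u v

variable {R : Type u} {C : Type v} [CommRing R] [CommRing C] {π : R} {ι : R →+* C}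

theorem IsCompl.jac (h : IsCompl π ι) {x : R} (hx : x ∈ (⊥ : Ideal R).jacobson) :
    ι x ∈ (⊥ : Ideal C).jacobson := by
  rw [Ideal.mem_jacobson_bot] at hx ⊢
  intro y
  obtain ⟨a, d, hd⟩ := h.dense 1 y
  obtain ⟨v, hv⟩ := (hx a).map ι |>.exists_right_inv
  have hπ := Ideal.mem_jacobson_bot.1 h.mem_jacobson (ι x * d * v)
  have h1 : ι x * y + 1 = ι (x * a + 1) * (ι π * (ι x * d * v) + 1) := by
    rw [pow_one] at hd
    have h2 : y = ι a + ι π * d := by linear_combination hd
    rw [h2, mul_add, mul_add, mul_one]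
    have : ι (x * a + 1) * (ι π * (ι x * d * v)) = ι π * ι x * d * (ι (x * a + 1) * v) := by ring
    rw [this, hv, map_add, map_mul, map_one]; ring
  rw [h1]
  exact ((hx a).map ι).mul hπ

/-- `D` regular modulo `π` (regular) ⇒ `ι D` is regular -/
theorem IsCompl.reg_of_regMod (h : IsCompl π ι) (hπ : Reg π) {D : R} (hD : RegMod D π) :
    Reg (ι D) := by
  intro x hx
  refine h.sep fun n => ?_
  exact RegMod.pow_right (h.reg hπ) (h.regMod hD) n x (by rw [hx]; exact dvd_zero _)

end Compl

end Crest.Agent.R188.Apl
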