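import Crest.Agent.R188.Apl4

/-!
R188 / Apl5 : for a ring `R` with perfectoid data (`Om.PData`), `j : R → Ω = W(P)/ξ` the `p`-completion;
sharps, regularity, Jacobson radicals.   Author: helper245.
-/

set_option autoImplicit false
set_option linter.unusedSectionVars false

namespace Crest.Agent.R188.Apl

open WittVector Crest.Agent.R183
open Crest.Agent.R183.Om (PData Reg RegMod IsCompl exists_tilt isAdicComplete_of_series)
open Crest.Agent.R188.Prf (IsPerf)
open Crest.Agent.R188.Wit (IsDist θ sh)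

local notation "τ" => WittVector.teichmuller _

/-! ### generalities -/

section Gen

universe u v w

theorem IsCompl.comp_equiv {R : Type u} {C : Type v} {C' : Type w} [CommRing R] [CommRing C]
    [CommRing C'] {π : R} {ι : R →+* C} (h : IsCompl π ι) (e : C ≃+* C') :
    IsCompl π ((e : C →+* C').comp ι) := by
  have hd : ∀ (m : ℕ) (c : C), (((e : C →+* C').comp ι) π) ^ m ∣ e c ↔ ι π ^ m ∣ c := by
    intro m c
    constructor
    · rintro ⟨d, hd⟩
      refine ⟨e.symm d, e.injective ?_⟩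
      rw [map_mul, map_pow, RingEquiv.apply_symm_apply]
      exact hd
    · rintro ⟨d, rfl⟩
      rw [map_mul, map_pow]
      exact dvd_mul_right _ _
  refine ⟨fun m c => ?_, fun m a ha => ?_, ?_⟩
  · obtain ⟨a, ha⟩ := h.dense m (e.symm c)
    refine ⟨a, ?_⟩
    have : c - ((e : C →+* C').comp ι) a = e (e.symm c - ι a) := by
      rw [map_sub, RingEquiv.apply_symm_apply]; rfl
    rw [this, hd]
    exact ha
  · exact h.sat m a ((hd m (ι a)).1 ha)
  · refine isAdicComplete_of_series _ (fun x hx => ?_) (fun u => ?_)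
    · have h1 : e.symm x = 0 := by
        refine h.sep fun m => ?_
        rw [← hd, RingEquiv.apply_symm_apply]
        exact hx m
      have := congrArg e h1
      rwa [RingEquiv.apply_symm_apply, map_zero] at this
    · obtain ⟨s, hs⟩ := h.ser (fun n => e.symm (u n))
      refine ⟨e s, fun n => ?_⟩
      have h1 := (hd n _).2 (hs n)
      have h2 : e (s - ∑ i ∈ Finset.range n, ι π ^ i * e.symm (u i)) =
          e s - ∑ i ∈ Finset.range n, ((e : C →+* C').comp ι) π ^ i * u i := by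
        rw [map_sub, map_sum]
        congr 1
        refine Finset.sum_congr rfl fun i _ => ?_
        rw [map_mul, map_pow, RingEquiv.apply_symm_apply]
        rfl
      rwa [h2] at h1

end Gen

section Sharp

universe u

variable {p : ℕ} [hp : Fact p.Prime] {P : Type u} [CommRing P] (h : IsPerf p P)
  {ξ : WittVector p P} {π : P} (hξ : IsDist ξ π)

lemma constCoeff_τ (z : P) : constantCoeff (WittVector.teichmuller p z) = z := by
  simp [constantCoeff]

include h in
lemma constCoeff_natCast_p : constantCoeff (p : WittVector p P) = 0 := by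
  rw [map_natCast, h.p_zero]

include h hξ in
lemma constCoeff_ξ : constantCoeff ξ = π := by
  obtain ⟨u, -, hu⟩ := hξ.ex
  rw [hu, map_add, map_mul, constCoeff_τ, constCoeff_natCast_p h, zero_mul, add_zero]

include h hξ in
lemma dvd_of_sh_sub {x y : P} (hxy : sh ξ x = sh ξ y) : π ∣ x - y := by
  have h1 : θ ξ (τ x - τ y) = 0 := by
    rw [map_sub, sub_eq_zero]; exact hxy
  obtain ⟨w, hw⟩ := Wit.θ_eq_zero_iff.1 h1
  have h2 := congrArg constantCoeff hw
  rw [map_sub, map_mul, constCoeff_τ, constCoeff_τ, constCoeff_ξ h hξ] at h2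
  exact ⟨_, h2⟩

lemma sep_of_complete (hc : IsAdicComplete (Ideal.span {π}) P) :
    ∀ x : P, (∀ n : ℕ, π ^ n ∣ x) → x = 0 := by
  intro x hx
  refine IsHausdorff.haus (I := Ideal.span {π}) inferInstance x fun n => ?_
  rw [SModEq.zero, smul_eq_mul, Ideal.mul_top, Ideal.span_singleton_pow,
    Ideal.mem_span_singleton]
  exact hx n

include h hξ in
/-- elements of `P` are determined by their sharps -/
lemma eq_of_sh (hc : IsAdicComplete (Ideal.span {π}) P) {x y : P}
    (hxy : ∀ n, sh ξ (h.rtn n x) = sh ξ (h.rtn n y)) : x = y := by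
  rw [← sub_eq_zero]
  refine sep_of_complete hc _ fun n => ?_
  have h1 := dvd_of_sh_sub h hξ (hxy n)
  have h2 : x - y = (h.rtn n x - h.rtn n y) ^ p ^ n := by
    rw [Prf.sub_pow_pn h.p_zero, h.rtn_pow, h.rtn_pow]
  rw [h2]
  refine (pow_dvd_pow π ?_).trans (pow_dvd_pow_of_dvd h1 _)
  exact (Nat.lt_pow_self hp.out.one_lt).le

include h hξ in
/-- an element of `P` with sharp in the Jacobson radical is in the Jacobson radical -/
lemma jac_of_sh (hc : IsAdicComplete (Ideal.span {π}) P) {y : P}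
    (hy : sh ξ y ∈ (⊥ : Ideal (Wit.Om ξ)).jacobson) : y ∈ (⊥ : Ideal P).jacobson := by
  rw [Ideal.mem_jacobson_bot] at hy ⊢
  intro z
  have hπ : π ∈ (⊥ : Ideal P).jacobson :=
    IsAdicComplete.le_jacobson_bot (Ideal.span {π}) (Ideal.mem_span_singleton_self _)
  rw [Ideal.mem_jacobson_bot] at hπ
  obtain ⟨v, hv⟩ := (hy (sh ξ z)).exists_right_inv
  obtain ⟨w, rfl⟩ := Wit.θ_surjective ξ v
  have h1 : θ ξ ((τ (y * z) + 1) * w - 1) = 0 := by
    rw [map_sub, map_mul, map_add, map_one, sub_eq_zero]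
    have : θ ξ (τ (y * z)) = sh ξ y * sh ξ z := Wit.sh_mul ξ y z
    rw [this]; exact hv
  obtain ⟨c, hc'⟩ := Wit.θ_eq_zero_iff.1 h1
  have h2 := congrArg constantCoeff hc'
  rw [map_sub, map_mul, map_add, map_one, constCoeff_τ, map_mul, constCoeff_ξ h hξ] at h2
  have h3 : (y * z + 1) * constantCoeff w = π * constantCoeff c + 1 := by linear_combination h2
  exact isUnit_of_mul_isUnit_left (h3 ▸ hπ (constantCoeff c))

/-- **tilt**: the `p`-completion of a ring with perfectoid data is `W(P)/ξ` -/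
theorem exists_tilt_om {R : Type u} [CommRing R] {ϖ : ℕ → R} (d : PData p R ϖ)
    (hu : ¬ IsUnit (p : R)) :
    ∃ (P : Type u) (_ : CommRing P) (h : IsPerf p P) (π : P) (ξ : WittVector p P)
      (j : R →+* Wit.Om ξ), IsDist ξ π ∧ IsAdicComplete (Ideal.span {π}) P ∧ Reg π ∧ ¬ IsUnit π ∧
      IsCompl (p : R) j ∧ Reg (p : Wit.Om ξ) ∧ (∀ n, sh ξ (h.rtn n π) = j (ϖ n)) ∧
      (∀ r : ℕ → Wit.Om ξ, (∀ n, r (n + 1) ^ p = r n) → ∃ a : P, ∀ n, sh ξ (h.rtn n a) = r n) := by
  obtain ⟨A₀, _, _, P, _, _, _, θ₀, π, hcompl, -, hreg, -, -, hsurj, hker, hπ, hπu, hPc, hsh,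
    hroots, -⟩ := Env.exists_base d hu
  have hP : IsPerf p P := IsPerf.of_perfectRing
  set ξ : WittVector p P := τ π + (p : WittVector p P) * (-1) with hξdef
  have hξ : IsDist ξ π := ⟨⟨-1, isUnit_one.neg, rfl⟩⟩
  have hxi : ξ = -Amp.xi 1 π := by
    rw [hξdef, Amp.xi]; ring
  have hspan : RingHom.ker θ₀ = Ideal.span {ξ} := by
    rw [hker, hxi, Ideal.span_singleton_neg]
  let e : Wit.Om ξ ≃+* A₀ :=
    (Ideal.quotEquivOfEq hspan.symm).trans (RingHom.quotientKerEquivOfSurjective hsurj)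
  have he : ∀ w, e (θ ξ w) = θ₀ w := fun w => rfl
  have he' : ∀ w, e.symm (θ₀ w) = θ ξ w := fun w => by rw [← he, RingEquiv.symm_apply_apply]
  have hrt : ∀ (n : ℕ) (a : P), hP.rtn n a = Amp.rt (p := p) n a := fun n a =>
    hP.rtn_eq_of_pow (Amp.rt_pow n a)
  refine ⟨P, inferInstance, hP, π, ξ, (e.symm : A₀ →+* Wit.Om ξ).comp (algebraMap R A₀), hξ, hPc,
    hπ, hπu, IsCompl.comp_equiv hcompl e.symm, ?_, ?_, ?_⟩
  · intro x hx
    have h1 : (p : A₀) * e x = 0 := by
      have := congrArg e hx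
      rwa [map_mul, map_natCast, map_zero] at this
    have h2 := hreg _ h1
    have := congrArg e.symm h2
    rwa [RingEquiv.symm_apply_apply, map_zero] at this
  · intro n
    rw [hrt]
    change θ ξ (τ (Amp.rt (p := p) n π)) = e.symm (algebraMap R A₀ (ϖ n))
    rw [← hsh n, Om.sh, he']
  · intro r hr
    obtain ⟨a, ha⟩ := hroots (fun n => e (r n)) (fun n => by rw [← map_pow, hr])
    refine ⟨a, fun n => ?_⟩
    have h1 := ha n
    rw [Om.sh] at h1
    rw [hrt]
    change θ ξ (τ (Amp.rt (p := p) n a)) = r n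
    rw [← he', h1, RingEquiv.symm_apply_apply]

variable {R : Type u} [CommRing R] {j : R →+* Wit.Om ξ}

include h hξ in
/-- if every `j (r n)` is regular, then the element with sharps `r` is regular. -/
theorem reg_of_sharp (hc : IsAdicComplete (Ideal.span {π}) P) {a : P}
    (hreg : ∀ n, ∀ x : Wit.Om ξ, sh ξ (h.rtn n a) * x = 0 → x = 0) :
    ∀ x : P, a * x = 0 → x = 0 := by
  intro x hx
  refine eq_of_sh h hξ hc fun n => ?_
  rw [h.rtn_zero, Wit.sh_zero]
  apply hreg n
  rw [← Wit.sh_mul, ← h.rtn_mul, hx, h.rtn_zero, Wit.sh_zero]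

end Sharp

end Crest.Agent.R188.Apl
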