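import Crest.Agent.R188.KosB

/-!
# R188 (Serre positivity), block A4: Koszul complexes of lists, lengths of Koszul homology.
helper415
-/

set_option autoImplicit false

namespace Crest.Agent.R188.KosG

open Crest.Agent.R183
open scoped ENNReal

universe u v

variable {A : Type u} [CommRing A]

/-- The module `C` in degree `0`. -/
def one (A : Type u) [CommRing A] (C : Type v) [AddCommGroup C] [Module A C] : GCx.{u, v} A where
  T := C
  gr := fun i => if i = 0 then ⊤ else ⊥
  D := 0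
  D_gr := fun _ _ _ => Submodule.zero_mem _
  DD := fun _ => rfl

/-- iterated cones -/
def cones : List A → GCx.{u, v} A → GCx.{u, v} A
  | [], K => K
  | (a :: l), K => GCx.cone a (cones l K)

theorem cones_append (l l' : List A) (K : GCx.{u, v} A) :
    cones (l ++ l') K = cones l (cones l' K) := by
  induction l with
  | nil => rfl
  | cons a l ih => rw [List.cons_append, cones, cones, ih]

/-- The Koszul complex `K(l; C)`. -/
def kos (l : List A) (C : Type v) [AddCommGroup C] [Module A C] : GCx.{u, v} A := cones l (one A C)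

/-- The length of `H_i(l; C)`. -/
noncomputable def kh (Λ : AddLen.{u, v} A) (l : List A) (C : Type v) [AddCommGroup C] [Module A C]
    (i : ℤ) : ℝ≥0∞ := (kos l C).h Λ i

theorem kos_cons (a : A) (l : List A) (C : Type v) [AddCommGroup C] [Module A C] :
    kos (a :: l) C = GCx.cone a (kos l C) := rfl

theorem cones_perm {l l' : List A} (h : l.Perm l') (K : GCx.{u, v} A) :
    Nonempty (GCx.Iso (cones l K) (cones l' K)) := by
  induction h with
  | nil => exact ⟨GCx.Iso.refl _⟩
  | cons a _ ih =>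
    obtain ⟨φ⟩ := ih
    exact ⟨φ.cone a⟩
  | swap a b l => exact ⟨GCx.coneSwap b a (cones l K)⟩
  | trans _ _ ih1 ih2 =>
    obtain ⟨φ⟩ := ih1
    obtain ⟨ψ⟩ := ih2
    exact ⟨φ.trans ψ⟩

section basic

variable (Λ : AddLen.{u, v} A) (C : Type v) [AddCommGroup C] [Module A C]

theorem kh_perm {l l' : List A} (h : l.Perm l') (i : ℤ) : kh Λ l C i = kh Λ l' C i := by
  obtain ⟨φ⟩ := cones_perm h (one A C)
  exact φ.h_eq Λ i

theorem kh_nil_zero : kh Λ [] C 0 = Λ.L C := by
  unfold kh GCx.h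
  let K := one A C
  have hB : K.B 0 = ⊥ := by
    rw [eq_bot_iff]
    rintro _ ⟨y, _, rfl⟩
    exact (Submodule.mem_bot A).2 rfl
  have hZ : K.Z 0 = ⊤ := by
    rw [eq_top_iff]
    intro x _
    refine ⟨?_, rfl⟩
    change x ∈ (if (0 : ℤ) = 0 then (⊤ : Submodule A C) else ⊥)
    rw [if_pos rfl]
    trivial
  have hf : Function.Injective (K.cls 0) := by
    rw [injective_iff_map_eq_zero]
    intro z hz
    rw [GCx.cls_eq_zero, hB, Submodule.mem_bot] at hz
    exact Subtype.ext hz
  have e : K.Z 0 ≃ₗ[A] K.H 0 := LinearEquiv.ofBijective (K.cls 0) ⟨hf, K.cls_surj 0⟩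
  have e2 : K.Z 0 ≃ₗ[A] C := (LinearEquiv.ofEq _ _ hZ).trans Submodule.topEquiv
  exact (Λ.L_congr e).symm.trans (Λ.L_congr e2)

theorem kos_gr_eq_bot (l : List A) (i : ℤ) (hi : i < 0 ∨ (l.length : ℤ) < i) :
    (kos l C).gr i = ⊥ := by
  induction l generalizing i with
  | nil =>
    change (if i = 0 then (⊤ : Submodule A C) else ⊥) = ⊥
    rw [if_neg]
    rintro rfl
    simp at hi
  | cons a l ih =>
    change ((kos l C).gr i).prod ((kos l C).gr (i - 1)) = ⊥
    rw [List.length_cons, Nat.cast_add, Nat.cast_one] at hi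
    rw [ih i (by omega), ih (i - 1) (by omega), Submodule.prod_bot]

theorem kh_eq_zero (l : List A) (i : ℤ) (hi : i < 0 ∨ (l.length : ℤ) < i) : kh Λ l C i = 0 :=
  GCx.h_eq_zero_of_gr _ Λ (kos_gr_eq_bot C l i hi)

theorem kh_cons (a : A) (l : List A) (i : ℤ) :
    kh Λ (a :: l) C i = co Λ a ((kos l C).H i) + an Λ a ((kos l C).H (i - 1)) :=
  GCx.h_cone Λ a _ i

theorem kh_cons_le (a : A) (l : List A) (i : ℤ) :
    kh Λ (a :: l) C i ≤ kh Λ l C i + kh Λ l C (i - 1) :=
  GCx.h_cone_le Λ a _ i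

/-- Pascal sums. -/
noncomputable def pas (g : ℤ → ℝ≥0∞) (n : ℕ) (i : ℤ) : ℝ≥0∞ :=
  ∑ j ∈ Finset.range (n + 1), (n.choose j : ℝ≥0∞) * g (i - j)

theorem pas_zero (g : ℤ → ℝ≥0∞) (i : ℤ) : pas g 0 i = g i := by
  simp [pas]

theorem pas_succ (g : ℤ → ℝ≥0∞) (n : ℕ) (i : ℤ) : pas g (n + 1) i = pas g n i + pas g n (i - 1) := by
  unfold pas
  rw [Finset.sum_range_succ' _ (n + 1), Finset.sum_range_succ' (fun j : ℕ => (n.choose j : ℝ≥0∞) *
    g (i - j)) n]
  have h1 : ∀ j ∈ Finset.range (n + 1), ((n + 1).choose (j + 1) : ℝ≥0∞) *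
      g (i - ((j + 1 : ℕ) : ℤ)) = (n.choose (j + 1) : ℝ≥0∞) * g (i - ((j + 1 : ℕ) : ℤ)) +
      (n.choose j : ℝ≥0∞) * g (i - 1 - (j : ℤ)) := by
    intro j _
    rw [Nat.choose_succ_succ, Nat.cast_add, add_mul, add_comm]
    congr 3
    push_cast
    ring
  rw [Finset.sum_congr rfl h1, Finset.sum_add_distrib, Finset.sum_range_succ _ n]
  have h2 : (n.choose (n + 1) : ℝ≥0∞) * g (i - ((n + 1 : ℕ) : ℤ)) = 0 := by
    rw [Nat.choose_succ_self]
    simp
  rw [h2]
  simp only [Nat.choose_zero_right, add_zero]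
  ring

/-- **(K2)** -/
theorem h_cones_le (K : GCx.{u, v} A) (l : List A) (i : ℤ) :
    (cones l K).h Λ i ≤ pas (K.h Λ) l.length i := by
  induction l generalizing i with
  | nil => rw [List.length_nil, pas_zero]; rfl
  | cons a l ih =>
    rw [List.length_cons, pas_succ]
    exact (GCx.h_cone_le Λ a _ i).trans (add_le_add (ih i) (ih (i - 1)))

theorem NHI_le_cones (K : GCx.{u, v} A) (l : List A) : K.NHI ≤ (cones l K).NHI := by
  induction l with
  | nil => exact le_rfl
  | cons a l ih => exact ih.trans (GCx.NHI_le_cone _ a)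

/-- **(K1)** -/
theorem h_cones_NHI (K : GCx.{u, v} A) (l : List A) (hl : ∀ a ∈ l, a ∈ K.NHI) (i : ℤ) :
    (cones l K).h Λ i = pas (K.h Λ) l.length i := by
  induction l generalizing i with
  | nil => rw [List.length_nil, pas_zero]; rfl
  | cons a l ih =>
    have h1 := ih (fun b hb => hl b (List.mem_cons_of_mem _ hb))
    rw [List.length_cons, pas_succ, ← h1, ← h1]
    exact GCx.h_cone_NH Λ (NHI_le_cones K l (hl a List.mem_cons_self)) i

/-- The entries of `l` and the annihilator of `C` are null-homotopic on `K(l; C)`. -/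
theorem span_le_NHI (l : List A) : Ideal.span {x | x ∈ l} ⊔ Module.annihilator A C ≤
    (kos l C).NHI := by
  refine sup_le ?_ ?_
  · rw [Ideal.span_le]
    intro a ha
    change a ∈ l at ha
    induction l with
    | nil => exact absurd ha List.not_mem_nil
    | cons b l ih =>
      rcases List.mem_cons.1 ha with rfl | ha
      · exact GCx.NH.self _ _
      · exact (ih ha).cone b
  · intro a ha
    have h0 : a ∈ (one A C).NHI := GCx.NH.of_smul (fun x => Module.mem_annihilator.1 ha x)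
    exact NHI_le_cones _ l h0

theorem kh_append_le (l l' : List A) (i : ℤ) : kh Λ (l ++ l') C i ≤ pas (kh Λ l' C) l.length i := by
  unfold kh kos
  rw [cones_append]
  exact h_cones_le Λ _ l i

theorem kh_append_NHI (l l' : List A) (hl : ∀ a ∈ l, a ∈ (kos l' C).NHI) (i : ℤ) :
    kh Λ (l ++ l') C i = pas (kh Λ l' C) l.length i := by
  unfold kh kos
  rw [cones_append]
  exact h_cones_NHI Λ _ l hl i

end basic

/-! ### Herbrand quotients -/

section herbrand

variable (Λ : AddLen.{u, v} A) (X : Type v) [AddCommGroup X] [Module A X]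

/-- multiplication by `a` -/
abbrev mul (a : A) : X →ₗ[A] X := LinearMap.lsmul A X a

/-- the four lengths -/
theorem herbrand_aux (a b : A) : ∃ s t w : ℝ≥0∞,
    an Λ (a * b) X = an Λ a X + s ∧ an Λ b X = s + t ∧ co Λ a X = t + w ∧
    co Λ (a * b) X = w + co Λ b X := by
  -- s = L (a Ann_{ab}), t = L(image of Ann_b in X/a), w = L(bX/abX)
  let Kab : Submodule A X := LinearMap.ker (mul X (a * b))
  let Ka : Submodule A X := LinearMap.ker (mul X a)
  let Kb : Submodule A X := LinearMap.ker (mul X b)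
  let Ra : Submodule A X := LinearMap.range (mul X a)
  let Rb : Submodule A X := LinearMap.range (mul X b)
  let Rab : Submodule A X := LinearMap.range (mul X (a * b))
  refine ⟨Λ.L (Kab.map (mul X a)), Λ.L (Kb.map Ra.mkQ), Λ.L (Rb.map Rab.mkQ), ?_, ?_, ?_, ?_⟩
  · -- Ka ⊆ Kab
    have hle : Ka ≤ Kab := by
      intro x hx
      change (a * b) • x = 0
      change a • x = 0 at hx
      rw [mul_comm, mul_smul, hx, smul_zero]
    let f : Kab →ₗ[A] X := (mul X a).comp Kab.subtype
    have hr : LinearMap.range f = Kab.map (mul X a) := by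
      rw [LinearMap.range_comp, Submodule.range_subtype]
    have hk : LinearMap.ker f = Ka.submoduleOf Kab := by
      ext x
      rfl
    have h1 := Λ.L_ker_add_range f
    rw [hr, hk, Λ.L_congr (Submodule.submoduleOfEquivOfLe hle)] at h1
    exact h1
  · let f : Kb →ₗ[A] (X ⧸ Ra) := Ra.mkQ.comp Kb.subtype
    have hr : LinearMap.range f = Kb.map Ra.mkQ := by
      rw [LinearMap.range_comp, Submodule.range_subtype]
    have hle : Kab.map (mul X a) ≤ Kb := by
      rintro _ ⟨x, hx, rfl⟩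
      change b • (a • x) = 0
      change (a * b) • x = 0 at hx
      rw [smul_smul, mul_comm]
      exact hx
    have hk : LinearMap.ker f = (Kab.map (mul X a)).submoduleOf Kb := by
      ext x
      rw [LinearMap.mem_ker]
      change Ra.mkQ (x : X) = 0 ↔ (x : X) ∈ Kab.map (mul X a)
      rw [Submodule.mkQ_apply, Submodule.Quotient.mk_eq_zero]
      constructor
      · rintro ⟨y, hy⟩
        change a • y = x at hy
        refine ⟨y, ?_, hy⟩
        change (a * b) • y = 0
        rw [mul_comm, mul_smul, hy]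
        exact x.2
      · rintro ⟨y, _, hy⟩
        exact ⟨y, hy⟩
    have h1 := Λ.L_ker_add_range f
    rw [hr, hk, Λ.L_congr (Submodule.submoduleOfEquivOfLe hle)] at h1
    exact h1
  · -- b : X/aX → X/abX
    let f : (X ⧸ Ra) →ₗ[A] (X ⧸ Rab) := Submodule.mapQ Ra Rab (mul X b) (by
      rintro _ ⟨y, rfl⟩
      refine ⟨y, ?_⟩
      change (a * b) • y = b • (a • y)
      rw [smul_smul, mul_comm])
    have hr : LinearMap.range f = Rb.map Rab.mkQ := by
      rw [Submodule.range_mapQ]
    have hk : LinearMap.ker f = Kb.map Ra.mkQ := by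
      ext x
      obtain ⟨x, rfl⟩ := Ra.mkQ_surjective x
      rw [LinearMap.mem_ker]
      change Rab.mkQ (b • x) = 0 ↔ _
      rw [Submodule.mkQ_apply, Submodule.Quotient.mk_eq_zero]
      constructor
      · rintro ⟨y, hy⟩
        change (a * b) • y = b • x at hy
        refine ⟨x - a • y, ?_, ?_⟩
        · change b • (x - a • y) = 0
          rw [smul_sub, smul_smul, mul_comm b a, hy, sub_self]
        · rw [← sub_eq_zero, ← map_sub, Submodule.mkQ_apply, Submodule.Quotient.mk_eq_zero]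
          refine ⟨-y, ?_⟩
          change a • (-y) = x - a • y - x
          rw [smul_neg]; abel
      · rintro ⟨y, hy, hyx⟩
        rw [← sub_eq_zero, ← map_sub, Submodule.mkQ_apply, Submodule.Quotient.mk_eq_zero] at hyx
        obtain ⟨z, hz⟩ := hyx
        change a • z = y - x at hz
        refine ⟨-z, ?_⟩
        change (a * b) • (-z) = b • x
        change b • y = 0 at hy
        rw [smul_neg, mul_comm, mul_smul, hz, smul_sub, hy, zero_sub, neg_neg]
    have h1 := Λ.L_ker_add_range f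
    rw [hr, hk] at h1
    exact h1
  · have hle : Rab ≤ Rb := by
      rintro _ ⟨y, rfl⟩
      refine ⟨a • y, ?_⟩
      change b • (a • y) = (a * b) • y
      rw [smul_smul, mul_comm]
    exact Λ.L_quotient_add Rb Rab hle

/-- finiteness -/
def FinH (b : A) : Prop := co Λ b X ≠ ⊤ ∧ an Λ b X ≠ ⊤

/-- Herbrand quotient -/
noncomputable def he (b : A) : ℝ := (co Λ b X).toReal - (an Λ b X).toReal

theorem FinH.mul {a b : A} (ha : FinH Λ X a) (hb : FinH Λ X b) : FinH Λ X (a * b) ∧
    he Λ X (a * b) = he Λ X a + he Λ X b := by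
  obtain ⟨s, t, w, h1, h2, h3, h4⟩ := herbrand_aux Λ X a b
  obtain ⟨ha1, ha2⟩ := ha
  obtain ⟨hb1, hb2⟩ := hb
  rw [h3] at ha1
  rw [h2] at hb2
  rw [ENNReal.add_ne_top] at ha1 hb2
  have e1 : FinH Λ X (a * b) := by
    refine ⟨?_, ?_⟩
    · rw [h4]; exact ENNReal.add_ne_top.2 ⟨ha1.2, hb1⟩
    · rw [h1]; exact ENNReal.add_ne_top.2 ⟨ha2, hb2.1⟩
  refine ⟨e1, ?_⟩
  unfold he
  rw [h1, h2, h3, h4, ENNReal.toReal_add ha1.2 hb1, ENNReal.toReal_add ha2 hb2.1,
    ENNReal.toReal_add ha1.1 ha1.2, ENNReal.toReal_add hb2.1 hb2.2]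
  ring

theorem FinH.one : FinH Λ X (1 : A) ∧ he Λ X (1 : A) = 0 := by
  have h1 : co Λ (1 : A) X = 0 := by
    unfold co
    have : LinearMap.range (LinearMap.lsmul A X (1 : A)) = ⊤ := by
      rw [LinearMap.range_eq_top]
      intro x
      exact ⟨x, one_smul A x⟩
    rw [this]
    exact Λ.L_subsingleton
  have h2 : an Λ (1 : A) X = 0 := by
    unfold an
    have : LinearMap.ker (LinearMap.lsmul A X (1 : A)) = ⊥ := by
      rw [LinearMap.ker_eq_bot']
      intro x hx
      rwa [LinearMap.lsmul_apply, one_smul] at hx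
    rw [this]
    exact Λ.L_subsingleton
  refine ⟨⟨?_, ?_⟩, ?_⟩
  · rw [h1]; exact ENNReal.zero_ne_top
  · rw [h2]; exact ENNReal.zero_ne_top
  · unfold he; rw [h1, h2]; simp

theorem FinH.pow {b : A} (hb : FinH Λ X b) (n : ℕ) : FinH Λ X (b ^ n) ∧
    he Λ X (b ^ n) = n * he Λ X b := by
  induction n with
  | zero =>
    rw [pow_zero]
    refine ⟨(FinH.one Λ X).1, ?_⟩
    rw [(FinH.one Λ X).2]; simp
  | succ n ih =>
    have := FinH.mul Λ X ih.1 hb
    rw [pow_succ]
    refine ⟨this.1, ?_⟩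
    rw [this.2, ih.2]
    push_cast
    ring

end herbrand

/-! ### Euler characteristics -/

section chi

variable (Λ : AddLen.{u, v} A) (C : Type v) [AddCommGroup C] [Module A C]

/-- All Koszul homology lengths are finite. -/
def KFin (l : List A) : Prop := ∀ i : ℤ, kh Λ l C i ≠ ⊤

/-- The Euler characteristic `χ(l; C)`. -/
noncomputable def chi (l : List A) : ℝ :=
  ∑ i ∈ Finset.range (l.length + 1), (-1 : ℝ) ^ i * (kh Λ l C i).toReal

theorem KFin.perm {l l' : List A} (h : l.Perm l') (hl : KFin Λ C l) : KFin Λ C l' := fun i => by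
  rw [← kh_perm Λ C h]
  exact hl i

theorem chi_perm {l l' : List A} (h : l.Perm l') : chi Λ C l = chi Λ C l' := by
  unfold chi
  rw [h.length_eq]
  exact Finset.sum_congr rfl fun i _ => by rw [kh_perm Λ C h]

theorem KFin.cons_FinH {a : A} {l : List A} (h : KFin Λ C (a :: l)) (i : ℤ) :
    FinH Λ ((kos l C).H i) a := by
  have h1 := h i
  have h2 := h (i + 1)
  rw [kh_cons, ENNReal.add_ne_top] at h1 h2
  refine ⟨h1.1, ?_⟩
  have := h2.2
  rwa [add_sub_cancel_right] at this

theorem KFin.of_FinH {a : A} {l : List A} (h : ∀ i : ℤ, FinH Λ ((kos l C).H i) a) :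
    KFin Λ C (a :: l) := fun i => by
  rw [kh_cons]
  exact ENNReal.add_ne_top.2 ⟨(h i).1, (h (i - 1)).2⟩

theorem H_subsingleton (l : List A) (i : ℤ) (hi : i < 0 ∨ (l.length : ℤ) < i) :
    Subsingleton ((kos l C).H i) := by
  refine ⟨fun x y => ?_⟩
  have h0 := kos_gr_eq_bot C l i hi
  obtain ⟨⟨x, hx⟩, rfl⟩ := (kos l C).cls_surj i x
  obtain ⟨⟨y, hy⟩, rfl⟩ := (kos l C).cls_surj i y
  have hx' : x = 0 := by
    have : x ∈ (kos l C).gr i := hx.1
    rwa [h0, Submodule.mem_bot] at this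
  have hy' : y = 0 := by
    have : y ∈ (kos l C).gr i := hy.1
    rwa [h0, Submodule.mem_bot] at this
  subst hx'
  subst hy'
  rfl

theorem chi_cons {a : A} {l : List A} (h : KFin Λ C (a :: l)) :
    chi Λ C (a :: l) = ∑ i ∈ Finset.range (l.length + 1),
      (-1 : ℝ) ^ i * he Λ ((kos l C).H i) a := by
  unfold chi
  have hF := KFin.cons_FinH Λ C h
  have h1 : ∀ i : ℤ, (kh Λ (a :: l) C i).toReal = (co Λ a ((kos l C).H i)).toReal +
      (an Λ a ((kos l C).H (i - 1))).toReal := by
    intro i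
    rw [kh_cons, ENNReal.toReal_add (hF i).1 (hF (i - 1)).2]
  have h2 : (an Λ a ((kos l C).H (-1))).toReal = 0 := by
    have := H_subsingleton C l (-1) (Or.inl (by norm_num))
    unfold an
    rw [Λ.L_subsingleton]
    rfl
  have h3 : (co Λ a ((kos l C).H ((l.length : ℤ) + 1))).toReal = 0 := by
    have := H_subsingleton C l ((l.length : ℤ) + 1) (Or.inr (by omega))
    unfold co
    rw [Λ.L_subsingleton]
    rfl
  rw [List.length_cons]
  simp only [h1, mul_add, Finset.sum_add_distrib]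
  rw [Finset.sum_range_succ _ (l.length + 1)]
  rw [Finset.sum_range_succ' (fun i : ℕ => (-1 : ℝ) ^ i *
    (an Λ a ((kos l C).H ((i : ℤ) - 1))).toReal) (l.length + 1)]
  have h4 : ((0 : ℕ) : ℤ) - 1 = -1 := by norm_num
  rw [h4, h2]
  have h5 : (((l.length + 1 : ℕ) : ℤ)) = (l.length : ℤ) + 1 := by push_cast; ring
  rw [h5, h3]
  have h6 : ∀ i ∈ Finset.range (l.length + 1), (-1 : ℝ) ^ (i + 1) *
      (an Λ a ((kos l C).H (((i + 1 : ℕ) : ℤ) - 1))).toReal =
      -((-1 : ℝ) ^ i * (an Λ a ((kos l C).H (i : ℤ))).toReal) := by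
    intro i _
    have : (((i + 1 : ℕ) : ℤ) - 1) = (i : ℤ) := by push_cast; ring
    rw [this, pow_succ]
    ring
  rw [Finset.sum_congr rfl h6]
  unfold he
  simp only [mul_sub, Finset.sum_sub_distrib, Finset.sum_neg_distrib]
  ring

theorem chi_cons_pow {a : A} {l : List A} (h : KFin Λ C (a :: l)) (n : ℕ) :
    KFin Λ C (a ^ n :: l) ∧ chi Λ C (a ^ n :: l) = n * chi Λ C (a :: l) := by
  have h1 : KFin Λ C (a ^ n :: l) := KFin.of_FinH Λ C (fun i =>
    (FinH.pow Λ _ (KFin.cons_FinH Λ C h i) n).1)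
  refine ⟨h1, ?_⟩
  rw [chi_cons Λ C h1, chi_cons Λ C h, Finset.mul_sum]
  refine Finset.sum_congr rfl fun i _ => ?_
  rw [(FinH.pow Λ _ (KFin.cons_FinH Λ C h i) n).2]
  ring

/-- `χ(a^n, ...; C) = n^d χ(a, ...; C)`. -/
theorem chi_map_pow (l : List A) (h : KFin Λ C l) (n : ℕ) :
    KFin Λ C (l.map (· ^ n)) ∧ chi Λ C (l.map (· ^ n)) = (n : ℝ) ^ l.length * chi Λ C l := by
  -- generalise: raise the entries of `l'` in `l' ++ l''`
  have key : ∀ l' l'' : List A, KFin Λ C (l' ++ l'') →
      KFin Λ C (l'.map (· ^ n) ++ l'') ∧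
      chi Λ C (l'.map (· ^ n) ++ l'') = (n : ℝ) ^ l'.length * chi Λ C (l' ++ l'') := by
    intro l'
    induction l' with
    | nil =>
      intro l'' h
      refine ⟨h, ?_⟩
      simp
    | cons a l' ih =>
      intro l'' h
      have h1 := chi_cons_pow Λ C (a := a) (l := l' ++ l'') h n
      have p1 : (a ^ n :: (l' ++ l'')).Perm (l' ++ (a ^ n :: l'')) := List.perm_middle.symm
      have h2 := ih (a ^ n :: l'') (h1.1.perm Λ C p1)
      have p2 : (l'.map (· ^ n) ++ (a ^ n :: l'')).Perm ((a :: l').map (· ^ n) ++ l'') := by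
        rw [List.map_cons, List.cons_append]
        exact List.perm_middle
      refine ⟨h2.1.perm Λ C p2, ?_⟩
      rw [← chi_perm Λ C p2, h2.2, ← chi_perm Λ C p1, h1.2, List.length_cons, List.cons_append]
      ring
  have := key l [] (by rwa [List.append_nil])
  rwa [List.append_nil, List.append_nil] at this

end chi

end Crest.Agent.R188.KosG
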