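import Crest.Agent.R188.Tri5

/-!
# R188, block FLAG DATA (helper645), part 6: the absolute integral closure of `B` maps to every
absolutely integrally closed ring over `B`
-/

set_option autoImplicit false

namespace Crest.Agent.R188.Tri

universe u v w

section

variable (B : Type u) [CommRing B] [IsDomain B]

/-- an algebraic closure of the fraction field -/
abbrev FB : Type u := AlgebraicClosure (FractionRing B)

/-- the absolute integral closure of `B` -/
abbrev BPlus : Type u := integralClosure B (FB B)

instance : FaithfulSMul B (FB B) := by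
  rw [faithfulSMul_iff_algebraMap_injective, IsScalarTower.algebraMap_eq B (FractionRing B) (FB B)]
  exact (algebraMap (FractionRing B) (FB B)).injective.comp (IsFractionRing.injective B _)

instance : Algebra.IsAlgebraic B (FB B) :=
  (IsFractionRing.comap_isAlgebraic_iff (A := B) (K := FractionRing B) (C := FB B)).2 inferInstance

theorem bPlus_injective : Function.Injective (algebraMap B (BPlus B)) := by
  intro x y h
  apply FaithfulSMul.algebraMap_injective B (FB B)
  have := congrArg (algebraMap (BPlus B) (FB B)) h
  rwa [← IsScalarTower.algebraMap_apply, ← IsScalarTower.algebraMap_apply] at this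

/-- `B⁺` maps (over `B`) to every ring `T` which is the integral closure of a `B`-algebra in an
algebraically closed field `K`, `B → K` injective. -/
theorem exists_bPlus_hom {A : Type v} [CommRing A] [Algebra B A] {K : Type w} [Field K]
    [IsAlgClosed K] [Algebra A K] [Algebra B K] [IsScalarTower B A K]
    (hinj : Function.Injective (algebraMap B K)) :
    ∃ φ : BPlus B →ₐ[B] K, Function.Injective φ ∧ ∀ x, IsIntegral A (φ x) := by
  have h1 : FaithfulSMul B K := (faithfulSMul_iff_algebraMap_injective B K).2 hinj
  let ψ : FB B →ₐ[B] K := IsAlgClosed.lift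
  refine ⟨ψ.comp (IsScalarTower.toAlgHom B (BPlus B) (FB B)), ?_, fun x => ?_⟩
  · exact (ψ : FB B →+* K).injective.comp Subtype.val_injective
  · have h2 : IsIntegral B ((x : FB B)) := x.2
    exact (h2.map ψ).tower_top

/-- the same with values in the integral closure of `A` in `K` (as a `B`-algebra map) -/
theorem exists_bPlus_hom' {A : Type v} [CommRing A] [Algebra B A] {K : Type w} [Field K]
    [IsAlgClosed K] [Algebra A K] [Algebra B K] [IsScalarTower B A K]
    (hinj : Function.Injective (algebraMap B K)) :
    ∃ φ : BPlus B →+* integralClosure A K, Function.Injective φ ∧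
      ∀ b : B, φ (algebraMap B (BPlus B) b) =
        algebraMap A (integralClosure A K) (algebraMap B A b) := by
  obtain ⟨φ, hφ, hint⟩ := exists_bPlus_hom B (A := A) hinj
  refine ⟨(φ : BPlus B →+* K).codRestrict (integralClosure A K).toSubring hint, ?_, fun b => ?_⟩
  · intro x y h
    exact hφ (congrArg Subtype.val h)
  · apply Subtype.ext
    change φ (algebraMap B (BPlus B) b) = algebraMap A K (algebraMap B A b)
    rw [AlgHom.commutes, ← IsScalarTower.algebraMap_apply]

end

section

variable {B : Type u} [CommRing B] [IsDomain B] {S : Type v} [CommRing S] [Algebra B S]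
  [Algebra.IsIntegral B S]

/-- flag data with values in `BPlus B` -/
theorem exists_isFlag_bPlus {r : ℕ} (ρ : S →ₐ[B] Matrix (Fin r) (Fin r) B) :
    ∃ (L : Matrix (Fin r) (Fin r) (BPlus B)) (γ : Fin r → S →ₐ[B] BPlus B), IsFlag ρ L γ :=
  exists_isFlag (FB B) (BPlus B) ρ

theorem bPlus_exists_mul {c : BPlus B} (hc : c ≠ 0) :
    ∃ (c' : BPlus B) (b : B), b ≠ 0 ∧ c * c' = algebraMap B (BPlus B) b :=
  exists_mul_eq_algebraMap (FB B) hc

theorem bPlus_isSMulRegular {X : Type*} [AddCommGroup X] [Module (BPlus B) X]
    (h : ∀ b : B, b ≠ 0 → IsSMulRegular X (algebraMap B (BPlus B) b)) {c : BPlus B} (hc : c ≠ 0) :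
    IsSMulRegular X c := isSMulRegular_of_ne_zero (FB B) h hc

end

end Crest.Agent.R188.Tri
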