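import Crest.Agent.R188.Wit2
import Crest.Agent.R188.KosC
import Crest.Agent.R188.Tri6
import Crest.Agent.R183.AddLenInst
import Crest.Agent.R183.WBound
import Crest.Agent.R183.Cic

/-!
# R188, assembly (helper702), part 1: the interface `World`

`B = W(k)[[X_1..X_b]]` (`dim B = b + 1`), `B^+ = ` integral closure of `B` in an algebraic closure of
`Frac B`, a perfectoid ring `Ω = W(P)/ξ` that receives `B^+`, and an additive length `Λ` on
`W(P)`-modules.
-/

set_option autoImplicit false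

namespace Crest.Agent.R188.Asm

open WittVector Crest.Agent.R183 Crest.Agent.R188.Prf Crest.Agent.R188.Wit
open scoped ENNReal

section defs

variable (p : ℕ) [hp : Fact p.Prime] (k : Type) [Field k] (b : ℕ)

/-- `B = W(k)[[X_1..X_b]]`. -/
abbrev BB : Type := MvPowerSeries (Fin b) (WittVector p k)

/-- `(p, X_1, …, X_b)` -/
noncomputable def tB : Fin (b + 1) → BB p k b := Fin.cons (p : BB p k b) MvPowerSeries.X

variable [CharP k p]

/-- `B^+` -/
abbrev BPlus : Type := Tri.BPlus (BB p k b)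

end defs

section sharp

variable {p : ℕ} [hp : Fact p.Prime] {P : Type} [CommRing P] (h : IsPerf p P)
  {ξ : WittVector p P} {A : Type} [CommRing A] (ι : A →+* Om ξ)

/-- `(a, r)` is a sharp pair: `r` is a compatible system of `p`-power roots in `A` and
`(a^{1/p^n})^♯ = ι (r n)`. -/
def SharpPair (a : P) (r : ℕ → A) : Prop :=
  (∀ n, r (n + 1) ^ p = r n) ∧ ∀ n, sh ξ (h.rtn n a) = ι (r n)

end sharp

/-- the length on `P`-modules defined by a length on `W(P)`-modules -/
noncomputable abbrev LP {p : ℕ} [hp : Fact p.Prime] {P : Type} [CommRing P]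
    (Λ : AddLen.{0, 0} (WittVector p P)) : AddLen.{0, 0} P :=
  Λ.restrict (constantCoeff (p := p) (R := P))

/-- the length on `Ω`-modules defined by a length on `W(P)`-modules -/
noncomputable abbrev LOm {p : ℕ} [hp : Fact p.Prime] {P : Type} [CommRing P] (ξ : WittVector p P)
    (Λ : AddLen.{0, 0} (WittVector p P)) : AddLen.{0, 0} (Om ξ) :=
  Λ.restrict (θ ξ)

/-- **the world**: the interface between the construction of `(Ω, Λ)` and its use. -/
structure World (p : ℕ) [hp : Fact p.Prime] (k : Type) [Field k] [CharP k p]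
    (b : ℕ) where
  /-- the perfect ring -/
  P : Type
  [ringP : CommRing P]
  perf : IsPerf p P
  /-- `p^♭` -/
  π : P
  /-- the distinguished element -/
  ξ : WittVector p P
  dist : IsDist ξ π
  complete : IsAdicComplete (Ideal.span {π}) P
  π_reg : ∀ x : P, π * x = 0 → x = 0
  /-- `B^+ → Ω` -/
  ι : BPlus p k b →+* Om ξ
  exists_sharp : ∀ r : ℕ → BPlus p k b, (∀ n, r (n + 1) ^ p = r n) →
    ∃ a : P, SharpPair perf ι a r
  reg_ι : ∀ c : BPlus p k b, c ≠ 0 → ∀ x : Om ξ, ι c * x = 0 → x = 0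
  reg_sharp : ∀ (a : P) (r : ℕ → BPlus p k b), SharpPair perf ι a r → r 0 ≠ 0 →
    ∀ x : P, a * x = 0 → x = 0
  /-- `(p^♭, X_1^♭, …, X_b^♭)` -/
  t : Fin (b + 1) → P
  /-- `p`-power roots of `(p, X_1, …, X_b)` -/
  tr : Fin (b + 1) → ℕ → BPlus p k b
  t_sharp : ∀ i, SharpPair perf ι (t i) (tr i)
  tr_zero : ∀ i, tr i 0 = algebraMap (BB p k b) (BPlus p k b) (tB p k b i)
  t_zero : Associated (t 0) π
  t_jac : ∀ i, t i ∈ Ideal.jacobson (⊥ : Ideal P)
  /-- the length on `W(P)`-modules -/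
  Λ : AddLen.{0, 0} (WittVector p P)
  cont : WG.Cont Λ
  /-- Frobenius -/
  frob : ∀ (Y Y' : Type) [AddCommGroup Y] [Module P Y] [AddCommGroup Y'] [Module P Y'] (e : Y ≃+ Y'),
    (∀ (a : P) (y : Y), e (a • y) = a ^ p • e y) →
      (LP Λ).L Y' = (p : ℝ≥0∞) ^ (b + 1) * (LP Λ).L Y
  /-- the null modules -/
  null : ∀ (a : P) (r : ℕ → BPlus p k b), SharpPair perf ι a r → r 0 ≠ 0 →
    ∀ (X : Type) [AddCommGroup X] [Module (WittVector p P) X],
      (∀ x : X, ∃ N : ℕ, (p : WittVector p P) ^ N • x = 0 ∧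
        ∀ i, teichmuller p (t i) ^ N • x = 0) →
      (∀ (n : ℕ) (x : X), teichmuller p (perf.rtn n a) • x = 0) → Λ.L X = 0
  L_ne_top : (LP Λ).L (P ⧸ Ideal.span (Set.range t)) ≠ ⊤
  L_ne_zero : (LP Λ).L (P ⧸ Ideal.span (Set.range t)) ≠ 0
  L_reg : ∀ i : ℤ, 1 ≤ i → KosG.kh (LP Λ) (List.ofFn t) P i = 0

end Crest.Agent.R188.Asm
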