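import Crest.Agent.R188.Apl5
import Crest.Agent.R188.Asm1

/-!
R188 / Apl6 : the completed base `A = Ω₀ = (B_∞)^` and all ring fields of `Asm.World`.
Author: helper245.
-/

set_option autoImplicit false
set_option linter.unusedSectionVars false

namespace Crest.Agent.R188.Apl

open WittVector Crest.Agent.R183 Crest.Agent.R183.BInf
open Crest.Agent.R183.Om (PData Reg RegMod IsCompl)
open Crest.Agent.R183.Cic (CIC)
open Crest.Agent.R188.Prf (IsPerf)
open Crest.Agent.R188.Wit (IsDist θ)
open Crest.Agent.R188.Asm (BB BPlus tB SharpPair)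

/-! ### `B_∞` is integral over `B` -/

section Int

variable {d : ℕ} {p : ℕ} [hpr : Fact p.Prime] {B : Type*} [CommRing B] {t : Fin d → B}

theorem isIntegral_BInf : Algebra.IsIntegral B (BInf p t) := by
  refine ⟨fun x => ?_⟩
  obtain ⟨e, he⟩ := exists_mem_SA p t hpr.out.pos x
  obtain ⟨c, rfl⟩ := exists_sum_level p t hpr.out.pos e x he
  refine IsIntegral.sum _ fun j _ => ?_
  refine IsIntegral.smul _ ?_
  refine IsIntegral.of_pow (n := p ^ e) (Nat.pow_pos hpr.out.pos) ?_
  rw [mon_ex_pow]
  exact isIntegral_algebraMap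

end Int

section Base

variable (p : ℕ) [hp : Fact p.Prime] (k : Type) [Field k] (b : ℕ)

/-- `B_∞` for `B = W(k)[[X_1..X_b]]`, `t = (p, X_1, …, X_b)` -/
abbrev BI : Type := BInf p (tb b p (WittVector p k))

/-- `ϖ_e = p^{1/p^e}` in `B_∞` -/
noncomputable def ϖI (e : ℕ) : BI p k b := rt p (tb b p (WittVector p k)) hp.out.pos e 0

/-- the completed base `A = (B_∞)^` -/
structure IsBase (A : Type) [CommRing A] [Algebra (BI p k b) A] [Algebra (BB p k b) A]
    (ϖ : ℕ → A) : Prop where
  ϖ_eq : ∀ e, ϖ e = algebraMap (BI p k b) A (ϖI p k b e)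
  compl : IsCompl (p : BI p k b) (algebraMap (BI p k b) A)
  complete : IsAdicComplete (Ideal.span {(p : A)}) A
  pdata : PData p A ϖ
  reg : Reg (p : A)
  nonunit : ¬ IsUnit (p : A)
  model : Nonempty (Env.Model p A ϖ)
  dom : IsDomain A
  normal : IsIntegrallyClosed A
  cic : CIC A
  fac : ∀ a : A, a ≠ 0 → ∃ (e i m : ℕ) (D : A), a = ϖ e ^ i * D ∧ a * ϖ e ^ m = (p : A) ^ i * D ∧
    RegMod D (p : A)
  tower : IsScalarTower (BB p k b) (BI p k b) A
  regB : ∀ D : BB p k b, ¬ (p : BB p k b) ∣ D → RegMod (algebraMap (BB p k b) A D) (p : A)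
  injB : Function.Injective (algebraMap (BB p k b) A)
  jac : ∀ i, algebraMap (BB p k b) A (tB p k b i) ∈ (⊥ : Ideal A).jacobson

theorem exists_isBase [CharP k p] [PerfectRing k p] :
    ∃ (A : Type) (_ : CommRing A) (_ : Algebra (BI p k b) A) (_ : Algebra (BB p k b) A)
      (ϖ : ℕ → A), IsBase p k b A ϖ := by
  have hpb := pbasis_witt b p k
  obtain ⟨A, _, _, P, _, _, _, θ₀, π, hcompl, hd, hreg, hc, hu, hsurj, hker, hπ, hπu, -, hsh, -,
    hregmod⟩ := Env.exists_base hpb.pdata hpb.not_isUnit
  let _ : Algebra (BB p k b) A :=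
    ((algebraMap (BI p k b) A).comp (algebraMap (BB p k b) (BI p k b))).toAlgebra
  have htower : IsScalarTower (BB p k b) (BI p k b) A := ⟨fun x y z => by
    have h1 : x • y = algebraMap (BB p k b) (BI p k b) x * y := Algebra.smul_def x y
    have h2 : (algebraMap (BB p k b) (BI p k b) x * y) • z =
        algebraMap (BI p k b) A (algebraMap (BB p k b) (BI p k b) x * y) * z := Algebra.smul_def _ _
    have h3 : y • z = algebraMap (BI p k b) A y * z := Algebra.smul_def _ _
    have h4 : x • (y • z) = algebraMap (BB p k b) A x * (y • z) := Algebra.smul_def _ _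
    rw [h1, h2, h4, h3, map_mul, mul_assoc]
    rfl⟩
  have L := (lev_witt b p k).compl hcompl
  have hdom : IsDomain A := L.isDomain
  refine ⟨A, inferInstance, inferInstance, inferInstance,
    fun e => algebraMap (BI p k b) A (ϖI p k b e),
    { ϖ_eq := fun e => rfl
      compl := hcompl
      complete := hc
      pdata := hd
      reg := hreg
      nonunit := hu
      model := ⟨⟨P, θ₀, π, hsurj, hker, hπ, hπu, hsh⟩⟩
      dom := hdom
      normal := L.isIntegrallyClosed
      cic := L.cicR
      fac := fun a ha => L.fac ha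
      tower := htower
      regB := fun D hD => hregmod _ (regMod_algebraMap (regMod_witt hD))
      injB := ?_
      jac := ?_ }⟩
  · rw [injective_iff_map_eq_zero]
    intro x hx
    by_contra hx0
    -- `x = p ^ i x₀`
    have hsep : ∃ i x₀, x = (p : BB p k b) ^ i * x₀ ∧ ¬ (p : BB p k b) ∣ x₀ := by
      by_contra hcon
      push Not at hcon
      have h1 : ∀ i : ℕ, (p : BB p k b) ^ i ∣ x := by
        intro i
        induction i with
        | zero => simp
        | succ i ih =>
          obtain ⟨y, hy⟩ := ih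
          obtain ⟨z, hz⟩ := hcon i y hy
          exact ⟨z, by rw [hy, hz]; ring⟩
      apply hx0
      refine MvPowerSeries.ext fun m => ?_
      rw [map_zero]
      refine Om.W_sep fun i => ?_
      have h2 := h1 i
      rw [← Nat.cast_pow, natCast_dvd_iff_coeff] at h2
      simpa using h2 m
    obtain ⟨i, x₀, rfl, hx₀⟩ := hsep
    rw [map_mul, map_pow, map_natCast] at hx
    have h3 : algebraMap (BB p k b) A x₀ = 0 := by
      have : ∀ (i : ℕ) (y : A), (p : A) ^ i * y = 0 → y = 0 := by
        intro i
        induction i with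
        | zero => intro y hy; simpa using hy
        | succ i ih =>
          intro y hy
          rw [pow_succ, mul_assoc] at hy
          exact hreg _ (ih _ hy)
      exact this i _ hx
    have h4 : RegMod (algebraMap (BB p k b) A x₀) (p : A) :=
      hregmod _ (regMod_algebraMap (regMod_witt hx₀))
    rw [h3] at h4
    have h5 := h4 1 (by rw [zero_mul]; exact dvd_zero _)
    exact hu (isUnit_of_dvd_one h5)
  · intro i
    have h1 : tB p k b i ∈ (⊥ : Ideal (BB p k b)).jacobson := by
      rw [IsLocalRing.jacobson_eq_maximalIdeal ⊥ bot_ne_top]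
      exact tb_mem_maximalIdeal b p k i
    have : Algebra.IsIntegral (BB p k b) (BI p k b) := isIntegral_BInf
    exact IsCompl.jac hcompl (jac_of_isIntegral h1)

end Base

end Crest.Agent.R188.Apl
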