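import Crest.Agent.R188.Apl6

/-!
R188 / Apl7 : the ring fields of `Asm.World` from the completed base `A` and an algebraically closed
field `F ⊇ A`.   Author: helper245.
-/

set_option autoImplicit false
set_option linter.unusedSectionVars false

namespace Crest.Agent.R188.Apl

open WittVector Crest.Agent.R183 Crest.Agent.R183.BInf
open Crest.Agent.R183.Om (PData Reg RegMod IsCompl)
open Crest.Agent.R183.Cic (CIC)
open Crest.Agent.R188.Prf (IsPerf)
open Crest.Agent.R188.Wit (IsDist θ)
open Crest.Agent.R188.Asm (BB BPlus tB SharpPair)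

section Ratio

variable {A : Type*} [CommRing A] [IsDomain A] {F : Type*} [Field F] [Algebra A F]

/-- two root systems of the same element `≠ 0` differ by a unit root system -/
theorem exists_ratio {p : ℕ} [hp : Fact p.Prime] {s u : ℕ → integralClosure A F}
    (hs : ∀ n, s (n + 1) ^ p = s n) (hu : ∀ n, u (n + 1) ^ p = u n) (h0 : s 0 = u 0)
    (hne : s 0 ≠ 0) :
    ∃ ε ε' : ℕ → integralClosure A F, (∀ n, ε (n + 1) ^ p = ε n) ∧ (∀ n, ε' (n + 1) ^ p = ε' n) ∧
      (∀ n, s n * ε n = u n) ∧ ∀ n, ε n * ε' n = 1 := by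
  have hpow : ∀ (v : ℕ → integralClosure A F), (∀ n, v (n + 1) ^ p = v n) →
      ∀ n, v n ^ p ^ n = v 0 := by
    intro v hv n
    induction n with
    | zero => simp
    | succ n ih => rw [pow_succ', pow_mul, hv, ih]
  have hpowF : ∀ (v : ℕ → integralClosure A F), (∀ n, v (n + 1) ^ p = v n) →
      ∀ n, (v n : F) ^ p ^ n = (v 0 : F) := fun v hv n => congrArg Subtype.val (hpow v hv n)
  have hsucc : ∀ (v : ℕ → integralClosure A F), (∀ n, v (n + 1) ^ p = v n) →
      ∀ n, (v (n + 1) : F) ^ p = (v n : F) := fun v hv n => congrArg Subtype.val (hv n)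
  have hs0 : ((s 0 : integralClosure A F) : F) ≠ 0 := fun h => hne (Subtype.ext h)
  have hsn : ∀ n, (s n : F) ≠ 0 := by
    intro n h
    have := hpowF s hs n
    rw [h, zero_pow (pow_ne_zero _ hp.out.ne_zero)] at this
    exact hs0 this.symm
  have h0F : ((s 0 : integralClosure A F) : F) = (u 0 : F) := by rw [h0]
  have hun : ∀ n, (u n : F) ≠ 0 := by
    intro n h
    have := hpowF u hu n
    rw [h, zero_pow (pow_ne_zero _ hp.out.ne_zero), ← h0F] at this
    exact hs0 this.symm
  have hint : ∀ (v w : ℕ → integralClosure A F), (∀ n, v (n + 1) ^ p = v n) →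
      (∀ n, w (n + 1) ^ p = w n) → ((v 0 : integralClosure A F) : F) = (w 0 : F) →
      (∀ n, (w n : F) ≠ 0) → ∀ n, IsIntegral A ((v n : F) / (w n : F)) := by
    intro v w hv hw hvw hwn n
    refine IsIntegral.of_pow (n := p ^ n) (Nat.pow_pos hp.out.pos) ?_
    rw [div_pow, hpowF v hv, hpowF w hw, hvw, div_self]
    · exact isIntegral_one
    · exact hwn 0
  refine ⟨fun n => ⟨(u n : F) / (s n : F), hint u s hu hs h0F.symm hsn n⟩,
    fun n => ⟨(s n : F) / (u n : F), hint s u hs hu h0F hun n⟩, fun n => Subtype.ext ?_,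
    fun n => Subtype.ext ?_, fun n => Subtype.ext ?_, fun n => Subtype.ext ?_⟩
  · change ((u (n + 1) : F) / (s (n + 1) : F)) ^ p = (u n : F) / (s n : F)
    rw [div_pow, hsucc u hu, hsucc s hs]
  · change ((s (n + 1) : F) / (u (n + 1) : F)) ^ p = (s n : F) / (u n : F)
    rw [div_pow, hsucc u hu, hsucc s hs]
  · change (s n : F) * ((u n : F) / (s n : F)) = (u n : F)
    have := hsn n
    field_simp
  · change ((u n : F) / (s n : F)) * ((s n : F) / (u n : F)) = 1
    have := hsn n
    have := hun n
    field_simp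

end Ratio

section World

/-- **the ring fields of the world**, over the completed base `A`, `A⁺ = integralClosure A F` -/
structure RWorld (p : ℕ) [hp : Fact p.Prime] (k : Type) [Field k] [CharP k p] (b : ℕ)
    (A : Type) [CommRing A] [Algebra (BB p k b) A] (ϖ : ℕ → A) (F : Type) [Field F]
    [Algebra A F] where
  /-- the perfect ring -/
  P : Type
  [ringP : CommRing P]
  perf : IsPerf p P
  /-- `p^♭` -/
  π : P
  /-- the distinguished element -/
  ξ : WittVector p P
  dist : IsDist ξ π
  complete : IsAdicComplete (Ideal.span {π}) P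
  π_reg : ∀ x : P, π * x = 0 → x = 0
  π_nonunit : ¬ IsUnit π
  /-- `A⁺ → Ω` -/
  j : integralClosure A F →+* Wit.Om ξ
  compl : IsCompl (p : integralClosure A F) j
  reg_p : Reg (p : Wit.Om ξ)
  ϖ_sharp : ∀ n, Wit.sh ξ (perf.rtn n π) = j (algebraMap A (integralClosure A F) (ϖ n))
  exists_sharp_j : ∀ r : ℕ → integralClosure A F, (∀ n, r (n + 1) ^ p = r n) →
    ∃ a : P, ∀ n, Wit.sh ξ (perf.rtn n a) = j (r n)
  reg_j : ∀ c : integralClosure A F, c ≠ 0 → ∀ x : Wit.Om ξ, j c * x = 0 → x = 0
  reg_sharp_j : ∀ (a : P) (r : ℕ → integralClosure A F), (∀ n, r (n + 1) ^ p = r n) →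
    (∀ n, Wit.sh ξ (perf.rtn n a) = j (r n)) → r 0 ≠ 0 → ∀ x : P, a * x = 0 → x = 0
  regMod_j : ∀ D : A, RegMod D (p : A) →
    RegMod (j (algebraMap A (integralClosure A F) D)) (p : Wit.Om ξ)
  /-- `B⁺ → A⁺` -/
  φ : BPlus p k b →+* integralClosure A F
  φ_inj : Function.Injective φ
  φ_alg : ∀ x : BB p k b, φ (algebraMap (BB p k b) (BPlus p k b) x) =
    algebraMap A (integralClosure A F) (algebraMap (BB p k b) A x)
  /-- `(p^♭, X_1^♭, …, X_b^♭)` -/
  t : Fin (b + 1) → P
  /-- `p`-power roots of `(p, X_1, …, X_b)` -/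
  tr : Fin (b + 1) → ℕ → BPlus p k b
  t_sharp : ∀ i, SharpPair perf (j.comp φ) (t i) (tr i)
  tr_zero : ∀ i, tr i 0 = algebraMap (BB p k b) (BPlus p k b) (tB p k b i)
  t_zero : Associated (t 0) π
  t_jac : ∀ i, t i ∈ Ideal.jacobson (⊥ : Ideal P)
  exists_sharp : ∀ r : ℕ → BPlus p k b, (∀ n, r (n + 1) ^ p = r n) →
    ∃ a : P, SharpPair perf (j.comp φ) a r
  reg_ι : ∀ c : BPlus p k b, c ≠ 0 → ∀ x : Wit.Om ξ, (j.comp φ) c * x = 0 → x = 0
  reg_sharp : ∀ (a : P) (r : ℕ → BPlus p k b), SharpPair perf (j.comp φ) a r → r 0 ≠ 0 →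
    ∀ x : P, a * x = 0 → x = 0

variable {p : ℕ} [hp : Fact p.Prime] {k : Type} [Field k] [CharP k p] {b : ℕ}
  {A : Type} [CommRing A] [Algebra (BI p k b) A] [Algebra (BB p k b) A] {ϖ : ℕ → A}
  {F : Type} [Field F] [Algebra A F]

theorem IsBase.nonempty_rworld (hA : IsBase p k b A ϖ) [IsAlgClosed F] [FaithfulSMul A F] :
    Nonempty (RWorld p k b A ϖ F) := by
  have hdom := hA.dom
  have hnor := hA.normal
  have hpA : (p : A) ≠ 0 := by
    intro h
    have := hA.reg 1 (by rw [h, zero_mul])
    exact one_ne_zero this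
  have hpd : PData p (integralClosure A F) (fun e => algebraMap A (integralClosure A F) (ϖ e)) :=
    pdata_plus hA.pdata.zero hA.pdata.roots hpA
  have hpR : (p : integralClosure A F) ≠ 0 := plus_natCast_ne_zero hpA
  have hpreg : Reg (p : integralClosure A F) := fun x hx => (mul_eq_zero.1 hx).resolve_left hpR
  have hpu : ¬ IsUnit (p : integralClosure A F) := by
    rw [← map_natCast (algebraMap A (integralClosure A F)) p, plus_isUnit_iff]
    exact hA.nonunit
  obtain ⟨P, _, h, π, ξ, j, hξ, hPc, hπ, hπu, hcompl, hregp, hϖ, hroots⟩ :=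
    exists_tilt_om hpd hpu
  have hregD : ∀ D : A, RegMod D (p : A) →
      RegMod (algebraMap A (integralClosure A F) D) (p : integralClosure A F) := by
    intro D hD
    have := regMod_integralClosure (L := F) hpA hD
    rwa [map_natCast] at this
  have hjp : j (p : integralClosure A F) = (p : Wit.Om ξ) := map_natCast j p
  have regj : ∀ c : integralClosure A F, c ≠ 0 → ∀ x : Wit.Om ξ, j c * x = 0 → x = 0 := by
    intro c hc x hx
    obtain ⟨c', a, ha, hca⟩ := plus_exists_mul (A := A) hc
    obtain ⟨e, i, m, D, -, hD, hDreg⟩ := hA.fac a ha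
    have h1 : j (algebraMap A (integralClosure A F) (a * ϖ e ^ m)) * x = 0 := by
      rw [map_mul, ← hca, map_mul, map_mul]
      linear_combination j c' * j (algebraMap A (integralClosure A F) (ϖ e ^ m)) * hx
    rw [hD, map_mul, map_mul, map_pow, map_natCast, map_pow, hjp, mul_assoc] at h1
    have h2 : ∀ (i : ℕ) (y : Wit.Om ξ), (p : Wit.Om ξ) ^ i * y = 0 → y = 0 := by
      intro i
      induction i with
      | zero => intro y hy; simpa using hy
      | succ i ih =>
        intro y hy
        rw [pow_succ, mul_assoc] at hy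
        exact hregp _ (ih _ hy)
    exact (IsCompl.reg_of_regMod hcompl hpreg (hregD D hDreg)) x (h2 i _ h1)
  have hsh : ∀ r : ℕ → integralClosure A F, (∀ n, r (n + 1) ^ p = r n) →
      ∃ a : P, ∀ n, Wit.sh ξ (h.rtn n a) = j (r n) := fun r hr =>
    hroots (fun n => j (r n)) (fun n => by rw [← map_pow, hr])
  have hregsh : ∀ (a : P) (r : ℕ → integralClosure A F), (∀ n, r (n + 1) ^ p = r n) →
      (∀ n, Wit.sh ξ (h.rtn n a) = j (r n)) → r 0 ≠ 0 → ∀ x : P, a * x = 0 → x = 0 := by
    intro a r hr har hr0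
    refine reg_of_sharp h hξ hPc fun n x hx => ?_
    rw [har] at hx
    refine regj (r n) (fun h0 => hr0 ?_) x hx
    have : ∀ n, r n ^ p ^ n = r 0 := by
      intro n
      induction n with
      | zero => simp
      | succ n ih => rw [pow_succ', pow_mul, hr, ih]
    rw [← this n, h0, zero_pow (pow_ne_zero _ hp.out.ne_zero)]
  -- the map `B⁺ → A⁺`
  let _ : Algebra (BB p k b) F := ((algebraMap A F).comp (algebraMap (BB p k b) A)).toAlgebra
  have : IsScalarTower (BB p k b) A F := IsScalarTower.of_algebraMap_eq fun x => rfl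
  have hinj : Function.Injective (algebraMap (BB p k b) F) :=
    (FaithfulSMul.algebraMap_injective A F).comp hA.injB
  obtain ⟨φ, hφ, hφB⟩ := Tri.exists_bPlus_hom' (BB p k b) (A := A) (K := F) hinj
  choose tr htr0 htr using fun i : Fin (b + 1) =>
    plus_exists_roots (A := BB p k b) (F := Tri.FB (BB p k b))
      (algebraMap (BB p k b) (BPlus p k b) (tB p k b i)) p hp.out.pos
  have hex : ∀ r : ℕ → BPlus p k b, (∀ n, r (n + 1) ^ p = r n) →
      ∃ a : P, SharpPair h (j.comp φ) a r := by
    intro r hr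
    obtain ⟨a, ha⟩ := hsh (fun n => φ (r n)) (fun n => by rw [← map_pow, hr])
    exact ⟨a, hr, ha⟩
  choose t ht using fun i => hex (tr i) (htr i)
  refine ⟨{ P := P
            perf := h
            π := π
            ξ := ξ
            dist := hξ
            complete := hPc
            π_reg := hπ
            π_nonunit := hπu
            j := j
            compl := hcompl
            reg_p := hregp
            ϖ_sharp := hϖ
            exists_sharp_j := hsh
            reg_j := regj
            reg_sharp_j := hregsh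
            regMod_j := ?_
            φ := φ
            φ_inj := hφ
            φ_alg := hφB
            t := t
            tr := tr
            t_sharp := ht
            tr_zero := htr0
            t_zero := ?_
            t_jac := ?_
            exists_sharp := hex
            reg_ι := ?_
            reg_sharp := ?_ }⟩
  · intro D hD
    have := hcompl.regMod (hregD D hD)
    rwa [hjp] at this
  · -- `t 0` and `π` are associated
    have hs : ∀ n, φ (tr 0 (n + 1)) ^ p = φ (tr 0 n) := fun n => by rw [← map_pow, htr]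
    have hu : ∀ n, (algebraMap A (integralClosure A F) (ϖ (n + 1))) ^ p =
        algebraMap A (integralClosure A F) (ϖ n) := hpd.roots
    have h00 : φ (tr 0 0) = (p : integralClosure A F) := by
      rw [htr0, hφB]
      have : tB p k b 0 = (p : BB p k b) := rfl
      rw [this, map_natCast, map_natCast]
    have h0 : φ (tr 0 0) = algebraMap A (integralClosure A F) (ϖ 0) := by
      rw [h00, hA.pdata.zero, map_natCast]
    obtain ⟨ε, ε', hε, hε', hsε, hεε'⟩ := exists_ratio (s := fun n => φ (tr 0 n))
      (u := fun n => algebraMap A (integralClosure A F) (ϖ n)) hs hu h0 (by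
        change φ (tr 0 0) ≠ 0
        rw [h00]; exact hpR)
    obtain ⟨a, ha⟩ := hsh ε hε
    obtain ⟨a', ha'⟩ := hsh ε' hε'
    have haa : a * a' = 1 := by
      refine eq_of_sh h hξ hPc fun n => ?_
      rw [h.rtn_mul, Wit.sh_mul, ha, ha', ← map_mul, hεε', map_one, h.rtn_one, Wit.sh_one]
    have hta : t 0 * a = π := by
      refine eq_of_sh h hξ hPc fun n => ?_
      rw [h.rtn_mul, Wit.sh_mul, (ht 0).2 n, ha, hϖ]
      change j (φ (tr 0 n)) * j (ε n) = _
      rw [← map_mul]
      exact congrArg j (hsε n)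
    exact ⟨⟨a, a', haa, by rw [mul_comm]; exact haa⟩, hta⟩
  · intro i
    refine jac_of_sh h hξ hPc ?_
    have h1 : Wit.sh ξ (t i) = j (φ (tr i 0)) := by
      have := (ht i).2 0
      rwa [h.rtn_zero'] at this
    rw [h1, htr0, hφB]
    exact IsCompl.jac hcompl (jac_of_isIntegral (hA.jac i))
  · intro c hc x hx
    exact regj (φ c) (fun h0 => hc (hφ (by rw [h0, map_zero]))) x hx
  · rintro a r ⟨hr, har⟩ hr0
    refine hregsh a (fun n => φ (r n)) (fun n => by rw [← map_pow, hr]) har fun h0 => hr0 ?_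
    exact hφ (by rw [map_zero]; exact h0)

/-- the standard choice of `F` -/
theorem IsBase.nonempty_rworld' (hA : IsBase p k b A ϖ) [IsDomain A] :
    Nonempty (RWorld p k b A ϖ (AlgebraicClosure (FractionRing A))) :=
  hA.nonempty_rworld

end World

end Crest.Agent.R188.Apl
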