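/-
R188 (Serre positivity), block (A3): concrete complexes, homology, additive lengths, Euler
characteristic, the long exact sequence in "length form".   helper876

A complex is an unbundled family `C : ℕ → Type v` of `A`-modules with maps
`d i : C (i+1) →ₗ[A] C i`, `d i ∘ d (i+1) = 0` (`IsCx d`).  `H d i` is its homology (a concrete
`A`-module).  `Λ : AddLen A` is an additive `[0,∞]`-valued length (R183/AddLen.lean).
-/
import Crest.Agent.R183.AddLen

set_option autoImplicit false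

namespace Crest.Agent.R188.Chi

open scoped ENNReal
open Crest.Agent.R183

universe u v

section cx

variable {A : Type u} [CommRing A]
variable {C : ℕ → Type v} [∀ i, AddCommGroup (C i)] [∀ i, Module A (C i)]
variable (d : ∀ i, C (i + 1) →ₗ[A] C i)

/-- `d` is a complex -/
def IsCx : Prop := ∀ i (x : C (i + 2)), d i (d (i + 1) x) = 0

/-- cycles -/
def Z : ∀ i, Submodule A (C i)
  | 0 => ⊤
  | (i + 1) => LinearMap.ker (d i)

/-- boundaries -/
def B (i : ℕ) : Submodule A (C i) := LinearMap.range (d i)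

/-- homology of the complex `d` in degree `i` -/
abbrev H (i : ℕ) : Type v := ↥(Z d i) ⧸ (B d i).comap (Z d i).subtype

variable {d}

variable (d) in
lemma mem_Z_zero (x : C 0) : x ∈ Z d 0 := Submodule.mem_top

lemma mem_Z_succ {i : ℕ} {x : C (i + 1)} : x ∈ Z d (i + 1) ↔ d i x = 0 := Iff.rfl

lemma mem_B {i : ℕ} {x : C i} : x ∈ B d i ↔ ∃ y, d i y = x := Iff.rfl

lemma IsCx.B_le_Z (hd : IsCx d) (i : ℕ) : B d i ≤ Z d i := by
  rintro x ⟨y, rfl⟩
  cases i with
  | zero => exact mem_Z_zero d _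
  | succ i => exact hd i y

variable (d) in
/-- class of a cycle -/
def cls (i : ℕ) : ↥(Z d i) →ₗ[A] H d i := Submodule.mkQ _

lemma cls_surjective (i : ℕ) : Function.Surjective (cls d i) := Submodule.mkQ_surjective _

lemma cls_eq_zero_iff {i : ℕ} (z : ↥(Z d i)) : cls d i z = 0 ↔ (z : C i) ∈ B d i := by
  unfold cls
  rw [← LinearMap.mem_ker, Submodule.ker_mkQ]
  rfl

end cx

section functoriality

variable {A : Type u} [CommRing A]
variable {C C' C'' : ℕ → Type v} [∀ i, AddCommGroup (C i)] [∀ i, Module A (C i)]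
  [∀ i, AddCommGroup (C' i)] [∀ i, Module A (C' i)]
  [∀ i, AddCommGroup (C'' i)] [∀ i, Module A (C'' i)]
variable {d : ∀ i, C (i + 1) →ₗ[A] C i} {d' : ∀ i, C' (i + 1) →ₗ[A] C' i}
  {d'' : ∀ i, C'' (i + 1) →ₗ[A] C'' i}

/-- chain maps -/
def IsMap (d : ∀ i, C (i + 1) →ₗ[A] C i) (d' : ∀ i, C' (i + 1) →ₗ[A] C' i)
    (f : ∀ i, C i →ₗ[A] C' i) : Prop := ∀ i x, f i (d i x) = d' i (f (i + 1) x)

lemma IsMap.Z_le {f : ∀ i, C i →ₗ[A] C' i} (hf : IsMap d d' f) (i : ℕ) :
    Z d i ≤ (Z d' i).comap (f i) := by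
  intro x hx
  cases i with
  | zero => exact Submodule.mem_top
  | succ i =>
    rw [Submodule.mem_comap, mem_Z_succ, ← hf i x, mem_Z_succ.1 hx, map_zero]

/-- the induced map on cycles -/
def Zmap {f : ∀ i, C i →ₗ[A] C' i} (hf : IsMap d d' f) (i : ℕ) : ↥(Z d i) →ₗ[A] ↥(Z d' i) :=
  (f i).restrict (hf.Z_le i)

@[simp] lemma Zmap_coe {f : ∀ i, C i →ₗ[A] C' i} (hf : IsMap d d' f) (i : ℕ) (z : ↥(Z d i)) :
    ((Zmap hf i z : ↥(Z d' i)) : C' i) = f i z := rfl

/-- the induced map on homology -/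
def Hmap {f : ∀ i, C i →ₗ[A] C' i} (hf : IsMap d d' f) (i : ℕ) : H d i →ₗ[A] H d' i :=
  Submodule.mapQ _ _ (Zmap hf i) (by
    rintro z ⟨y, hy⟩
    exact ⟨f (i + 1) y, by rw [← hf i y, hy]; rfl⟩)

@[simp] lemma Hmap_cls {f : ∀ i, C i →ₗ[A] C' i} (hf : IsMap d d' f) (i : ℕ) (z : ↥(Z d i)) :
    Hmap hf i (cls d i z) = cls d' i (Zmap hf i z) := rfl

lemma IsMap.comp {f : ∀ i, C i →ₗ[A] C' i} {g : ∀ i, C' i →ₗ[A] C'' i} (hf : IsMap d d' f)
    (hg : IsMap d' d'' g) : IsMap d d'' (fun i => g i ∘ₗ f i) := fun i x => by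
  simp only [LinearMap.comp_apply]; rw [hf, hg]

lemma IsMap.id : IsMap d d (fun _ => LinearMap.id) := fun _ _ => rfl

lemma Hmap_comp {f : ∀ i, C i →ₗ[A] C' i} {g : ∀ i, C' i →ₗ[A] C'' i} (hf : IsMap d d' f)
    (hg : IsMap d' d'' g) (i : ℕ) (x : H d i) :
    Hmap (hf.comp hg) i x = Hmap hg i (Hmap hf i x) := by
  obtain ⟨z, rfl⟩ := cls_surjective i x
  rfl

lemma Hmap_id (i : ℕ) (x : H d i) : Hmap (IsMap.id (d := d)) i x = x := by
  obtain ⟨z, rfl⟩ := cls_surjective i x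
  rfl

lemma Hmap_congr {f g : ∀ i, C i →ₗ[A] C' i} (hf : IsMap d d' f) (hg : IsMap d d' g)
    (h : f = g) (i : ℕ) (x : H d i) : Hmap hf i x = Hmap hg i x := by
  subst h; rfl

/-- two chain maps are homotopic -/
def Htpy (d : ∀ i, C (i + 1) →ₗ[A] C i) (d' : ∀ i, C' (i + 1) →ₗ[A] C' i)
    (f g : ∀ i, C i →ₗ[A] C' i) (s : ∀ i, C i →ₗ[A] C' (i + 1)) : Prop :=
  (∀ x, f 0 x - g 0 x = d' 0 (s 0 x)) ∧
    ∀ i x, f (i + 1) x - g (i + 1) x = d' (i + 1) (s (i + 1) x) + s i (d i x)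

lemma Hmap_eq_of_htpy {f g : ∀ i, C i →ₗ[A] C' i} (hf : IsMap d d' f) (hg : IsMap d d' g)
    {s : ∀ i, C i →ₗ[A] C' (i + 1)} (hs : Htpy d d' f g s) (i : ℕ) (x : H d i) :
    Hmap hf i x = Hmap hg i x := by
  obtain ⟨z, rfl⟩ := cls_surjective i x
  rw [Hmap_cls, Hmap_cls, ← sub_eq_zero, ← map_sub, cls_eq_zero_iff]
  cases i with
  | zero => exact ⟨s 0 z, (hs.1 z).symm⟩
  | succ i =>
    refine ⟨s (i + 1) z, ?_⟩
    have := hs.2 i (z : C (i + 1))
    rw [mem_Z_succ.1 z.2, map_zero, add_zero] at this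
    exact this.symm

/-- homotopy equivalences give isomorphisms on homology -/
def Hequiv {f : ∀ i, C i →ₗ[A] C' i} {g : ∀ i, C' i →ₗ[A] C i} (hf : IsMap d d' f)
    (hg : IsMap d' d g) {s : ∀ i, C i →ₗ[A] C (i + 1)} {t : ∀ i, C' i →ₗ[A] C' (i + 1)}
    (hs : Htpy d d (fun i => g i ∘ₗ f i) (fun _ => LinearMap.id) s)
    (ht : Htpy d' d' (fun i => f i ∘ₗ g i) (fun _ => LinearMap.id) t) (i : ℕ) :
    H d i ≃ₗ[A] H d' i :=
  LinearEquiv.ofLinearMap (Hmap hf i) (Hmap hg i)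
    (LinearMap.ext fun x => by
      simp only [LinearMap.comp_apply, LinearMap.id_apply]
      rw [← Hmap_comp hg hf, Hmap_eq_of_htpy (hg.comp hf) IsMap.id ht, Hmap_id])
    (LinearMap.ext fun x => by
      simp only [LinearMap.comp_apply, LinearMap.id_apply]
      rw [← Hmap_comp hf hg, Hmap_eq_of_htpy (hf.comp hg) IsMap.id hs, Hmap_id])

/-- isomorphisms of complexes -/
def Hiso (e : ∀ i, C i ≃ₗ[A] C' i) (he : IsMap d d' (fun i => (e i : C i →ₗ[A] C' i))) (i : ℕ) :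
    H d i ≃ₗ[A] H d' i :=
  have he' : IsMap d' d (fun i => ((e i).symm : C' i →ₗ[A] C i)) := fun i x => by
    apply (e i).injective
    have := he i ((e (i + 1)).symm x)
    simp only [LinearEquiv.coe_coe] at this ⊢
    rw [(e i).apply_symm_apply, this, (e (i + 1)).apply_symm_apply]
  LinearEquiv.ofLinearMap (Hmap he i) (Hmap he' i)
    (LinearMap.ext fun x => by
      simp only [LinearMap.comp_apply, LinearMap.id_apply]
      rw [← Hmap_comp he' he, Hmap_congr (he'.comp he) IsMap.id (by ext i x; simp), Hmap_id])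
    (LinearMap.ext fun x => by
      simp only [LinearMap.comp_apply, LinearMap.id_apply]
      rw [← Hmap_comp he he', Hmap_congr (he.comp he') IsMap.id (by ext i x; simp), Hmap_id])

/-- if `a` is null-homotopic on `C` then `a` kills the homology -/
lemma smul_H_eq_zero (a : A) {s : ∀ i, C i →ₗ[A] C (i + 1)}
    (hs : Htpy d d (fun i => a • (LinearMap.id : C i →ₗ[A] C i)) (fun _ => 0) s) (i : ℕ)
    (x : H d i) : a • x = 0 := by
  have h1 : IsMap d d (fun i => a • (LinearMap.id : C i →ₗ[A] C i)) := fun i x => by simp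
  have h0 : IsMap d d (fun i => (0 : C i →ₗ[A] C i)) := fun i x => by simp
  have := Hmap_eq_of_htpy h1 h0 hs i x
  obtain ⟨z, rfl⟩ := cls_surjective i x
  rw [Hmap_cls, Hmap_cls] at this
  rw [← map_smul]
  have e1 : Zmap h1 i z = a • z := by ext; simp
  have e0 : Zmap h0 i z = 0 := by ext; simp
  rw [e1, e0, map_zero] at this
  exact this

end functoriality

end Crest.Agent.R188.Chi
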