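/-
R188, block (A3): the long exact homology sequence of a short exact sequence of complexes,
in the form needed for additive lengths.   helper876
-/
import Crest.Agent.R188.ChiBasic

set_option autoImplicit false

namespace Crest.Agent.R188.Chi

open scoped ENNReal
open Crest.Agent.R183

universe u v

variable {A : Type u} [CommRing A]
variable {C C' C'' : ℕ → Type v} [∀ i, AddCommGroup (C i)] [∀ i, Module A (C i)]
  [∀ i, AddCommGroup (C' i)] [∀ i, Module A (C' i)]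
  [∀ i, AddCommGroup (C'' i)] [∀ i, Module A (C'' i)]
variable {d : ∀ i, C (i + 1) →ₗ[A] C i} {d' : ∀ i, C' (i + 1) →ₗ[A] C' i}
  {d'' : ∀ i, C'' (i + 1) →ₗ[A] C'' i}

/-- short exact sequence of complexes `0 → C' → C → C'' → 0` -/
structure SES (d' : ∀ i, C' (i + 1) →ₗ[A] C' i) (d : ∀ i, C (i + 1) →ₗ[A] C i)
    (d'' : ∀ i, C'' (i + 1) →ₗ[A] C'' i) (f : ∀ i, C' i →ₗ[A] C i) (g : ∀ i, C i →ₗ[A] C'' i) :
    Prop where
  cf : IsMap d' d f
  cg : IsMap d d'' g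
  inj : ∀ i, Function.Injective (f i)
  surj : ∀ i, Function.Surjective (g i)
  exact : ∀ i, Function.Exact (f i) (g i)

variable {f : ∀ i, C' i →ₗ[A] C i} {g : ∀ i, C i →ₗ[A] C'' i}

namespace SES

/-- exactness in the middle -/
lemma exact_mid (hd : IsCx d) (S : SES d' d d'' f g) (i : ℕ) :
    Function.Exact (Hmap S.cf i) (Hmap S.cg i) := by
  intro x
  obtain ⟨z, rfl⟩ := cls_surjective i x
  rw [Hmap_cls, cls_eq_zero_iff, Zmap_coe]
  constructor
  · rintro ⟨y'', hy⟩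
    obtain ⟨y, rfl⟩ := S.surj (i + 1) y''
    rw [← S.cg i y] at hy
    obtain ⟨w, hw⟩ := (S.exact i ((z : C i) - d i y)).1 (by rw [map_sub, hy, sub_self])
    have hwZ : w ∈ Z d' i := by
      cases i with
      | zero => exact mem_Z_zero d' _
      | succ i =>
        rw [mem_Z_succ]
        apply S.inj i
        rw [S.cf i w, hw, map_sub, mem_Z_succ.1 z.2, hd i y, map_zero, sub_self]
    refine ⟨cls d' i ⟨w, hwZ⟩, ?_⟩
    rw [Hmap_cls, ← sub_eq_zero, ← map_sub, cls_eq_zero_iff]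
    refine ⟨-y, ?_⟩
    simp only [map_neg, AddSubgroupClass.coe_sub, Zmap_coe, hw]
    abel
  · rintro ⟨x', hx'⟩
    obtain ⟨z', rfl⟩ := cls_surjective i x'
    rw [Hmap_cls, ← sub_eq_zero, ← map_sub, cls_eq_zero_iff] at hx'
    obtain ⟨y, hy⟩ := hx'
    refine ⟨-g (i + 1) y, ?_⟩
    rw [map_neg, ← S.cg i y, hy]
    simp only [AddSubgroupClass.coe_sub, Zmap_coe, map_sub]
    rw [(S.exact i _).2 ⟨_, rfl⟩, zero_sub, neg_neg]

/-- the module of elements of `C (i+1)` whose image in `C''` is a cycle -/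
def W (S : SES d' d d'' f g) (i : ℕ) : Submodule A (C (i + 1)) :=
  LinearMap.ker (d'' i ∘ₗ g (i + 1))

lemma mem_W (S : SES d' d d'' f g) {i : ℕ} {c : C (i + 1)} :
    c ∈ S.W i ↔ g i (d i c) = 0 := by
  unfold W; rw [LinearMap.mem_ker, LinearMap.comp_apply, ← S.cg i c]

/-- `c ↦ f⁻¹ (d c)` on `W` -/
noncomputable def lift (S : SES d' d d'' f g) (i : ℕ) : ↥(S.W i) →ₗ[A] C' i :=
  (LinearEquiv.ofInjective (f i) (S.inj i)).symm.toLinearMap ∘ₗ
    LinearMap.codRestrict (LinearMap.range (f i)) (d i ∘ₗ (S.W i).subtype)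
      (fun c => (S.exact i _).1 (S.mem_W.1 c.2))

lemma f_lift (S : SES d' d d'' f g) (i : ℕ) (c : ↥(S.W i)) : f i (S.lift i c) = d i c := by
  have := (LinearEquiv.ofInjective (f i) (S.inj i)).apply_symm_apply
    (LinearMap.codRestrict (LinearMap.range (f i)) (d i ∘ₗ (S.W i).subtype)
      (fun c => (S.exact i _).1 (S.mem_W.1 c.2)) c)
  exact congrArg Subtype.val this

lemma lift_mem_Z (hd : IsCx d) (S : SES d' d d'' f g) (i : ℕ) (c : ↥(S.W i)) :
    S.lift i c ∈ Z d' i := by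
  cases i with
  | zero => exact mem_Z_zero d' _
  | succ i =>
    rw [mem_Z_succ]
    apply S.inj i
    rw [S.cf i, f_lift, hd i, map_zero]

/-- `W → H (C') i` -/
noncomputable def toK (hd : IsCx d) (S : SES d' d d'' f g) (i : ℕ) : ↥(S.W i) →ₗ[A] H d' i :=
  cls d' i ∘ₗ LinearMap.codRestrict (Z d' i) (S.lift i) (fun c => S.lift_mem_Z hd i c)

lemma range_toK (hd : IsCx d) (S : SES d' d d'' f g) (i : ℕ) :
    LinearMap.range (S.toK hd i) = LinearMap.ker (Hmap S.cf i) := by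
  ext x
  constructor
  · rintro ⟨c, rfl⟩
    rw [LinearMap.mem_ker]
    unfold toK
    rw [LinearMap.comp_apply, Hmap_cls, cls_eq_zero_iff]
    exact ⟨c, by simp [f_lift]⟩
  · intro hx
    obtain ⟨z, rfl⟩ := cls_surjective i x
    rw [LinearMap.mem_ker, Hmap_cls, cls_eq_zero_iff] at hx
    obtain ⟨c, hc⟩ := hx
    have hcW : c ∈ S.W i := by
      rw [mem_W, hc, Zmap_coe]
      exact (S.exact i _).2 ⟨_, rfl⟩
    refine ⟨⟨c, hcW⟩, ?_⟩
    unfold toK
    rw [LinearMap.comp_apply]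
    congr 1
    ext
    apply S.inj i
    simp only [LinearMap.codRestrict_apply, f_lift]
    exact hc

lemma ker_toK (hd : IsCx d) (S : SES d' d d'' f g) (i : ℕ) :
    LinearMap.ker (S.toK hd i) =
      (Z d (i + 1) ⊔ LinearMap.range (f (i + 1))).comap (S.W i).subtype := by
  ext c
  rw [LinearMap.mem_ker]
  unfold toK
  rw [LinearMap.comp_apply, cls_eq_zero_iff, Submodule.mem_comap]
  simp only [LinearMap.codRestrict_apply, Submodule.subtype_apply]
  constructor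
  · rintro ⟨y, hy⟩
    have h1 : d i c = d i (f (i + 1) y) := by rw [← S.f_lift i c, ← hy, S.cf i y]
    rw [Submodule.mem_sup]
    refine ⟨(c : C (i + 1)) - f (i + 1) y, ?_, f (i + 1) y, ⟨y, rfl⟩, by abel⟩
    rw [mem_Z_succ, map_sub, h1, sub_self]
  · intro h
    rw [Submodule.mem_sup] at h
    obtain ⟨z, hz, _, ⟨y, rfl⟩, hzy⟩ := h
    refine ⟨y, ?_⟩
    apply S.inj i
    rw [S.cf i y, f_lift, ← hzy, map_add, mem_Z_succ.1 hz, zero_add]

/-- `W → Z (C'') (i+1)` -/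
def toZ (S : SES d' d d'' f g) (i : ℕ) : ↥(S.W i) →ₗ[A] ↥(Z d'' (i + 1)) :=
  LinearMap.codRestrict (Z d'' (i + 1)) (g (i + 1) ∘ₗ (S.W i).subtype)
    (fun c => by
      have := c.2
      rw [mem_W, S.cg i] at this
      exact this)

lemma toZ_coe (S : SES d' d d'' f g) (i : ℕ) (c : ↥(S.W i)) :
    ((S.toZ i c : ↥(Z d'' (i + 1))) : C'' (i + 1)) = g (i + 1) (c : C (i + 1)) := rfl

/-- `W → H (C'') (i+1) / image` -/
noncomputable def toQ (S : SES d' d d'' f g) (i : ℕ) :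
    ↥(S.W i) →ₗ[A] (H d'' (i + 1) ⧸ LinearMap.range (Hmap S.cg (i + 1))) :=
  Submodule.mkQ _ ∘ₗ cls d'' (i + 1) ∘ₗ S.toZ i

lemma toQ_surjective (S : SES d' d d'' f g) (i : ℕ) : Function.Surjective (S.toQ i) := by
  intro q
  obtain ⟨x, rfl⟩ := Submodule.mkQ_surjective _ q
  obtain ⟨z, rfl⟩ := cls_surjective (i + 1) x
  obtain ⟨c, hc⟩ := S.surj (i + 1) z
  have hcW : c ∈ S.W i := by
    rw [mem_W, S.cg i, hc]; exact z.2
  refine ⟨⟨c, hcW⟩, ?_⟩
  unfold toQ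
  simp only [LinearMap.comp_apply]
  congr 2
  ext
  exact hc

lemma ker_toQ (hd : IsCx d) (S : SES d' d d'' f g) (i : ℕ) :
    LinearMap.ker (S.toQ i) =
      (Z d (i + 1) ⊔ LinearMap.range (f (i + 1))).comap (S.W i).subtype := by
  ext c
  rw [LinearMap.mem_ker]
  unfold toQ
  simp only [LinearMap.comp_apply]
  rw [← LinearMap.mem_ker, Submodule.ker_mkQ, Submodule.mem_comap]
  simp only [Submodule.subtype_apply]
  constructor
  · rintro ⟨x, hx⟩
    obtain ⟨z, rfl⟩ := cls_surjective (i + 1) x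
    rw [Hmap_cls, ← sub_eq_zero, ← map_sub, cls_eq_zero_iff] at hx
    obtain ⟨y'', hy⟩ := hx
    obtain ⟨y, rfl⟩ := S.surj (i + 2) y''
    rw [← S.cg (i + 1) y] at hy
    rw [AddSubgroupClass.coe_sub, Zmap_coe, toZ_coe] at hy
    obtain ⟨w, hw⟩ := (S.exact (i + 1) ((c : C (i + 1)) - (z - d (i + 1) y))).1 (by
      rw [map_sub, map_sub, hy]; abel)
    rw [Submodule.mem_sup]
    refine ⟨(z : C (i + 1)) - d (i + 1) y, ?_, f (i + 1) w, ⟨w, rfl⟩, by rw [hw]; abel⟩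
    rw [mem_Z_succ, map_sub, mem_Z_succ.1 z.2, hd i y, sub_zero]
  · intro h
    rw [Submodule.mem_sup] at h
    obtain ⟨z, hz, _, ⟨y, rfl⟩, hzy⟩ := h
    refine ⟨cls d (i + 1) ⟨z, hz⟩, ?_⟩
    rw [Hmap_cls]
    congr 1
    ext
    rw [Zmap_coe, toZ_coe, ← hzy, map_add, (S.exact (i + 1) _).2 ⟨_, rfl⟩, add_zero]

/-- the snake isomorphism `coker (H_{i+1} C → H_{i+1} C'') ≃ ker (H_i C' → H_i C)` -/
noncomputable def snake (hd : IsCx d) (S : SES d' d d'' f g) (i : ℕ) :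
    (H d'' (i + 1) ⧸ LinearMap.range (Hmap S.cg (i + 1))) ≃ₗ[A]
      ↥(LinearMap.ker (Hmap S.cf i)) :=
  ((S.toQ i).quotKerEquivOfSurjective (S.toQ_surjective i)).symm ≪≫ₗ
    Submodule.quotEquivOfEq _ _ ((S.ker_toQ hd i).trans (S.ker_toK hd i).symm) ≪≫ₗ
    (S.toK hd i).quotKerEquivRange ≪≫ₗ
    LinearEquiv.ofEq _ _ (S.range_toK hd i)

/-- in degree `0` the map to the quotient complex is onto -/
lemma surj_zero (S : SES d' d d'' f g) : Function.Surjective (Hmap S.cg 0) := by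
  intro x
  obtain ⟨z, rfl⟩ := cls_surjective 0 x
  obtain ⟨c, hc⟩ := S.surj 0 z
  exact ⟨cls d 0 ⟨c, mem_Z_zero d c⟩, by rw [Hmap_cls]; congr 1; ext; exact hc⟩

end SES

end Crest.Agent.R188.Chi
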