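/-
R188, block (A3): additive lengths of the homology of complexes, Euler characteristics and
their additivity on short exact sequences of complexes.   helper876
-/
import Crest.Agent.R188.ChiLES

set_option autoImplicit false

namespace Crest.Agent.R188.Chi

open scoped ENNReal
open Crest.Agent.R183

universe u v

variable {A : Type u} [CommRing A] (Λ : AddLen.{u, v} A)
variable {C C' C'' : ℕ → Type v} [∀ i, AddCommGroup (C i)] [∀ i, Module A (C i)]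
  [∀ i, AddCommGroup (C' i)] [∀ i, Module A (C' i)]
  [∀ i, AddCommGroup (C'' i)] [∀ i, Module A (C'' i)]

/-- length of the `i`-th homology -/
noncomputable def h (d : ∀ i, C (i + 1) →ₗ[A] C i) (i : ℕ) : ℝ≥0∞ := Λ.L (H d i)

/-- the Euler characteristic of `H_0, …, H_{N-1}` -/
noncomputable def chi (d : ∀ i, C (i + 1) →ₗ[A] C i) (N : ℕ) : ℝ :=
  ∑ i ∈ Finset.range N, (-1) ^ i * (h Λ d i).toReal

variable {d : ∀ i, C (i + 1) →ₗ[A] C i} {d' : ∀ i, C' (i + 1) →ₗ[A] C' i}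
  {d'' : ∀ i, C'' (i + 1) →ₗ[A] C'' i}
variable {f : ∀ i, C' i →ₗ[A] C i} {g : ∀ i, C i →ₗ[A] C'' i}

lemma h_le (d : ∀ i, C (i + 1) →ₗ[A] C i) (i : ℕ) : h Λ d i ≤ Λ.L (C i) :=
  (Λ.L_quotient_le _).trans (Λ.L_submodule_le _)

lemma h_congr {i j : ℕ} (e : H d i ≃ₗ[A] H d' j) : h Λ d i = h Λ d' j := Λ.L_congr e

lemma h_eq_zero_of_subsingleton (d : ∀ i, C (i + 1) →ₗ[A] C i) (i : ℕ) [Subsingleton (C i)] :
    h Λ d i = 0 :=
  le_antisymm ((h_le Λ d i).trans (Λ.L_subsingleton).le) zero_le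

lemma chi_zero (d : ∀ i, C (i + 1) →ₗ[A] C i) : chi Λ d 0 = 0 := by simp [chi]

lemma chi_succ (d : ∀ i, C (i + 1) →ₗ[A] C i) (N : ℕ) :
    chi Λ d (N + 1) = chi Λ d N + (-1) ^ N * (h Λ d N).toReal := by
  unfold chi; rw [Finset.sum_range_succ]

lemma chi_eq_of_le {N N' : ℕ} (hN : N ≤ N') (h0 : ∀ i, N ≤ i → i < N' → h Λ d i = 0) :
    chi Λ d N' = chi Λ d N := by
  unfold chi
  refine (Finset.sum_subset (Finset.range_mono hN) fun i hi hi' => ?_).symm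
  rw [Finset.mem_range] at hi hi'
  rw [h0 i (not_lt.1 hi') hi]; simp

lemma chi_congr {N : ℕ} (hh : ∀ i < N, h Λ d i = h Λ d' i) : chi Λ d N = chi Λ d' N := by
  unfold chi
  exact Finset.sum_congr rfl fun i hi => by rw [hh i (Finset.mem_range.1 hi)]

namespace SES

/-- length of the kernel of `H_i C' → H_i C` -/
noncomputable def k (S : SES d' d d'' f g) (i : ℕ) : ℝ≥0∞ :=
  Λ.L ↥(LinearMap.ker (Hmap S.cf i))

lemma k_le_left (S : SES d' d d'' f g) (i : ℕ) : S.k Λ i ≤ h Λ d' i := Λ.L_submodule_le _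

lemma k_eq (hd : IsCx d) (S : SES d' d d'' f g) (i : ℕ) :
    S.k Λ i = Λ.L (H d'' (i + 1) ⧸ LinearMap.range (Hmap S.cg (i + 1))) :=
  (Λ.L_congr (S.snake hd i)).symm

lemma k_le_right (hd : IsCx d) (S : SES d' d d'' f g) (i : ℕ) :
    S.k Λ i ≤ h Λ d'' (i + 1) := by
  rw [S.k_eq Λ hd]; exact Λ.L_quotient_le _

lemma h_left (S : SES d' d d'' f g) (i : ℕ) :
    h Λ d' i = S.k Λ i + Λ.L ↥(LinearMap.range (Hmap S.cf i)) :=
  Λ.L_ker_add_range (Hmap S.cf i)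

lemma h_mid (hd : IsCx d) (S : SES d' d d'' f g) (i : ℕ) :
    h Λ d i = Λ.L ↥(LinearMap.range (Hmap S.cf i)) + Λ.L ↥(LinearMap.range (Hmap S.cg i)) := by
  have e : LinearMap.ker (Hmap S.cg i) = LinearMap.range (Hmap S.cf i) :=
    LinearMap.exact_iff.1 (S.exact_mid hd i)
  rw [← e]
  exact Λ.L_ker_add_range (Hmap S.cg i)

lemma h_right_zero (S : SES d' d d'' f g) :
    h Λ d'' 0 = Λ.L ↥(LinearMap.range (Hmap S.cg 0)) := by
  have e : LinearMap.range (Hmap S.cg 0) = ⊤ := LinearMap.range_eq_top.2 S.surj_zero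
  rw [e]
  exact (Λ.L_congr (Submodule.topEquiv (R := A) (M := H d'' 0))).symm

lemma h_right_succ (hd : IsCx d) (S : SES d' d d'' f g) (i : ℕ) :
    h Λ d'' (i + 1) = Λ.L ↥(LinearMap.range (Hmap S.cg (i + 1))) + S.k Λ i := by
  rw [S.k_eq Λ hd]
  exact Λ.L_eq_add_quotient _

/-- the basic identity in degree 0 -/
lemma key_zero (hd : IsCx d) (S : SES d' d d'' f g) :
    h Λ d' 0 + h Λ d'' 0 = h Λ d 0 + S.k Λ 0 := by
  rw [S.h_left Λ 0, S.h_right_zero Λ, S.h_mid Λ hd 0]; ring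

/-- the basic identity in positive degrees -/
lemma key_succ (hd : IsCx d) (S : SES d' d d'' f g) (i : ℕ) :
    h Λ d' (i + 1) + h Λ d'' (i + 1) = h Λ d (i + 1) + S.k Λ (i + 1) + S.k Λ i := by
  rw [S.h_left Λ (i + 1), S.h_right_succ Λ hd i, S.h_mid Λ hd (i + 1)]; ring

lemma h_mid_le (hd : IsCx d) (S : SES d' d d'' f g) (i : ℕ) :
    h Λ d i ≤ h Λ d' i + h Λ d'' i := by
  cases i with
  | zero => rw [S.key_zero Λ hd]; exact le_self_add
  | succ i => rw [S.key_succ Λ hd, add_assoc]; exact le_self_add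

lemma h_left_le (hd : IsCx d) (S : SES d' d d'' f g) (i : ℕ) :
    h Λ d' i ≤ h Λ d i + h Λ d'' (i + 1) := by
  rw [S.h_left Λ i, S.h_mid Λ hd i, add_comm]
  exact add_le_add le_self_add (S.k_le_right Λ hd i)

lemma h_right_le_succ (hd : IsCx d) (S : SES d' d d'' f g) (i : ℕ) :
    h Λ d'' (i + 1) ≤ h Λ d (i + 1) + h Λ d' i := by
  rw [S.h_right_succ Λ hd i, S.h_mid Λ hd (i + 1)]
  exact add_le_add le_add_self (S.k_le_left Λ i)

lemma h_right_le_zero (hd : IsCx d) (S : SES d' d d'' f g) : h Λ d'' 0 ≤ h Λ d 0 := by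
  rw [S.h_right_zero Λ, S.h_mid Λ hd 0]; exact le_add_self

lemma h_mid_ne_top (hd : IsCx d) (S : SES d' d d'' f g) {i : ℕ} (h1 : h Λ d' i ≠ ⊤)
    (h2 : h Λ d'' i ≠ ⊤) : h Λ d i ≠ ⊤ :=
  ne_top_of_le_ne_top (ENNReal.add_ne_top.2 ⟨h1, h2⟩) (S.h_mid_le Λ hd i)

lemma h_left_ne_top (hd : IsCx d) (S : SES d' d d'' f g) {i : ℕ} (h1 : h Λ d i ≠ ⊤)
    (h2 : h Λ d'' (i + 1) ≠ ⊤) : h Λ d' i ≠ ⊤ :=
  ne_top_of_le_ne_top (ENNReal.add_ne_top.2 ⟨h1, h2⟩) (S.h_left_le Λ hd i)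

lemma h_right_ne_top (hd : IsCx d) (S : SES d' d d'' f g) {i : ℕ} (h1 : ∀ j ≤ i, h Λ d j ≠ ⊤)
    (h2 : ∀ j ≤ i, h Λ d' j ≠ ⊤) : h Λ d'' i ≠ ⊤ := by
  cases i with
  | zero => exact ne_top_of_le_ne_top (h1 0 le_rfl) (S.h_right_le_zero Λ hd)
  | succ i =>
    exact ne_top_of_le_ne_top (ENNReal.add_ne_top.2 ⟨h1 _ le_rfl, h2 i (Nat.le_succ i)⟩)
      (S.h_right_le_succ Λ hd i)

/-- additivity of the truncated Euler characteristic, with the error term -/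
lemma chi_add_error (hd : IsCx d) (S : SES d' d d'' f g) (N : ℕ)
    (h1 : ∀ i ≤ N, h Λ d' i ≠ ⊤) (h2 : ∀ i ≤ N, h Λ d'' i ≠ ⊤) :
    chi Λ d' (N + 1) + chi Λ d'' (N + 1) =
      chi Λ d (N + 1) + (-1) ^ N * (S.k Λ N).toReal := by
  have hm : ∀ i ≤ N, h Λ d i ≠ ⊤ := fun i hi => S.h_mid_ne_top Λ hd (h1 i hi) (h2 i hi)
  have hk : ∀ i ≤ N, S.k Λ i ≠ ⊤ := fun i hi => ne_top_of_le_ne_top (h1 i hi) (S.k_le_left Λ i)
  induction N with
  | zero =>
    simp only [chi_succ, chi_zero]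
    have := congrArg ENNReal.toReal (S.key_zero Λ hd)
    rw [ENNReal.toReal_add (h1 0 le_rfl) (h2 0 le_rfl),
      ENNReal.toReal_add (hm 0 le_rfl) (hk 0 le_rfl)] at this
    simp only [pow_zero, one_mul, zero_add]
    linarith
  | succ N ih =>
    have ih' := ih (fun i hi => h1 i (hi.trans (Nat.le_succ N)))
      (fun i hi => h2 i (hi.trans (Nat.le_succ N))) (fun i hi => hm i (hi.trans (Nat.le_succ N)))
      (fun i hi => hk i (hi.trans (Nat.le_succ N)))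
    rw [chi_succ Λ d' (N + 1), chi_succ Λ d'' (N + 1), chi_succ Λ d (N + 1)]
    have := congrArg ENNReal.toReal (S.key_succ Λ hd N)
    rw [ENNReal.toReal_add (h1 _ le_rfl) (h2 _ le_rfl),
      ENNReal.toReal_add (ENNReal.add_ne_top.2 ⟨hm _ le_rfl, hk _ le_rfl⟩) (hk N (Nat.le_succ N)),
      ENNReal.toReal_add (hm _ le_rfl) (hk _ le_rfl)] at this
    have e : ((-1 : ℝ)) ^ (N + 1) = - (-1) ^ N := by rw [pow_succ]; ring
    rw [e]
    linear_combination ih' - (-1 : ℝ) ^ N * this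

/-- additivity of the Euler characteristic -/
theorem chi_add (hd : IsCx d) (S : SES d' d d'' f g) (N : ℕ)
    (h1 : ∀ i < N, h Λ d' i ≠ ⊤) (h2 : ∀ i < N, h Λ d'' i ≠ ⊤)
    (h0 : h Λ d'' N = 0) :
    chi Λ d N = chi Λ d' N + chi Λ d'' N := by
  cases N with
  | zero => simp [chi_zero]
  | succ N =>
    have hk : S.k Λ N = 0 := le_antisymm ((S.k_le_right Λ hd N).trans h0.le) zero_le
    have := S.chi_add_error Λ hd N (fun i hi => h1 i (Nat.lt_succ_of_le hi))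
      (fun i hi => h2 i (Nat.lt_succ_of_le hi))
    rw [hk] at this
    simpa using this.symm

/-- additivity of the Euler characteristic, other form of the vanishing hypothesis -/
theorem chi_add' (hd : IsCx d) (S : SES d' d d'' f g) (N : ℕ)
    (h1 : ∀ i ≤ N, h Λ d' i ≠ ⊤) (h2 : ∀ i ≤ N, h Λ d'' i ≠ ⊤)
    (h0 : h Λ d' N = 0) :
    chi Λ d (N + 1) = chi Λ d' (N + 1) + chi Λ d'' (N + 1) := by
  have hk : S.k Λ N = 0 := le_antisymm ((S.k_le_left Λ N).trans h0.le) zero_le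
  have := S.chi_add_error Λ hd N h1 h2
  rw [hk] at this
  simpa using this.symm

end SES

end Crest.Agent.R188.Chi
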