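/-
R188, block (A3): finite free resolutions by matrices: comparison theorem, independence of
`H_i(F ⊗ X)` of the resolution, null-homotopies, horseshoe lemma.   helper876
-/
import Crest.Agent.R188.ChiMat

set_option autoImplicit false
set_option linter.unusedSectionVars false

namespace Crest.Agent.R188.Chi

open scoped ENNReal
open Crest.Agent.R183 Crest.Agent.R183.Res

universe u v w v' v₂

section matrix

variable {R : Type w} [CommRing R]
variable {ι κ μ : Type} [Fintype ι] [Fintype κ] [Fintype μ] [DecidableEq ι] [DecidableEq κ]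
  [DecidableEq μ]

lemma act_single (T : Matrix ι κ R) (b : κ) : act R T (Pi.single b 1) = fun a => T a b := by
  funext a
  rw [act_apply]
  simp [Pi.single_apply]

lemma mat_ext {S T : Matrix ι κ R} (h : ∀ v : κ → R, act R S v = act R T v) : S = T := by
  ext a b
  have := congrFun (h (Pi.single b 1)) a
  rwa [act_single, act_single] at this

lemma exists_factor (D : Matrix ι μ R) (T : Matrix ι κ R)
    (h : ∀ v : κ → R, act R T v ∈ LinearMap.range (act R D)) : ∃ S : Matrix μ κ R, D * S = T := by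
  have h' : ∀ b : κ, ∃ c : μ → R, act R D c = act R T (Pi.single b 1) := fun b => h _
  choose c hc using h'
  refine ⟨Matrix.of fun m b => c b m, ?_⟩
  ext a b
  have := congrFun (hc b) a
  rw [act_single, act_apply] at this
  rw [Matrix.mul_apply]
  exact this

/-- linear maps between free modules are matrices -/
lemma exists_matrix (f : (κ → R) →ₗ[R] (ι → R)) : ∃ T : Matrix ι κ R, ∀ v, act R T v = f v := by
  refine ⟨Matrix.of fun a b => f (Pi.single b 1) a, fun v => ?_⟩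
  funext a
  rw [act_apply]
  have e2 : v = ∑ b, v b • (Pi.single b 1 : κ → R) := by
    funext a
    rw [Finset.sum_apply]
    simp [Pi.single_apply]
  conv_rhs => rw [e2, map_sum, Finset.sum_apply]
  refine Finset.sum_congr rfl fun b _ => ?_
  rw [map_smul, Pi.smul_apply, smul_eq_mul, smul_eq_mul, mul_comm]
  rfl

lemma act_sub' (X : Type v) [AddCommGroup X] [Module R X] (D E : Matrix ι κ R) (v : κ → X) :
    act X (D - E) v = act X D v - act X E v := by
  rw [sub_eq_add_neg, act_add, act_neg, sub_eq_add_neg]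

lemma act_one' (X : Type v) [AddCommGroup X] [Module R X] (v : κ → X) :
    act X (1 : Matrix κ κ R) v = v := by
  have := act_smul_one (M := X) (1 : R) v
  simpa using this

end matrix

section MMap

variable {R : Type w} [CommRing R]

/-- morphisms of matrix complexes -/
structure MMap (F G : MCx R) where
  /-- the matrices -/
  Φ : ∀ n, Matrix (G.ι n) (F.ι n) R
  comm : ∀ n, Φ n * F.d n = G.d n * Φ (n + 1)

/-- homotopies -/
def MHtpy {F G : MCx R} (Φ Ψ : MMap F G) (s : ∀ n, Matrix (G.ι (n + 1)) (F.ι n) R) : Prop :=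
  Φ.Φ 0 - Ψ.Φ 0 = G.d 0 * s 0 ∧
    ∀ n, Φ.Φ (n + 1) - Ψ.Φ (n + 1) = G.d (n + 1) * s (n + 1) + s n * F.d n

/-- composition -/
def MMap.comp {F G K : MCx R} (Ψ : MMap G K) (Φ : MMap F G) : MMap F K where
  Φ n := Ψ.Φ n * Φ.Φ n
  comm n := by rw [Matrix.mul_assoc, Φ.comm, ← Matrix.mul_assoc, Ψ.comm, Matrix.mul_assoc]

/-- identity -/
def MMap.id (F : MCx R) : MMap F F where
  Φ n := 1
  comm n := by rw [Matrix.one_mul, Matrix.mul_one]

/-- multiplication by a scalar -/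
def MMap.smul (F : MCx R) (a : R) : MMap F F where
  Φ n := a • (1 : Matrix (F.ι n) (F.ι n) R)
  comm n := by
    rw [Matrix.smul_mul, Matrix.one_mul, Matrix.mul_smul, Matrix.mul_one]

/-- zero -/
def MMap.zero (F G : MCx R) : MMap F G where
  Φ n := 0
  comm n := by rw [Matrix.zero_mul, Matrix.mul_zero]

variable (A : Type u) [CommRing A]

section

variable (X : Type v) [AddCommGroup X] [Module A X] [Module R X] [SMulCommClass R A X]

/-- the action of a matrix over `R` on vectors with entries in `X`, as an `A`-linear map -/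
def actA {ι κ : Type} [Fintype κ] (D : Matrix ι κ R) : (κ → X) →ₗ[A] (ι → X) where
  toFun v := act X D v
  map_add' := map_add _
  map_smul' := by
    intro a v
    funext i
    show ∑ b, D i b • (a • v b) = a • ∑ b, D i b • v b
    rw [Finset.smul_sum]
    exact Finset.sum_congr rfl (fun b _ => smul_comm _ _ _)

lemma actA_apply {ι κ : Type} [Fintype κ] (D : Matrix ι κ R) (v : κ → X) :
    actA A X D v = act X D v := rfl

lemma MMap.isMap {F G : MCx R} (Φ : MMap F G) :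
    IsMap (C := fun n => F.ι n → X) (C' := fun n => G.ι n → X) (F.dA A X) (G.dA A X)
      (fun n => actA A X (Φ.Φ n)) := by
  intro i v
  rw [actA_apply, actA_apply, MCx.dA_apply, MCx.dA_apply]
  show act X (Φ.Φ i) (act X (F.d i) v) = act X (G.d i) (act X (Φ.Φ (i + 1)) v)
  rw [← act_mul, ← act_mul, Φ.comm]

lemma MHtpy.htpy {F G : MCx R} {Φ Ψ : MMap F G} {s : ∀ n, Matrix (G.ι (n + 1)) (F.ι n) R}
    (hs : MHtpy Φ Ψ s) :
    Htpy (C := fun n => F.ι n → X) (C' := fun n => G.ι n → X) (F.dA A X) (G.dA A X)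
      (fun n => actA A X (Φ.Φ n)) (fun n => actA A X (Ψ.Φ n)) (fun n => actA A X (s n)) := by
  refine ⟨fun v => ?_, fun i v => ?_⟩
  · show act X (Φ.Φ 0) v - act X (Ψ.Φ 0) v = act X (G.d 0) (act X (s 0) v)
    rw [← act_sub', ← act_mul, hs.1]
  · show act X (Φ.Φ (i + 1)) v - act X (Ψ.Φ (i + 1)) v =
      act X (G.d (i + 1)) (act X (s (i + 1)) v) + act X (s i) (act X (F.d i) v)
    rw [← act_sub', ← act_mul, ← act_mul, ← act_add, hs.2]

/-- homotopy equivalent matrix complexes have isomorphic `H_i(- ⊗ X)` -/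
def HXequiv {F G : MCx R} (Φ : MMap F G) (Ψ : MMap G F)
    {s : ∀ n, Matrix (F.ι (n + 1)) (F.ι n) R} (hs : MHtpy (Ψ.comp Φ) (MMap.id F) s)
    {t : ∀ n, Matrix (G.ι (n + 1)) (G.ι n) R} (ht : MHtpy (Φ.comp Ψ) (MMap.id G) t) (i : ℕ) :
    HX A F X i ≃ₗ[A] HX A G X i :=
  Hequiv (C := fun n => F.ι n → X) (C' := fun n => G.ι n → X) (Φ.isMap A X) (Ψ.isMap A X)
    (s := fun n => actA A X (s n)) (t := fun n => actA A X (t n))
    (by
      have h := hs.htpy A X
      refine ⟨fun v => ?_, fun i v => ?_⟩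
      · have := h.1 v
        simp only [MMap.comp, MMap.id, actA_apply, act_mul, act_one'] at this
        exact this
      · have := h.2 i v
        simp only [MMap.comp, MMap.id, actA_apply, act_mul, act_one'] at this
        exact this)
    (by
      have h := ht.htpy A X
      refine ⟨fun v => ?_, fun i v => ?_⟩
      · have := h.1 v
        simp only [MMap.comp, MMap.id, actA_apply, act_mul, act_one'] at this
        exact this
      · have := h.2 i v
        simp only [MMap.comp, MMap.id, actA_apply, act_mul, act_one'] at this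
        exact this) i

/-- null-homotopic scalars kill `H_i(F ⊗ X)` -/
lemma smul_HX_eq_zero {F : MCx R} {a : R} (ha : F.NHom a) {b : A} (hab : ∀ x : X, a • x = b • x)
    (i : ℕ) (x : HX A F X i) : b • x = 0 := by
  obtain ⟨s, hs0, hs⟩ := ha
  refine smul_H_eq_zero (C := fun n => F.ι n → X) (d := F.dA A X) b
    (s := fun n => actA A X (s n)) ⟨fun v => ?_, fun i v => ?_⟩ i x
  · show b • v - 0 = act X (F.d 0) (act X (s 0) v)
    rw [sub_zero, ← act_mul, hs0, act_smul_one]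
    funext j; exact (hab _).symm
  · show b • v - 0 = act X (F.d (i + 1)) (act X (s (i + 1)) v) + act X (s i) (act X (F.d i) v)
    rw [sub_zero, ← act_mul, ← act_mul, ← act_add, hs, act_smul_one]
    funext j; exact (hab _).symm

end

end MMap

section IsRes

variable {R : Type w} [CommRing R]

/-- `F` is a resolution of `M` with augmentation `ε` -/
structure IsRes (F : MCx R) {M : Type v} [AddCommGroup M] [Module R M]
    (ε : (F.ι 0 → R) →ₗ[R] M) : Prop where
  surj : Function.Surjective ε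
  ex0 : LinearMap.ker ε = LinearMap.range (F.dM R 0)
  ex : ∀ i, LinearMap.ker (F.dM R i) = LinearMap.range (F.dM R (i + 1))

variable {M : Type v} [AddCommGroup M] [Module R M] {M' : Type v'} [AddCommGroup M'] [Module R M']

lemma IsRes.ε_d {F : MCx R} {ε : (F.ι 0 → R) →ₗ[R] M} (h : IsRes F ε) (v : F.ι 1 → R) :
    ε (F.dM R 0 v) = 0 := by
  have : F.dM R 0 v ∈ LinearMap.ker ε := by rw [h.ex0]; exact ⟨v, rfl⟩
  exact this

section lift

variable (F G : MCx R)

/-- the property propagated in the recursion -/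
def LiftP (n : ℕ) (T : Matrix (G.ι n) (F.ι n) R) : Prop :=
  ∀ v, act R T (F.dM R n v) ∈ LinearMap.range (G.dM R n)

variable {F G}

lemma liftP_step (hG : ∀ i, LinearMap.ker (G.dM R i) = LinearMap.range (G.dM R (i + 1))) (n : ℕ)
    (T : Matrix (G.ι n) (F.ι n) R) (hT : LiftP F G n T) :
    ∃ S : Matrix (G.ι (n + 1)) (F.ι (n + 1)) R, T * F.d n = G.d n * S ∧ LiftP F G (n + 1) S := by
  obtain ⟨S, hS⟩ := exists_factor (G.d n) (T * F.d n) (fun v => by
    rw [act_mul]; exact hT v)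
  refine ⟨S, hS.symm, fun v => ?_⟩
  rw [← hG n, LinearMap.mem_ker]
  show act R (G.d n) (act R S (act R (F.d (n + 1)) v)) = 0
  rw [← act_mul, ← act_mul, hS, Matrix.mul_assoc, F.dd, Matrix.mul_zero, act_zero]

/-- the recursion -/
noncomputable def lifts (hG : ∀ i, LinearMap.ker (G.dM R i) = LinearMap.range (G.dM R (i + 1)))
    (T0 : Matrix (G.ι 0) (F.ι 0) R) (h0 : LiftP F G 0 T0) :
    ∀ n, {T : Matrix (G.ι n) (F.ι n) R // LiftP F G n T}
  | 0 => ⟨T0, h0⟩
  | (n + 1) => ⟨(liftP_step hG n _ (lifts hG T0 h0 n).2).choose,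
      (liftP_step hG n _ (lifts hG T0 h0 n).2).choose_spec.2⟩

lemma lifts_spec (hG : ∀ i, LinearMap.ker (G.dM R i) = LinearMap.range (G.dM R (i + 1)))
    (T0 : Matrix (G.ι 0) (F.ι 0) R) (h0 : LiftP F G 0 T0) (n : ℕ) :
    (lifts hG T0 h0 n).1 * F.d n = G.d n * (lifts hG T0 h0 (n + 1)).1 :=
  (liftP_step hG n _ (lifts hG T0 h0 n).2).choose_spec.1

/-- the comparison theorem -/
theorem exists_lift (εF : (F.ι 0 → R) →ₗ[R] M) (hF : ∀ v, εF (F.dM R 0 v) = 0)
    {εG : (G.ι 0 → R) →ₗ[R] M'} (hG : IsRes G εG) (φ : M →ₗ[R] M') :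
    ∃ Φ : MMap F G, ∀ v, εG (act R (Φ.Φ 0) v) = φ (εF v) := by
  have : ∀ b : F.ι 0, ∃ c : G.ι 0 → R, εG c = φ (εF (Pi.single b 1)) := fun b => hG.surj _
  choose c hc using this
  let T0 : Matrix (G.ι 0) (F.ι 0) R := Matrix.of fun a b => c b a
  have hT0 : ∀ v, εG (act R T0 v) = φ (εF v) := by
    intro v
    have e1 : act R T0 v = ∑ b, v b • c b := by
      funext a
      rw [act_apply, Finset.sum_apply]
      exact Finset.sum_congr rfl fun b _ => by
        rw [Pi.smul_apply, smul_eq_mul, smul_eq_mul, mul_comm]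
        rfl
    have e2 : v = ∑ b, v b • (Pi.single b 1 : F.ι 0 → R) := by
      funext a
      rw [Finset.sum_apply]
      simp [Pi.single_apply]
    rw [e1, map_sum]
    conv_rhs => rw [e2, map_sum, map_sum]
    exact Finset.sum_congr rfl fun b _ => by rw [map_smul, hc, map_smul, map_smul]
  have h0 : LiftP F G 0 T0 := by
    intro v
    rw [← hG.ex0, LinearMap.mem_ker, hT0, hF, map_zero]
  exact ⟨⟨fun n => (lifts hG.ex T0 h0 n).1, fun n => lifts_spec hG.ex T0 h0 n⟩, hT0⟩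

/-- property propagated in the construction of homotopies -/
def HtP (Φ : ∀ n, Matrix (G.ι n) (F.ι n) R) (n : ℕ) (s : Matrix (G.ι (n + 1)) (F.ι n) R) : Prop :=
  ∀ v, act R (Φ (n + 1) - s * F.d n) v ∈ LinearMap.range (G.dM R (n + 1))

lemma htP_step (hG : ∀ i, LinearMap.ker (G.dM R i) = LinearMap.range (G.dM R (i + 1)))
    (Φ : MMap F G) (n : ℕ) (s : Matrix (G.ι (n + 1)) (F.ι n) R) (hs : HtP Φ.Φ n s) :
    ∃ s' : Matrix (G.ι (n + 2)) (F.ι (n + 1)) R,
      Φ.Φ (n + 1) = G.d (n + 1) * s' + s * F.d n ∧ HtP Φ.Φ (n + 1) s' := by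
  obtain ⟨s', hs'⟩ := exists_factor (G.d (n + 1)) _ hs
  refine ⟨s', by rw [hs']; abel, fun v => ?_⟩
  rw [← hG (n + 1), LinearMap.mem_ker]
  show act R (G.d (n + 1)) (act R _ v) = 0
  rw [← act_mul, Matrix.mul_sub, ← Φ.comm (n + 1), ← Matrix.mul_assoc, hs', Matrix.sub_mul,
    Matrix.mul_assoc s, F.dd, Matrix.mul_zero, sub_zero, sub_self, act_zero]

/-- recursion for homotopies -/
noncomputable def hts (hG : ∀ i, LinearMap.ker (G.dM R i) = LinearMap.range (G.dM R (i + 1)))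
    (Φ : MMap F G) (s0 : Matrix (G.ι 1) (F.ι 0) R) (h0 : HtP Φ.Φ 0 s0) :
    ∀ n, {s : Matrix (G.ι (n + 1)) (F.ι n) R // HtP Φ.Φ n s}
  | 0 => ⟨s0, h0⟩
  | (n + 1) => ⟨(htP_step hG Φ n _ (hts hG Φ s0 h0 n).2).choose,
      (htP_step hG Φ n _ (hts hG Φ s0 h0 n).2).choose_spec.2⟩

lemma hts_spec (hG : ∀ i, LinearMap.ker (G.dM R i) = LinearMap.range (G.dM R (i + 1)))
    (Φ : MMap F G) (s0 : Matrix (G.ι 1) (F.ι 0) R) (h0 : HtP Φ.Φ 0 s0) (n : ℕ) :
    Φ.Φ (n + 1) = G.d (n + 1) * (hts hG Φ s0 h0 (n + 1)).1 + (hts hG Φ s0 h0 n).1 * F.d n :=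
  (htP_step hG Φ n _ (hts hG Φ s0 h0 n).2).choose_spec.1

lemma exists_nullhtpy (Φ : MMap F G) {εG : (G.ι 0 → R) →ₗ[R] M'} (hG : IsRes G εG)
    (h : ∀ v, εG (act R (Φ.Φ 0) v) = 0) :
    ∃ s : ∀ n, Matrix (G.ι (n + 1)) (F.ι n) R, Φ.Φ 0 = G.d 0 * s 0 ∧
      ∀ n, Φ.Φ (n + 1) = G.d (n + 1) * s (n + 1) + s n * F.d n := by
  obtain ⟨s0, hs0⟩ := exists_factor (G.d 0) (Φ.Φ 0) (fun v => by
    have : act R (Φ.Φ 0) v ∈ LinearMap.ker εG := h v
    rw [hG.ex0] at this
    exact this)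
  have h0 : HtP Φ.Φ 0 s0 := by
    intro v
    rw [← hG.ex 0, LinearMap.mem_ker]
    show act R (G.d 0) (act R _ v) = 0
    rw [← act_mul, Matrix.mul_sub, ← Φ.comm 0, ← Matrix.mul_assoc, hs0, sub_self, act_zero]
  exact ⟨fun n => (hts hG.ex Φ s0 h0 n).1, hs0.symm, fun n => hts_spec hG.ex Φ s0 h0 n⟩

/-- uniqueness of lifts up to homotopy -/
theorem exists_htpy (Φ Ψ : MMap F G) {εG : (G.ι 0 → R) →ₗ[R] M'} (hG : IsRes G εG)
    (h : ∀ v, εG (act R (Φ.Φ 0) v) = εG (act R (Ψ.Φ 0) v)) :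
    ∃ s : ∀ n, Matrix (G.ι (n + 1)) (F.ι n) R, MHtpy Φ Ψ s := by
  let Δ : MMap F G := ⟨fun n => Φ.Φ n - Ψ.Φ n, fun n => by
    rw [Matrix.sub_mul, Matrix.mul_sub, Φ.comm, Ψ.comm]⟩
  obtain ⟨s, hs0, hs⟩ := exists_nullhtpy Δ hG (fun v => by
    show εG (act R (Φ.Φ 0 - Ψ.Φ 0) v) = 0
    rw [act_sub', map_sub, h, sub_self])
  exact ⟨s, hs0, hs⟩

end lift

/-- two resolutions of the same module are homotopy equivalent, hence have the same homology with
coefficients in any `X` -/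
theorem exists_HXequiv {F G : MCx R} {εF : (F.ι 0 → R) →ₗ[R] M} (hF : IsRes F εF)
    {εG : (G.ι 0 → R) →ₗ[R] M'} (hG : IsRes G εG) (e : M ≃ₗ[R] M') :
    ∃ (Φ : MMap F G) (Ψ : MMap G F) (s : ∀ n, Matrix (F.ι (n + 1)) (F.ι n) R)
      (t : ∀ n, Matrix (G.ι (n + 1)) (G.ι n) R), MHtpy (Ψ.comp Φ) (MMap.id F) s ∧
      MHtpy (Φ.comp Ψ) (MMap.id G) t ∧ (∀ v, εG (act R (Φ.Φ 0) v) = e (εF v)) ∧
      (∀ v, εF (act R (Ψ.Φ 0) v) = e.symm (εG v)) := by
  obtain ⟨Φ, hΦ⟩ := exists_lift εF hF.ε_d hG (e : M →ₗ[R] M')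
  obtain ⟨Ψ, hΨ⟩ := exists_lift εG hG.ε_d hF (e.symm : M' →ₗ[R] M)
  obtain ⟨s, hs⟩ := exists_htpy (Ψ.comp Φ) (MMap.id F) hF (fun v => by
    show εF (act R (Ψ.Φ 0 * Φ.Φ 0) v) = εF (act R 1 v)
    rw [act_mul, hΨ, hΦ, act_one']
    simp)
  obtain ⟨t, ht⟩ := exists_htpy (Φ.comp Ψ) (MMap.id G) hG (fun v => by
    show εG (act R (Φ.Φ 0 * Ψ.Φ 0) v) = εG (act R 1 v)
    rw [act_mul, hΦ, hΨ, act_one']
    simp)
  exact ⟨Φ, Ψ, s, t, hs, ht, hΦ, hΨ⟩

variable {A : Type u} [CommRing A] (Λ : AddLen.{u, v₂} A)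

theorem nonempty_HXequiv_of_isRes {F G : MCx R} {εF : (F.ι 0 → R) →ₗ[R] M} (hF : IsRes F εF)
    {εG : (G.ι 0 → R) →ₗ[R] M'} (hG : IsRes G εG) (e : M ≃ₗ[R] M') (A : Type u) [CommRing A]
    (X : Type v₂) [AddCommGroup X] [Module A X] [Module R X] [SMulCommClass R A X] (i : ℕ) :
    Nonempty (HX A F X i ≃ₗ[A] HX A G X i) := by
  obtain ⟨Φ, Ψ, s, t, hs, ht, -, -⟩ := exists_HXequiv hF hG e
  exact ⟨HXequiv A X Φ Ψ hs ht i⟩

theorem hX_eq_of_isRes {F G : MCx R} {εF : (F.ι 0 → R) →ₗ[R] M} (hF : IsRes F εF)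
    {εG : (G.ι 0 → R) →ₗ[R] M'} (hG : IsRes G εG) (e : M ≃ₗ[R] M')
    (X : Type v₂) [AddCommGroup X] [Module A X] [Module R X] [SMulCommClass R A X] (i : ℕ) :
    hX Λ F X i = hX Λ G X i :=
  Λ.L_congr (nonempty_HXequiv_of_isRes hF hG e A X i).some

theorem chiX_eq_of_isRes {F G : MCx R} {εF : (F.ι 0 → R) →ₗ[R] M} (hF : IsRes F εF)
    {εG : (G.ι 0 → R) →ₗ[R] M'} (hG : IsRes G εG) (e : M ≃ₗ[R] M')
    (X : Type v₂) [AddCommGroup X] [Module A X] [Module R X] [SMulCommClass R A X] (N : ℕ) :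
    chiX Λ F X N = chiX Λ G X N :=
  chi_congr Λ (C := fun n => F.ι n → X) (C' := fun n => G.ι n → X)
    fun i _ => hX_eq_of_isRes Λ hF hG e X i

/-- elements of the annihilator are null-homotopic on a resolution -/
theorem IsRes.nhom {F : MCx R} {ε : (F.ι 0 → R) →ₗ[R] M} (hF : IsRes F ε) {a : R}
    (ha : ∀ m : M, a • m = 0) : F.NHom a := by
  obtain ⟨s, hs0, hs⟩ := exists_nullhtpy (MMap.smul F a) hF (fun v => by
    show ε (act R (a • (1 : Matrix (F.ι 0) (F.ι 0) R)) v) = 0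
    rw [act_smul_one, map_smul, ha])
  exact ⟨s, hs0.symm, fun n => (hs n).symm⟩

/-- `Ann(M) + …` kills `H_i(F_M ⊗ X)` -/
theorem IsRes.smul_eq_zero {F : MCx R} {ε : (F.ι 0 → R) →ₗ[R] M} (hF : IsRes F ε) {a : R}
    (ha : ∀ m : M, a • m = 0) (X : Type v₂) [AddCommGroup X] [Module A X] [Module R X]
    [SMulCommClass R A X] {b : A} (hab : ∀ x : X, a • x = b • x) (i : ℕ) (x : HX A F X i) :
    b • x = 0 := smul_HX_eq_zero A X (hF.nhom ha) hab i x

end IsRes

end Crest.Agent.R188.Chi
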