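/-
R188, block (A3): flat base change of homology, of resolutions and of Euler characteristics.
helper876
-/
import Crest.Agent.R188.ChiRes
import Crest.Agent.R183.AddLenInst

set_option autoImplicit false
set_option linter.unusedSectionVars false

namespace Crest.Agent.R188.Chi

open scoped ENNReal TensorProduct
open Crest.Agent.R183 Crest.Agent.R183.Res

universe u v w

section general

variable {R : Type u} [CommRing R] (S : Type u) [CommRing S] [Algebra R S] [Module.Flat R S]
variable {C : ℕ → Type u} [∀ i, AddCommGroup (C i)] [∀ i, Module R (C i)]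
variable (d : ∀ i, C (i + 1) →ₗ[R] C i)

/-- the base changed complex -/
noncomputable def bc (i : ℕ) : (S ⊗[R] C (i + 1)) →ₗ[S] (S ⊗[R] C i) := (d i).baseChange S

variable {d}

lemma bc_mem_Z {i : ℕ} (t : S ⊗[R] ↥(Z d i)) :
    (Z d i).subtype.baseChange S t ∈ Z (C := fun n => S ⊗[R] C n) (bc S d) i := by
  cases i with
  | zero => exact Submodule.mem_top
  | succ i =>
    show (d i).baseChange S ((Z d (i + 1)).subtype.baseChange S t) = 0
    have h : (d i).baseChange S ∘ₗ (Z d (i + 1)).subtype.baseChange S = 0 := by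
      rw [← LinearMap.baseChange_comp]
      have : d i ∘ₗ (Z d (i + 1)).subtype = 0 := LinearMap.ext fun z => z.2
      rw [this, LinearMap.baseChange_zero]
    exact LinearMap.congr_fun h t

/-- the map `S ⊗ Z_i → H_i(S ⊗ C)` -/
noncomputable def bcα (i : ℕ) :
    (S ⊗[R] ↥(Z d i)) →ₗ[S] H (C := fun n => S ⊗[R] C n) (bc S d) i :=
  cls (C := fun n => S ⊗[R] C n) (bc S d) i ∘ₗ
    LinearMap.codRestrict _ ((Z d i).subtype.baseChange S) (fun t => bc_mem_Z S t)

lemma bcα_surjective (i : ℕ) : Function.Surjective (bcα S (d := d) i) := by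
  intro x
  obtain ⟨z, rfl⟩ := cls_surjective (C := fun n => S ⊗[R] C n) (d := bc S d) i x
  have : ∃ t, (Z d i).subtype.baseChange S t = (z : S ⊗[R] C i) := by
    cases i with
    | zero =>
      have h : Function.Surjective (LinearMap.lTensor S (Z d 0).subtype) :=
        LinearMap.lTensor_surjective S (fun x => ⟨⟨x, mem_Z_zero d x⟩, rfl⟩)
      exact h z
    | succ i =>
      have hex : Function.Exact (Z d (i + 1)).subtype (d i) := by
        intro x
        exact ⟨fun h => ⟨⟨x, h⟩, rfl⟩, fun ⟨y, hy⟩ => by rw [← hy]; exact y.2⟩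
      have h2 := Module.Flat.lTensor_exact S hex
      have h3 : LinearMap.lTensor S (d i) (z : S ⊗[R] C (i + 1)) = 0 := z.2
      exact (h2 _).1 h3
  obtain ⟨t, ht⟩ := this
  refine ⟨t, ?_⟩
  unfold bcα
  rw [LinearMap.comp_apply]
  congr 1
  exact Subtype.ext ht

/-- boundaries into cycles -/
def toZ' (hd : IsCx d) (i : ℕ) : C (i + 1) →ₗ[R] ↥(Z d i) :=
  LinearMap.codRestrict _ (d i) (fun c => hd.B_le_Z i ⟨c, rfl⟩)

lemma exact_toZ' (hd : IsCx d) (i : ℕ) : Function.Exact (toZ' hd i) (cls d i) := by
  intro z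
  rw [cls_eq_zero_iff]
  exact ⟨fun ⟨c, hc⟩ => ⟨c, Subtype.ext hc⟩, fun ⟨c, hc⟩ => ⟨c, congrArg Subtype.val hc⟩⟩

lemma ker_bcα (hd : IsCx d) (i : ℕ) :
    LinearMap.ker (bcα S (d := d) i) = LinearMap.ker ((cls d i).baseChange S) := by
  ext t
  have h1 : (t ∈ LinearMap.ker ((cls d i).baseChange S)) ↔
      t ∈ Set.range (LinearMap.lTensor S (toZ' hd i)) :=
    lTensor_exact S (exact_toZ' hd i) (cls_surjective i) t
  rw [h1, LinearMap.mem_ker]
  unfold bcα
  rw [LinearMap.comp_apply, cls_eq_zero_iff]
  have hcomp : ∀ c : S ⊗[R] C (i + 1),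
      (Z d i).subtype.baseChange S (LinearMap.lTensor S (toZ' hd i) c) = bc S d i c := by
    intro c
    have : LinearMap.lTensor S (Z d i).subtype ∘ₗ LinearMap.lTensor S (toZ' hd i) =
        LinearMap.lTensor S (d i) := by
      rw [← LinearMap.lTensor_comp]; rfl
    exact LinearMap.congr_fun this c
  have hinj : Function.Injective (LinearMap.lTensor S (Z d i).subtype) :=
    Module.Flat.lTensor_preserves_injective_linearMap _ (Submodule.subtype_injective _)
  constructor
  · rintro ⟨c, hc⟩
    refine ⟨c, hinj ?_⟩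
    exact (hcomp c).trans hc
  · rintro ⟨c, rfl⟩
    exact ⟨c, (hcomp c).symm⟩

/-- **flat base change of homology** -/
noncomputable def Hbase (hd : IsCx d) (i : ℕ) :
    (S ⊗[R] H d i) ≃ₗ[S] H (C := fun n => S ⊗[R] C n) (bc S d) i :=
  (((cls d i).baseChange S).quotKerEquivOfSurjective
    (LinearMap.lTensor_surjective S (cls_surjective i))).symm ≪≫ₗ
    Submodule.quotEquivOfEq _ _ (ker_bcα S hd i).symm ≪≫ₗ
    (bcα S (d := d) i).quotKerEquivOfSurjective (bcα_surjective S i)

end general

section mat

variable {R : Type u} [CommRing R] (S : Type u) [CommRing S] [Algebra R S]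

section mapEquiv

variable (F : MCx R) (X : Type u) [AddCommGroup X] [Module R X] [Module S X] [IsScalarTower R S X]

/-- `F.map (R → S)` and `F` have the same homology with coefficients in an `S`-module -/
noncomputable def HXmap (i : ℕ) :
    HX S (F.map (algebraMap R S)) X i ≃ₗ[S] HX S F X i :=
  Hiso (C := fun n => F.ι n → X) (C' := fun n => F.ι n → X)
    (d := (F.map (algebraMap R S)).dA S X) (d' := F.dA S X)
    (fun n => LinearEquiv.refl S (F.ι n → X)) (by
      intro i x
      show (F.map (algebraMap R S)).dM X i x = F.dM X i x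
      funext a
      show ∑ b, (algebraMap R S (F.d i a b)) • x b = ∑ b, F.d i a b • x b
      exact Finset.sum_congr rfl fun b _ => algebraMap_smul S _ _) i

lemma hX_map (Λ : AddLen.{u, u} S) (i : ℕ) :
    hX Λ (F.map (algebraMap R S)) X i = hX Λ F X i := Λ.L_congr (HXmap S F X i)

lemma chiX_map (Λ : AddLen.{u, u} S) (N : ℕ) :
    chiX Λ (F.map (algebraMap R S)) X N = chiX Λ F X N := by
  rw [chiX_eq, chiX_eq]
  exact Finset.sum_congr rfl fun i _ => by rw [hX_map]

end mapEquiv

variable [Module.Flat R S]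

lemma isMap_piRight (F : MCx R) (M : Type u) [AddCommGroup M] [Module R M] :
    IsMap (C := fun n => S ⊗[R] (F.ι n → M)) (C' := fun n => F.ι n → S ⊗[R] M)
      (bc S (C := fun n => F.ι n → M) (F.dA R M)) (F.dA S (S ⊗[R] M))
      (fun n => (TensorProduct.piRight R S S (fun _ : F.ι n => M) :
        (S ⊗[R] (F.ι n → M)) →ₗ[S] (F.ι n → S ⊗[R] M))) := by
  intro i x
  have key : (TensorProduct.piRight R S S (fun _ : F.ι i => M)).toLinearMap ∘ₗ
      (F.dA R M i).baseChange S = (F.dA S (S ⊗[R] M) i) ∘ₗ
        (TensorProduct.piRight R S S (fun _ : F.ι (i + 1) => M)).toLinearMap := by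
    refine TensorProduct.AlgebraTensorModule.ext fun s v => ?_
    simp only [LinearMap.comp_apply, LinearMap.baseChange_tmul, LinearEquiv.coe_coe,
      TensorProduct.piRight_apply, TensorProduct.piRightHom_tmul]
    funext a
    change s ⊗ₜ[R] (∑ b, F.d i a b • v b) = ∑ b, F.d i a b • (s ⊗ₜ[R] v b)
    rw [TensorProduct.tmul_sum]
    exact Finset.sum_congr rfl fun b _ => by rw [TensorProduct.tmul_smul]
  exact LinearMap.congr_fun key x

/-- **`S ⊗ H_i(F ⊗ M) ≃ H_i(F ⊗ (S ⊗ M))`** for `S` flat over `R` -/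
noncomputable def HXbase (F : MCx R) (M : Type u) [AddCommGroup M] [Module R M] (i : ℕ) :
    (S ⊗[R] HX R F M i) ≃ₗ[S] HX S F (S ⊗[R] M) i :=
  Hbase S (C := fun n => F.ι n → M) (isCx_dA R F M) i ≪≫ₗ
    Hiso (C := fun n => S ⊗[R] (F.ι n → M)) (C' := fun n => F.ι n → S ⊗[R] M)
      (fun n => (TensorProduct.piRight R S S (fun _ : F.ι n => M))) (isMap_piRight S F M) i

section isRes

variable {N : Type u} [AddCommGroup N] [Module R N]

/-- the augmentation after base change -/
noncomputable def εbc (F : MCx R) (ε : (F.ι 0 → R) →ₗ[R] N) :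
    ((F.map (algebraMap R S)).ι 0 → S) →ₗ[S] S ⊗[R] N :=
  ε.baseChange S ∘ₗ (TensorProduct.piScalarRight R S S (F.ι 0)).symm.toLinearMap

lemma bc_dM (F : MCx R) (i : ℕ) :
    (TensorProduct.piScalarRight R S S (F.ι i)).toLinearMap ∘ₗ (F.dM R i).baseChange S =
      (F.map (algebraMap R S)).dM S i ∘ₗ
        (TensorProduct.piScalarRight R S S (F.ι (i + 1))).toLinearMap := by
  refine TensorProduct.AlgebraTensorModule.ext fun s v => ?_
  simp only [LinearMap.comp_apply, LinearMap.baseChange_tmul, LinearEquiv.coe_coe,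
    TensorProduct.piScalarRight_apply, TensorProduct.piScalarRightHom_tmul]
  funext a
  change (∑ b, F.d i a b • v b) • s = ∑ b, (algebraMap R S (F.d i a b)) • (v b • s)
  rw [Finset.sum_smul]
  exact Finset.sum_congr rfl fun b _ => by rw [smul_eq_mul, mul_smul, algebraMap_smul]

/-- **flat base change of resolutions** -/
theorem IsRes.baseChange {F : MCx R} {ε : (F.ι 0 → R) →ₗ[R] N} (hF : IsRes F ε) :
    IsRes (F.map (algebraMap R S)) (εbc S F ε) := by
  refine ⟨?_, ?_, ?_⟩
  · exact (LinearMap.lTensor_surjective S hF.surj).comp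
      (TensorProduct.piScalarRight R S S (F.ι 0)).symm.surjective
  · have hex : Function.Exact ((F.dM R 0).baseChange S) (ε.baseChange S) :=
      lTensor_exact S (LinearMap.exact_iff.2 hF.ex0) hF.surj
    have h := Function.Exact.of_ladder_linearEquiv_of_exact
      (g₁₂ := (F.map (algebraMap R S)).dM S 0) (g₂₃ := εbc S F ε)
      (e₁ := TensorProduct.piScalarRight R S S (F.ι 1))
      (e₂ := TensorProduct.piScalarRight R S S (F.ι 0)) (e₃ := LinearEquiv.refl S (S ⊗[R] N))
      (bc_dM S F 0).symm (by
        refine LinearMap.ext fun x => ?_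
        show ε.baseChange S ((TensorProduct.piScalarRight R S S (F.ι 0)).symm
          (TensorProduct.piScalarRight R S S (F.ι 0) x)) = ε.baseChange S x
        rw [LinearEquiv.symm_apply_apply]) hex
    exact LinearMap.exact_iff.1 h
  · intro i
    have hex : Function.Exact ((F.dM R (i + 1)).baseChange S) ((F.dM R i).baseChange S) :=
      Module.Flat.lTensor_exact S (LinearMap.exact_iff.2 (hF.ex i))
    have h := Function.Exact.of_ladder_linearEquiv_of_exact
      (g₁₂ := (F.map (algebraMap R S)).dM S (i + 1)) (g₂₃ := (F.map (algebraMap R S)).dM S i)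
      (e₁ := TensorProduct.piScalarRight R S S (F.ι (i + 2)))
      (e₂ := TensorProduct.piScalarRight R S S (F.ι (i + 1)))
      (e₃ := TensorProduct.piScalarRight R S S (F.ι i))
      (bc_dM S F (i + 1)).symm (bc_dM S F i).symm hex
    exact LinearMap.exact_iff.1 h

end isRes

section lengths

variable [IsLocalRing R] [IsLocalRing S] [IsLocalHom (algebraMap R S)]

/-- length after flat local base change with `m_R S = m_S` -/
lemma length_bc (hm : (IsLocalRing.maximalIdeal R).map (algebraMap R S) =
    IsLocalRing.maximalIdeal S) (M : Type u) [AddCommGroup M] [Module R M] :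
    Module.length S (S ⊗[R] M) = Module.length R M := by
  rw [IsLocalRing.length_baseChange R S M, hm]
  have : Module.length S (S ⧸ IsLocalRing.maximalIdeal S) = 1 := by
    have : IsSimpleModule S (S ⧸ IsLocalRing.maximalIdeal S) := by
      rw [isSimpleModule_iff_isCoatom]
      exact (IsLocalRing.maximalIdeal.isMaximal S).out
    exact Module.length_eq_one _ _
  rw [this, mul_one]

/-- homology lengths are preserved -/
theorem hX_bc (hm : (IsLocalRing.maximalIdeal R).map (algebraMap R S) =
    IsLocalRing.maximalIdeal S) (F : MCx R) (M : Type u) [AddCommGroup M] [Module R M] (i : ℕ) :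
    hX (AddLen.ofLength S) (F.map (algebraMap R S)) (S ⊗[R] M) i =
      hX (AddLen.ofLength R) F M i := by
  rw [hX_map, hX_eq, hX_eq, ← (AddLen.ofLength S).L_congr (HXbase S F M i)]
  rw [AddLen.ofLength_L, AddLen.ofLength_L, length_bc S hm]

/-- Euler characteristics are preserved -/
theorem chiX_bc (hm : (IsLocalRing.maximalIdeal R).map (algebraMap R S) =
    IsLocalRing.maximalIdeal S) (F : MCx R) (M : Type u) [AddCommGroup M] [Module R M] (N : ℕ) :
    chiX (AddLen.ofLength S) (F.map (algebraMap R S)) (S ⊗[R] M) N =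
      chiX (AddLen.ofLength R) F M N := by
  rw [chiX_eq, chiX_eq]
  exact Finset.sum_congr rfl fun i _ => by rw [hX_bc S hm]

end lengths

end mat

end Crest.Agent.R188.Chi
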