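/-
R188 (Serre positivity), block (A6), part E5: general lemmas: change of rings for lengths and
homology, flat coefficients, the dimension formula.   helper702
-/
import Crest.Agent.R188.ChiRes

set_option autoImplicit false
set_option linter.unusedSectionVars false

namespace Crest.Agent.R188.Eq

open IsLocalRing Module Function TensorProduct
open Crest.Agent.R183 Crest.Agent.R183.Res Crest.Agent.R188.Chi

universe u v w

section length

variable {A : Type u} {R : Type w} [CommRing A] [CommRing R] {M : Type v} {M' : Type v}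
  [AddCommGroup M] [Module A M] [AddCommGroup M'] [Module R M']

/-- transport of submodules along an additive equivalence which is compatible with scalars -/
def submoduleMapAdd (e : M ≃+ M') (h : ∀ r : R, ∃ a : A, ∀ m : M, e (a • m) = r • e m)
    (S : Submodule A M) : Submodule R M' where
  carrier := e '' S
  zero_mem' := ⟨0, S.zero_mem, map_zero e⟩
  add_mem' := by
    rintro _ _ ⟨x, hx, rfl⟩ ⟨y, hy, rfl⟩
    exact ⟨x + y, S.add_mem hx hy, map_add e x y⟩
  smul_mem' := by
    rintro r _ ⟨x, hx, rfl⟩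
    obtain ⟨a, ha⟩ := h r
    exact ⟨a • x, S.smul_mem a hx, ha x⟩

lemma mem_submoduleMapAdd (e : M ≃+ M') (h : ∀ r : R, ∃ a : A, ∀ m : M, e (a • m) = r • e m)
    (S : Submodule A M) (x : M) : e x ∈ submoduleMapAdd e h S ↔ x ∈ S := by
  constructor
  · rintro ⟨y, hy, hxy⟩
    rwa [← e.injective hxy]
  · intro hx
    exact ⟨x, hx, rfl⟩

/-- lengths over two rings acting through the same endomorphisms agree -/
theorem length_eq_of_addEquiv (e : M ≃+ M') (h1 : ∀ a : A, ∃ r : R, ∀ m : M, e (a • m) = r • e m)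
    (h2 : ∀ r : R, ∃ a : A, ∀ m : M, e (a • m) = r • e m) :
    Module.length A M = Module.length R M' := by
  have h1' : ∀ a : A, ∃ r : R, ∀ m : M', e.symm (r • m) = a • e.symm m := by
    intro a
    obtain ⟨r, hr⟩ := h1 a
    refine ⟨r, fun m => ?_⟩
    apply e.injective
    rw [hr]
    simp
  let φ : Submodule A M ≃o Submodule R M' :=
    { toFun := submoduleMapAdd e h2
      invFun := submoduleMapAdd e.symm h1'
      left_inv := by
        intro S
        ext x
        have : x = e.symm (e x) := by simp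
        rw [this, mem_submoduleMapAdd, mem_submoduleMapAdd]
        simp
      right_inv := by
        intro S
        ext x
        have : x = e (e.symm x) := by simp
        rw [this, mem_submoduleMapAdd, mem_submoduleMapAdd]
        simp
      map_rel_iff' := by
        intro S T
        constructor
        · intro h x hx
          exact (mem_submoduleMapAdd e h2 T x).1 (h ((mem_submoduleMapAdd e h2 S x).2 hx))
        · rintro h _ ⟨x, hx, rfl⟩
          exact ⟨x, h hx, rfl⟩ }
  unfold Module.length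
  congr 1
  exact Order.krullDim_eq_of_orderIso φ

end length

section homology

variable {A : Type u} {R : Type w} [CommRing A] [CommRing R]
variable {C : ℕ → Type v} [∀ i, AddCommGroup (C i)] [∀ i, Module A (C i)] [∀ i, Module R (C i)]
  (dA : ∀ i, C (i + 1) →ₗ[A] C i) (dR : ∀ i, C (i + 1) →ₗ[R] C i)

lemma mem_Z_iff (hd : ∀ i x, dA i x = dR i x) (i : ℕ) (x : C i) : x ∈ Z dA i ↔ x ∈ Z dR i := by
  cases i with
  | zero => exact ⟨fun _ => trivial, fun _ => trivial⟩
  | succ i => rw [mem_Z_succ, mem_Z_succ, hd]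

/-- cycles over two rings -/
def Zadd (hd : ∀ i x, dA i x = dR i x) (i : ℕ) : ↥(Z dA i) ≃+ ↥(Z dR i) where
  toFun z := ⟨z.1, (mem_Z_iff dA dR hd i z.1).1 z.2⟩
  invFun z := ⟨z.1, (mem_Z_iff dA dR hd i z.1).2 z.2⟩
  left_inv _ := rfl
  right_inv _ := rfl
  map_add' _ _ := rfl

/-- homology over two rings -/
def Hadd (hd : ∀ i x, dA i x = dR i x) (i : ℕ) : H dA i ≃+ H dR i :=
  QuotientAddGroup.congr _ _ (Zadd dA dR hd i) (by
    ext z
    constructor
    · rintro ⟨y, ⟨w, hw⟩, rfl⟩
      exact ⟨w, by rw [← hd, hw]; rfl⟩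
    · rintro ⟨w, hw⟩
      exact ⟨(Zadd dA dR hd i).symm z, ⟨w, by rw [hd, hw]; rfl⟩, by simp⟩)

lemma Hadd_cls (hd : ∀ i x, dA i x = dR i x) (i : ℕ) (z : ↥(Z dA i)) :
    Hadd dA dR hd i (cls dA i z) = cls dR i (Zadd dA dR hd i z) := rfl

theorem length_H_eq (hd : ∀ i x, dA i x = dR i x)
    (h1 : ∀ a : A, ∃ r : R, ∀ (i : ℕ) (m : C i), a • m = r • m)
    (h2 : ∀ r : R, ∃ a : A, ∀ (i : ℕ) (m : C i), a • m = r • m) (i : ℕ) :
    Module.length A (H dA i) = Module.length R (H dR i) := by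
  have key : ∀ (a : A) (r : R) (_ : ∀ (i : ℕ) (m : C i), a • m = r • m) (x : H dA i),
      Hadd dA dR hd i (a • x) = r • Hadd dA dR hd i x := by
    intro a r h x
    obtain ⟨z, rfl⟩ := cls_surjective i x
    rw [← map_smul, Hadd_cls, Hadd_cls, ← map_smul]
    congr 1
    exact Subtype.ext (h i _)
  refine length_eq_of_addEquiv (Hadd dA dR hd i) (fun a => ?_) (fun r => ?_)
  · obtain ⟨r, hr⟩ := h1 a
    exact ⟨r, fun m => key a r hr m⟩
  · obtain ⟨a, ha⟩ := h2 r
    exact ⟨a, fun m => key a r ha m⟩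

end homology

section change

variable {R : Type w} [CommRing R] {A : Type u} [CommRing A] {B : Type u} [CommRing B]
  (F : MCx R) (X : Type v) [AddCommGroup X] [Module R X]
  [Module A X] [SMulCommClass R A X] [Module B X] [SMulCommClass R B X]

/-- the length of `H_i(F ⊗ X)` does not depend on the ring if the rings act through the same
endomorphisms -/
theorem length_HX_eq (h1 : ∀ a : A, ∃ r : B, ∀ m : X, a • m = r • m)
    (h2 : ∀ r : B, ∃ a : A, ∀ m : X, a • m = r • m) (i : ℕ) :
    Module.length A (HX A F X i) = Module.length B (HX B F X i) := by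
  refine length_H_eq (C := fun n => F.ι n → X) (F.dA A X) (F.dA B X) (fun i x => rfl)
    (fun a => ?_) (fun r => ?_) i
  · obtain ⟨r, hr⟩ := h1 a
    exact ⟨r, fun i m => funext fun j => hr (m j)⟩
  · obtain ⟨a, ha⟩ := h2 r
    exact ⟨a, fun i m => funext fun j => ha (m j)⟩

end change

section flat

variable {R : Type w} [CommRing R] {A : Type u} [CommRing A] [Algebra R A]

/-- `A ⊗ R^κ ≃ A^κ` -/
noncomputable def φ (κ : Type) [Fintype κ] [DecidableEq κ] : A ⊗[R] (κ → R) ≃ₗ[A] (κ → A) :=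
  TensorProduct.piScalarRight R A A κ

lemma φ_tmul (κ : Type) [Fintype κ] [DecidableEq κ] (a : A) (v : κ → R) :
    φ κ (a ⊗ₜ v) = fun i => v i • a := rfl

lemma φ_nat {ι κ : Type} [Fintype κ] [DecidableEq κ] [Fintype ι] [DecidableEq ι]
    (D : Matrix ι κ R) (z : A ⊗[R] (κ → R)) :
    φ ι ((act R D).baseChange A z) = actA A A D (φ κ z) := by
  induction z using TensorProduct.induction_on with
  | zero => simp
  | add x y hx hy => rw [map_add, map_add, map_add, map_add, hx, hy]
  | tmul a v =>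
    rw [LinearMap.baseChange_tmul, φ_tmul, φ_tmul, actA_apply]
    funext i
    rw [act_apply, act_apply, Finset.sum_smul]
    refine Finset.sum_congr rfl fun b _ => ?_
    rw [smul_eq_mul, mul_smul]

/-- exactness of `F ⊗ A` for `A` flat -/
theorem exact_act [Module.Flat R A] {ι κ μ : Type} [Fintype κ] [DecidableEq κ] [Fintype ι]
    [DecidableEq ι] [Fintype μ] [DecidableEq μ]
    (D : Matrix ι κ R) (E : Matrix κ μ R) (h : Exact (act R E) (act R D)) :
    Exact (actA A A E) (actA A A D) := by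
  have h1 : Exact ((act R E).lTensor A) ((act R D).lTensor A) := Module.Flat.lTensor_exact A h
  intro v
  obtain ⟨z, rfl⟩ := (φ (A := A) (R := R) κ).surjective v
  rw [← φ_nat, LinearEquiv.map_eq_zero_iff]
  have h2 := h1 z
  rw [← LinearMap.baseChange_eq_ltensor, ← LinearMap.baseChange_eq_ltensor] at h2
  rw [h2]
  constructor
  · rintro ⟨y, hy⟩
    exact ⟨φ μ y, by rw [← φ_nat, hy]⟩
  · rintro ⟨y, hy⟩
    obtain ⟨y, rfl⟩ := (φ (A := A) (R := R) μ).surjective y
    rw [← φ_nat] at hy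
    exact ⟨y, (φ κ).injective hy⟩

variable {N : Type v} [AddCommGroup N] [Module R N]

theorem IsRes.exact_succ {F : MCx R} {ε : (F.ι 0 → R) →ₗ[R] N} (hF : IsRes F ε) (i : ℕ) :
    Exact (act R (F.d (i + 1))) (act R (F.d i)) := by
  rw [LinearMap.exact_iff]
  exact hF.ex i

theorem subsingleton_HX_of_flat [Module.Flat R A] {F : MCx R} {ε : (F.ι 0 → R) →ₗ[R] N}
    (hF : IsRes F ε) (i : ℕ) : Subsingleton (HX A F A (i + 1)) := by
  rw [Submodule.Quotient.subsingleton_iff, eq_top_iff]
  rintro ⟨z, hz⟩ _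
  have h1 := exact_act (A := A) (F.d i) (F.d (i + 1)) (IsRes.exact_succ hF i)
  obtain ⟨y, hy⟩ := (h1 z).1 hz
  exact ⟨y, hy⟩

/-- the augmentation `A^{ι 0} → A ⊗ N` -/
noncomputable def aug {F : MCx R} (ε : (F.ι 0 → R) →ₗ[R] N) : (F.ι 0 → A) →ₗ[A] A ⊗[R] N :=
  (ε.baseChange A) ∘ₗ (φ (A := A) (R := R) (F.ι 0)).symm.toLinearMap

theorem aug_surjective {F : MCx R} {ε : (F.ι 0 → R) →ₗ[R] N} (hF : IsRes F ε) :
    Surjective (aug (A := A) ε) := by
  have h1 : Surjective (ε.lTensor A) := LinearMap.lTensor_surjective A hF.surj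
  rw [← LinearMap.baseChange_eq_ltensor] at h1
  exact h1.comp (φ (A := A) (R := R) (F.ι 0)).symm.surjective

theorem ker_aug {F : MCx R} {ε : (F.ι 0 → R) →ₗ[R] N} (hF : IsRes F ε) :
    LinearMap.ker (aug (A := A) ε) = LinearMap.range (F.dA A A 0) := by
  have h0 : Exact (act R (F.d 0)) ε := by
    rw [LinearMap.exact_iff]
    exact hF.ex0
  have h1 : Exact ((act R (F.d 0)).lTensor A) (ε.lTensor A) := lTensor_exact A h0 hF.surj
  ext v
  obtain ⟨z, rfl⟩ := (φ (A := A) (R := R) (F.ι 0)).surjective v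
  have h2 := h1 z
  rw [← LinearMap.baseChange_eq_ltensor, ← LinearMap.baseChange_eq_ltensor] at h2
  rw [LinearMap.mem_ker]
  unfold aug
  rw [LinearMap.comp_apply, LinearEquiv.coe_coe, LinearEquiv.symm_apply_apply, h2]
  constructor
  · rintro ⟨y, hy⟩
    refine ⟨φ _ y, ?_⟩
    show actA A A (F.d 0) (φ _ y) = _
    rw [← φ_nat, hy]
  · rintro ⟨y, hy⟩
    obtain ⟨y, rfl⟩ := (φ (A := A) (R := R) (F.ι 1)).surjective y
    have hy' : actA A A (F.d 0) (φ _ y) = φ _ z := hy
    rw [← φ_nat] at hy'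
    exact ⟨y, (φ (F.ι 0)).injective hy'⟩

/-- `H_0(F ⊗ A) ≃ A ⊗ N` -/
noncomputable def H0Flat {F : MCx R} {ε : (F.ι 0 → R) →ₗ[R] N} (hF : IsRes F ε) :
    HX A F A 0 ≃ₗ[A] A ⊗[R] N :=
  (Submodule.quotEquivOfEq _ _ (by
    rw [LinearMap.ker_comp, ker_aug hF]
    rfl)).trans
    (((aug (A := A) ε) ∘ₗ (Z (C := fun n => F.ι n → A) (F.dA A A) 0).subtype).quotKerEquivOfSurjective
      (by
        intro x
        obtain ⟨v, rfl⟩ := aug_surjective (A := A) hF x
        exact ⟨⟨v, trivial⟩, rfl⟩))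

end flat

end Crest.Agent.R188.Eq
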