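import Crest.Agent.R188.ChiLift
import Crest.Agent.R188.ChiFlat
import Crest.Agent.R188.Eq5

/-!
# R188, assembly (helper702), part 2: change of the acting rings in `hX`, `chiX`
-/

set_option autoImplicit false
set_option linter.unusedSectionVars false

namespace Crest.Agent.R188.Asm

open Function Crest.Agent.R183 Crest.Agent.R183.Res Crest.Agent.R188.Chi
open scoped ENNReal

universe u₁ u₂ v w₁ w₂ w₃

section L

variable {A₁ : Type u₁} {A₂ : Type u₂} [CommRing A₁] [CommRing A₂] (Λ : AddLen.{u₁, v} A₁)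
  (f : A₁ →+* A₂)

theorem restrict_L_of_addEquiv {M₁ M₂ : Type v} [AddCommGroup M₁] [Module A₁ M₁]
    [AddCommGroup M₂] [Module A₂ M₂] (e : M₁ ≃+ M₂) (he : ∀ (a : A₁) (m : M₁), e (a • m) = f a • e m) :
    (Λ.restrict f).L M₂ = Λ.L M₁ := by
  let _ : Module A₁ M₂ := Module.compHom M₂ f
  rw [Λ.restrict_L f M₂ (fun a x => rfl)]
  exact (Λ.L_congr { e with map_smul' := he }).symm

end L

section H

variable {A₁ : Type u₁} {A₂ : Type u₂} [CommRing A₁] [CommRing A₂] (f : A₁ →+* A₂)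
variable {C₁ : ℕ → Type v} [∀ i, AddCommGroup (C₁ i)] [∀ i, Module A₁ (C₁ i)]
  {C₂ : ℕ → Type v} [∀ i, AddCommGroup (C₂ i)] [∀ i, Module A₂ (C₂ i)]
  (d₁ : ∀ i, C₁ (i + 1) →ₗ[A₁] C₁ i) (d₂ : ∀ i, C₂ (i + 1) →ₗ[A₂] C₂ i)
  (e : ∀ i, C₁ i ≃+ C₂ i)

lemma mem_Z_iff' (hd : ∀ i x, e i (d₁ i x) = d₂ i (e (i + 1) x)) (i : ℕ) (x : C₁ i) :
    e i x ∈ Z d₂ i ↔ x ∈ Z d₁ i := by
  cases i with
  | zero => exact ⟨fun _ => trivial, fun _ => trivial⟩
  | succ i =>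
    rw [mem_Z_succ, mem_Z_succ, ← hd]
    exact (e i).map_eq_zero_iff

lemma mem_B_iff' (hd : ∀ i x, e i (d₁ i x) = d₂ i (e (i + 1) x)) (i : ℕ) (x : C₁ i) :
    e i x ∈ B d₂ i ↔ x ∈ B d₁ i := by
  rw [mem_B, mem_B]
  constructor
  · rintro ⟨y, hy⟩
    refine ⟨(e (i + 1)).symm y, (e i).injective ?_⟩
    rw [hd, AddEquiv.apply_symm_apply, hy]
  · rintro ⟨y, rfl⟩
    exact ⟨e (i + 1) y, (hd i y).symm⟩

/-- cycles over two rings -/
def Zadd' (hd : ∀ i x, e i (d₁ i x) = d₂ i (e (i + 1) x)) (i : ℕ) : ↥(Z d₁ i) ≃+ ↥(Z d₂ i) where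
  toFun z := ⟨e i z.1, (mem_Z_iff' d₁ d₂ e hd i z.1).2 z.2⟩
  invFun z := ⟨(e i).symm z.1, (mem_Z_iff' d₁ d₂ e hd i _).1 (by
    rw [AddEquiv.apply_symm_apply]; exact z.2)⟩
  left_inv z := by simp
  right_inv z := by simp
  map_add' x y := Subtype.ext (map_add (e i) _ _)

/-- homology over two rings -/
def Hadd' (hd : ∀ i x, e i (d₁ i x) = d₂ i (e (i + 1) x)) (i : ℕ) : H d₁ i ≃+ H d₂ i :=
  QuotientAddGroup.congr _ _ (Zadd' d₁ d₂ e hd i) (by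
    ext z
    constructor
    · rintro ⟨y, hy, rfl⟩
      exact (mem_B_iff' d₁ d₂ e hd i y.1).2 hy
    · intro hz
      refine ⟨(Zadd' d₁ d₂ e hd i).symm z, ?_, by simp⟩
      have h1 : ((z : ↥(Z d₂ i)) : C₂ i) ∈ B d₂ i := hz
      have h2 : e i ((e i).symm (z : C₂ i)) ∈ B d₂ i := by
        rw [AddEquiv.apply_symm_apply]; exact h1
      exact (mem_B_iff' d₁ d₂ e hd i _).1 h2)

lemma Hadd'_cls (hd : ∀ i x, e i (d₁ i x) = d₂ i (e (i + 1) x)) (i : ℕ) (z : ↥(Z d₁ i)) :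
    Hadd' d₁ d₂ e hd i (cls d₁ i z) = cls d₂ i (Zadd' d₁ d₂ e hd i z) := rfl

theorem L_H_restrict (Λ : AddLen.{u₁, v} A₁) (hd : ∀ i x, e i (d₁ i x) = d₂ i (e (i + 1) x))
    (he : ∀ i (a : A₁) (x : C₁ i), e i (a • x) = f a • e i x) (i : ℕ) :
    (Λ.restrict f).L (H d₂ i) = Λ.L (H d₁ i) := by
  refine restrict_L_of_addEquiv Λ f (Hadd' d₁ d₂ e hd i) (fun a x => ?_)
  obtain ⟨z, rfl⟩ := cls_surjective i x
  rw [← map_smul, Hadd'_cls, Hadd'_cls, ← map_smul]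
  congr 1
  exact Subtype.ext (he i a _)

end H

section HX

variable {R₁ : Type w₁} [CommRing R₁] {R₂ : Type w₂} [CommRing R₂] (ψ : R₁ →+* R₂) (F : MCx R₁)
variable {A₁ : Type u₁} {A₂ : Type u₂} [CommRing A₁] [CommRing A₂] (f : A₁ →+* A₂)
  (Λ : AddLen.{u₁, v} A₁)
variable {X₁ : Type v} [AddCommGroup X₁] [Module A₁ X₁] [Module R₁ X₁] [SMulCommClass R₁ A₁ X₁]
  {X₂ : Type v} [AddCommGroup X₂] [Module A₂ X₂] [Module R₂ X₂] [SMulCommClass R₂ A₂ X₂]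

/-- **change of all rings**: `ψ : R₁ → R₂`, `f : A₁ → A₂`, `X₁ ≃ X₂` semilinear. -/
theorem hX_change (e : X₁ ≃+ X₂) (heR : ∀ (r : R₁) (x : X₁), e (r • x) = ψ r • e x)
    (heA : ∀ (a : A₁) (x : X₁), e (a • x) = f a • e x) (i : ℕ) :
    hX (Λ.restrict f) (F.map ψ) X₂ i = hX Λ F X₁ i := by
  refine L_H_restrict f (C₁ := fun n => F.ι n → X₁) (C₂ := fun n => F.ι n → X₂) (F.dA A₁ X₁)
    ((F.map ψ).dA A₂ X₂) (fun n => AddEquiv.piCongrRight (fun _ : F.ι n => e)) Λ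
    (fun n x => ?_) (fun n a x => ?_) i
  · funext j
    show e (∑ b, F.d n j b • x b) = ∑ b, (ψ (F.d n j b)) • e (x b)
    rw [map_sum]
    exact Finset.sum_congr rfl fun b _ => heR _ _
  · funext j
    exact heA a (x j)

theorem chiX_change (e : X₁ ≃+ X₂) (heR : ∀ (r : R₁) (x : X₁), e (r • x) = ψ r • e x)
    (heA : ∀ (a : A₁) (x : X₁), e (a • x) = f a • e x) (N : ℕ) :
    chiX (Λ.restrict f) (F.map ψ) X₂ N = chiX Λ F X₁ N := by
  rw [chiX_eq, chiX_eq]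
  exact Finset.sum_congr rfl fun i _ => by rw [hX_change ψ F f Λ e heR heA]

/-- only the acting ring changes -/
theorem hX_restrict {X : Type v} [AddCommGroup X] [Module A₁ X] [Module A₂ X] [Module R₁ X]
    [SMulCommClass R₁ A₁ X] [SMulCommClass R₁ A₂ X] (h : ∀ (a : A₁) (x : X), a • x = f a • x)
    (i : ℕ) : hX (Λ.restrict f) F X i = hX Λ F X i :=
  L_H_restrict f (C₁ := fun n => F.ι n → X) (C₂ := fun n => F.ι n → X) (F.dA A₁ X)
    (F.dA A₂ X) (fun n => AddEquiv.refl _) Λ (fun n x => rfl)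
    (fun n a x => funext fun j => h a (x j)) i

theorem chiX_restrict {X : Type v} [AddCommGroup X] [Module A₁ X] [Module A₂ X] [Module R₁ X]
    [SMulCommClass R₁ A₁ X] [SMulCommClass R₁ A₂ X] (h : ∀ (a : A₁) (x : X), a • x = f a • x)
    (N : ℕ) : chiX (Λ.restrict f) F X N = chiX Λ F X N := by
  rw [chiX_eq, chiX_eq]
  exact Finset.sum_congr rfl fun i _ => by rw [hX_restrict F f Λ h]

/-- only the coefficient ring changes -/
theorem hX_mapψ {X : Type v} [AddCommGroup X] [Module A₁ X] [Module R₁ X] [Module R₂ X]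
    [SMulCommClass R₁ A₁ X] [SMulCommClass R₂ A₁ X] (h : ∀ (r : R₁) (x : X), r • x = ψ r • x)
    (i : ℕ) : hX Λ (F.map ψ) X i = hX Λ F X i :=
  Λ.L_congr (Hiso (C := fun n => F.ι n → X) (C' := fun n => F.ι n → X)
    (d := (F.map ψ).dA A₁ X) (d' := F.dA A₁ X) (fun n => LinearEquiv.refl A₁ _)
    (fun n x => by
      funext j
      show ∑ b, (ψ (F.d n j b)) • x b = ∑ b, F.d n j b • x b
      exact Finset.sum_congr rfl fun b _ => (h _ _).symm) i)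

theorem chiX_mapψ {X : Type v} [AddCommGroup X] [Module A₁ X] [Module R₁ X] [Module R₂ X]
    [SMulCommClass R₁ A₁ X] [SMulCommClass R₂ A₁ X] (h : ∀ (r : R₁) (x : X), r • x = ψ r • x)
    (N : ℕ) : chiX Λ (F.map ψ) X N = chiX Λ F X N := by
  rw [chiX_eq, chiX_eq]
  exact Finset.sum_congr rfl fun i _ => by rw [hX_mapψ ψ F Λ h]

end HX

end Crest.Agent.R188.Asm
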