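/-
R188, block (A3): the Euler functional `X ↦ Σ (-1)^i L(H_i(G ⊗ X))` as an `EulerFun` of
R188/FlgEuler (helper83).   helper876
-/
import Crest.Agent.R188.FlgEuler
import Crest.Agent.R188.ChiRes

set_option autoImplicit false
set_option linter.unusedSectionVars false

namespace Crest.Agent.R188.Chi

open scoped ENNReal
open Crest.Agent.R183 Crest.Agent.R183.Res Crest.Agent.R188.Flg

universe u

section

variable {Ω A : Type u} [CommRing Ω] [CommRing A] [Algebra Ω A] {𝔞 : Ideal Ω}

lemma rlin_self {X Y : Type u} [AddCommGroup X] [Module A X] [AddCommGroup Y] [Module A Y]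
    (f : X →ₗ[A] Y) : RLin A f := fun a x => f.map_smul a x

/-- elements killing `X` kill `H_i(G ⊗ X)` -/
lemma smul_HX_of_smul (G : MCx A) (X : Type u) [AddCommGroup X] [Module A X] {a : A}
    (ha : ∀ x : X, a • x = 0) (i : ℕ) (y : HX A G X i) : a • y = 0 := by
  obtain ⟨z, rfl⟩ := cls_surjective (C := fun n => G.ι n → X) (d := G.dA A X) i y
  rw [← map_smul]
  have : a • z = 0 := by
    ext j
    exact ha _
  rw [this, map_zero]

/-- **the Euler functional of a finite complex of finite free `A`-modules** -/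
noncomputable def eulerFun (Λ : AddLen.{u, u} A) (G : MCx A) (D : ℕ) (hD : G.Len D)
    (hnull : ∀ (Y : Type u) [AddCommGroup Y] [Module A Y],
      (∀ h ∈ 𝔞, ∀ y : Y, algebraMap Ω A h • y = 0) → (∀ a, G.NHom a → ∀ y : Y, a • y = 0) →
        Λ.L Y = 0) : EulerFun Ω A 𝔞 where
  Fn X _ _ := ∀ i, hX Λ G X i ≠ ⊤
  val X _ _ := chiX Λ G X (D + 1)
  fn_null X _ _ hX' i := by
    have h0 : hX Λ G X i = 0 := hnull (HX A G X i)
      (fun h hh y => smul_HX_of_smul G X (hX' h hh) i y)
      (fun a ha y => smul_HX_eq_zero A X ha (fun _ => rfl) i y)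
    rw [h0]; exact ENNReal.zero_ne_top
  val_null X _ _ hX' := by
    rw [chiX_eq]
    refine Finset.sum_eq_zero fun i _ => ?_
    have h0 : hX Λ G X i = 0 := hnull (HX A G X i)
      (fun h hh y => smul_HX_of_smul G X (hX' h hh) i y)
      (fun a ha y => smul_HX_eq_zero A X ha (fun _ => rfl) i y)
    rw [h0]; simp
  fn_mid f g hf hg hfg h1 h2 i :=
    ne_top_of_le_ne_top (ENNReal.add_ne_top.2 ⟨h1 i, h2 i⟩)
      (hX_mid_le Λ G (rlin_self f) (rlin_self g) hf hg hfg i)
  fn_left f g hf hg hfg h1 h2 i :=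
    ne_top_of_le_ne_top (ENNReal.add_ne_top.2 ⟨h1 i, h2 (i + 1)⟩)
      (hX_left_le Λ G (rlin_self f) (rlin_self g) hf hg hfg i)
  fn_right f g hf hg hfg h1 h2 i := by
    cases i with
    | zero =>
      exact ne_top_of_le_ne_top (h2 0) (hX_right_le_zero Λ G (rlin_self f) (rlin_self g) hf hg hfg)
    | succ i =>
      exact ne_top_of_le_ne_top (ENNReal.add_ne_top.2 ⟨h2 (i + 1), h1 i⟩)
        (hX_right_le_succ Λ G (rlin_self f) (rlin_self g) hf hg hfg i)
  add f g hf hg hfg h1 _ h3 :=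
    chiX_add_of_len Λ G hD (rlin_self f) (rlin_self g) hf hg hfg (Nat.lt_succ_self D)
      (fun i _ => h1 i) (fun i _ => h3 i)

end

end Crest.Agent.R188.Chi
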