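/-
R188, block (A3): horseshoe lemma for matrix resolutions; existence of finite free resolutions over
Noetherian rings.   helper876
-/
import Crest.Agent.R188.ChiRes

set_option autoImplicit false
set_option linter.unusedSectionVars false

namespace Crest.Agent.R188.Chi

open scoped ENNReal
open Crest.Agent.R183 Crest.Agent.R183.Res

universe u v w v' v₂ v₃

section horseshoe

variable {R : Type w} [CommRing R]

/-- upper triangular extension of two matrix complexes -/
abbrev ext (F F' : MCx R) (θ : ∀ n, Matrix (F.ι n) (F'.ι (n + 1)) R)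
    (hθ : ∀ n, F.d n * θ (n + 1) + θ n * F'.d (n + 1) = 0) : MCx R where
  ι n := F.ι n ⊕ F'.ι n
  fin n := inferInstance
  dec n := inferInstance
  d n := Matrix.fromBlocks (F.d n) (θ n) 0 (F'.d n)
  dd n := by
    rw [Matrix.fromBlocks_multiply]
    simp only [Matrix.zero_mul, Matrix.mul_zero, add_zero, zero_add, F.dd, F'.dd, hθ]
    exact Matrix.fromBlocks_zero

lemma act_fromBlocks' {ι κ μ ν : Type} [Fintype ι] [Fintype κ] [Fintype μ] [Fintype ν]
    (X : Type v) [AddCommGroup X] [Module R X]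
    (P : Matrix ι κ R) (Q : Matrix ι μ R) (T : Matrix ν μ R) (z : κ ⊕ μ → X) :
    act X (Matrix.fromBlocks P Q 0 T) z =
      Sum.elim (act X P (fun a => z (Sum.inl a)) + act X Q (fun a => z (Sum.inr a)))
        (act X T (fun a => z (Sum.inr a))) := by
  funext a
  rcases a with a | a <;> simp [act_apply]

lemma act_fromBlocks {ι κ μ ν : Type} [Fintype ι] [Fintype κ] [Fintype μ] [Fintype ν]
    (X : Type v) [AddCommGroup X] [Module R X]
    (P : Matrix ι κ R) (Q : Matrix ι μ R) (S : Matrix ν κ R) (T : Matrix ν μ R) (x : κ → X)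
    (y : μ → X) : act X (Matrix.fromBlocks P Q S T) (Sum.elim x y) =
      Sum.elim (act X P x + act X Q y) (act X S x + act X T y) := by
  funext a
  rcases a with a | a <;> simp [act_apply]

variable {A : Type u} [CommRing A]

section

variable (A) (X : Type v) [AddCommGroup X] [Module A X] [Module R X] [SMulCommClass R A X]

/-- inclusion -/
def inlA (ι κ : Type) : (ι → X) →ₗ[A] (ι ⊕ κ → X) where
  toFun x := Sum.elim x 0
  map_add' x y := by funext a; rcases a with a | a <;> simp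
  map_smul' r x := by funext a; rcases a with a | a <;> simp

/-- projection -/
def sndA (ι κ : Type) : (ι ⊕ κ → X) →ₗ[A] (κ → X) where
  toFun x := fun a => x (Sum.inr a)
  map_add' x y := rfl
  map_smul' r x := rfl

lemma sesExt (F F' : MCx R) (θ : ∀ n, Matrix (F.ι n) (F'.ι (n + 1)) R)
    (hθ : ∀ n, F.d n * θ (n + 1) + θ n * F'.d (n + 1) = 0) :
    SES (C' := fun n => F.ι n → X) (C := fun n => (F.ι n ⊕ F'.ι n) → X)
      (C'' := fun n => F'.ι n → X)
      (F.dA A X) ((ext F F' θ hθ).dA A X) (F'.dA A X) (fun n => inlA A X (F.ι n) (F'.ι n))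
        (fun n => sndA A X (F.ι n) (F'.ι n)) where
  cf i x := by
    show Sum.elim (act X (F.d i) x) 0 =
      act X (Matrix.fromBlocks (F.d i) (θ i) 0 (F'.d i)) (Sum.elim x 0)
    rw [act_fromBlocks']
    show _ = Sum.elim (act X (F.d i) x + act X (θ i) 0) (act X (F'.d i) 0)
    rw [map_zero, map_zero, add_zero]
  cg i x := by
    show (fun a => act X (Matrix.fromBlocks (F.d i) (θ i) 0 (F'.d i)) x (Sum.inr a)) =
      act X (F'.d i) (fun a => x (Sum.inr a))
    rw [act_fromBlocks']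
    rfl
  inj i x y h := by
    funext a
    exact congrFun h (Sum.inl a)
  surj i y := ⟨Sum.elim 0 y, rfl⟩
  exact i x := by
    constructor
    · intro h
      refine ⟨fun a => x (Sum.inl a), ?_⟩
      funext a
      rcases a with a | a
      · rfl
      · exact (congrFun h a).symm
    · rintro ⟨y, rfl⟩
      rfl

end

section res

variable {M : Type v} [AddCommGroup M] [Module R M] {M' : Type v'} [AddCommGroup M'] [Module R M']
  {M'' : Type v₃} [AddCommGroup M''] [Module R M'']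

variable {F F'' : MCx R} {εF : (F.ι 0 → R) →ₗ[R] M'} {ε'' : (F''.ι 0 → R) →ₗ[R] M''}

/-- recursion step for `θ` -/
lemma theta_step (hF : ∀ i, LinearMap.ker (F.dM R i) = LinearMap.range (F.dM R (i + 1))) (n : ℕ)
    (T : Matrix (F.ι n) (F''.ι (n + 1)) R)
    (hT : ∀ v, act R T (F''.dM R (n + 1) v) ∈ LinearMap.range (F.dM R n)) :
    ∃ S : Matrix (F.ι (n + 1)) (F''.ι (n + 2)) R, F.d n * S + T * F''.d (n + 1) = 0 ∧
      ∀ v, act R S (F''.dM R (n + 2) v) ∈ LinearMap.range (F.dM R (n + 1)) := by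
  obtain ⟨S, hS⟩ := exists_factor (F.d n) (-(T * F''.d (n + 1))) (fun v => by
    rw [act_neg, act_mul]
    exact Submodule.neg_mem _ (hT v))
  refine ⟨S, by rw [hS]; simp, fun v => ?_⟩
  rw [← hF n, LinearMap.mem_ker]
  show act R (F.d n) (act R S (act R (F''.d (n + 2)) v)) = 0
  rw [← act_mul, ← act_mul, hS, Matrix.neg_mul, Matrix.mul_assoc, F''.dd, Matrix.mul_zero,
    neg_zero, act_zero]

/-- recursion -/
noncomputable def thetas
    (hF : ∀ i, LinearMap.ker (F.dM R i) = LinearMap.range (F.dM R (i + 1)))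
    (T0 : Matrix (F.ι 0) (F''.ι 1) R)
    (h0 : ∀ v, act R T0 (F''.dM R 1 v) ∈ LinearMap.range (F.dM R 0)) :
    ∀ n, {T : Matrix (F.ι n) (F''.ι (n + 1)) R //
      ∀ v, act R T (F''.dM R (n + 1) v) ∈ LinearMap.range (F.dM R n)}
  | 0 => ⟨T0, h0⟩
  | (n + 1) => ⟨(theta_step hF n _ (thetas hF T0 h0 n).2).choose,
      (theta_step hF n _ (thetas hF T0 h0 n).2).choose_spec.2⟩

lemma thetas_spec (hF : ∀ i, LinearMap.ker (F.dM R i) = LinearMap.range (F.dM R (i + 1)))
    (T0 : Matrix (F.ι 0) (F''.ι 1) R)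
    (h0 : ∀ v, act R T0 (F''.dM R 1 v) ∈ LinearMap.range (F.dM R 0)) (n : ℕ) :
    F.d n * (thetas hF T0 h0 (n + 1)).1 + (thetas hF T0 h0 n).1 * F''.d (n + 1) = 0 :=
  (theta_step hF n _ (thetas hF T0 h0 n).2).choose_spec.1

/-- linear lifting from a free module along a surjection -/
lemma exists_lin_lift {κ : Type} [Fintype κ] [DecidableEq κ] (f : (κ → R) →ₗ[R] M'')
    (g : M →ₗ[R] M'') (hg : ∀ v, f v ∈ LinearMap.range g) :
    ∃ l : (κ → R) →ₗ[R] M, ∀ v, g (l v) = f v := by
  have : ∀ b : κ, ∃ m, g m = f (Pi.single b 1) := fun b => hg _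
  choose c hc using this
  refine ⟨(Pi.basisFun R κ).constr R c, fun v => ?_⟩
  have : g ∘ₗ (Pi.basisFun R κ).constr R c = f := by
    apply (Pi.basisFun R κ).ext
    intro b
    rw [LinearMap.comp_apply, Module.Basis.constr_basis, hc, Pi.basisFun_apply]
  exact LinearMap.congr_fun this v

/-- **horseshoe lemma** -/
theorem exists_horseshoe (hF : IsRes F εF) (hF'' : IsRes F'' ε'') {α : M' →ₗ[R] M}
    {β : M →ₗ[R] M''} (hα : Function.Injective α) (hβ : Function.Surjective β)
    (hex : Function.Exact α β) :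
    ∃ (θ : ∀ n, Matrix (F.ι n) (F''.ι (n + 1)) R)
      (hθ : ∀ n, F.d n * θ (n + 1) + θ n * F''.d (n + 1) = 0)
      (ε : (F.ι 0 ⊕ F''.ι 0 → R) →ₗ[R] M), IsRes (ext F F'' θ hθ) ε := by
  obtain ⟨l, hl⟩ := exists_lin_lift (M := M) ε'' β (fun v => by
    rw [LinearMap.range_eq_top.2 hβ]; trivial)
  -- first matrix
  have h1 : ∀ v, -(l (F''.dM R 0 v)) ∈ LinearMap.range (α ∘ₗ εF) := by
    intro v
    have : β (l (F''.dM R 0 v)) = 0 := by rw [hl, hF''.ε_d]
    obtain ⟨m', hm'⟩ := (hex _).1 this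
    obtain ⟨x, rfl⟩ := hF.surj m'
    exact ⟨-x, by rw [map_neg, LinearMap.comp_apply, hm']⟩
  obtain ⟨t, ht⟩ := exists_lin_lift (-(l ∘ₗ F''.dM R 0)) (α ∘ₗ εF) h1
  obtain ⟨T0, hT0⟩ := exists_matrix t
  have hT0' : ∀ v, α (εF (act R T0 v)) = -(l (F''.dM R 0 v)) := by
    intro v
    rw [hT0]
    exact ht v
  have h0 : ∀ v, act R T0 (F''.dM R 1 v) ∈ LinearMap.range (F.dM R 0) := by
    intro v
    rw [← hF.ex0, LinearMap.mem_ker]
    apply hα
    rw [hT0', F''.dM_dM, map_zero, map_zero, neg_zero]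
  let ε : (F.ι 0 ⊕ F''.ι 0 → R) →ₗ[R] M :=
    { toFun := fun x => α (εF (fun a => x (Sum.inl a))) + l (fun a => x (Sum.inr a))
      map_add' := fun x y => by
        have e1 : (fun a => (x + y) (Sum.inl a)) = (fun a => x (Sum.inl a)) +
          (fun a => y (Sum.inl a) : F.ι 0 → R) := rfl
        have e2 : (fun a => (x + y) (Sum.inr a)) = (fun a => x (Sum.inr a)) +
          (fun a => y (Sum.inr a) : F''.ι 0 → R) := rfl
        rw [e1, e2, map_add, map_add, map_add]; abel
      map_smul' := fun r x => by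
        have e1 : (fun a => (r • x) (Sum.inl a)) = r • (fun a => x (Sum.inl a) : F.ι 0 → R) := rfl
        have e2 : (fun a => (r • x) (Sum.inr a)) = r • (fun a => x (Sum.inr a) : F''.ι 0 → R) :=
          rfl
        rw [e1, e2, map_smul, map_smul, map_smul, RingHom.id_apply, smul_add] }
  have hε : ∀ x, ε x = α (εF (fun a => x (Sum.inl a))) + l (fun a => x (Sum.inr a)) :=
    fun _ => rfl
  have hsplit : ∀ {ι κ : Type} (x : ι ⊕ κ → R),
      Sum.elim (fun a => x (Sum.inl a)) (fun a => x (Sum.inr a)) = x := by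
    intro ι κ x; funext a; rcases a with a | a <;> rfl
  have hd : ∀ (n : ℕ) (x : F.ι (n + 1) ⊕ F''.ι (n + 1) → R),
      act R (Matrix.fromBlocks (F.d n) (thetas hF.ex T0 h0 n).1 0 (F''.d n)) x =
        Sum.elim (act R (F.d n) (fun a => x (Sum.inl a)) +
          act R (thetas hF.ex T0 h0 n).1 (fun a => x (Sum.inr a)))
          (act R (F''.d n) (fun a => x (Sum.inr a))) := fun n x => act_fromBlocks' R _ _ _ x
  refine ⟨fun n => (thetas hF.ex T0 h0 n).1, thetas_spec hF.ex T0 h0, ε, ?_, ?_, ?_⟩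
  · intro m
    obtain ⟨y, hy⟩ := hF''.surj (β m)
    have : β (m - l y) = 0 := by rw [map_sub, hl, hy, sub_self]
    obtain ⟨m', hm'⟩ := (hex _).1 this
    obtain ⟨x, rfl⟩ := hF.surj m'
    refine ⟨Sum.elim x y, ?_⟩
    rw [hε]
    show α (εF x) + l y = m
    rw [hm']; abel
  · apply le_antisymm
    · intro x hx
      have hx' : α (εF (fun a => x (Sum.inl a))) + l (fun a => x (Sum.inr a)) = 0 := hx
      have h2 : ε'' (fun a => x (Sum.inr a)) = 0 := by
        have := congrArg β hx'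
        rw [map_add, (hex _).2 ⟨_, rfl⟩, zero_add, hl, map_zero] at this
        exact this
      have h3 : (fun a => x (Sum.inr a)) ∈ LinearMap.range (F''.dM R 0) := by
        rw [← hF''.ex0]; exact h2
      obtain ⟨w, hw⟩ := h3
      have h4 : (fun a => x (Sum.inl a)) - act R T0 w ∈ LinearMap.range (F.dM R 0) := by
        rw [← hF.ex0, LinearMap.mem_ker]
        apply hα
        rw [map_sub, map_sub, hT0', hw, map_zero, sub_neg_eq_add]
        exact hx'
      obtain ⟨u, hu⟩ := h4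
      refine ⟨Sum.elim u w, ?_⟩
      refine (hd 0 (Sum.elim u w)).trans ?_
      refine Eq.trans ?_ (hsplit x)
      have e1 : act R (F.d 0) u + act R T0 w = fun a => x (Sum.inl a) := by
        have : act R (F.d 0) u = _ := hu
        rw [this]; abel
      have e2 : act R (F''.d 0) w = fun a => x (Sum.inr a) := hw
      exact congrArg₂ Sum.elim e1 e2
    · rintro _ ⟨x, rfl⟩
      have e : (ext F F'' (fun n => (thetas hF.ex T0 h0 n).1)
          (thetas_spec hF.ex T0 h0)).dM R 0 x =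
          Sum.elim (act R (F.d 0) (fun a => x (Sum.inl a)) +
            act R T0 (fun a => x (Sum.inr a))) (act R (F''.d 0) (fun a => x (Sum.inr a))) :=
        hd 0 x
      show ε _ = 0
      rw [e]
      show α (εF (act R (F.d 0) _ + act R T0 _)) + l (act R (F''.d 0) _) = 0
      rw [map_add, map_add, hT0']
      have : εF (act R (F.d 0) (fun a => x (Sum.inl a))) = 0 := hF.ε_d _
      rw [this, map_zero, zero_add]
      exact neg_add_cancel _
  · intro i
    apply le_antisymm
    · intro x hx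
      have hx' : act R (Matrix.fromBlocks (F.d i) ((thetas hF.ex T0 h0 i).1) 0 (F''.d i)) x = 0 :=
        hx
      rw [hd] at hx'
      have ha : act R (F.d i) (fun a => x (Sum.inl a)) +
          act R (thetas hF.ex T0 h0 i).1 (fun a => x (Sum.inr a)) = 0 := by
        funext a; exact congrFun hx' (Sum.inl a)
      have hb : act R (F''.d i) (fun a => x (Sum.inr a)) = 0 := by
        funext a; exact congrFun hx' (Sum.inr a)
      have hb' : (fun a => x (Sum.inr a)) ∈ LinearMap.range (F''.dM R (i + 1)) := by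
        rw [← hF''.ex i]; exact hb
      obtain ⟨z, hz⟩ := hb'
      have hz' : act R (F''.d (i + 1)) z = fun a => x (Sum.inr a) := hz
      have hc0 : act R (F.d i) ((fun a => x (Sum.inl a)) -
          act R (thetas hF.ex T0 h0 (i + 1)).1 z) = 0 := by
        have hs := thetas_spec hF.ex T0 h0 i
        rw [map_sub, ← act_mul, eq_neg_of_add_eq_zero_left hs, act_neg, act_mul, sub_neg_eq_add,
          hz']
        exact ha
      have hc : ((fun a => x (Sum.inl a)) - act R (thetas hF.ex T0 h0 (i + 1)).1 z) ∈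
          LinearMap.ker (F.dM R i) := hc0
      have hc' := (hF.ex i).le hc
      obtain ⟨y, hy⟩ := hc'
      refine ⟨Sum.elim y z, ?_⟩
      refine (hd (i + 1) (Sum.elim y z)).trans ?_
      refine Eq.trans ?_ (hsplit x)
      have e1 : act R (F.d (i + 1)) y + act R (thetas hF.ex T0 h0 (i + 1)).1 z =
          fun a => x (Sum.inl a) := by
        have : act R (F.d (i + 1)) y = _ := hy
        rw [this]; abel
      exact congrArg₂ Sum.elim e1 hz'
    · rintro _ ⟨x, rfl⟩
      rw [LinearMap.mem_ker]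
      exact (ext F F'' _ _).dM_dM i x

end res

end horseshoe

/-! ### additivity in the resolved variable -/

section addLeft

variable {R : Type w} [CommRing R] {A : Type u} [CommRing A] (Λ : AddLen.{u, v} A)
variable {M : Type v₂} [AddCommGroup M] [Module R M] {M' : Type v'} [AddCommGroup M'] [Module R M']
  {M'' : Type v₃} [AddCommGroup M''] [Module R M'']
variable {F F' F'' : MCx R} {ε : (F.ι 0 → R) →ₗ[R] M} {ε' : (F'.ι 0 → R) →ₗ[R] M'}
  {ε'' : (F''.ι 0 → R) →ₗ[R] M''}
variable (X : Type v) [AddCommGroup X] [Module A X] [Module R X] [SMulCommClass R A X]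

/-- for `0 → M' → M → M'' → 0` and resolutions `F', F, F''`, there is a complex `E` with the same
homology as `F` (coefficients `X`) sitting in a short exact sequence with `F'` and `F''`. -/
theorem exists_ses_left (hF' : IsRes F' ε') (hF : IsRes F ε) (hF'' : IsRes F'' ε'')
    {α : M' →ₗ[R] M} {β : M →ₗ[R] M''} (hα : Function.Injective α) (hβ : Function.Surjective β)
    (hex : Function.Exact α β) :
    ∃ (θ : ∀ n, Matrix (F'.ι n) (F''.ι (n + 1)) R)
      (hθ : ∀ n, F'.d n * θ (n + 1) + θ n * F''.d (n + 1) = 0),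
      (∀ i, hX Λ F X i = hX Λ (ext F' F'' θ hθ) X i) := by
  obtain ⟨θ, hθ, ε₁, h₁⟩ := exists_horseshoe hF' hF'' hα hβ hex
  exact ⟨θ, hθ, fun i => hX_eq_of_isRes Λ hF h₁ (LinearEquiv.refl R M) X i⟩

theorem hX_left_mid_le (hF' : IsRes F' ε') (hF : IsRes F ε) (hF'' : IsRes F'' ε'')
    {α : M' →ₗ[R] M} {β : M →ₗ[R] M''} (hα : Function.Injective α) (hβ : Function.Surjective β)
    (hex : Function.Exact α β) (i : ℕ) : hX Λ F X i ≤ hX Λ F' X i + hX Λ F'' X i := by
  obtain ⟨θ, hθ, h⟩ := exists_ses_left Λ X hF' hF hF'' hα hβ hex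
  rw [h]
  exact (sesExt A X F' F'' θ hθ).h_mid_le Λ (isCx_dA A (ext F' F'' θ hθ) X) i

theorem hX_left_left_le (hF' : IsRes F' ε') (hF : IsRes F ε) (hF'' : IsRes F'' ε'')
    {α : M' →ₗ[R] M} {β : M →ₗ[R] M''} (hα : Function.Injective α) (hβ : Function.Surjective β)
    (hex : Function.Exact α β) (i : ℕ) : hX Λ F' X i ≤ hX Λ F X i + hX Λ F'' X (i + 1) := by
  obtain ⟨θ, hθ, h⟩ := exists_ses_left Λ X hF' hF hF'' hα hβ hex
  rw [h]
  exact (sesExt A X F' F'' θ hθ).h_left_le Λ (isCx_dA A (ext F' F'' θ hθ) X) i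

theorem hX_left_right_le_succ (hF' : IsRes F' ε') (hF : IsRes F ε) (hF'' : IsRes F'' ε'')
    {α : M' →ₗ[R] M} {β : M →ₗ[R] M''} (hα : Function.Injective α) (hβ : Function.Surjective β)
    (hex : Function.Exact α β) (i : ℕ) : hX Λ F'' X (i + 1) ≤ hX Λ F X (i + 1) + hX Λ F' X i := by
  obtain ⟨θ, hθ, h⟩ := exists_ses_left Λ X hF' hF hF'' hα hβ hex
  rw [h]
  exact (sesExt A X F' F'' θ hθ).h_right_le_succ Λ (isCx_dA A (ext F' F'' θ hθ) X) i

theorem hX_left_right_le_zero (hF' : IsRes F' ε') (hF : IsRes F ε) (hF'' : IsRes F'' ε'')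
    {α : M' →ₗ[R] M} {β : M →ₗ[R] M''} (hα : Function.Injective α) (hβ : Function.Surjective β)
    (hex : Function.Exact α β) : hX Λ F'' X 0 ≤ hX Λ F X 0 := by
  obtain ⟨θ, hθ, h⟩ := exists_ses_left Λ X hF' hF hF'' hα hβ hex
  rw [h]
  exact (sesExt A X F' F'' θ hθ).h_right_le_zero Λ (isCx_dA A (ext F' F'' θ hθ) X)

/-- additivity of `χ` in the resolved module -/
theorem chiX_add_left (hF' : IsRes F' ε') (hF : IsRes F ε) (hF'' : IsRes F'' ε'')
    {α : M' →ₗ[R] M} {β : M →ₗ[R] M''} (hα : Function.Injective α) (hβ : Function.Surjective β)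
    (hex : Function.Exact α β) (N : ℕ) (h1 : ∀ i < N, hX Λ F' X i ≠ ⊤)
    (h2 : ∀ i < N, hX Λ F'' X i ≠ ⊤) (h0 : hX Λ F'' X N = 0) :
    chiX Λ F X N = chiX Λ F' X N + chiX Λ F'' X N := by
  obtain ⟨θ, hθ, h⟩ := exists_ses_left Λ X hF' hF hF'' hα hβ hex
  have e : chiX Λ F X N = chiX Λ (ext F' F'' θ hθ) X N :=
    chi_congr Λ (C := fun n => F.ι n → X) (C' := fun n => (ext F' F'' θ hθ).ι n → X)
      fun i _ => h i
  rw [e]
  exact (sesExt A X F' F'' θ hθ).chi_add Λ (isCx_dA A (ext F' F'' θ hθ) X) N h1 h2 h0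

end addLeft

end Crest.Agent.R188.Chi
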