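/-
R188, block (A3): minimal free resolutions over Noetherian local rings; `H_0`; length of the
minimal resolution over a regular local ring.   helper876
(uses the constructions of R183/Res6, Res7, helper969)
-/
import Crest.Agent.R183.Res7
import Crest.Agent.R188.ChiHorse

set_option autoImplicit false
set_option linter.unusedSectionVars false

namespace Crest.Agent.R188.Chi

open scoped ENNReal
open IsLocalRing
open Crest.Agent.R183 Crest.Agent.R183.Res

universe u v w v' v₂ v₃

section min

variable {T : Type w} [CommRing T] [IsLocalRing T] [IsNoetherianRing T]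
variable (M : Type v) [AddCommGroup M] [Module T M] [Module.Finite T M]

/-- a finitely generated module over a local ring has a minimal system of generators -/
theorem exists_min_gen : ∃ (k : ℕ) (e : Fin k → M), Submodule.span T (Set.range e) = ⊤ ∧
    ∀ v : Fin k → T, ∑ j, v j • e j = 0 → ∀ j, v j ∈ maximalIdeal T := by
  classical
  have hex : ∃ k : ℕ, ∃ e : Fin k → M, Submodule.span T (Set.range e) = ⊤ :=
    Module.Finite.exists_fin (R := T) (M := M)
  obtain ⟨k, ⟨e, he⟩, hkmin⟩ : ∃ k : ℕ, (∃ e : Fin k → M,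
      Submodule.span T (Set.range e) = ⊤) ∧ ∀ m < k, ¬ ∃ e : Fin m → M,
      Submodule.span T (Set.range e) = ⊤ :=
    ⟨Nat.find hex, Nat.find_spec hex, fun m hm => Nat.find_min hex hm⟩
  refine ⟨k, e, he, fun v hv j => ?_⟩
  by_contra hj
  have hu : IsUnit (v j) := by
    by_contra h
    exact hj ((mem_maximalIdeal _).mpr h)
  obtain ⟨m, hm⟩ : ∃ m, k = m + 1 := ⟨k - 1, by have := j.2; omega⟩
  have hlt : m < k := by omega
  refine hkmin m hlt ?_
  obtain ⟨u, hu'⟩ := hu
  have hej : e j ∈ Submodule.span T (e '' {i | i ≠ j}) := by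
    have h1 : v j • e j + ∑ i ∈ Finset.univ.erase j, v i • e i = 0 := by
      rw [Finset.add_sum_erase _ (fun i => v i • e i) (Finset.mem_univ j)]
      exact hv
    have h2 : e j = - ((↑u⁻¹ : T) • ∑ i ∈ Finset.univ.erase j, v i • e i) := by
      have h3 : v j • e j = - ∑ i ∈ Finset.univ.erase j, v i • e i := eq_neg_of_add_eq_zero_left h1
      have h4 : (↑u⁻¹ : T) • (v j • e j) = e j := by
        rw [smul_smul, ← hu', Units.inv_mul, one_smul]
      rw [← h4, h3, smul_neg]
    rw [h2]
    refine Submodule.neg_mem _ (Submodule.smul_mem _ _ (Submodule.sum_mem _ (fun i hi => ?_)))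
    exact Submodule.smul_mem _ _ (Submodule.subset_span ⟨i, (Finset.mem_erase.mp hi).1, rfl⟩)
  have hspan : Submodule.span T (e '' {i | i ≠ j}) = ⊤ := by
    rw [← he]
    refine le_antisymm (Submodule.span_mono (Set.image_subset_range _ _)) ?_
    rw [Submodule.span_le]
    rintro _ ⟨i, rfl⟩
    by_cases h : i = j
    · rw [h]; exact hej
    · exact Submodule.subset_span ⟨i, h, rfl⟩
  have hcard : Fintype.card {i : Fin k // i ≠ j} = m := by
    rw [Fintype.card_subtype_compl, Fintype.card_fin, Fintype.card_subtype_eq, hm]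
    rfl
  let f : Fin m ≃ {i : Fin k // i ≠ j} := (Fintype.equivFinOfCardEq hcard).symm
  refine ⟨fun i => e (f i).1, ?_⟩
  rw [← hspan]
  congr 1
  ext x
  constructor
  · rintro ⟨i, rfl⟩
    exact ⟨(f i).1, (f i).2, rfl⟩
  · rintro ⟨i, hi, rfl⟩
    exact ⟨f.symm ⟨i, hi⟩, by simp⟩

/-- **existence of minimal free resolutions** -/
theorem exists_min_res : ∃ (F : MCx T) (ε : (F.ι 0 → T) →ₗ[T] M), IsRes F ε ∧
    F.EntriesIn (maximalIdeal T) := by
  classical
  obtain ⟨n, e, he, hmin0⟩ := exists_min_gen (T := T) M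
  let ε : (Fin n → T) →ₗ[T] M := Fintype.linearCombination T e
  have hε : ∀ v, ε v = ∑ j, v j • e j := fun v => Fintype.linearCombination_apply T e v
  obtain ⟨k, D, hD, hmin⟩ := exists_min_cover (LinearMap.ker ε)
  let s : Stage T := ⟨Fin n, Fin k, inferInstance, inferInstance, inferInstance, inferInstance, D⟩
  have hmin' : ∀ n (v : (stages s n).κ → T), act T (stages s n).D v = 0 →
      ∀ j, v j ∈ maximalIdeal T := by
    intro n
    cases n with
    | zero => exact hmin
    | succ m => exact (stages s m).next_min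
  refine ⟨stageCx s, ε, ⟨?_, ?_, ?_⟩, ?_⟩
  · intro m
    have : m ∈ Submodule.span T (Set.range e) := by rw [he]; trivial
    rw [Submodule.mem_span_range_iff_exists_fun] at this
    obtain ⟨c, hc⟩ := this
    exact ⟨c, (hε c).trans hc⟩
  · exact hD.symm
  · intro i
    exact (stageCx_exact s i).symm
  · intro n' a b
    cases n' with
    | zero =>
      have h1 : act T D (Pi.single b 1) ∈ LinearMap.ker ε := by
        rw [← hD]; exact ⟨_, rfl⟩
      have h2 := hmin0 _ ((hε _).symm.trans h1) a
      rw [Res.act_single D b a] at h2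
      exact h2
    | succ m =>
      have h1 : act T (stages s m).next.D (Pi.single b 1) ∈ LinearMap.ker (act T (stages s m).D) := by
        rw [← (stages s m).next_range]; exact ⟨_, rfl⟩
      have h2 : (stages s m).next.D (show (stages s m).next.ι from a)
          (show (stages s m).next.κ from b) ∈ maximalIdeal T := by
        rw [← Res.act_single (stages s m).next.D b a]
        exact hmin' m _ h1 a
      exact h2

/-- existence of finite free resolutions -/
theorem exists_res : ∃ (F : MCx T) (ε : (F.ι 0 → T) →ₗ[T] M), IsRes F ε := by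
  obtain ⟨F, ε, h, -⟩ := exists_min_res (T := T) M
  exact ⟨F, ε, h⟩

end min

section H0

variable {R : Type w} [CommRing R]
variable {M : Type v} [AddCommGroup M] [Module R M]

/-- a resolution is exact in the sense of `R183/Res6` -/
lemma IsRes.exact {F : MCx R} {ε : (F.ι 0 → R) →ₗ[R] M} (h : IsRes F ε) : F.Exact := by
  intro n v hv
  have : v ∈ LinearMap.ker (F.dM R n) := hv
  rw [h.ex n] at this
  exact this

end H0

section regular

variable {T : Type w} [CommRing T] [IsLocalRing T] [IsNoetherianRing T]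

/-- if the maximal ideal is generated by a regular sequence of length `d`, minimal resolutions
have length `≤ d` -/
theorem len_of_regular {F : MCx T} {M : Type v} [AddCommGroup M] [Module T M]
    {ε : (F.ι 0 → T) →ₗ[T] M} (hF : IsRes F ε) (hent : F.EntriesIn (maximalIdeal T)) (d : ℕ)
    (Y : ℕ → T) (hreg : ∀ i < d, ∀ a, Y i * a ∈ Ideal.span (Y '' Set.Iio i) →
      a ∈ Ideal.span (Y '' Set.Iio i)) (hmax : Ideal.span (Y '' Set.Iio d) = maximalIdeal T) :
    F.Len d := by
  have hs : ∀ i, Ideal.span (Y '' Set.Iio (i + 1)) =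
      Ideal.span (Y '' Set.Iio i) ⊔ Ideal.span {Y i} := by
    intro i
    rw [← Ideal.span_union]
    congr 1
    ext y
    constructor
    · rintro ⟨j, hj, rfl⟩
      rcases Nat.lt_succ_iff_lt_or_eq.1 hj with h | h
      · exact Or.inl ⟨j, h, rfl⟩
      · exact Or.inr (by rw [h]; rfl)
    · rintro (⟨j, hj, rfl⟩ | h)
      · exact ⟨j, Nat.lt_succ_of_lt hj, rfl⟩
      · exact ⟨i, Nat.lt_succ_self i, h.symm⟩
  have key : ∀ k ≤ d, ∀ i, k ≤ i →
      F.NullM (NullF.triv T) (T ⧸ Ideal.span (Y '' Set.Iio k)) (i + 1) := by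
    intro k
    induction k with
    | zero =>
      intro _ i _
      have h0 : Ideal.span (Y '' Set.Iio 0) = (⊥ : Ideal T) := by
        have : Set.Iio 0 = (∅ : Set ℕ) := by ext j; simp
        rw [this, Set.image_empty, Ideal.span_empty]
      rw [h0]
      have h1 := null_self F hF.exact i
      -- transport along `T ≃ T ⧸ ⊥`
      let e : T ≃ₗ[T] (T ⧸ (⊥ : Ideal T)) := (Submodule.quotEquivOfEqBot ⊥ rfl).symm
      intro v hv
      have h2 := MCx.post_cyc F (e.symm : (T ⧸ (⊥ : Ideal T)) →ₗ[T] T) (i + 1) hv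
      have h3 := h1 h2
      rw [sat_triv] at h3 ⊢
      have h4 := MCx.post_bdy F (e : T →ₗ[T] (T ⧸ (⊥ : Ideal T))) (i + 1) h3
      have h5 : post (F.ι (i + 1)) (e : T →ₗ[T] (T ⧸ (⊥ : Ideal T)))
          (post (F.ι (i + 1)) (e.symm : (T ⧸ (⊥ : Ideal T)) →ₗ[T] T) v) = v := by
        funext a
        simp
      rwa [h5] at h4
    | succ k ih =>
      intro hk i hi
      rw [hs]
      obtain ⟨i, rfl⟩ : ∃ j, i = j + 1 := ⟨i - 1, by omega⟩
      exact null_quot_sup_span F _ _ (hreg k (by omega)) (i + 1)
        (ih (by omega) (i + 1) (by omega)) (ih (by omega) i (by omega))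
  have h1 := key d le_rfl
  rw [hmax] at h1
  exact len_of_null F d hent h1

end regular

end Crest.Agent.R188.Chi
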