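import Mathlib

/-!
# R188, blocks A1/A2 (helper645), part 0: regular local rings

* `isRegularLocalRing_of_span` : maximal ideal generated by `n ≤ dim R` elements
* `isDomain_of_isRegularLocalRing` : regular local rings are domains
-/

set_option autoImplicit false

namespace Crest.Agent.R188.Str

open IsLocalRing Ideal

section basic

variable {R : Type*} [CommRing R]

theorem spanFinrank_le_of_span_range {M : Type*} [AddCommGroup M] [Module R M] {n : ℕ}
    (x : Fin n → M) : (Submodule.span R (Set.range x)).spanFinrank ≤ n := by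
  classical
  have h := Submodule.spanFinrank_span_le_ncard_of_finite (R := R) (Set.finite_range x)
  refine h.trans ?_
  have : (Set.range x).ncard ≤ (Set.univ : Set (Fin n)).ncard := by
    rw [← Set.image_univ]
    exact Set.ncard_image_le Set.finite_univ
  simpa using this

/-- A Noetherian local ring whose maximal ideal is generated by `n ≤ dim R` elements is regular
of dimension `n`. -/
theorem isRegularLocalRing_of_span [IsLocalRing R] [IsNoetherianRing R] {n : ℕ} (x : Fin n → R)
    (hx : span (Set.range x) = maximalIdeal R) (hn : (n : WithBot ℕ∞) ≤ ringKrullDim R) :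
    IsRegularLocalRing R ∧ ringKrullDim R = n := by
  have h1 : (maximalIdeal R).spanFinrank ≤ n := by
    rw [← hx]; exact spanFinrank_le_of_span_range x
  have h2 := ringKrullDim_le_spanFinrank_maximalIdeal R
  have h3 : ((maximalIdeal R).spanFinrank : WithBot ℕ∞) ≤ n := by exact_mod_cast h1
  refine ⟨IsRegularLocalRing.of_spanFinrank_maximalIdeal_le R (h3.trans hn),
    le_antisymm (h2.trans h3) hn⟩

/-- the maximal ideal of a regular local ring of dimension `d` is generated by `d` elements -/
theorem exists_generators (R : Type*) [CommRing R] [IsRegularLocalRing R] {d : ℕ}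
    (hd : ringKrullDim R = d) :
    ∃ x : Fin d → R, span (Set.range x) = maximalIdeal R := by
  have h1 := IsRegularLocalRing.spanFinrank_maximalIdeal (R := R)
  rw [hd] at h1
  have h2 : (maximalIdeal R).spanFinrank = d := by exact_mod_cast h1
  have hfg := (maximalIdeal R).fg_of_isNoetherianRing
  have hfin := Submodule.FG.finite_generators hfg
  have hcard := Submodule.FG.generators_ncard hfg
  rw [h2] at hcard
  have hc : hfin.toFinset.card = d := by
    rw [← Set.ncard_eq_toFinset_card _ hfin, hcard]
  let e : Fin d ≃ hfin.toFinset := (Fintype.equivFinOfCardEq (by simpa using hc)).symm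
  refine ⟨fun i => (e i : R), ?_⟩
  have hr : Set.range (fun i => (e i : R)) = (maximalIdeal R).generators := by
    rw [show (fun i => (e i : R)) = Subtype.val ∘ e from rfl, e.surjective.range_comp]
    simp
  rw [hr]
  exact (maximalIdeal R).span_generators

/-- If `m` is generated by `n + 1` elements and `x ∈ m ∖ m ^ 2` then `m` is generated by `x`
and `n` elements. -/
theorem exists_exchange [IsLocalRing R] {n : ℕ} (y : Fin (n + 1) → R)
    (hy : span (Set.range y) = maximalIdeal R) (x : R) (hx : x ∈ maximalIdeal R)
    (hx2 : x ∉ maximalIdeal R ^ 2) :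
    ∃ z : Fin n → R, (∀ i, z i ∈ maximalIdeal R) ∧
      maximalIdeal R = span (Set.range z) ⊔ span {x} := by
  classical
  have hym : ∀ i, y i ∈ maximalIdeal R := fun i => hy ▸ subset_span ⟨i, rfl⟩
  rw [← hy] at hx
  obtain ⟨a, ha⟩ := (Ideal.mem_span_range_iff_exists_fun).1 hx
  have hex : ∃ j, IsUnit (a j) := by
    by_contra hcon
    push Not at hcon
    apply hx2
    rw [← ha, pow_two]
    refine Ideal.sum_mem _ fun i _ => Ideal.mul_mem_mul ?_ (hym i)
    exact (mem_maximalIdeal _).2 (hcon i)
  obtain ⟨j, hj⟩ := hex
  refine ⟨fun i => y (j.succAbove i), fun i => hym _, ?_⟩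
  apply le_antisymm
  · rw [← hy, span_le]
    rintro _ ⟨i, rfl⟩
    rcases Fin.eq_self_or_eq_succAbove j i with rfl | ⟨k, rfl⟩
    · obtain ⟨u, hu⟩ := hj
      have h1 : y i = ↑u⁻¹ * (x - ∑ k, a (i.succAbove k) * y (i.succAbove k)) := by
        rw [← ha, Fin.sum_univ_succAbove _ i, ← hu]
        rw [add_sub_cancel_right, ← mul_assoc, Units.inv_mul, one_mul]
      rw [SetLike.mem_coe, h1]
      refine Ideal.mul_mem_left _ _ (Ideal.sub_mem _ ?_ ?_)
      · exact (le_sup_right : span {x} ≤ _) (mem_span_singleton_self x)
      · refine Ideal.sum_mem _ fun k _ => Ideal.mul_mem_left _ _ ?_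
        exact (le_sup_left : _ ≤ span (Set.range fun i_1 => y (i.succAbove i_1)) ⊔ span {x})
          (subset_span ⟨k, rfl⟩)
    · exact (le_sup_left : _ ≤ span (Set.range fun i_1 => y (j.succAbove i_1)) ⊔ span {x})
        (subset_span ⟨k, rfl⟩)
  · refine sup_le ?_ ?_
    · rw [span_le]
      rintro _ ⟨i, rfl⟩
      exact hym _
    · rw [span_singleton_le_iff_mem, ← hy]
      exact hx

theorem isLocalRing_quotient [IsLocalRing R] {I : Ideal R} (hI : I ≤ maximalIdeal R) :
    IsLocalRing (R ⧸ I) := by
  have : Nontrivial (R ⧸ I) := Ideal.Quotient.nontrivial_iff.2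
    (fun h => (maximalIdeal.isMaximal R).ne_top (top_le_iff.1 (h ▸ hI)))
  exact IsLocalRing.of_surjective' (Ideal.Quotient.mk I) Ideal.Quotient.mk_surjective

theorem map_maximalIdeal_of_surjective {S : Type*} [CommRing S] [IsLocalRing R] [IsLocalRing S]
    (f : R →+* S) (hf : Function.Surjective f) :
    (maximalIdeal R).map f = maximalIdeal S := by
  have : IsLocalHom f := hf.isLocalHom
  exact IsLocalRing.map_maximalIdeal_of_surjective f hf

end basic

section domain

theorem le_of_succ_le_succ {n : ℕ} {D : WithBot ℕ∞}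
    (h : (((n + 1 : ℕ) : ℕ∞) : WithBot ℕ∞) ≤ D + 1) : ((n : ℕ∞) : WithBot ℕ∞) ≤ D := by
  cases D with
  | bot => simp at h
  | coe D =>
    cases D with
    | top => exact_mod_cast (le_top : ((n : ℕ∞)) ≤ ⊤)
    | coe D =>
      have h1 : n + 1 ≤ D + 1 := by exact_mod_cast h
      have h2 : n ≤ D := by omega
      exact_mod_cast h2

/-- `dim R ≤ dim R/(x) + 1` for `x` in the maximal ideal. -/
theorem ringKrullDim_le_quotient_span_singleton {R : Type*} [CommRing R] [IsLocalRing R]
    [IsNoetherianRing R] {x : R} (hx : x ∈ maximalIdeal R) :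
    ringKrullDim R ≤ ringKrullDim (R ⧸ span {x}) + 1 := by
  have h3 := ringKrullDim_le_ringKrullDim_quotient_add_encard ({x} : Set R)
    (by simpa [IsLocalRing.ringJacobson_eq_maximalIdeal] using hx)
  simpa using h3

/-- quotient of a regular local ring by an element of `m ∖ m ^ 2` (dimension count form) -/
theorem regular_quotient_of_notMem_sq {R : Type*} [CommRing R] [IsRegularLocalRing R] {n : ℕ}
    (hd : ringKrullDim R = (n + 1 : ℕ)) (x : R) (hx : x ∈ maximalIdeal R)
    (hx2 : x ∉ maximalIdeal R ^ 2) :
    IsRegularLocalRing (R ⧸ span {x}) ∧ ringKrullDim (R ⧸ span {x}) = n := by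
  have hloc : IsLocalRing (R ⧸ span {x}) :=
    isLocalRing_quotient ((span_singleton_le_iff_mem _).2 hx)
  obtain ⟨y, hy⟩ := exists_generators R hd
  obtain ⟨z, hzm, hz⟩ := exists_exchange y hy x hx hx2
  have hmap : (maximalIdeal R).map (Ideal.Quotient.mk (span {x})) =
      maximalIdeal (R ⧸ span {x}) :=
    map_maximalIdeal_of_surjective _ Ideal.Quotient.mk_surjective
  have h1 : span (Set.range fun i => Ideal.Quotient.mk (span {x}) (z i)) =
      maximalIdeal (R ⧸ span {x}) := by
    rw [← hmap, hz, Ideal.map_sup, Ideal.map_span, Ideal.map_span, Set.image_singleton,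
      Ideal.Quotient.eq_zero_iff_mem.2 (mem_span_singleton_self x), ← Set.range_comp]
    simp [Function.comp_def]
  have h2 := ringKrullDim_le_quotient_span_singleton hx
  have h3 : (n : WithBot ℕ∞) ≤ ringKrullDim (R ⧸ span {x}) := by
    rw [hd] at h2
    exact le_of_succ_le_succ h2
  exact isRegularLocalRing_of_span _ h1 h3

theorem isDomain_aux (n : ℕ) : ∀ (R : Type*) [CommRing R] [IsRegularLocalRing R],
    ringKrullDim R = n → IsDomain R := by
  induction n with
  | zero =>
    intro R _ _ hd
    have h1 := IsRegularLocalRing.spanFinrank_maximalIdeal (R := R)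
    rw [hd] at h1
    have h2 : (maximalIdeal R).spanFinrank = 0 := by exact_mod_cast h1
    have h3 : maximalIdeal R = ⊥ :=
      (Submodule.spanFinrank_eq_zero_iff_eq_bot (maximalIdeal R).fg_of_isNoetherianRing).1 h2
    have hf := isField_iff_maximalIdeal_eq.2 h3
    exact hf.isDomain
  | succ n ih =>
    intro R _ _ hd
    have h0 : ¬ Ring.KrullDimLE 0 R := by
      rw [Ring.krullDimLE_iff, hd]
      intro h
      have : n + 1 ≤ 0 := by exact_mod_cast h
      omega
    have hfg := (maximalIdeal R).fg_of_isNoetherianRing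
    -- prime avoidance
    have hex : ∃ x ∈ maximalIdeal R, x ∉ maximalIdeal R ^ 2 ∧ ∀ q ∈ minimalPrimes R, x ∉ q := by
      by_contra hcon
      push Not at hcon
      have hfin := minimalPrimes.finite_of_isNoetherianRing R
      have hsub : (maximalIdeal R : Set R) ⊆
          ⋃ i ∈ ((insert (maximalIdeal R ^ 2) hfin.toFinset : Finset (Ideal R)) :
            Set (Ideal R)), ((id i : Ideal R) : Set R) := by
        intro x hx
        by_cases h : x ∈ maximalIdeal R ^ 2
        · exact Set.mem_biUnion (Finset.mem_coe.2 (Finset.mem_insert_self _ _)) h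
        · obtain ⟨q, hq, hxq⟩ := hcon x hx h
          exact Set.mem_biUnion (Finset.mem_coe.2 (Finset.mem_insert_of_mem
            (hfin.mem_toFinset.2 hq))) hxq
      rw [Ideal.subset_union_prime (maximalIdeal R ^ 2) (maximalIdeal R ^ 2)] at hsub
      · obtain ⟨i, hi, hle⟩ := hsub
        rw [id] at hle
        rcases Finset.mem_insert.1 hi with rfl | hi
        · have : maximalIdeal R = ⊥ := by
            apply Submodule.eq_bot_of_le_smul_of_le_jacobson_bot (maximalIdeal R) _ hfg
            · rw [smul_eq_mul, ← pow_two]; exact hle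
            · exact maximalIdeal_le_jacobson _
          have h1 := IsRegularLocalRing.spanFinrank_maximalIdeal (R := R)
          rw [this, hd] at h1
          have h2 : (⊥ : Ideal R).spanFinrank = n + 1 := by exact_mod_cast h1
          rw [Submodule.spanFinrank_bot] at h2
          omega
        · have hi' := hfin.mem_toFinset.1 hi
          have := hi'.1.1
          have h2 : i = maximalIdeal R := le_antisymm (le_maximalIdeal this.ne_top) hle
          apply h0
          rw [Ring.krullDimLE_zero_iff]
          intro q hq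
          have h3 : q ≤ maximalIdeal R := le_maximalIdeal hq.ne_top
          have h4 : i ≤ q := hi'.2 ⟨hq, bot_le⟩ (h2 ▸ h3)
          have : q = maximalIdeal R := le_antisymm h3 (h2 ▸ h4)
          rw [this]; exact maximalIdeal.isMaximal R
      · intro i hi hne _
        rcases Finset.mem_insert.1 hi with rfl | hi
        · exact absurd rfl hne
        · exact (hfin.mem_toFinset.1 hi).1.1
    obtain ⟨x, hx, hx2, hxq⟩ := hex
    obtain ⟨hreg, hdim⟩ := regular_quotient_of_notMem_sq hd x hx hx2
    have hdom := ih (R ⧸ span {x}) hdim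
    have hprime : (span {x}).IsPrime := (Ideal.Quotient.isDomain_iff_prime _).1 hdom
    obtain ⟨q, hq, hqx⟩ := Ideal.exists_minimalPrimes_le (I := (⊥ : Ideal R)) (J := span {x})
      bot_le
    have hqp : q.IsPrime := hq.1.1
    have hqx' : x ∉ q := hxq q hq
    have hle : q ≤ maximalIdeal R • q := by
      intro y hy
      obtain ⟨z, rfl⟩ := mem_span_singleton'.1 (hqx hy)
      have hz : z ∈ q := (hqp.mem_or_mem hy).resolve_right hqx'
      rw [mul_comm, smul_eq_mul]
      exact Ideal.mul_mem_mul hx hz
    have hbot : q = ⊥ := Submodule.eq_bot_of_le_smul_of_le_jacobson_bot (maximalIdeal R) _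
      (q.fg_of_isNoetherianRing) hle (maximalIdeal_le_jacobson _)
    rw [hbot] at hqp
    exact IsDomain.of_bot_isPrime R

/-- **Regular local rings are domains.** -/
theorem isDomain_of_isRegularLocalRing (R : Type*) [CommRing R] [IsRegularLocalRing R] :
    IsDomain R := by
  refine isDomain_aux (maximalIdeal R).spanFinrank R ?_
  exact (IsRegularLocalRing.spanFinrank_maximalIdeal (R := R)).symm

end domain

end Crest.Agent.R188.Str
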