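/-
R188, block (A3): regular local rings: a regular system of parameters is a regular sequence;
finitely generated modules have finite free resolutions of length `≤ dim R`.   helper876
(uses R188/Str0, helper645)
-/
import Crest.Agent.R188.Str0
import Crest.Agent.R188.ChiMin

set_option autoImplicit false
set_option linter.unusedSectionVars false

namespace Crest.Agent.R188.Chi

open scoped ENNReal
open IsLocalRing
open Crest.Agent.R183 Crest.Agent.R183.Res

universe u v w v' v₂ v₃

section seq

variable {R : Type w} [CommRing R] [IsRegularLocalRing R] {d : ℕ}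

lemma span_Iio_succ (x : ℕ → R) (i : ℕ) : Ideal.span (x '' Set.Iio (i + 1)) =
    Ideal.span (x '' Set.Iio i) ⊔ Ideal.span {x i} := by
  rw [← Ideal.span_union]
  congr 1
  ext y
  constructor
  · rintro ⟨j, hj, rfl⟩
    rcases Nat.lt_succ_iff_lt_or_eq.1 hj with h | h
    · exact Or.inl ⟨j, h, rfl⟩
    · exact Or.inr (by rw [h]; rfl)
  · rintro (⟨j, hj, rfl⟩ | h)
    · exact ⟨j, Nat.lt_succ_of_lt hj, rfl⟩
    · exact ⟨i, Nat.lt_succ_self i, h.symm⟩

/-- quotients of a regular local ring by part of a regular system of parameters -/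
theorem regular_quotient (hd : ringKrullDim R = d) (x : ℕ → R)
    (hx : Ideal.span (x '' Set.Iio d) = maximalIdeal R) {i : ℕ} (hi : i ≤ d) :
    IsRegularLocalRing (R ⧸ Ideal.span (x '' Set.Iio i)) ∧
      ringKrullDim (R ⧸ Ideal.span (x '' Set.Iio i)) = (d - i : ℕ) := by
  have hle : Ideal.span (x '' Set.Iio i) ≤ maximalIdeal R := by
    rw [← hx]
    exact Ideal.span_mono (Set.image_mono (fun j hj => lt_of_lt_of_le hj hi))
  have hloc : IsLocalRing (R ⧸ Ideal.span (x '' Set.Iio i)) := Str.isLocalRing_quotient hle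
  refine Str.isRegularLocalRing_of_span (n := d - i)
    (fun j => Ideal.Quotient.mk _ (x (i + j))) ?_ ?_
  · rw [← Str.map_maximalIdeal_of_surjective (Ideal.Quotient.mk _) Ideal.Quotient.mk_surjective,
      ← hx, Ideal.map_span]
    apply le_antisymm
    · refine Ideal.span_mono ?_
      rintro _ ⟨j, rfl⟩
      exact ⟨x (i + j), ⟨i + j, by have := j.2; simp only [Set.mem_Iio]; omega, rfl⟩, rfl⟩
    · rw [Ideal.span_le]
      rintro _ ⟨_, ⟨j, hj, rfl⟩, rfl⟩
      by_cases hji : j < i
      · have : x j ∈ Ideal.span (x '' Set.Iio i) := Ideal.subset_span ⟨j, hji, rfl⟩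
        rw [Ideal.Quotient.eq_zero_iff_mem.2 this]
        exact Submodule.zero_mem _
      · have hj' : j < d := hj
        refine Ideal.subset_span ⟨⟨j - i, by omega⟩, ?_⟩
        show Ideal.Quotient.mk _ (x (i + (j - i))) = _
        rw [Nat.add_sub_cancel' (not_lt.1 hji)]
  · have h1 := ringKrullDim_le_ringKrullDim_quotient_add_encard (x '' Set.Iio i)
      (by
        rw [IsLocalRing.ringJacobson_eq_maximalIdeal]
        exact (Ideal.subset_span).trans hle)
    have h2 : (x '' Set.Iio i).encard ≤ i := by
      refine (Set.encard_image_le _ _).trans ?_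
      have : (Set.Iio i : Set ℕ).encard = i := by
        rw [← Set.Finite.cast_ncard_eq (Set.finite_Iio i)]
        have : (Set.Iio i : Set ℕ).ncard = i := by
          rw [← Finset.coe_range, Set.ncard_coe_finset, Finset.card_range]
        rw [this]
      exact this.le
    rw [hd] at h1
    have h3 : ((d : ℕ∞) : WithBot ℕ∞) ≤ ringKrullDim (R ⧸ Ideal.span (x '' Set.Iio i)) + (i : ℕ∞) :=
      h1.trans (add_le_add le_rfl (WithBot.coe_le_coe.2 h2))
    show (((d - i : ℕ) : ℕ∞) : WithBot ℕ∞) ≤ ringKrullDim (R ⧸ Ideal.span (x '' Set.Iio i))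
    revert h3
    generalize ringKrullDim (R ⧸ Ideal.span (x '' Set.Iio i)) = D
    intro h3
    cases D with
    | bot => simp at h3
    | coe D =>
      cases D with
      | top => exact_mod_cast (le_top : (((d - i : ℕ) : ℕ∞)) ≤ ⊤)
      | coe D =>
        have h4 : d ≤ D + i := by exact_mod_cast h3
        have h5 : d - i ≤ D := by omega
        exact WithBot.coe_le_coe.2 (by exact_mod_cast h5)

/-- a regular system of parameters is a regular sequence -/
theorem regular_sequence (hd : ringKrullDim R = d) (x : ℕ → R)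
    (hx : Ideal.span (x '' Set.Iio d) = maximalIdeal R) :
    ∀ i < d, ∀ a, x i * a ∈ Ideal.span (x '' Set.Iio i) → a ∈ Ideal.span (x '' Set.Iio i) := by
  intro i hi a ha
  obtain ⟨h1, h2⟩ := regular_quotient hd x hx hi.le
  have hdom := Str.isDomain_of_isRegularLocalRing (R ⧸ Ideal.span (x '' Set.Iio i))
  have hprime : (Ideal.span (x '' Set.Iio i)).IsPrime := (Ideal.Quotient.isDomain_iff_prime _).1 hdom
  rcases hprime.mem_or_mem ha with h | h
  · exfalso
    have h3 : Ideal.span (x '' Set.Iio (i + 1)) = Ideal.span (x '' Set.Iio i) := by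
      rw [span_Iio_succ, sup_eq_left, Ideal.span_singleton_le_iff_mem]
      exact h
    have h4 := (regular_quotient hd x hx (i := i + 1) hi).2
    rw [h3, h2] at h4
    have : d - i = d - (i + 1) := by exact_mod_cast h4
    omega
  · exact h

/-- existence of a regular system of parameters, indexed by `ℕ` (zero beyond `d`) -/
theorem exists_params (hd : ringKrullDim R = d) :
    ∃ x : ℕ → R, Ideal.span (x '' Set.Iio d) = maximalIdeal R := by
  obtain ⟨y, hy⟩ := Str.exists_generators R hd
  refine ⟨fun j => if h : j < d then y ⟨j, h⟩ else 0, ?_⟩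
  rw [← hy]
  congr 1
  ext z
  constructor
  · rintro ⟨j, hj, rfl⟩
    have hj' : j < d := hj
    exact ⟨⟨j, hj'⟩, by simp [hj']⟩
  · rintro ⟨j, rfl⟩
    exact ⟨j, j.2, by simp⟩

/-- **minimal resolutions over a regular local ring of dimension `d` have length `≤ d`** -/
theorem len_le_dim (hd : ringKrullDim R = d) {F : MCx R} {M : Type v} [AddCommGroup M] [Module R M]
    {ε : (F.ι 0 → R) →ₗ[R] M} (hF : IsRes F ε) (hent : F.EntriesIn (maximalIdeal R)) :
    F.Len d := by
  obtain ⟨x, hx⟩ := exists_params hd
  exact len_of_regular hF hent d x (regular_sequence hd x hx) hx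

/-- **finite free resolutions of length `≤ dim R`** -/
theorem exists_res_len (hd : ringKrullDim R = d) (M : Type v) [AddCommGroup M] [Module R M]
    [Module.Finite R M] : ∃ (F : MCx R) (ε : (F.ι 0 → R) →ₗ[R] M), IsRes F ε ∧
      F.EntriesIn (maximalIdeal R) ∧ F.Len d := by
  obtain ⟨F, ε, hF, hent⟩ := exists_min_res (T := R) M
  exact ⟨F, ε, hF, hent, len_le_dim hd hF hent⟩

end seq

end Crest.Agent.R188.Chi
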