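/-
R188, block (A3): bridge between Mathlib's `Tor` and the homology of matrix resolutions.
helper876
-/
import Crest.Agent.R188.ChiRes

set_option autoImplicit false
set_option linter.unusedSectionVars false

namespace Crest.Agent.R188.Chi

open scoped ENNReal TensorProduct
open CategoryTheory
open Crest.Agent.R183 Crest.Agent.R183.Res

universe u

section homology

variable {R : Type u} [CommRing R]

/-- homology of a short complex of modules as `ker / comap range` -/
noncomputable def scHomologyEquiv (S : ShortComplex (ModuleCat.{u} R)) :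
    S.homology ≃ₗ[R] (↥(LinearMap.ker S.g.hom) ⧸
      (LinearMap.range S.f.hom).comap (LinearMap.ker S.g.hom).subtype) :=
  (S.moduleCatHomologyIso.toLinearEquiv) ≪≫ₗ
    (Submodule.quotEquivOfEq _ _ (by
      ext x
      constructor
      · rintro ⟨y, rfl⟩
        exact ⟨y, rfl⟩
      · rintro ⟨y, hy⟩
        exact ⟨y, Subtype.ext hy⟩))

/-- homology of a Mathlib chain complex of modules = `Chi.H` -/
noncomputable def chHomologyEquiv (K : ChainComplex (ModuleCat.{u} R) ℕ) : ∀ n : ℕ,
    K.homology n ≃ₗ[R] H (C := fun n => (K.X n : Type u)) (fun i => (K.d (i + 1) i).hom) n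
  | 0 =>
    (K.homologyIsoSc' 1 0 0 (by simp) (by simp)).toLinearEquiv ≪≫ₗ
      scHomologyEquiv (K.sc' 1 0 0) ≪≫ₗ
      Submodule.Quotient.equiv _ _
        (LinearEquiv.ofEq _ _ (show LinearMap.ker (K.d 0 0).hom = ⊤ by
          rw [K.shape 0 0 (by simp)]; exact LinearMap.ker_zero)) (by
        ext x
        constructor
        · rintro ⟨y, hy, rfl⟩
          exact hy
        · intro hx
          exact ⟨⟨x.1, by
            rw [show (K.sc' 1 0 0).g = 0 from K.shape 0 0 (by simp)]; rfl⟩, hx, rfl⟩)
  | (n + 1) =>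
    (K.homologyIsoSc' (n + 2) (n + 1) n (by simp) (by simp)).toLinearEquiv ≪≫ₗ
      scHomologyEquiv (K.sc' (n + 2) (n + 1) n)

end homology

section resolution

variable {R : Type u} [CommRing R]

/-- the Mathlib chain complex of a matrix complex -/
noncomputable def cx (F : MCx R) : ChainComplex (ModuleCat.{u} R) ℕ :=
  ChainComplex.of (fun n => ModuleCat.of R (F.ι n → R)) (fun n => ModuleCat.ofHom (F.dM R n))
    (fun n => ModuleCat.hom_ext (LinearMap.ext fun x => F.dM_dM n x))

lemma cx_d (F : MCx R) (n : ℕ) : (cx F).d (n + 1) n = ModuleCat.ofHom (F.dM R n) :=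
  ChainComplex.of_d (fun n => ModuleCat.of R (F.ι n → R))
    (fun n => ModuleCat.ofHom (F.dM R n)) n

instance (F : MCx R) (n : ℕ) : Projective ((cx F).X n) :=
  (IsProjective.iff_projective (R := R) (F.ι n → R)).1 inferInstance

variable {N : Type u} [AddCommGroup N] [Module R N]

/-- the augmentation as a morphism of complexes -/
noncomputable def aug (F : MCx R) {ε : (F.ι 0 → R) →ₗ[R] N} (hF : IsRes F ε) :
    cx F ⟶ (ChainComplex.single₀ (ModuleCat.{u} R)).obj (ModuleCat.of R N) :=
  (ChainComplex.toSingle₀Equiv _ _).symm ⟨ModuleCat.ofHom ε, by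
    rw [cx_d]
    exact ModuleCat.hom_ext (LinearMap.ext fun x => hF.ε_d x)⟩

lemma aug_f_zero (F : MCx R) {ε : (F.ι 0 → R) →ₗ[R] N} (hF : IsRes F ε) :
    (aug F hF).f 0 = ModuleCat.ofHom ε :=
  ChainComplex.toSingle₀Equiv_symm_apply_f_zero _ _

/-- the augmentation is a quasi-isomorphism -/
lemma quasiIso_aug (F : MCx R) {ε : (F.ι 0 → R) →ₗ[R] N} (hF : IsRes F ε) :
    QuasiIso (aug F hF) := ⟨fun n => by
    cases n with
    | zero =>
      rw [ChainComplex.quasiIsoAt₀_iff, ShortComplex.quasiIso_iff_of_zeros' _ ?_ rfl rfl]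
      · constructor
        · rw [ShortComplex.moduleCat_exact_iff_range_eq_ker]
          change LinearMap.range ((cx F).d 1 0).hom = LinearMap.ker ((aug F hF).f 0).hom
          rw [cx_d, aug_f_zero]
          exact hF.ex0.symm
        · rw [ModuleCat.epi_iff_surjective]
          change Function.Surjective ((aug F hF).f 0).hom
          rw [aug_f_zero]
          exact hF.surj
      · change (cx F).d 0 0 = 0
        exact (cx F).shape 0 0 (by simp)
    | succ n =>
      rw [quasiIsoAt_iff_exactAt' (hL := ChainComplex.exactAt_succ_single_obj ..),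
        HomologicalComplex.exactAt_iff' _ (n + 2) (n + 1) n (by simp) (by simp),
        ShortComplex.moduleCat_exact_iff_range_eq_ker]
      change LinearMap.range ((cx F).d (n + 2) (n + 1)).hom =
        LinearMap.ker ((cx F).d (n + 1) n).hom
      rw [cx_d, cx_d]
      exact (hF.ex n).symm⟩

/-- the projective resolution attached to a matrix resolution -/
noncomputable def projRes (F : MCx R) {ε : (F.ι 0 → R) →ₗ[R] N} (hF : IsRes F ε) :
    ProjectiveResolution (ModuleCat.of R N) where
  complex := cx F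
  π := aug F hF
  quasiIso := quasiIso_aug F hF

end resolution

section tor

variable {R : Type u} [CommRing R]
variable {N : Type u} [AddCommGroup N] [Module R N]

/-- the complex `M ⊗ F` in Mathlib's language -/
noncomputable abbrev tcx (M : ModuleCat.{u} R) (F : MCx R) : ChainComplex (ModuleCat.{u} R) ℕ :=
  ((((MonoidalCategory.tensoringLeft (ModuleCat.{u} R)).obj M).mapHomologicalComplex _).obj (cx F))

lemma tcx_d (M : ModuleCat.{u} R) (F : MCx R) (n : ℕ) :
    (show (M ⊗[R] (F.ι (n + 1) → R)) →ₗ[R] (M ⊗[R] (F.ι n → R)) from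
      ((tcx M F).d (n + 1) n).hom) = LinearMap.lTensor M (F.dM R n) := by
  change (MonoidalCategory.whiskerLeft M ((cx F).d (n + 1) n)).hom = _
  rw [cx_d]
  rfl

lemma pi_lTensor (M : Type u) [AddCommGroup M] [Module R M] (F : MCx R) (i : ℕ) :
    (TensorProduct.piScalarRight R R M (F.ι i)).toLinearMap ∘ₗ LinearMap.lTensor M (F.dM R i) =
      (F.dA R M i) ∘ₗ (TensorProduct.piScalarRight R R M (F.ι (i + 1))).toLinearMap := by
  refine TensorProduct.ext' fun m v => ?_
  simp only [LinearMap.comp_apply, LinearMap.lTensor_tmul, LinearEquiv.coe_coe,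
    TensorProduct.piScalarRight_apply, TensorProduct.piScalarRightHom_tmul]
  funext a
  change (∑ b, F.d i a b • v b) • m = ∑ b, F.d i a b • (v b • m)
  rw [Finset.sum_smul]
  exact Finset.sum_congr rfl fun b _ => by rw [smul_eq_mul, mul_smul]

/-- the isomorphism of complexes `M ⊗ (ι → R) ≃ (ι → M)` -/
lemma isMap_pi (M : ModuleCat.{u} R) (F : MCx R) :
    IsMap (C := fun n => ((tcx M F).X n : Type u)) (C' := fun n => F.ι n → M)
      (fun i => ((tcx M F).d (i + 1) i).hom) (F.dA R M)
      (fun n => ((TensorProduct.piScalarRight R R M (F.ι n)) :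
        (M ⊗[R] (F.ι n → R)) →ₗ[R] (F.ι n → M))) := by
  intro i x
  have h1 := LinearMap.congr_fun (pi_lTensor (R := R) M F i) x
  have h2 := LinearMap.congr_fun (tcx_d M F i) x
  exact (congrArg (TensorProduct.piScalarRight R R M (F.ι i)) h2).trans h1

/-- **`Tor_i(M, N) ≃ H_i(F_N ⊗ M)`** for Mathlib's `Tor` and a matrix resolution `F_N` of `N` -/
noncomputable def torEquiv (M : ModuleCat.{u} R) (F : MCx R) {ε : (F.ι 0 → R) →ₗ[R] N}
    (hF : IsRes F ε) (i : ℕ) :
    (((CategoryTheory.Tor (ModuleCat.{u} R) i).obj M).obj (ModuleCat.of R N)) ≃ₗ[R]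
      HX R F M i :=
  ((projRes F hF).isoLeftDerivedObj
    ((MonoidalCategory.tensoringLeft (ModuleCat.{u} R)).obj M) i).toLinearEquiv ≪≫ₗ
    chHomologyEquiv (tcx M F) i ≪≫ₗ
    Hiso (C := fun n => ((tcx M F).X n : Type u)) (C' := fun n => F.ι n → M)
      (fun n => (TensorProduct.piScalarRight R R M (F.ι n))) (isMap_pi M F) i

end tor

end Crest.Agent.R188.Chi
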