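/-
R188, block (A3): finiteness of lengths, S0288's sum as an Euler characteristic.   helper876
-/
import Crest.Agent.R188.ChiTor
import Crest.Agent.R188.ChiFlat
import Crest.Agent.R188.ChiReg

set_option autoImplicit false
set_option linter.unusedSectionVars false

namespace Crest.Agent.R188.Chi

open scoped ENNReal TensorProduct
open IsLocalRing
open Crest.Agent.R183 Crest.Agent.R183.Res

universe u v w

section fin

variable {A : Type u} [CommRing A] (Λ : AddLen.{u, u} A)

/-- a finitely generated module killed by `J` has `L < ∞` if `L(A/J) < ∞` -/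
theorem L_ne_top_of_ann (J : Ideal A) (hJ : Λ.L (A ⧸ J) ≠ ⊤) (X : Type u) [AddCommGroup X]
    [Module A X] [Module.Finite A X] (hX : ∀ a ∈ J, ∀ x : X, a • x = 0) : Λ.L X ≠ ⊤ := by
  obtain ⟨n, s, hs⟩ := Module.Finite.exists_fin (R := A) (M := X)
  let f : (Fin n → A ⧸ J) →ₗ[A] X :=
    LinearMap.lsum A (fun _ => A ⧸ J) A (fun i =>
      Submodule.liftQ J (LinearMap.toSpanSingleton A X (s i)) (fun a ha => by
        rw [LinearMap.mem_ker, LinearMap.toSpanSingleton_apply]
        exact hX a ha _))
  have hf : Function.Surjective f := by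
    rw [← LinearMap.range_eq_top, eq_top_iff, ← hs, Submodule.span_le]
    rintro _ ⟨i, rfl⟩
    refine ⟨Pi.single i (Submodule.Quotient.mk 1), ?_⟩
    simp only [f, LinearMap.lsum_apply, LinearMap.sum_apply, LinearMap.comp_apply,
      LinearMap.proj_apply]
    rw [Finset.sum_eq_single i]
    · rw [Pi.single_eq_same, Submodule.liftQ_apply, LinearMap.toSpanSingleton_apply, one_smul]
    · intro j _ hj
      rw [Pi.single_eq_of_ne hj, map_zero]
    · intro h; exact absurd (Finset.mem_univ i) h
  refine ne_top_of_le_ne_top ?_ (Λ.L_le_of_surjective f hf)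
  rw [Λ.L_pi_const]
  exact ENNReal.mul_ne_top (ENNReal.natCast_ne_top _) hJ

end fin

section support

variable {R : Type u} [CommRing R] {M N : Type u} [AddCommGroup M] [Module R M]
  [AddCommGroup N] [Module R N] [Module.Finite R M] [Module.Finite R N]

/-- `Supp(M ⊗ N) = Supp M ∩ Supp N` -/
theorem mem_support_tensor (p : PrimeSpectrum R) :
    p ∈ Module.support R (M ⊗[R] N) ↔ p ∈ Module.support R M ∧ p ∈ Module.support R N := by
  rw [Module.mem_support_iff_nontrivial_residueField_tensorProduct,
    Module.mem_support_iff_nontrivial_residueField_tensorProduct,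
    Module.mem_support_iff_nontrivial_residueField_tensorProduct]
  let K := p.asIdeal.ResidueField
  have e : (K ⊗[R] (M ⊗[R] N)) ≃ₗ[K] ((K ⊗[R] M) ⊗[K] (K ⊗[R] N)) :=
    TensorProduct.AlgebraTensorModule.distribBaseChange R K M N
  rw [e.toEquiv.nontrivial_congr]
  constructor
  · intro h
    constructor
    · by_contra h'
      rw [not_nontrivial_iff_subsingleton] at h'
      exact not_subsingleton ((K ⊗[R] M) ⊗[K] (K ⊗[R] N)) inferInstance
    · by_contra h'
      rw [not_nontrivial_iff_subsingleton] at h'
      exact not_subsingleton ((K ⊗[R] M) ⊗[K] (K ⊗[R] N)) inferInstance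
  · rintro ⟨h1, h2⟩
    have h1' : Nontrivial (K ⊗[R] M) := h1
    have h2' : Nontrivial (K ⊗[R] N) := h2
    exact (Module.FaithfullyFlat.nontrivial_tensorProduct_iff_right (R := K)
      (M := K ⊗[R] M)).2 h2'

/-- if `M ⊗ N` has finite length, so has `R / (Ann M + Ann N)` -/
theorem length_ann_ne_top [IsNoetherianRing R] (h : IsFiniteLength R (M ⊗[R] N)) :
    Module.length R (R ⧸ (Module.annihilator R M ⊔ Module.annihilator R N)) ≠ ⊤ := by
  set J := Module.annihilator R M ⊔ Module.annihilator R N with hJ
  -- every prime containing `J` is maximal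
  have hmax : ∀ P : Ideal R, P.IsPrime → J ≤ P → P.IsMaximal := by
    intro P hP hle
    have hM : (⟨P, hP⟩ : PrimeSpectrum R) ∈ Module.support R M := by
      rw [Module.support_eq_zeroLocus]
      exact (le_sup_left).trans hle
    have hN : (⟨P, hP⟩ : PrimeSpectrum R) ∈ Module.support R N := by
      rw [Module.support_eq_zeroLocus]
      exact (le_sup_right).trans hle
    have hMN := (mem_support_tensor (M := M) (N := N) ⟨P, hP⟩).2 ⟨hM, hN⟩
    rw [Module.support_eq_zeroLocus] at hMN
    have hle' : Module.annihilator R (M ⊗[R] N) ≤ P := hMN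
    obtain ⟨hno, har⟩ := isFiniteLength_iff_isNoetherian_isArtinian.1 h
    have h1 : IsArtinian R (R ⧸ Module.annihilator R (M ⊗[R] N)) := by
      obtain ⟨n, s, hs⟩ := Module.Finite.exists_fin (R := R) (M := M ⊗[R] N)
      let f : R →ₗ[R] (Fin n → M ⊗[R] N) := LinearMap.pi fun i => LinearMap.toSpanSingleton R _ (s i)
      have hf : LinearMap.ker f = Module.annihilator R (M ⊗[R] N) := by
        ext r
        rw [LinearMap.mem_ker, Module.mem_annihilator]
        constructor
        · intro hr x
          have hx : x ∈ Submodule.span R (Set.range s) := by rw [hs]; trivial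
          induction hx using Submodule.span_induction with
          | mem x hx => obtain ⟨i, rfl⟩ := hx; exact congrFun hr i
          | zero => rw [smul_zero]
          | add x y _ _ hx hy => rw [smul_add, hx, hy, add_zero]
          | smul a x _ hx => rw [smul_comm, hx, smul_zero]
        · intro hr
          funext i
          exact hr (s i)
      have : IsArtinian R (R ⧸ LinearMap.ker f) :=
        isArtinian_of_injective (f.quotKerEquivRange.toLinearMap) f.quotKerEquivRange.injective
      rw [hf] at this
      exact this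
    have h2 : IsArtinianRing (R ⧸ P) := by
      have : IsArtinian R (R ⧸ P) := isArtinian_of_surjective _
        (Submodule.mapQ _ _ LinearMap.id hle') (by
          intro x
          obtain ⟨y, rfl⟩ := Submodule.mkQ_surjective _ x
          exact ⟨Submodule.Quotient.mk y, rfl⟩)
      exact isArtinian_of_tower R this
    exact Ideal.Quotient.maximal_of_isField _ (IsArtinianRing.isField_of_isDomain (R ⧸ P))
  have hart : IsArtinianRing (R ⧸ J) := by
    rw [isArtinianRing_iff_isNoetherianRing_krullDimLE_zero]
    refine ⟨inferInstance, ?_⟩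
    rw [Ring.krullDimLE_zero_iff]
    intro Q hQ
    have h3 : J ≤ Q.comap (Ideal.Quotient.mk J) := by
      intro x hx
      rw [Ideal.mem_comap, Ideal.Quotient.eq_zero_iff_mem.2 hx]
      exact Q.zero_mem
    have h4 := hmax (Q.comap (Ideal.Quotient.mk J)) inferInstance h3
    have h5 := Ideal.map_eq_top_or_isMaximal_of_surjective (Ideal.Quotient.mk J)
      Ideal.Quotient.mk_surjective h4
    rw [Ideal.map_comap_of_surjective _ Ideal.Quotient.mk_surjective] at h5
    exact h5.resolve_left hQ.ne_top
  rw [Module.length_eq_of_surjective (S := R) (R := R ⧸ J) (M := R ⧸ J)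
    Ideal.Quotient.mk_surjective, Module.length_ne_top_iff]
  exact (isArtinianRing_iff_isFiniteLength _).1 hart

end support

section tor

variable {R : Type u} [CommRing R] [IsNoetherianRing R] {M N : Type u} [AddCommGroup M]
  [Module R M] [AddCommGroup N] [Module R N] [Module.Finite R M] [Module.Finite R N]

/-- homology of `F ⊗ M` is finitely generated for `M` finitely generated -/
instance finite_HX (F : MCx R) (i : ℕ) : Module.Finite R (HX R F M i) := by
  have : IsNoetherian R (F.ι i → M) := inferInstance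
  have : IsNoetherian R ↥(Z (C := fun n => F.ι n → M) (F.dA R M) i) := inferInstance
  infer_instance

lemma toENNReal_ne_top {x : ℕ∞} (h : x ≠ ⊤) : (x : ℝ≥0∞) ≠ ⊤ := by
  rw [Ne, ENat.toENNReal_eq_top]; exact h

/-- **finite length of `H_i(F_N ⊗ M)` if `M ⊗ N` has finite length** -/
theorem hX_length_ne_top (h : IsFiniteLength R (M ⊗[R] N)) {F : MCx R}
    {ε : (F.ι 0 → R) →ₗ[R] N} (hF : IsRes F ε) (i : ℕ) :
    hX (AddLen.ofLength R) F M i ≠ ⊤ := by
  refine L_ne_top_of_ann (AddLen.ofLength R)
    (Module.annihilator R M ⊔ Module.annihilator R N)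
    (toENNReal_ne_top (length_ann_ne_top h)) (HX R F M i) ?_
  intro a ha x
  obtain ⟨b, hb, c, hc, rfl⟩ := Submodule.mem_sup.1 ha
  rw [add_smul]
  have h1 : b • x = 0 := by
    obtain ⟨z, rfl⟩ := cls_surjective (C := fun n => F.ι n → M) (d := F.dA R M) i x
    rw [← map_smul]
    have : b • z = 0 := by
      ext j
      exact Module.mem_annihilator.1 hb _
    rw [this, map_zero]
  have h2 : c • x = 0 :=
    hF.smul_eq_zero (fun m => Module.mem_annihilator.1 hc m) M (fun _ => rfl) i x
  rw [h1, h2, add_zero]

/-- **the sum of S0288 is the Euler characteristic of `F_N ⊗ M`** -/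
theorem sum_tor_eq (M N : ModuleCat.{u} R) {F : MCx R} {ε : (F.ι 0 → R) →ₗ[R] N}
    (hF : IsRes F ε) (n : ℕ) :
    ((∑ i ∈ Finset.range n, (-1 : ℤ) ^ i *
      ((Module.length R (((CategoryTheory.Tor (ModuleCat.{u} R) i).obj M).obj N)).toNat : ℤ) : ℤ)
        : ℝ) = chiX (AddLen.ofLength R) F M n := by
  rw [chiX_eq]
  push_cast
  refine Finset.sum_congr rfl fun i _ => ?_
  rw [hX_eq, AddLen.ofLength_L]
  congr 1
  have e := (torEquiv (N := N) M F hF i).length_eq
  have e' : Module.length R (((CategoryTheory.Tor (ModuleCat.{u} R) i).obj M).obj N) =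
      Module.length R (HX R F M i) := e
  rw [e']
  generalize Module.length R (HX R F M i) = x
  cases x with
  | top => simp
  | coe x => simp

end tor

section reduce

variable {R : Type u} [CommRing R] [IsRegularLocalRing R]

/-- **S0288 in terms of resolutions**: it suffices to prove positivity of `χ(F_N ⊗ M)` -/
theorem sum_tor_pos_iff (M N : ModuleCat.{u} R) {F : MCx R} {ε : (F.ι 0 → R) →ₗ[R] N}
    (hF : IsRes F ε) (n : ℕ) :
    (0 < ∑ i ∈ Finset.range n, (-1 : ℤ) ^ i *
      ((Module.length R (((CategoryTheory.Tor (ModuleCat.{u} R) i).obj M).obj N)).toNat : ℤ)) ↔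
      0 < chiX (AddLen.ofLength R) F M n := by
  rw [← sum_tor_eq M N hF n]
  exact_mod_cast Iff.rfl

end reduce

section flat

variable {R : Type u} [CommRing R] [IsLocalRing R] [IsNoetherianRing R]
  {S : Type u} [CommRing S] [IsLocalRing S] [IsNoetherianRing S] [Algebra R S] [Module.Flat R S]

/-- **flat local base change of S0288's sum** -/
theorem sum_tor_baseChange (hm : (maximalIdeal R).map (algebraMap R S) = maximalIdeal S)
    (M N : ModuleCat.{u} R) [Module.Finite R M] [Module.Finite R N] (n : ℕ) :
    (∑ i ∈ Finset.range n, (-1 : ℤ) ^ i *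
      ((Module.length S (((CategoryTheory.Tor (ModuleCat.{u} S) i).obj
        (ModuleCat.of S (S ⊗[R] M))).obj (ModuleCat.of S (S ⊗[R] N)))).toNat : ℤ)) =
    ∑ i ∈ Finset.range n, (-1 : ℤ) ^ i *
      ((Module.length R (((CategoryTheory.Tor (ModuleCat.{u} R) i).obj M).obj N)).toNat : ℤ) := by
  have hloc : IsLocalHom (algebraMap R S) := by
    apply ((IsLocalRing.local_hom_TFAE (algebraMap R S)).out 0 2).mpr
    exact hm.le
  obtain ⟨F, ε, hF⟩ := exists_res (T := R) N
  have h1 := sum_tor_eq M N hF n
  have h2 := sum_tor_eq (ModuleCat.of S (S ⊗[R] M)) (ModuleCat.of S (S ⊗[R] N))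
    (hF.baseChange S) n
  have h3 := chiX_bc S hm F M n
  have : ((∑ i ∈ Finset.range n, (-1 : ℤ) ^ i *
      ((Module.length S (((CategoryTheory.Tor (ModuleCat.{u} S) i).obj
        (ModuleCat.of S (S ⊗[R] M))).obj (ModuleCat.of S (S ⊗[R] N)))).toNat : ℤ) : ℤ) : ℝ) =
    ((∑ i ∈ Finset.range n, (-1 : ℤ) ^ i *
      ((Module.length R (((CategoryTheory.Tor (ModuleCat.{u} R) i).obj M).obj N)).toNat : ℤ) : ℤ)
        : ℝ) := h2.trans (h3.trans h1.symm)
  exact_mod_cast this

end flat

end Crest.Agent.R188.Chi
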