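/-
R188 (Serre positivity), block (A2c), part 1: regular sequences in the maximal ideal, elementary
depth theory, associated primes and Cohen-Macaulay modules.   helper622
-/
import Mathlib

set_option autoImplicit false

namespace Crest.Agent.R188.Noe

open IsLocalRing RingTheory.Sequence

universe u v w

/-- `M` has a weakly regular sequence of length `n` contained in the maximal ideal. -/
def Dep (R : Type u) [CommRing R] [IsLocalRing R] (n : ℕ) (M : Type v) [AddCommGroup M]
    [Module R M] : Prop :=
  ∃ rs : List R, rs.length = n ∧ (∀ r ∈ rs, r ∈ maximalIdeal R) ∧ IsWeaklyRegular M rs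

section basic

variable {R : Type u} [CommRing R] [IsLocalRing R] {M : Type v} [AddCommGroup M] [Module R M]
  {N : Type w} [AddCommGroup N] [Module R N]

theorem Dep.zero : Dep R 0 M := ⟨[], rfl, by simp, IsWeaklyRegular.nil R M⟩

theorem Dep.congr (e : M ≃ₗ[R] N) {n : ℕ} (h : Dep R n M) : Dep R n N := by
  obtain ⟨rs, h1, h2, h3⟩ := h
  exact ⟨rs, h1, h2, (e.isWeaklyRegular_congr rs).1 h3⟩

theorem dep_congr (e : M ≃ₗ[R] N) {n : ℕ} : Dep R n M ↔ Dep R n N :=
  ⟨Dep.congr e, Dep.congr e.symm⟩

theorem dep_succ_iff {n : ℕ} :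
    Dep R (n + 1) M ↔ ∃ x ∈ maximalIdeal R, IsSMulRegular M x ∧ Dep R n (QuotSMulTop x M) := by
  constructor
  · rintro ⟨rs, h1, h2, h3⟩
    cases rs with
    | nil => simp at h1
    | cons r rs =>
      rw [isWeaklyRegular_cons_iff] at h3
      exact ⟨r, h2 r (by simp), h3.1, rs, by simpa using h1, fun s hs => h2 s (by simp [hs]), h3.2⟩
  · rintro ⟨x, hx, hr, rs, h1, h2, h3⟩
    refine ⟨x :: rs, by simp [h1], ?_, ?_⟩
    · intro r hr'
      rcases List.mem_cons.1 hr' with rfl | h
      · exact hx
      · exact h2 r h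
    · rw [isWeaklyRegular_cons_iff]
      exact ⟨hr, h3⟩

theorem Dep.cons {n : ℕ} {x : R} (hx : x ∈ maximalIdeal R) (hr : IsSMulRegular M x)
    (h : Dep R n (QuotSMulTop x M)) : Dep R (n + 1) M :=
  dep_succ_iff.2 ⟨x, hx, hr, h⟩

theorem Dep.mono {n m : ℕ} (hmn : m ≤ n) (h : Dep R n M) : Dep R m M := by
  obtain ⟨rs, h1, h2, h3⟩ := h
  refine ⟨rs.take m, by simp [h1, hmn], fun r hr => h2 r (List.mem_of_mem_take hr), ?_⟩
  have := rs.take_append_drop m
  rw [← this, isWeaklyRegular_append_iff] at h3
  exact h3.1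

/-- `QuotSMulTop` in two elements commutes. -/
noncomputable def quotSwap (x z : R) (M : Type v) [AddCommGroup M] [Module R M] :
    QuotSMulTop x (QuotSMulTop z M) ≃ₗ[R] QuotSMulTop z (QuotSMulTop x M) :=
  ((Submodule.quotOfListConsSMulTopEquivQuotSMulTopInner M z [x]).trans
    (Submodule.quotEquivOfEq _ _ (by
      rw [Ideal.ofList_singleton, Submodule.ideal_span_singleton_smul]))).symm.trans
    ((Submodule.quotEquivOfEq _ _ (by
      rw [Ideal.ofList_cons, Ideal.ofList_singleton, Ideal.ofList_cons, Ideal.ofList_singleton,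
        sup_comm])).trans
    ((Submodule.quotOfListConsSMulTopEquivQuotSMulTopInner M x [z]).trans
    (Submodule.quotEquivOfEq _ _ (by
      rw [Ideal.ofList_singleton, Submodule.ideal_span_singleton_smul]))))

end basic

section depth

variable {R : Type u} [CommRing R] [IsLocalRing R] [IsNoetherianRing R]

/-- positive depth. -/
theorem exists_regular_iff {M : Type v} [AddCommGroup M] [Module R M] [Module.Finite R M] :
    (∃ z ∈ maximalIdeal R, IsSMulRegular M z) ↔
      ∀ u : M, (∀ r ∈ maximalIdeal R, r • u = 0) → u = 0 := by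
  constructor
  · rintro ⟨z, hz, hr⟩ u hu
    exact hr.right_eq_zero_of_smul (hu z hz)
  · intro h
    have : Subsingleton ((R ⧸ maximalIdeal R) →ₗ[R] M) := by
      refine subsingleton_of_forall_eq 0 fun f => ?_
      have h1 : f (Ideal.Quotient.mk _ 1) = 0 := by
        refine h _ fun r hr => ?_
        rw [← map_smul]
        have : r • (Ideal.Quotient.mk (maximalIdeal R) 1) = 0 := by
          rw [Algebra.smul_def, map_one, mul_one]
          exact Ideal.Quotient.eq_zero_iff_mem.2 hr
        rw [this, map_zero]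
      ext
      simpa using h1
    rw [IsSMulRegular.subsingleton_linearMap_iff] at this
    obtain ⟨r, hr, hr'⟩ := this
    rw [Ideal.annihilator_quotient] at hr
    exact ⟨r, hr, hr'⟩

omit [IsNoetherianRing R] in
theorem soc_exchange {M : Type v} [AddCommGroup M] [Module R M] {x y : R}
    (hx : IsSMulRegular M x) (hy : IsSMulRegular M y) (hym : y ∈ maximalIdeal R)
    (h : ∀ u : QuotSMulTop y M, (∀ r ∈ maximalIdeal R, r • u = 0) → u = 0)
    (u : QuotSMulTop x M) (hu : ∀ r ∈ maximalIdeal R, r • u = 0) : u = 0 := by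
  obtain ⟨u, rfl⟩ := Submodule.Quotient.mk_surjective _ u
  have hmem : ∀ r ∈ maximalIdeal R, ∃ w : M, x • w = r • u := by
    intro r hr
    have := hu r hr
    rw [← Submodule.Quotient.mk_smul, Submodule.Quotient.mk_eq_zero,
      Submodule.mem_smul_pointwise_iff_exists] at this
    obtain ⟨w, -, hw⟩ := this
    exact ⟨w, hw⟩
  obtain ⟨v, hv⟩ := hmem y hym
  have hv0 : (Submodule.Quotient.mk v : QuotSMulTop y M) = 0 := by
    refine h _ fun r hr => ?_
    rw [← Submodule.Quotient.mk_smul, Submodule.Quotient.mk_eq_zero,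
      Submodule.mem_smul_pointwise_iff_exists]
    obtain ⟨w, hw⟩ := hmem r hr
    refine ⟨w, trivial, ?_⟩
    refine hx ?_
    show x • y • w = x • r • v
    rw [smul_comm x y, hw, smul_comm x r, hv, smul_comm]
  rw [Submodule.Quotient.mk_eq_zero, Submodule.mem_smul_pointwise_iff_exists] at hv0
  obtain ⟨w, -, hw⟩ := hv0
  rw [Submodule.Quotient.mk_eq_zero, Submodule.mem_smul_pointwise_iff_exists]
  refine ⟨w, trivial, ?_⟩
  refine hy ?_
  show y • x • w = y • u
  rw [← hv, ← hw, smul_comm]

/-- Exchange: if `M` has depth `≥ n + 1` and `x` is `M`-regular then `M / x M` has depth `≥ n`. -/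
theorem Dep.quot {n : ℕ} : ∀ {M : Type v} [AddCommGroup M] [Module R M] [Module.Finite R M]
    {x : R}, x ∈ maximalIdeal R → IsSMulRegular M x → Dep R (n + 1) M →
      Dep R n (QuotSMulTop x M) := by
  induction n with
  | zero => intro M _ _ _ x _ _ _; exact Dep.zero
  | succ n ih =>
    intro M _ _ _ x hx hxr h
    obtain ⟨y, hy, hyr, hD⟩ := dep_succ_iff.1 h
    -- an element regular on `M/x` and on `M/y`
    have hy1 : ∀ u : QuotSMulTop y M, (∀ r ∈ maximalIdeal R, r • u = 0) → u = 0 := by
      obtain ⟨z, hz, hzr, -⟩ := dep_succ_iff.1 hD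
      exact exists_regular_iff.1 ⟨z, hz, hzr⟩
    have hx1 := soc_exchange hxr hyr hy hy1
    obtain ⟨z, hz, hzr⟩ : ∃ z ∈ maximalIdeal R,
        IsSMulRegular (QuotSMulTop x M × QuotSMulTop y M) z := by
      rw [exists_regular_iff]
      rintro ⟨a, b⟩ hab
      have ha := hx1 a fun r hr => by simpa using congrArg Prod.fst (hab r hr)
      have hb := hy1 b fun r hr => by simpa using congrArg Prod.snd (hab r hr)
      simp [ha, hb]
    have hzx : IsSMulRegular (QuotSMulTop x M) z := by
      intro a b hab
      have : z • ((a, 0) : QuotSMulTop x M × QuotSMulTop y M) = z • (b, 0) := by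
        simpa using hab
      simpa using congrArg Prod.fst (hzr this)
    have hzy : IsSMulRegular (QuotSMulTop y M) z := by
      intro a b hab
      have : z • ((0, a) : QuotSMulTop x M × QuotSMulTop y M) = z • (0, b) := by
        simpa using hab
      simpa using congrArg Prod.snd (hzr this)
    -- permute
    have perm : ∀ {s : R}, s ∈ maximalIdeal R → IsSMulRegular M s →
        IsSMulRegular (QuotSMulTop s M) z → IsSMulRegular M z ∧
          IsSMulRegular (QuotSMulTop z M) s := by
      intro s hs hsr hzs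
      have h1 : IsWeaklyRegular M [s, z] := by
        rw [isWeaklyRegular_cons_iff, isWeaklyRegular_singleton_iff]
        exact ⟨hsr, hzs⟩
      have h2 : IsWeaklyRegular M [z, s] := by
        refine IsLocalRing.isWeaklyRegular_of_perm_of_subset_maximalIdeal h1
          (List.Perm.swap _ _ _) ?_
        intro r hr
        simp only [List.mem_cons, List.not_mem_nil, or_false] at hr
        rcases hr with rfl | rfl
        · exact hs
        · exact hz
      rw [isWeaklyRegular_cons_iff, isWeaklyRegular_singleton_iff] at h2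
      exact h2
    obtain ⟨hzM, hxz⟩ := perm hx hxr hzx
    obtain ⟨-, hyz⟩ := perm hy hyr hzy
    have h1 : Dep R n (QuotSMulTop z (QuotSMulTop y M)) := ih hz hzy hD
    have h2 : Dep R (n + 1) (QuotSMulTop z M) :=
      Dep.cons hy hyz (h1.congr (quotSwap z y M))
    have h3 : Dep R n (QuotSMulTop x (QuotSMulTop z M)) := ih hx hxz h2
    exact Dep.cons hz hzx (h3.congr (quotSwap x z M))

theorem Dep.quot_iff {n : ℕ} {M : Type v} [AddCommGroup M] [Module R M] [Module.Finite R M]
    {x : R} (hx : x ∈ maximalIdeal R) (hr : IsSMulRegular M x) :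
    Dep R (n + 1) M ↔ Dep R n (QuotSMulTop x M) :=
  ⟨Dep.quot hx hr, Dep.cons hx hr⟩

end depth

end Crest.Agent.R188.Noe
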