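/-
R188 (Serre positivity), block (A2c), part 2: associated primes and depth; Cohen-Macaulay modules;
systems of parameters are regular sequences.   helper622
-/
import Mathlib
import Crest.Agent.R188.Noe1

set_option autoImplicit false

namespace Crest.Agent.R188.Noe

open IsLocalRing RingTheory.Sequence Pointwise

universe u v w

section assoc

variable {R : Type u} [CommRing R]

/-- Chains of primes: if `P ≤ Q`, `x ∈ Q`, `x ∉ P`, then `dim R/Q + 1 ≤ dim R/P`. -/
theorem ringKrullDim_quotient_add_one_le {P Q : Ideal R} [P.IsPrime] (hPQ : P ≤ Q)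
    {x : R} (hxQ : x ∈ Q) (hxP : x ∉ P) :
    ringKrullDim (R ⧸ Q) + 1 ≤ ringKrullDim (R ⧸ P) := by
  have h0 : Ideal.Quotient.mk P x ∈ nonZeroDivisors (R ⧸ P) :=
    mem_nonZeroDivisors_of_ne_zero (by rwa [Ne, Ideal.Quotient.eq_zero_iff_mem])
  refine le_trans ?_ (ringKrullDim_quotient_succ_le_of_nonZeroDivisor h0)
  gcongr
  refine ringKrullDim_le_of_surjective
    (Ideal.Quotient.lift (Ideal.span {Ideal.Quotient.mk P x}) (Ideal.Quotient.factor hPQ) ?_) ?_
  · intro a ha
    obtain ⟨b, rfl⟩ := Ideal.mem_span_singleton'.1 ha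
    rw [map_mul, Ideal.Quotient.factor_mk, Ideal.Quotient.eq_zero_iff_mem.2 hxQ, mul_zero]
  · intro y
    obtain ⟨y, rfl⟩ := Ideal.Quotient.mk_surjective y
    exact ⟨Ideal.Quotient.mk _ (Ideal.Quotient.mk _ y), by simp⟩

variable [IsLocalRing R] [IsNoetherianRing R]

theorem exists_assoc_quot {M : Type v} [AddCommGroup M] [Module R M] [Module.Finite R M] {x : R}
    (hx : x ∈ maximalIdeal R) (hr : IsSMulRegular M x) {P : Ideal R}
    (hP : P ∈ associatedPrimes R M) :
    ∃ Q ∈ associatedPrimes R (QuotSMulTop x M), P ≤ Q ∧ x ∈ Q := by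
  obtain ⟨hPp, z, hz⟩ := (isAssociatedPrime_iff (R := R)).1 hP
  let N : Submodule R M := Submodule.torsionBySet R M P
  have hN : ∀ m : M, m ∈ N ↔ ∀ a ∈ P, a • m = 0 := fun m => by
    simp [N, Submodule.mem_torsionBySet_iff]
  have hz0 : z ≠ 0 := by
    rintro rfl
    apply hPp.ne_top
    rw [hz, Ideal.eq_top_iff_one, Submodule.mem_colon_singleton]
    simp
  have hzN : z ∈ N := by
    rw [hN]
    intro a ha
    rw [hz, Submodule.mem_colon_singleton] at ha
    simpa using ha
  obtain ⟨n, hn, hnx⟩ : ∃ n ∈ N, n ∉ x • (⊤ : Submodule R M) := by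
    by_contra hcon
    push Not at hcon
    have h1 : N ≤ Ideal.span {x} • N := by
      intro n hn
      obtain ⟨m, -, hm⟩ := Submodule.mem_smul_pointwise_iff_exists _ _ _ |>.1 (hcon n hn)
      have hmN : m ∈ N := by
        rw [hN]
        intro a ha
        refine hr ?_
        show x • a • m = x • (0 : M)
        rw [smul_comm, hm, (hN n).1 hn a ha, smul_zero]
      rw [← hm]
      exact Submodule.smul_mem_smul (Ideal.mem_span_singleton_self x) hmN
    have h2 : N = ⊥ := by
      refine Submodule.eq_bot_of_le_smul_of_le_jacobson_bot (Ideal.span {x}) N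
        (IsNoetherian.noetherian N) h1 ?_
      rw [Ideal.span_singleton_le_iff_mem, IsLocalRing.jacobson_eq_maximalIdeal _ bot_ne_top]
      exact hx
    rw [h2, Submodule.mem_bot] at hzN
    exact hz0 hzN
  have hn0 : (Submodule.Quotient.mk n : QuotSMulTop x M) ≠ 0 := by
    rwa [Ne, Submodule.Quotient.mk_eq_zero]
  obtain ⟨Q, hQ, hle⟩ := exists_le_isAssociatedPrime_of_isNoetherianRing R _ hn0
  refine ⟨Q, hQ, fun a ha => hle ?_, hle ?_⟩
  · rw [Submodule.mem_colon_singleton, ← Submodule.Quotient.mk_smul, (hN n).1 hn a ha,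
      Submodule.Quotient.mk_zero]
    exact Submodule.zero_mem _
  · rw [Submodule.mem_colon_singleton]
    have := Module.mem_annihilator.1 (QuotSMulTop.mem_annihilator x (M := M) (R := R))
      (Submodule.Quotient.mk n)
    rw [this]
    exact Submodule.zero_mem _

/-- depth `M ≤ dim R/P` for every associated prime `P` of `M`. -/
theorem Dep.le_ringKrullDim {n : ℕ} : ∀ {M : Type v} [AddCommGroup M] [Module R M]
    [Module.Finite R M] {P : Ideal R}, P ∈ associatedPrimes R M → Dep R n M →
      (n : WithBot ℕ∞) ≤ ringKrullDim (R ⧸ P) := by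
  induction n with
  | zero =>
    intro M _ _ _ P hP _
    have := (AssociatedPrimes.mem_iff.1 hP).isPrime
    have : Nontrivial (R ⧸ P) := Ideal.Quotient.nontrivial_iff.2 this.ne_top
    exact_mod_cast ringKrullDim_nonneg_of_nontrivial
  | succ n ih =>
    intro M _ _ _ P hP h
    obtain ⟨x, hx, hr, hD⟩ := dep_succ_iff.1 h
    obtain ⟨Q, hQ, hPQ, hxQ⟩ := exists_assoc_quot hx hr hP
    have h1 := ih hQ hD
    have hPp := (AssociatedPrimes.mem_iff.1 hP).isPrime
    have hxP : x ∉ P := by
      intro hxP
      have : x ∈ ⋃ p ∈ associatedPrimes R M, (p : Set R) := Set.mem_biUnion hP hxP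
      rw [biUnion_associatedPrimes_eq_compl_regular] at this
      exact this hr
    have h2 := ringKrullDim_quotient_add_one_le hPQ hxQ hxP
    calc ((n + 1 : ℕ) : WithBot ℕ∞) = (n : WithBot ℕ∞) + 1 := by push_cast; rfl
      _ ≤ ringKrullDim (R ⧸ Q) + 1 := by gcongr
      _ ≤ _ := h2

end assoc

section CM

variable {R : Type u} [CommRing R] [IsLocalRing R]

/-- `M` is a Cohen-Macaulay module of dimension `n`. -/
structure CM (R : Type u) [CommRing R] [IsLocalRing R] (n : ℕ) (M : Type v) [AddCommGroup M]
    [Module R M] : Prop where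
  dep : Dep R n M
  dim : Module.supportDim R M = n

variable {M : Type v} [AddCommGroup M] [Module R M] {N : Type w} [AddCommGroup N] [Module R N]

theorem CM.congr {n : ℕ} (e : M ≃ₗ[R] N) (h : CM R n M) : CM R n N :=
  ⟨h.dep.congr e, by rw [← Module.supportDim_eq_of_equiv e, h.dim]⟩

theorem CM.nontrivial {n : ℕ} (h : CM R n M) : Nontrivial M := by
  rw [← Module.supportDim_ne_bot_iff_nontrivial R, h.dim]
  exact WithBot.natCast_ne_bot n

omit [IsLocalRing R] in
/-- `dim R/P ≤ dim X` for `P` in the support. -/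
theorem ringKrullDim_quotient_le_supportDim {X : Type w} [AddCommGroup X] [Module R X]
    [Module.Finite R X] {P : Ideal R} (hP : Module.annihilator R X ≤ P) :
    ringKrullDim (R ⧸ P) ≤ Module.supportDim R X := by
  rw [Module.supportDim_eq_ringKrullDim_quotient_annihilator]
  exact ringKrullDim_le_of_surjective (Ideal.Quotient.factor hP) (Ideal.Quotient.factor_surjective hP)

theorem add_one_cancel {e : WithBot ℕ∞} {d : ℕ} (h : e + 1 = ((d + 1 : ℕ) : WithBot ℕ∞)) :
    e = d := by
  induction e with
  | bot =>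
    exfalso
    rw [WithBot.bot_add] at h
    exact WithBot.bot_ne_natCast (d + 1) h
  | coe e =>
    induction e with
    | top => exact absurd h (by
        intro h
        have : ((⊤ : ℕ∞) : WithBot ℕ∞) + 1 = ((⊤ : ℕ∞) : WithBot ℕ∞) := rfl
        rw [this] at h
        exact (ENat.top_ne_natCast (d + 1)) (WithBot.coe_injective h))
    | coe e =>
      have : ((e + 1 : ℕ) : WithBot ℕ∞) = ((d + 1 : ℕ) : WithBot ℕ∞) := by
        rw [← h]; push_cast; rfl
      have h2 : e + 1 = d + 1 := by exact_mod_cast this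
      have h3 : e = d := by omega
      rw [h3]; rfl

variable [IsNoetherianRing R] [Module.Finite R M]

theorem CM.isSMulRegular {n : ℕ} (h : CM R n M) {x : R} 
    (hd : Module.supportDim R (QuotSMulTop x M) < n) : IsSMulRegular M x := by
  by_contra hr
  have : x ∈ ⋃ p ∈ associatedPrimes R M, (p : Set R) := by
    rw [biUnion_associatedPrimes_eq_compl_regular]
    exact hr
  simp only [Set.mem_iUnion, SetLike.mem_coe, exists_prop] at this
  obtain ⟨P, hP, hxP⟩ := this
  have h1 := h.dep.le_ringKrullDim hP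
  have hann : Module.annihilator R M ≤ P := by
    have := (AssociatedPrimes.mem_iff.1 hP).annihilator_le
    rwa [Submodule.annihilator_top] at this
  have h2 : ringKrullDim (R ⧸ P) ≤ Module.supportDim R (QuotSMulTop x M) := by
    have hPp := (AssociatedPrimes.mem_iff.1 hP).isPrime
    have hmem : (⟨P, hPp⟩ : PrimeSpectrum R) ∈ Module.support R (QuotSMulTop x M) := by
      rw [Module.support_quotSMulTop]
      refine ⟨Module.mem_support_iff_of_finite.2 hann, ?_⟩
      rw [PrimeSpectrum.mem_zeroLocus]
      simpa using hxP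
    exact ringKrullDim_quotient_le_supportDim (Module.mem_support_iff_of_finite.1 hmem)
  exact absurd (h1.trans h2) (not_le.2 hd)

theorem CM.quotSMulTop {n : ℕ} (h : CM R (n + 1) M) {x : R} (hx : x ∈ maximalIdeal R)
    (hr : IsSMulRegular M x) : CM R n (QuotSMulTop x M) := by
  refine ⟨h.dep.quot hx hr, ?_⟩
  have := Module.supportDim_quotSMulTop_succ_eq_supportDim hr hx
  rw [h.dim] at this
  exact add_one_cancel this

/-- The dimension drops at most by the number of equations. -/
theorem supportDim_le_add_length : ∀ (rs : List R), (∀ r ∈ rs, r ∈ maximalIdeal R) →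
    ∀ (M : Type v) [AddCommGroup M] [Module R M] [Module.Finite R M],
    Module.supportDim R M ≤
      Module.supportDim R (M ⧸ (Ideal.ofList rs • ⊤ : Submodule R M)) + rs.length := by
  intro rs
  induction rs with
  | nil =>
    intro _ M _ _ _
    have e : (M ⧸ (Ideal.ofList ([] : List R) • ⊤ : Submodule R M)) ≃ₗ[R] M :=
      Submodule.quotEquivOfEqBot _ (by simp)
    rw [Module.supportDim_eq_of_equiv e]
    simp
  | cons r rs ih =>
    intro h M _ _ _
    have h1 := ih (fun s hs => h s (by simp [hs])) (QuotSMulTop r M)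
    have h2 := Module.supportDim_le_supportDim_quotSMulTop_succ (M := M) (h r (by simp))
    rw [Module.supportDim_eq_of_equiv
      (Submodule.quotOfListConsSMulTopEquivQuotSMulTopInner M r rs)]
    refine h2.trans ((add_le_add_left h1 1).trans ?_)
    rw [List.length_cons, add_assoc]
    push_cast
    exact le_rfl

/-- In a Cohen-Macaulay module, a (partial) system of parameters is a regular sequence. -/
theorem CM.regular_of_dim_le : ∀ (rs : List R), (∀ r ∈ rs, r ∈ maximalIdeal R) →
    ∀ (n : ℕ) (M : Type v) [AddCommGroup M] [Module R M] [Module.Finite R M], 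
    CM R (n + rs.length) M →
    Module.supportDim R (M ⧸ (Ideal.ofList rs • ⊤ : Submodule R M)) ≤ n →
    IsWeaklyRegular M rs ∧ CM R n (M ⧸ (Ideal.ofList rs • ⊤ : Submodule R M)) := by
  intro rs
  induction rs with
  | nil =>
    intro _ n M _ _ _ hM _
    have e : (M ⧸ (Ideal.ofList ([] : List R) • ⊤ : Submodule R M)) ≃ₗ[R] M :=
      Submodule.quotEquivOfEqBot _ (by simp)
    exact ⟨IsWeaklyRegular.nil R M, (by simpa using hM : CM R n M).congr e.symm⟩
  | cons r rs ih =>
    intro h n M _ _ _ hM hd
    have hr := h r (by simp)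
    have hrs : ∀ s ∈ rs, s ∈ maximalIdeal R := fun s hs => h s (by simp [hs])
    rw [Module.supportDim_eq_of_equiv
      (Submodule.quotOfListConsSMulTopEquivQuotSMulTopInner M r rs)] at hd
    have h1 := supportDim_le_add_length rs hrs (QuotSMulTop r M)
    have h2 : Module.supportDim R (QuotSMulTop r M) ≤ (n + rs.length : ℕ) := by
      refine h1.trans ?_
      push_cast
      gcongr
    have hM' : CM R ((n + rs.length) + 1) M := by
      simpa [add_assoc] using hM
    have hreg : IsSMulRegular M r := by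
      refine hM'.isSMulRegular (lt_of_le_of_lt h2 ?_)
      exact_mod_cast Nat.lt_succ_self _
    obtain ⟨h3, h4⟩ := ih hrs n (QuotSMulTop r M) (hM'.quotSMulTop hr hreg) hd
    refine ⟨?_, h4.congr (Submodule.quotOfListConsSMulTopEquivQuotSMulTopInner M r rs).symm⟩
    rw [isWeaklyRegular_cons_iff]
    exact ⟨hreg, h3⟩

theorem CM.quot_of_isWeaklyRegular : ∀ (rs : List R), (∀ r ∈ rs, r ∈ maximalIdeal R) →
    ∀ (n : ℕ) (M : Type v) [AddCommGroup M] [Module R M] [Module.Finite R M], 
    CM R (n + rs.length) M → IsWeaklyRegular M rs →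
    CM R n (M ⧸ (Ideal.ofList rs • ⊤ : Submodule R M)) := by
  intro rs
  induction rs with
  | nil =>
    intro _ n M _ _ _ hM _
    have e : (M ⧸ (Ideal.ofList ([] : List R) • ⊤ : Submodule R M)) ≃ₗ[R] M :=
      Submodule.quotEquivOfEqBot _ (by simp)
    exact (by simpa using hM : CM R n M).congr e.symm
  | cons r rs ih =>
    intro h n M _ _ _ hM hreg
    rw [isWeaklyRegular_cons_iff] at hreg
    have hM' : CM R ((n + rs.length) + 1) M := by
      simpa [add_assoc] using hM
    exact (ih (fun s hs => h s (by simp [hs])) n (QuotSMulTop r M)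
      (hM'.quotSMulTop (h r (by simp)) hreg.1) hreg.2).congr
      (Submodule.quotOfListConsSMulTopEquivQuotSMulTopInner M r rs).symm

end CM

end Crest.Agent.R188.Noe
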