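/-
R188 (Serre positivity), block (A2c), part 3: regular local rings are Cohen-Macaulay domains.
helper622
-/
import Mathlib
import Crest.Agent.R188.Noe2

set_option autoImplicit false

namespace Crest.Agent.R188.Noe

open IsLocalRing RingTheory.Sequence Pointwise

universe u v w

theorem le_of_add_one_le_add_one {e : WithBot ℕ∞} {d : ℕ}
    (h : ((d + 1 : ℕ) : WithBot ℕ∞) ≤ e + 1) : (d : WithBot ℕ∞) ≤ e := by
  induction e with
  | bot =>
    rw [WithBot.bot_add, le_bot_iff] at h
    exact absurd h (WithBot.natCast_ne_bot _)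
  | coe e =>
    induction e with
    | top => exact WithBot.coe_le_coe.2 le_top
    | coe e =>
      have h1 : ((d + 1 : ℕ) : WithBot ℕ∞) ≤ ((e + 1 : ℕ) : WithBot ℕ∞) := by
        refine h.trans (le_of_eq ?_)
        push_cast; rfl
      have h2 : d + 1 ≤ e + 1 := by exact_mod_cast h1
      have h3 : d ≤ e := by omega
      exact WithBot.coe_le_coe.2 (by exact_mod_cast h3)

section transfer

variable {R : Type u} [CommRing R] [IsLocalRing R] {S : Type v} [CommRing S] [IsLocalRing S]
  [Algebra R S] {M : Type w} [AddCommGroup M] [Module R M] [Module S M] [IsScalarTower R S M]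

theorem dep_of_surjective (hs : Function.Surjective (algebraMap R S)) {n : ℕ} (h : Dep S n M) :
    Dep R n M := by
  have hl : IsLocalHom (algebraMap R S) := IsLocalRing.surjective_units_map_of_local_ringHom _ hs |>
    fun _ => IsLocalHom.of_surjective _ hs
  obtain ⟨rs, h1, h2, h3⟩ := h
  have : ∀ rs : List S, (∀ r ∈ rs, r ∈ maximalIdeal S) → ∃ ts : List R,
      ts.map (algebraMap R S) = rs ∧ ∀ t ∈ ts, t ∈ maximalIdeal R := by
    intro rs
    induction rs with
    | nil => intro _; exact ⟨[], rfl, by simp⟩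
    | cons r rs ih =>
      intro h
      obtain ⟨ts, h1, h2⟩ := ih fun s hs => h s (by simp [hs])
      obtain ⟨t, ht⟩ := hs r
      refine ⟨t :: ts, by simp [ht, h1], ?_⟩
      intro s hs'
      rcases List.mem_cons.1 hs' with rfl | h'
      · have hr := h r (by simp)
        rw [mem_maximalIdeal, mem_nonunits_iff] at hr ⊢
        intro hu
        exact hr (ht ▸ hu.map (algebraMap R S))
      · exact h2 s h'
  obtain ⟨ts, rfl, h5⟩ := this rs h2
  refine ⟨ts, by simpa using h1, h5, ?_⟩
  rwa [isWeaklyRegular_map_algebraMap_iff] at h3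

theorem dep_of_isLocalHom [IsLocalHom (algebraMap R S)] {n : ℕ} (h : Dep R n M) :
    Dep S n M := by
  obtain ⟨rs, h1, h2, h3⟩ := h
  refine ⟨rs.map (algebraMap R S), by simpa using h1, ?_, ?_⟩
  · intro s hs
    obtain ⟨r, hr, rfl⟩ := List.mem_map.1 hs
    have := h2 r hr
    rw [mem_maximalIdeal, mem_nonunits_iff] at this ⊢
    exact fun hu => this (isUnit_of_map_unit _ _ hu)
  · rwa [isWeaklyRegular_map_algebraMap_iff]

end transfer

section reg

/-- an element outside `m²` and outside all minimal primes. -/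
theorem exists_notMem_sq (R : Type u) [CommRing R] [IsLocalRing R] [IsNoetherianRing R]
    (hd : 0 < ringKrullDim R) :
    ∃ x ∈ maximalIdeal R, x ∉ maximalIdeal R ^ 2 ∧ ∀ P ∈ minimalPrimes R, x ∉ P := by
  classical
  have hmin : (minimalPrimes R).Finite := minimalPrimes.finite_of_isNoetherianRing R
  have h0 : maximalIdeal R ≠ ⊥ := by
    intro h
    have : IsField R := IsLocalRing.isField_iff_maximalIdeal_eq.2 h
    let := this.toField
    rw [ringKrullDim_eq_zero_of_field] at hd
    exact absurd hd (lt_irrefl _)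
  by_contra! hcon
  have hsub : (maximalIdeal R : Set R) ⊆
      ⋃ I ∈ insert (maximalIdeal R ^ 2) (minimalPrimes R), (I : Set R) := by
    intro x hx
    simp only [Set.mem_iUnion, Set.mem_insert_iff, exists_prop, SetLike.mem_coe]
    by_cases hx2 : x ∈ maximalIdeal R ^ 2
    · exact ⟨_, Or.inl rfl, hx2⟩
    · obtain ⟨P, hP, hxP⟩ := hcon x hx hx2
      exact ⟨P, Or.inr hP, hxP⟩
  have hfin : (insert (maximalIdeal R ^ 2) (minimalPrimes R)).Finite := hmin.insert _
  obtain ⟨I, hI, hle⟩ := (Ideal.subset_union_prime_finite hfin (maximalIdeal R ^ 2)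
    (maximalIdeal R ^ 2) (by
      intro I hI h1 _
      rcases Set.mem_insert_iff.1 hI with rfl | h
      · exact absurd rfl h1
      · exact Ideal.IsMinimalPrime.isPrime h)).1 hsub
  rcases Set.mem_insert_iff.1 hI with rfl | h
  · have h1 : maximalIdeal R ≤ maximalIdeal R • maximalIdeal R := by
      rw [smul_eq_mul, ← pow_two]; exact hle
    refine h0 (Submodule.eq_bot_of_le_smul_of_le_jacobson_bot _ _
      (IsNoetherian.noetherian _) h1 ?_)
    rw [IsLocalRing.jacobson_eq_maximalIdeal _ bot_ne_top]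
  · have hp := Ideal.IsMinimalPrime.isPrime h
    have h1 : I = maximalIdeal R := le_antisymm (le_maximalIdeal hp.ne_top) hle
    have h2 : ringKrullDim R ≤ 0 := by
      have h3 : Ring.KrullDimLE 0 R := Ring.KrullDimLE.mk₀ fun Q hQ => by
        have h4 : Q ≤ I := by rw [h1]; exact le_maximalIdeal hQ.ne_top
        have h5 : I ≤ Q := h.2 ⟨hQ, bot_le⟩ h4
        rw [le_antisymm h4 h5, h1]
        infer_instance
      exact (Ring.krullDimLE_iff (n := 0)).1 h3
    exact absurd (hd.trans_le h2) (lt_irrefl _)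

/-- If `x ∈ m \ m²` then `m` is generated by `x` and `d` further elements. -/
theorem exists_generators {R : Type u} [CommRing R] [IsLocalRing R] {d : ℕ}
    (hfg : (maximalIdeal R).FG)
    (hd : (maximalIdeal R).spanFinrank = d + 1) {x : R} (hx : x ∈ maximalIdeal R)
    (hx2 : x ∉ maximalIdeal R ^ 2) :
    ∃ s : Finset R, s.card = d ∧ maximalIdeal R = Ideal.span {x} ⊔ Ideal.span (s : Set R) := by
  classical
  obtain ⟨t, ht, hts⟩ := Submodule.FG.exists_span_finset_card_eq_spanFinrank hfg
  rw [hd] at ht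
  have htm : ∀ y ∈ t, y ∈ maximalIdeal R := fun y hy => by
    rw [← hts]; exact Submodule.subset_span hy
  have hx' : x ∈ Submodule.span R (t : Set R) := by rw [hts]; exact hx
  rw [Submodule.mem_span_finset] at hx'
  obtain ⟨f, -, hf⟩ := hx'
  obtain ⟨y, hy, hfy⟩ : ∃ y ∈ t, IsUnit (f y) := by
    by_contra! hcon
    apply hx2
    rw [← hf, pow_two]
    refine Ideal.sum_mem _ fun y hy => ?_
    exact Ideal.mul_mem_mul (hcon y hy) (htm y hy)
  refine ⟨t.erase y, by rw [Finset.card_erase_of_mem hy, ht]; rfl, ?_⟩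
  apply le_antisymm
  · rw [← hts]
    change Submodule.span R _ ≤ _
    rw [Submodule.span_le]
    intro z hz
    by_cases hzy : z = y
    · subst hzy
      have h1 : f z * z ∈ Ideal.span {x} ⊔ Ideal.span (↑(t.erase z) : Set R) := by
        have h2 : f z * z = x - ∑ w ∈ t.erase z, f w * w := by
          rw [← hf, ← Finset.add_sum_erase _ _ hy]
          simp [smul_eq_mul]
        rw [h2]
        refine Ideal.sub_mem _ (Ideal.mem_sup_left (Ideal.mem_span_singleton_self x)) ?_
        refine Ideal.sum_mem _ fun w hw => Ideal.mul_mem_left _ _ (Ideal.mem_sup_right ?_)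
        exact Ideal.subset_span hw
      exact (Ideal.unit_mul_mem_iff_mem _ hfy).1 h1
    · exact Ideal.mem_sup_right (Ideal.subset_span (by simpa [hzy] using hz))
  · rw [sup_le_iff]
    constructor
    · rw [Ideal.span_singleton_le_iff_mem]; exact hx
    · rw [Ideal.span_le]
      intro z hz
      exact htm z (Finset.mem_of_mem_erase hz)

/-- The quotient of a regular local ring by an element of `m \ m²` is regular. -/
theorem isRegularLocalRing_quotient {R : Type u} [CommRing R] [IsRegularLocalRing R] {d : ℕ}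
    (hd : ringKrullDim R = (d + 1 : ℕ)) {x : R} (hx : x ∈ maximalIdeal R)
    (hx2 : x ∉ maximalIdeal R ^ 2) :
    IsRegularLocalRing (R ⧸ Ideal.span {x}) ∧ ringKrullDim (R ⧸ Ideal.span {x}) = (d : ℕ) := by
  classical
  have hsp : (maximalIdeal R).spanFinrank = d + 1 := by
    have := (isRegularLocalRing_iff R).1 inferInstance
    rw [hd] at this
    exact_mod_cast this
  obtain ⟨s, hs, hm⟩ := exists_generators (IsNoetherian.noetherian _) hsp hx hx2
  have hne : Ideal.span {x} ≠ ⊤ := fun h =>
    (maximalIdeal.isMaximal R).ne_top (top_le_iff.1 (h ▸ (by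
      rw [Ideal.span_singleton_le_iff_mem]; exact hx)))
  have : Nontrivial (R ⧸ Ideal.span {x}) := Ideal.Quotient.nontrivial_iff.2 hne
  have : IsLocalRing (R ⧸ Ideal.span {x}) :=
    IsLocalRing.of_surjective' (Ideal.Quotient.mk _) Ideal.Quotient.mk_surjective
  have hm' : maximalIdeal (R ⧸ Ideal.span {x}) =
      Ideal.span ((Ideal.Quotient.mk (Ideal.span {x})) '' (s : Set R)) := by
    rw [← Ideal.map_span, ← IsLocalRing.map_maximalIdeal_of_surjective _
      (Ideal.Quotient.mk_surjective (I := Ideal.span {x})), hm, Ideal.map_sup,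
      Ideal.map_quotient_self, bot_sup_eq]
  have h1 : (maximalIdeal (R ⧸ Ideal.span {x})).spanFinrank ≤ d := by
    rw [hm']
    refine (Submodule.spanFinrank_span_le_ncard_of_finite (Set.toFinite _)).trans ?_
    rw [← hs, ← Set.ncard_coe_finset s]
    exact Set.ncard_image_le (Set.toFinite _)
  have h2 : ringKrullDim R ≤ ringKrullDim (R ⧸ Ideal.span {x}) + 1 := by
    have h := ringKrullDim_le_ringKrullDim_quotSMulTop_succ hx
    have he : x • (⊤ : Ideal R) = Ideal.span {x} := by
      rw [← Submodule.ideal_span_singleton_smul]; simp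
    rwa [he] at h
  have h3 : ringKrullDim (R ⧸ Ideal.span {x}) ≤ (maximalIdeal (R ⧸ Ideal.span {x})).spanFinrank :=
    ringKrullDim_le_spanFinrank_maximalIdeal _
  have h4 : ringKrullDim (R ⧸ Ideal.span {x}) ≤ (d : ℕ) := h3.trans (by exact_mod_cast h1)
  have h5 : (d : WithBot ℕ∞) ≤ ringKrullDim (R ⧸ Ideal.span {x}) := by
    rw [hd] at h2
    exact le_of_add_one_le_add_one h2
  have h6 := le_antisymm h4 h5
  exact ⟨IsRegularLocalRing.of_spanFinrank_maximalIdeal_le _ (by rw [h6]; exact_mod_cast h1), h6⟩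

theorem isDomain_of_prime_quotient {R : Type u} [CommRing R] [IsLocalRing R] [IsNoetherianRing R]
    {x : R} (hx : x ∈ maximalIdeal R) [IsDomain (R ⧸ Ideal.span {x})]
    (hmin : ∀ P ∈ minimalPrimes R, x ∉ P) : IsDomain R := by
  have hpr : (Ideal.span {x}).IsPrime := (Ideal.Quotient.isDomain_iff_prime _).1 inferInstance
  obtain ⟨P, hP, hle⟩ := Ideal.exists_minimalPrimes_le (bot_le (a := Ideal.span {x}))
  have hPp : P.IsPrime := hP.1.1
  have hxP : x ∉ P := hmin P hP
  have h1 : P ≤ Ideal.span {x} • P := by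
    intro a ha
    obtain ⟨b, rfl⟩ := Ideal.mem_span_singleton'.1 (hle ha)
    have hb : b ∈ P := (hPp.mem_or_mem ha).resolve_right hxP
    rw [smul_eq_mul, mul_comm b x]
    exact Ideal.mul_mem_mul (Ideal.mem_span_singleton_self x) hb
  have h2 : P = ⊥ := by
    refine Submodule.eq_bot_of_le_smul_of_le_jacobson_bot _ _ (IsNoetherian.noetherian _) h1 ?_
    rw [Ideal.span_singleton_le_iff_mem, IsLocalRing.jacobson_eq_maximalIdeal _ bot_ne_top]
    exact hx
  rw [h2] at hPp
  exact IsDomain.of_bot_isPrime R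

/-- **A regular local ring is a domain and is Cohen-Macaulay.** -/
theorem regular_aux (d : ℕ) : ∀ (R : Type u) [CommRing R] [IsRegularLocalRing R],
    ringKrullDim R = (d : ℕ) → IsDomain R ∧ Dep R d R := by
  induction d with
  | zero =>
    intro R _ _ hd
    have h1 : (maximalIdeal R).spanFinrank = 0 := by
      have := (isRegularLocalRing_iff R).1 inferInstance
      rw [hd] at this
      exact_mod_cast this
    have h2 : maximalIdeal R = ⊥ := 
      (Submodule.spanFinrank_eq_zero_iff_eq_bot (IsNoetherian.noetherian _)).1 h1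
    have h3 : IsField R := IsLocalRing.isField_iff_maximalIdeal_eq.2 h2
    exact ⟨h3.isDomain, Dep.zero⟩
  | succ d ih =>
    intro R _ _ hd
    obtain ⟨x, hx, hx2, hmin⟩ := exists_notMem_sq R (by rw [hd]; exact_mod_cast Nat.succ_pos d)
    obtain ⟨hR', hd'⟩ := isRegularLocalRing_quotient hd hx hx2
    obtain ⟨hdom, hD⟩ := ih (R ⧸ Ideal.span {x}) hd'
    have hRd : IsDomain R := isDomain_of_prime_quotient hx hmin
    refine ⟨hRd, ?_⟩
    have hx0 : x ≠ 0 := by
      rintro rfl
      exact hx2 (Ideal.zero_mem _)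
    have hreg : IsSMulRegular R x := by
      intro a b hab
      exact mul_left_cancel₀ hx0 hab
    have hD' : Dep R d (R ⧸ Ideal.span {x}) :=
      dep_of_surjective (R := R) (S := R ⧸ Ideal.span {x}) (M := R ⧸ Ideal.span {x})
        Ideal.Quotient.mk_surjective hD
    refine Dep.cons hx hreg (hD'.congr (Submodule.quotEquivOfEq _ _ ?_))
    rw [← Submodule.ideal_span_singleton_smul]; simp

theorem isDomain_of_regular (R : Type u) [CommRing R] [IsRegularLocalRing R] : IsDomain R := by
  obtain ⟨d, hd⟩ : ∃ d : ℕ, ringKrullDim R = d :=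
    ⟨_, ((isRegularLocalRing_iff R).1 inferInstance).symm⟩
  exact (regular_aux d R hd).1

/-- **A regular local ring is Cohen-Macaulay.** -/
theorem CM.of_regular (R : Type u) [CommRing R] [IsRegularLocalRing R] {d : ℕ}
    (hd : ringKrullDim R = (d : ℕ)) : CM R d R :=
  ⟨(regular_aux d R hd).2, by rw [Module.supportDim_self_eq_ringKrullDim, hd]⟩

end reg

end Crest.Agent.R188.Noe
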