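/-
R188 (Serre positivity), block (A2c), part 4: depth of syzygies; modules of full depth over a regular
local ring are free; Hilbert's syzygy theorem in local form.   helper622
-/
import Mathlib
import Crest.Agent.R188.Noe3

set_option autoImplicit false

namespace Crest.Agent.R188.Noe

open IsLocalRing RingTheory.Sequence Pointwise

universe u v w

section free

/-- A finite module on which generators of the maximal ideal form a regular sequence is free. -/
theorem free_of_isWeaklyRegular (n : ℕ) : ∀ (B : Type u) [CommRing B] [IsLocalRing B]
    [IsNoetherianRing B] (rs : List B), rs.length = n → Ideal.ofList rs = maximalIdeal B →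
    ∀ (M : Type v) [AddCommGroup M] [Module B M] [Module.Finite B M], IsWeaklyRegular M rs →
    Module.Free B M := by
  induction n with
  | zero =>
    intro B _ _ _ rs hn hm M _ _ _ _
    rw [List.length_eq_zero_iff] at hn
    subst hn
    have h3 : IsField B := IsLocalRing.isField_iff_maximalIdeal_eq.2 (by rw [← hm]; simp)
    let _ := h3.toField
    exact Module.Free.of_divisionRing B M
  | succ n ih =>
    intro B _ _ _ rs hn hm M _ _ _ hM
    cases rs with
    | nil => simp at hn
    | cons r rs =>
      rw [isWeaklyRegular_cons_iff] at hM
      have hrm : r ∈ maximalIdeal B := by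
        rw [← hm, Ideal.ofList_cons]
        exact Ideal.mem_sup_left (Ideal.mem_span_singleton_self r)
      have hne : Ideal.span {r} ≠ ⊤ := fun h =>
        (maximalIdeal.isMaximal B).ne_top (top_le_iff.1 (h ▸ (by
          rw [Ideal.span_singleton_le_iff_mem]; exact hrm)))
      have : Nontrivial (B ⧸ Ideal.span {r}) := Ideal.Quotient.nontrivial_iff.2 hne
      have : IsLocalRing (B ⧸ Ideal.span {r}) :=
        IsLocalRing.of_surjective' (Ideal.Quotient.mk _) Ideal.Quotient.mk_surjective
      have hm' : Ideal.ofList (rs.map (Ideal.Quotient.mk (Ideal.span {r}))) =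
          maximalIdeal (B ⧸ Ideal.span {r}) := by
        rw [← IsLocalRing.map_maximalIdeal_of_surjective _
          (Ideal.Quotient.mk_surjective (I := Ideal.span {r})), ← hm, Ideal.ofList_cons,
          Ideal.map_sup, Ideal.map_quotient_self, bot_sup_eq, Ideal.map_ofList]
      have hfin : Module.Finite (B ⧸ Ideal.span {r}) (QuotSMulTop r M) :=
        Module.Finite.of_restrictScalars_finite B _ _
      have h1 : IsWeaklyRegular (QuotSMulTop r M)
          (rs.map (algebraMap B (B ⧸ Ideal.span {r}))) := by
        rw [isWeaklyRegular_map_algebraMap_iff]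
        exact hM.2
      have h2 : Module.Free (B ⧸ Ideal.span {r}) (QuotSMulTop r M) :=
        ih (B ⧸ Ideal.span {r}) (rs.map (Ideal.Quotient.mk (Ideal.span {r})))
          (by simpa using hn) hm' (QuotSMulTop r M) h1
      have hfp : Module.FinitePresentation B M := Module.finitePresentation_of_finite B M
      refine (Module.free_quotSMulTop_iff_free B M (x := r) ?_ hM.1).1 h2
      rw [IsLocalRing.jacobson_eq_maximalIdeal _ bot_ne_top]
      exact hrm

end free

section ker

variable {R : Type u} [CommRing R] [IsLocalRing R] [IsNoetherianRing R]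

/-- depth of a kernel. -/
theorem Dep.ker (n : ℕ) : ∀ {K F L : Type v} [AddCommGroup K] [Module R K] [AddCommGroup F]
    [Module R F] [AddCommGroup L] [Module R L] [Module.Finite R F]
    (f : K →ₗ[R] F) (g : F →ₗ[R] L), Function.Injective f → Function.Surjective g →
    Function.Exact f g → Dep R (n + 1) F → Dep R n L → Dep R (n + 1) K := by
  induction n with
  | zero =>
    intro K F L _ _ _ _ _ _ _ f g hf hg hfg hF hL
    obtain ⟨x, hx, hr, -⟩ := dep_succ_iff.1 hF
    refine Dep.cons hx ?_ Dep.zero
    intro a b hab
    apply hf
    apply hr
    show x • f a = x • f b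
    rw [← map_smul, ← map_smul]
    exact congrArg f hab
  | succ n ih =>
    intro K F L _ _ _ _ _ _ _ f g hf hg hfg hF hL
    have hLf : Module.Finite R L := Module.Finite.of_surjective g hg
    have hKf : Module.Finite R K := Module.Finite.of_injective f hf
    have hF1 : ∃ z ∈ maximalIdeal R, IsSMulRegular F z := by
      obtain ⟨x, hx, hr, -⟩ := dep_succ_iff.1 hF
      exact ⟨x, hx, hr⟩
    have hL1 : ∃ z ∈ maximalIdeal R, IsSMulRegular L z := by
      obtain ⟨x, hx, hr, -⟩ := dep_succ_iff.1 hL
      exact ⟨x, hx, hr⟩
    rw [exists_regular_iff] at hF1 hL1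
    obtain ⟨z, hz, hzr⟩ : ∃ z ∈ maximalIdeal R, IsSMulRegular (F × L) z := by
      rw [exists_regular_iff]
      rintro ⟨a, b⟩ hab
      have ha := hF1 a fun r hr => by simpa using congrArg Prod.fst (hab r hr)
      have hb := hL1 b fun r hr => by simpa using congrArg Prod.snd (hab r hr)
      simp [ha, hb]
    have hzF : IsSMulRegular F z := by
      intro a b hab
      have : z • ((a, 0) : F × L) = z • (b, 0) := by simpa using hab
      simpa using congrArg Prod.fst (hzr this)
    have hzL : IsSMulRegular L z := by
      intro a b hab
      have : z • ((0, a) : F × L) = z • (0, b) := by simpa using hab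
      simpa using congrArg Prod.snd (hzr this)
    have hzK : IsSMulRegular K z := by
      intro a b hab
      apply hf
      apply hzF
      show z • f a = z • f b
      rw [← map_smul, ← map_smul]
      exact congrArg f hab
    refine Dep.cons hz hzK (ih (QuotSMulTop.map z f) (QuotSMulTop.map z g) ?_
      (QuotSMulTop.map_surjective z hg) (QuotSMulTop.map_exact z hfg hg) (hF.quot hz hzF)
      (hL.quot hz hzL))
    -- injectivity
    rw [injective_iff_map_eq_zero]
    intro a ha
    obtain ⟨a, rfl⟩ := Submodule.Quotient.mk_surjective _ a
    rw [QuotSMulTop.map_apply_mk, Submodule.Quotient.mk_eq_zero,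
      Submodule.mem_smul_pointwise_iff_exists] at ha
    obtain ⟨b, -, hb⟩ := ha
    have h1 : g b = 0 := by
      apply hzL
      show z • g b = z • 0
      rw [← map_smul, hb, smul_zero]
      exact (hfg (f a)).2 ⟨a, rfl⟩
    obtain ⟨c, rfl⟩ := (hfg b).1 h1
    rw [Submodule.Quotient.mk_eq_zero, Submodule.mem_smul_pointwise_iff_exists]
    refine ⟨c, trivial, hf ?_⟩
    rw [map_smul, hb]

end ker

section dim

variable {R : Type u} [CommRing R] [IsLocalRing R] [IsNoetherianRing R]

/-- `depth ≤ dim`. -/
theorem Dep.le_supportDim {M : Type v} [AddCommGroup M] [Module R M] [Module.Finite R M]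
    [Nontrivial M] {n : ℕ} (h : Dep R n M) : (n : WithBot ℕ∞) ≤ Module.supportDim R M := by
  obtain ⟨P, hP⟩ := associatedPrimes.nonempty R M
  have hann : Module.annihilator R M ≤ P := by
    have := (AssociatedPrimes.mem_iff.1 hP).annihilator_le
    rwa [Submodule.annihilator_top] at this
  exact (h.le_ringKrullDim hP).trans (ringKrullDim_quotient_le_supportDim hann)

omit [IsNoetherianRing R] in
theorem Dep.pi {M : Type v} [AddCommGroup M] [Module R M] {n : ℕ} (h : Dep R n M)
    (k : ℕ) : Dep R n (Fin k → M) := by
  obtain ⟨rs, h1, h2, h3⟩ := h
  refine ⟨rs, h1, h2, ?_⟩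
  clear h1 h2
  induction rs generalizing M with
  | nil => exact IsWeaklyRegular.nil R _
  | cons r rs ih =>
    rw [isWeaklyRegular_cons_iff] at h3 ⊢
    refine ⟨?_, ?_⟩
    · intro a b hab
      funext i
      exact h3.1 (congrFun hab i)
    · have h4 := ih h3.2
      let e : QuotSMulTop r (Fin k → M) ≃ₗ[R] (Fin k → QuotSMulTop r M) :=
        LinearEquiv.ofBijective
          (Submodule.liftQ _ (LinearMap.pi fun i => (Submodule.mkQ _).comp (LinearMap.proj i)) (by
            intro x hx
            obtain ⟨y, -, rfl⟩ := (Submodule.mem_smul_pointwise_iff_exists _ _ _).1 hx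
            rw [LinearMap.mem_ker]
            funext i
            simp only [LinearMap.pi_apply, LinearMap.comp_apply, LinearMap.proj_apply,
              Pi.smul_apply, Pi.zero_apply, Submodule.mkQ_apply]
            rw [Submodule.Quotient.mk_eq_zero]
            exact Submodule.smul_mem_pointwise_smul _ _ _ trivial)) (by
        constructor
        · rw [injective_iff_map_eq_zero]
          intro a ha
          obtain ⟨a, rfl⟩ := Submodule.Quotient.mk_surjective _ a
          rw [Submodule.liftQ_apply] at ha
          have h5 : ∀ i, ∃ b, r • b = a i := by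
            intro i
            have := congrFun ha i
            simp only [LinearMap.pi_apply, LinearMap.comp_apply, LinearMap.proj_apply,
              Pi.zero_apply, Submodule.mkQ_apply] at this
            rw [Submodule.Quotient.mk_eq_zero] at this
            obtain ⟨y, -, hy⟩ := (Submodule.mem_smul_pointwise_iff_exists _ _ _).1 this
            exact ⟨y, hy⟩
          choose b hb using h5
          rw [Submodule.Quotient.mk_eq_zero, Submodule.mem_smul_pointwise_iff_exists]
          exact ⟨b, trivial, funext hb⟩
        · intro y
          choose z hz using fun i => Submodule.Quotient.mk_surjective _ (y i)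
          refine ⟨Submodule.Quotient.mk z, ?_⟩
          rw [Submodule.liftQ_apply]
          funext i
          exact hz i)
      exact (e.isWeaklyRegular_congr rs).2 h4

end dim

section regular

variable {B : Type u} [CommRing B] [IsRegularLocalRing B]

/-- **A finite module of depth `dim B` over a regular local ring `B` is free.** -/
theorem free_of_dep {n : ℕ} (hn : ringKrullDim B = (n : ℕ)) {M : Type v} [AddCommGroup M]
    [Module B M] [Module.Finite B M] (h : Dep B n M) : Module.Free B M := by
  classical
  cases subsingleton_or_nontrivial M with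
  | inl hs => exact Module.Free.of_subsingleton B M
  | inr hnt =>
    have hsp : (maximalIdeal B).spanFinrank = n := by
      have := (isRegularLocalRing_iff B).1 inferInstance
      rw [hn] at this
      exact_mod_cast this
    obtain ⟨t, ht, hts⟩ := Submodule.FG.exists_span_finset_card_eq_spanFinrank
      (IsNoetherian.noetherian (maximalIdeal B))
    rw [hsp] at ht
    have hl : Ideal.ofList t.toList = maximalIdeal B := by
      rw [← hts, Ideal.ofList]
      congr 1
      ext x
      simp
    have hCM : CM B n M := ⟨h, le_antisymm
      ((Module.supportDim_le_ringKrullDim B M).trans hn.le) h.le_supportDim⟩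
    have hmem : ∀ r ∈ t.toList, r ∈ maximalIdeal B := fun r hr => by
      rw [← hl]; exact Ideal.subset_span hr
    have hlen : t.toList.length = n := by rw [Finset.length_toList, ht]
    have hd0 : Module.supportDim B (M ⧸ (Ideal.ofList t.toList • ⊤ : Submodule B M)) ≤ (0 : ℕ) := by
      rw [hl, Module.supportDim_eq_ringKrullDim_quotient_annihilator]
      have h1 : maximalIdeal B ≤
          Module.annihilator B (M ⧸ (maximalIdeal B • ⊤ : Submodule B M)) := by
        intro r hr
        rw [Module.mem_annihilator]
        intro m
        obtain ⟨m, rfl⟩ := Submodule.Quotient.mk_surjective _ m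
        rw [← Submodule.Quotient.mk_smul, Submodule.Quotient.mk_eq_zero]
        exact Submodule.smul_mem_smul hr trivial
      refine (ringKrullDim_le_of_surjective (Ideal.Quotient.factor h1)
        (Ideal.Quotient.factor_surjective h1)).trans ?_
      have : IsField (B ⧸ maximalIdeal B) :=
        (Ideal.Quotient.maximal_ideal_iff_isField_quotient _).1 inferInstance
      let _ := this.toField
      exact (ringKrullDim_eq_zero_of_field (B ⧸ maximalIdeal B)).le
    have := (hCM : CM B n M)
    obtain ⟨h1, -⟩ := CM.regular_of_dim_le t.toList hmem 0 M (by rw [hlen, zero_add]; exact hCM) hd0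
    exact free_of_isWeaklyRegular n B t.toList hlen hl M h1

theorem dep_of_free {n : ℕ} (hn : ringKrullDim B = (n : ℕ)) {M : Type v} [AddCommGroup M]
    [Module B M] [Module.Finite B M] [Module.Free B M] : Dep B n M := by
  have h1 : Dep B n B := (CM.of_regular B hn).dep
  let b := Module.finBasis B M
  exact (h1.pi _).congr b.equivFun.symm

end regular

end Crest.Agent.R188.Noe
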