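/-
R188 (Serre positivity), block (A2c), part 5: common systems of parameters in an ideal
(prime avoidance).   helper622
-/
import Mathlib
import Crest.Agent.R188.Noe4

set_option autoImplicit false

namespace Crest.Agent.R188.Noe

open IsLocalRing RingTheory.Sequence Pointwise

universe u v w

section avoid

variable {R : Type u} [CommRing R]

/-- The dimension of `R/J` is the supremum over the minimal primes of `J`. -/
theorem ringKrullDim_quotient_le_of_minimalPrimes {J : Ideal R} {k : WithBot ℕ∞}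
    (h : ∀ P ∈ J.minimalPrimes, ringKrullDim (R ⧸ P) ≤ k) : ringKrullDim (R ⧸ J) ≤ k := by
  rw [ringKrullDim_quotient]
  refine iSup_le fun c => ?_
  obtain ⟨P, hP, hle⟩ := Ideal.exists_minimalPrimes_le (I := J) (J := c.head.1.asIdeal)
    ((PrimeSpectrum.mem_zeroLocus _ _).1 c.head.2)
  refine le_trans ?_ (h P hP)
  rw [ringKrullDim_quotient]
  let c' : LTSeries (PrimeSpectrum.zeroLocus (P : Set R)) :=
    { length := c.length
      toFun := fun i => ⟨(c i).1, by
        rw [PrimeSpectrum.mem_zeroLocus]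
        have h1 : c.head ≤ c i := LTSeries.head_le c i
        exact fun x hx => h1 (hle hx)⟩
      step := fun i => c.step i }
  exact le_iSup (fun q : LTSeries (PrimeSpectrum.zeroLocus (P : Set R)) =>
    ((q.length : ℕ∞) : WithBot ℕ∞)) c'

theorem ringKrullDim_quotient_mono {I J : Ideal R} (h : I ≤ J) :
    ringKrullDim (R ⧸ J) ≤ ringKrullDim (R ⧸ I) :=
  ringKrullDim_le_of_surjective (Ideal.Quotient.factor h) (Ideal.Quotient.factor_surjective h)

theorem le_of_add_one_le_add_one' {e : WithBot ℕ∞} {d : ℕ}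
    (h : e + 1 ≤ ((d + 1 : ℕ) : WithBot ℕ∞)) : e ≤ d := by
  induction e with
  | bot => exact bot_le
  | coe e =>
    induction e with
    | top =>
      exfalso
      have h1 : ((⊤ : ℕ∞) : WithBot ℕ∞) + 1 = ((⊤ : ℕ∞) : WithBot ℕ∞) := rfl
      rw [h1] at h
      have h2 : (⊤ : ℕ∞) ≤ ((d + 1 : ℕ) : ℕ∞) := WithBot.coe_le_coe.1 h
      exact absurd h2 (by simp)
    | coe e =>
      have h1 : ((e + 1 : ℕ) : WithBot ℕ∞) ≤ ((d + 1 : ℕ) : WithBot ℕ∞) := by
        refine le_trans (le_of_eq ?_) h
        push_cast; rfl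
      have h2 : e + 1 ≤ d + 1 := by exact_mod_cast h1
      have h3 : e ≤ d := by omega
      exact WithBot.coe_le_coe.2 (by exact_mod_cast h3)

/-- **Common systems of parameters.**  If `dim R/J i ≤ n i + a` and `dim R/(J i + I) ≤ n i` then
there are `a` elements of `I` which cut all the dimensions down to `n i`. -/
theorem exists_params [IsNoetherianRing R] (I : Ideal R) {ι : Type w} [Finite ι] (n : ι → ℕ)
    (a : ℕ) : ∀ (J : ι → Ideal R), (∀ i, ringKrullDim (R ⧸ J i) ≤ (n i + a : ℕ)) →
    (∀ i, ringKrullDim (R ⧸ (J i ⊔ I)) ≤ (n i : ℕ)) →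
    ∃ G : List R, G.length = a ∧ (∀ g ∈ G, g ∈ I) ∧
      ∀ i, ringKrullDim (R ⧸ (J i ⊔ Ideal.ofList G)) ≤ (n i : ℕ) := by
  classical
  induction a with
  | zero =>
    intro J h1 _
    refine ⟨[], rfl, by simp, fun i => ?_⟩
    rw [Ideal.ofList_nil, sup_bot_eq]
    simpa using h1 i
  | succ a ih =>
    intro J h1 h2
    -- the bad primes
    let B : Set (Ideal R) := ⋃ i, {P ∈ (J i).minimalPrimes | ¬ ringKrullDim (R ⧸ P) ≤ (n i + a : ℕ)}
    have hBfin : B.Finite := Set.finite_iUnion fun i =>
      ((J i).finite_minimalPrimes_of_isNoetherianRing R).subset (Set.sep_subset _ _)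
    obtain ⟨g, hgI, hg⟩ : ∃ g ∈ I, ∀ P ∈ B, g ∉ P := by
      by_contra! hcon
      have hsub : (I : Set R) ⊆ ⋃ P ∈ B, (P : Set R) := by
        intro g hg
        obtain ⟨P, hP, hgP⟩ := hcon g hg
        exact Set.mem_biUnion hP hgP
      obtain ⟨P, hP, hle⟩ := (Ideal.subset_union_prime_finite hBfin I I (by
        intro P hP _ _
        obtain ⟨i, hi⟩ := Set.mem_iUnion.1 hP
        exact hi.1.1.1)).1 hsub
      obtain ⟨i, hi⟩ := Set.mem_iUnion.1 hP
      apply hi.2
      refine ((ringKrullDim_quotient_mono (sup_le hi.1.1.2 hle)).trans (h2 i)).trans ?_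
      exact_mod_cast Nat.le_add_right _ _
    have h3 : ∀ i, ringKrullDim (R ⧸ (J i ⊔ Ideal.span {g})) ≤ (n i + a : ℕ) := by
      intro i
      refine ringKrullDim_quotient_le_of_minimalPrimes fun P' hP' => ?_
      have hP'p := hP'.1.1
      obtain ⟨P, hP, hle⟩ := Ideal.exists_minimalPrimes_le (I := J i) (J := P')
        (le_sup_left.trans hP'.1.2)
      have hgP' : g ∈ P' := hP'.1.2 (Ideal.mem_sup_right (Ideal.mem_span_singleton_self g))
      by_cases hb : ringKrullDim (R ⧸ P) ≤ (n i + a : ℕ)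
      · exact (ringKrullDim_quotient_mono hle).trans hb
      · have hgP : g ∉ P := hg P (Set.mem_iUnion.2 ⟨i, hP, hb⟩)
        have hPp := hP.1.1
        have h4 := ringKrullDim_quotient_add_one_le hle hgP' hgP
        have h5 : ringKrullDim (R ⧸ P) ≤ (n i + (a + 1) : ℕ) :=
          (ringKrullDim_quotient_mono hP.1.2).trans (h1 i)
        exact le_of_add_one_le_add_one' (h4.trans h5)
    obtain ⟨G, hG1, hG2, hG3⟩ := ih (fun i => J i ⊔ Ideal.span {g}) h3 (fun i => by
      refine (ringKrullDim_quotient_mono ?_).trans (h2 i)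
      exact sup_le_sup_right le_sup_left I)
    refine ⟨g :: G, by simp [hG1], ?_, fun i => ?_⟩
    · intro r hr
      rcases List.mem_cons.1 hr with rfl | h
      · exact hgI
      · exact hG2 r h
    · rw [Ideal.ofList_cons, ← sup_assoc]
      exact hG3 i

/-- the annihilator of `M / I M` up to radical. -/
theorem supportDim_quotient_smul_top (I : Ideal R) (M : Type v) [AddCommGroup M] [Module R M]
    [Module.Finite R M] : Module.supportDim R (M ⧸ (I • ⊤ : Submodule R M)) =
      ringKrullDim (R ⧸ (Module.annihilator R M ⊔ I)) := by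
  rw [Module.supportDim, Module.support_quotient, ringKrullDim_quotient,
    Module.support_eq_zeroLocus, ← PrimeSpectrum.zeroLocus_sup]

end avoid

section finlen

variable {R : Type u} [CommRing R] [IsLocalRing R] [IsNoetherianRing R]

/-- dimension `≤ 0` means that a power of the maximal ideal is contained. -/
theorem exists_pow_le_of_ringKrullDim_le_zero {J : Ideal R} (hJ : ringKrullDim (R ⧸ J) ≤ 0) :
    ∃ c, maximalIdeal R ^ c ≤ J := by
  have h1 : maximalIdeal R ≤ J.radical := by
    rw [Ideal.radical_eq_sInf]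
    refine le_sInf fun P hP => ?_
    obtain ⟨hle, hPp⟩ := hP
    have h2 : ringKrullDim (R ⧸ P) ≤ 0 := (ringKrullDim_quotient_mono hle).trans hJ
    have h3 : Ring.KrullDimLE 0 (R ⧸ P) := (Ring.krullDimLE_iff (n := 0)).2 h2
    have h4 : (⊥ : Ideal (R ⧸ P)).IsMaximal := Ideal.isMaximal_of_isPrime _
    have h5 : P.IsMaximal := Ideal.bot_quotient_isMaximal_iff P |>.1 h4
    rw [IsLocalRing.eq_maximalIdeal h5]
  exact (Ideal.exists_pow_le_of_le_radical_of_fg h1 (IsNoetherian.noetherian _))

omit [IsNoetherianRing R] in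
theorem ringKrullDim_le_zero_of_pow_le {J : Ideal R} {c : ℕ} (hJ : maximalIdeal R ^ c ≤ J) :
    ringKrullDim (R ⧸ J) ≤ 0 := by
  refine ringKrullDim_quotient_le_of_minimalPrimes fun P hP => ?_
  have hPp := hP.1.1
  have h1 : maximalIdeal R ≤ P := hPp.le_of_pow_le (hJ.trans hP.1.2)
  have h2 : P = maximalIdeal R := le_antisymm (le_maximalIdeal hPp.ne_top) h1
  subst h2
  have : IsField (R ⧸ maximalIdeal R) :=
    (Ideal.Quotient.maximal_ideal_iff_isField_quotient _).1 inferInstance
  let _ := this.toField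
  exact (ringKrullDim_eq_zero_of_field (R ⧸ maximalIdeal R)).le

end finlen

end Crest.Agent.R188.Noe
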