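/-
R188 (Serre positivity), block (A2c), part 6: the choice of the complete intersection
`R/(G)`.   helper622
-/
import Mathlib
import Crest.Agent.R188.Noe5

set_option autoImplicit false

namespace Crest.Agent.R188.Noe

open IsLocalRing RingTheory.Sequence Pointwise

universe u v w

section change

variable {R : Type u} [CommRing R] {S : Type v} [CommRing S]
  [Algebra R S] {M : Type w} [AddCommGroup M] [Module R M] [Module S M] [IsScalarTower R S M]

/-- `supportDim` does not change under a surjective change of rings. -/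
theorem supportDim_of_surjective (hs : Function.Surjective (algebraMap R S))
    [Module.Finite R M] : Module.supportDim R M = Module.supportDim S M := by
  have hfin : Module.Finite S M := Module.Finite.of_restrictScalars_finite R S M
  rw [Module.supportDim_eq_ringKrullDim_quotient_annihilator,
    Module.supportDim_eq_ringKrullDim_quotient_annihilator]
  have hann : Module.annihilator R M = (Module.annihilator S M).comap (algebraMap R S) := by
    ext r
    rw [Ideal.mem_comap, Module.mem_annihilator, Module.mem_annihilator]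
    simp only [algebraMap_smul]
  have e : (R ⧸ Module.annihilator R M) ≃+* (S ⧸ Module.annihilator S M) :=
    RingEquiv.ofBijective (Ideal.quotientMap (Module.annihilator S M) (algebraMap R S) hann.le)
      ⟨Ideal.quotientMap_injective' hann.ge, Ideal.quotientMap_surjective hs⟩
  exact ringKrullDim_eq_of_ringEquiv e

variable [IsLocalRing R] [IsLocalRing S]

theorem CM.of_surjective (hs : Function.Surjective (algebraMap R S)) [Module.Finite R M] {n : ℕ}
    (h : CM R n M) : CM S n M := by
  have : IsLocalHom (algebraMap R S) := IsLocalHom.of_surjective _ hs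
  exact ⟨dep_of_isLocalHom h.dep, by rw [← supportDim_of_surjective hs, h.dim]⟩

theorem CM.to_base (hs : Function.Surjective (algebraMap R S)) [Module.Finite R M] {n : ℕ}
    (h : CM S n M) : CM R n M :=
  ⟨dep_of_surjective hs h.dep, by rw [supportDim_of_surjective hs, h.dim]⟩

end change

section G

variable {R : Type u} [CommRing R] [IsLocalRing R] [IsNoetherianRing R]

omit [IsLocalRing R] [IsNoetherianRing R] in
theorem ofList_smul_top (rs : List R) :
    (Ideal.ofList rs • ⊤ : Submodule R R) = Ideal.ofList rs := by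
  rw [smul_eq_mul, Ideal.mul_top]

/-- In a CM ring, `rs ⊂ m` with `dim R/(rs) ≤ n - |rs|` is regular and `R/(rs)` is CM. -/
theorem regular_of_dim {n : ℕ} {rs : List R} (hm : ∀ r ∈ rs, r ∈ maximalIdeal R)
    (hR : CM R (n + rs.length) R) (hd : ringKrullDim (R ⧸ Ideal.ofList rs) ≤ (n : ℕ)) :
    IsWeaklyRegular R rs ∧ CM R n (R ⧸ Ideal.ofList rs) := by
  have h := CM.regular_of_dim_le rs hm n R hR (by
    rw [ofList_smul_top, Module.supportDim_quotient_eq_ringKrullDim]
    exact hd)
  rw [ofList_smul_top] at h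
  exact h

/-- **The complete intersection**, version without `p`. -/
theorem exists_G {a b : ℕ} (hR : CM R (b + a) R) {I A : Ideal R} (hI : I ≤ maximalIdeal R)
    (hIb : ringKrullDim (R ⧸ I) ≤ (b : ℕ)) (hA : ringKrullDim (R ⧸ A) ≤ (a : ℕ))
    (hAI : ringKrullDim (R ⧸ (A ⊔ I)) ≤ 0) :
    ∃ G : List R, G.length = a ∧ (∀ g ∈ G, g ∈ I) ∧ IsWeaklyRegular R G ∧
      CM R b (R ⧸ Ideal.ofList G) ∧ ringKrullDim (R ⧸ (A ⊔ Ideal.ofList G)) ≤ 0 := by
  have hRd : ringKrullDim R = (b + a : ℕ) := by
    rw [← Module.supportDim_self_eq_ringKrullDim, hR.dim]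
  obtain ⟨G, h1, h2, h3⟩ := exists_params I (ι := Bool) (fun i => cond i b 0) a
    (fun i => cond i ⊥ A) (by
      intro i
      cases i with
      | true =>
        exact (ringKrullDim_le_of_surjective _ (Ideal.Quotient.mk_surjective)).trans hRd.le
      | false =>
        show ringKrullDim (R ⧸ A) ≤ (0 + a : ℕ)
        rw [zero_add]; exact hA) (by
      intro i
      cases i with
      | true =>
        show ringKrullDim (R ⧸ (⊥ ⊔ I)) ≤ (b : ℕ)
        rw [bot_sup_eq]; exact hIb
      | false => exact hAI)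
  have h4 : ringKrullDim (R ⧸ (⊥ ⊔ Ideal.ofList G)) ≤ (b : ℕ) := h3 true
  have h5 : ringKrullDim (R ⧸ (A ⊔ Ideal.ofList G)) ≤ (0 : ℕ) := h3 false
  rw [bot_sup_eq] at h4
  obtain ⟨h6, h7⟩ := regular_of_dim (fun g hg => hI (h2 g hg)) (by rw [h1]; exact hR) h4
  exact ⟨G, h1, h2, h6, h7, by simpa using h5⟩

/-- **The complete intersection**, version with a parameter `p` modulo `I`. -/
theorem exists_G_param {a b : ℕ} (hR : CM R (b + 1 + a) R) {I A : Ideal R} {p : R}
    (hpR : ringKrullDim (R ⧸ Ideal.span {p}) ≤ (b + a : ℕ))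
    (hI : I ≤ maximalIdeal R)
    (hIb : ringKrullDim (R ⧸ I) ≤ (b + 1 : ℕ)) (hIp : ringKrullDim (R ⧸ (Ideal.span {p} ⊔ I)) ≤ (b : ℕ))
    (hA : ringKrullDim (R ⧸ A) ≤ (a : ℕ)) (hAI : ringKrullDim (R ⧸ (A ⊔ I)) ≤ 0) :
    ∃ G : List R, G.length = a ∧ (∀ g ∈ G, g ∈ I) ∧ IsWeaklyRegular R G ∧
      CM R (b + 1) (R ⧸ Ideal.ofList G) ∧ ringKrullDim (R ⧸ (A ⊔ Ideal.ofList G)) ≤ 0 ∧
      ringKrullDim (R ⧸ (Ideal.ofList G ⊔ Ideal.span {p})) ≤ (b : ℕ) ∧
      IsSMulRegular (R ⧸ Ideal.ofList G) p := by
  have hRd : ringKrullDim R = (b + 1 + a : ℕ) := by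
    rw [← Module.supportDim_self_eq_ringKrullDim, hR.dim]
  obtain ⟨G, h1, h2, h3⟩ := exists_params I (ι := Bool × Bool)
    (fun i => cond i.1 b (cond i.2 (b + 1) 0)) a
    (fun i => cond i.1 (Ideal.span {p}) (cond i.2 ⊥ A)) (by
      rintro ⟨i, j⟩
      cases i with
      | true => exact hpR
      | false =>
        cases j with
        | true =>
          exact (ringKrullDim_le_of_surjective _ (Ideal.Quotient.mk_surjective)).trans hRd.le
        | false =>
          show ringKrullDim (R ⧸ A) ≤ (0 + a : ℕ)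
          rw [zero_add]; exact hA) (by
      rintro ⟨i, j⟩
      cases i with
      | true => exact hIp
      | false =>
        cases j with
        | true =>
          show ringKrullDim (R ⧸ (⊥ ⊔ I)) ≤ (b + 1 : ℕ)
          rw [bot_sup_eq]; exact hIb
        | false => exact hAI)
  have h0 : ringKrullDim (R ⧸ (Ideal.span {p} ⊔ Ideal.ofList G)) ≤ (b : ℕ) := h3 (true, true)
  have h4 : ringKrullDim (R ⧸ (⊥ ⊔ Ideal.ofList G)) ≤ (b + 1 : ℕ) := h3 (false, true)
  have h5 : ringKrullDim (R ⧸ (A ⊔ Ideal.ofList G)) ≤ (0 : ℕ) := h3 (false, false)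
  rw [bot_sup_eq] at h4
  obtain ⟨h6, h7⟩ := regular_of_dim (fun g hg => hI (h2 g hg)) (by rw [h1]; exact hR) h4
  have h8 : ringKrullDim (R ⧸ (Ideal.ofList G ⊔ Ideal.span {p})) ≤ (b : ℕ) := by
    rw [sup_comm]; exact h0
  refine ⟨G, h1, h2, h6, h7, by simpa using h5, h8, ?_⟩
  refine h7.isSMulRegular ?_
  have h9 : Module.supportDim R (QuotSMulTop p (R ⧸ Ideal.ofList G)) =
      ringKrullDim (R ⧸ (Ideal.ofList G ⊔ Ideal.span {p})) := by
    have := supportDim_quotient_smul_top (Ideal.span {p}) (R ⧸ Ideal.ofList G)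
    rw [Ideal.annihilator_quotient] at this
    rw [← this]
    exact Module.supportDim_eq_of_equiv (Submodule.quotEquivOfEq _ _
      (by rw [Submodule.ideal_span_singleton_smul]))
  rw [h9]
  refine lt_of_le_of_lt h8 ?_
  exact_mod_cast Nat.lt_succ_self b

/-- **The complete intersection**, version with `G₁ = p ∈ I`. -/
theorem exists_G_mem {a b : ℕ} (hR : CM R (b + (a + 1)) R) {I A : Ideal R} {p : R}
    (hpI : p ∈ I) (hpR : ringKrullDim (R ⧸ Ideal.span {p}) ≤ (b + a : ℕ))
    (hI : I ≤ maximalIdeal R) (hIb : ringKrullDim (R ⧸ I) ≤ (b : ℕ))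
    (hA : ringKrullDim (R ⧸ (A ⊔ Ideal.span {p})) ≤ (a : ℕ))
    (hAI : ringKrullDim (R ⧸ (A ⊔ I)) ≤ 0) :
    ∃ G : List R, G.length = a ∧ (∀ g ∈ G, g ∈ I) ∧ IsWeaklyRegular R (p :: G) ∧
      CM R b (R ⧸ Ideal.ofList (p :: G)) ∧
      ringKrullDim (R ⧸ (A ⊔ Ideal.ofList (p :: G))) ≤ 0 := by
  have hpI' : Ideal.span {p} ≤ I := by rwa [Ideal.span_singleton_le_iff_mem]
  obtain ⟨G, h1, h2, h3⟩ := exists_params I (ι := Bool) (fun i => cond i b 0) a
    (fun i => cond i (Ideal.span {p}) (A ⊔ Ideal.span {p})) (by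
      intro i
      cases i with
      | true => exact hpR
      | false =>
        show ringKrullDim (R ⧸ (A ⊔ Ideal.span {p})) ≤ (0 + a : ℕ)
        rw [zero_add]; exact hA) (by
      intro i
      cases i with
      | true =>
        show ringKrullDim (R ⧸ (Ideal.span {p} ⊔ I)) ≤ (b : ℕ)
        rw [sup_eq_right.2 hpI']
        exact hIb
      | false =>
        show ringKrullDim (R ⧸ ((A ⊔ Ideal.span {p}) ⊔ I)) ≤ (0 : ℕ)
        rw [sup_assoc, sup_eq_right.2 hpI']
        exact hAI)
  have h4 : ringKrullDim (R ⧸ (Ideal.span {p} ⊔ Ideal.ofList G)) ≤ (b : ℕ) := h3 true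
  have h5 : ringKrullDim (R ⧸ ((A ⊔ Ideal.span {p}) ⊔ Ideal.ofList G)) ≤ (0 : ℕ) := h3 false
  rw [sup_assoc, ← Ideal.ofList_cons] at h5
  rw [← Ideal.ofList_cons] at h4
  have hmem : ∀ g ∈ p :: G, g ∈ maximalIdeal R := by
    intro g hg
    rcases List.mem_cons.1 hg with rfl | h
    · exact hI hpI
    · exact hI (h2 g h)
  obtain ⟨h6, h7⟩ := regular_of_dim hmem (by rw [List.length_cons, h1]; exact hR) h4
  exact ⟨G, h1, h2, h6, h7, h5⟩

/-- `s.o.p.` of `R/J`: `b` elements of `m` with `dim R/(J + (t)) ≤ 0`. -/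
theorem exists_sop {b : ℕ} {J : Ideal R} (hJm : J ≤ maximalIdeal R)
    (hJ : ringKrullDim (R ⧸ J) ≤ (b : ℕ)) :
    ∃ t : Fin b → R, (∀ i, t i ∈ maximalIdeal R) ∧
      ∃ c, maximalIdeal R ^ c ≤ J ⊔ Ideal.span (Set.range t) := by
  obtain ⟨G, h1, h2, h3⟩ := exists_params (maximalIdeal R) (ι := Unit) (fun _ => 0) b
    (fun _ => J) (fun _ => by rw [zero_add]; exact hJ) (fun _ => by
      rw [sup_eq_right.2 hJm]
      exact ringKrullDim_le_zero_of_pow_le (c := 1) (by rw [pow_one]))
  subst h1
  refine ⟨fun i => G.get i, fun i => h2 _ (List.get_mem _ _), ?_⟩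
  obtain ⟨c, hc⟩ := exists_pow_le_of_ringKrullDim_le_zero (h3 ())
  refine ⟨c, hc.trans (sup_le_sup_left ?_ J)⟩
  rw [Ideal.ofList, Ideal.span_le]
  intro x hx
  obtain ⟨i, rfl⟩ := List.get_of_mem hx
  exact Ideal.subset_span ⟨i, rfl⟩

end G

section tensor

variable {R : Type u} [CommRing R]

open TensorProduct

/-- the support of a tensor product of finite modules. -/
theorem annihilator_tensorProduct_le {M : Type v} {N : Type w} [AddCommGroup M] [Module R M]
    [AddCommGroup N] [Module R N] [Module.Finite R M] [Module.Finite R N] {P : Ideal R}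
    [hP : P.IsPrime] (hM : Module.annihilator R M ≤ P) (hN : Module.annihilator R N ≤ P) :
    Module.annihilator R (M ⊗[R] N) ≤ P := by
  have h1 : (⟨P, hP⟩ : PrimeSpectrum R) ∈ Module.support R M :=
    Module.mem_support_iff_of_finite.2 hM
  have h2 : (⟨P, hP⟩ : PrimeSpectrum R) ∈ Module.support R N :=
    Module.mem_support_iff_of_finite.2 hN
  rw [Module.mem_support_iff_nontrivial_residueField_tensorProduct] at h1 h2
  have h3 : (⟨P, hP⟩ : PrimeSpectrum R) ∈ Module.support R (M ⊗[R] N) := by
    rw [Module.mem_support_iff_nontrivial_residueField_tensorProduct]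
    let K := P.ResidueField
    have e := TensorProduct.AlgebraTensorModule.distribBaseChange R K M N
    have h1' : Nontrivial (K ⊗[R] M) := h1
    have h2' : Nontrivial (K ⊗[R] N) := h2
    have h4 : Nontrivial ((K ⊗[R] M) ⊗[K] (K ⊗[R] N)) := by
      rw [← rank_pos_iff_nontrivial (R := K)]
      have h5 := (rank_pos_iff_nontrivial (R := K) (M := K ⊗[R] M)).2 h1'
      have h6 := (rank_pos_iff_nontrivial (R := K) (M := K ⊗[R] N)).2 h2'
      rw [rank_tensorProduct]
      rw [pos_iff_ne_zero] at h5 h6 ⊢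
      exact mul_ne_zero (by simpa using h5) (by simpa using h6)
    exact e.toEquiv.nontrivial
  exact Module.mem_support_iff_of_finite.1 h3

/-- A module of finite length over a local ring is killed by a power of the maximal ideal. -/
theorem exists_pow_le_annihilator [IsLocalRing R] {T : Type v} [AddCommGroup T] [Module R T]
    (h : IsFiniteLength R T) : ∃ c, maximalIdeal R ^ c ≤ Module.annihilator R T := by
  obtain ⟨hN, hA⟩ := isFiniteLength_iff_isNoetherian_isArtinian.1 h
  let f : ℕ →o (Submodule R T)ᵒᵈ :=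
    { toFun := fun n => OrderDual.toDual (maximalIdeal R ^ n • (⊤ : Submodule R T))
      monotone' := fun m n hmn => by
        show (maximalIdeal R ^ n • (⊤ : Submodule R T)) ≤ (maximalIdeal R ^ m • (⊤ : Submodule R T))
        exact Submodule.smul_mono_left (Ideal.pow_le_pow_right hmn) }
  obtain ⟨c, hc⟩ := IsArtinian.monotone_stabilizes f
  have h1 : (maximalIdeal R ^ c • (⊤ : Submodule R T)) = maximalIdeal R ^ (c + 1) • ⊤ :=
    hc (c + 1) (Nat.le_succ c)
  have h2 : (maximalIdeal R ^ c • (⊤ : Submodule R T)) = ⊥ := by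
    refine Submodule.eq_bot_of_le_smul_of_le_jacobson_bot (maximalIdeal R) _
      (IsNoetherian.noetherian _) ?_ ?_
    · conv_lhs => rw [h1, pow_succ', Submodule.mul_smul]
    · rw [IsLocalRing.jacobson_eq_maximalIdeal _ bot_ne_top]
  refine ⟨c, fun r hr => ?_⟩
  rw [Module.mem_annihilator]
  intro t
  have : r • t ∈ maximalIdeal R ^ c • (⊤ : Submodule R T) := Submodule.smul_mem_smul hr trivial
  rwa [h2, Submodule.mem_bot] at this

/-- `M ⊗ N` of finite length means that `Ann M + Ann N` is primary to the maximal ideal. -/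
theorem ringKrullDim_le_zero_of_isFiniteLength [IsLocalRing R] [IsNoetherianRing R]
    {M : Type v} {N : Type w} [AddCommGroup M] [Module R M]
    [AddCommGroup N] [Module R N] [Module.Finite R M] [Module.Finite R N]
    (h : IsFiniteLength R (M ⊗[R] N)) :
    ringKrullDim (R ⧸ (Module.annihilator R M ⊔ Module.annihilator R N)) ≤ 0 := by
  obtain ⟨c, hc⟩ := exists_pow_le_annihilator h
  refine ringKrullDim_quotient_le_of_minimalPrimes fun P hP => ?_
  have hPp := hP.1.1
  have h1 : Module.annihilator R (M ⊗[R] N) ≤ P :=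
    annihilator_tensorProduct_le (le_sup_left.trans hP.1.2) (le_sup_right.trans hP.1.2)
  exact ringKrullDim_le_zero_of_pow_le (hc.trans h1)

/-- Conversely. -/
theorem isFiniteLength_tensorProduct [IsLocalRing R] [IsNoetherianRing R]
    {M : Type v} {N : Type w} [AddCommGroup M] [Module R M]
    [AddCommGroup N] [Module R N] [Module.Finite R M] [Module.Finite R N]
    (h : ringKrullDim (R ⧸ (Module.annihilator R M ⊔ Module.annihilator R N)) ≤ 0) :
    IsFiniteLength R (M ⊗[R] N) := by
  obtain ⟨c, hc⟩ := exists_pow_le_of_ringKrullDim_le_zero h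
  have hann : Module.annihilator R M ⊔ Module.annihilator R N ≤
      Module.annihilator R (M ⊗[R] N) := by
    rw [sup_le_iff]
    constructor
    · intro r hr
      rw [Module.mem_annihilator] at hr ⊢
      intro t
      induction t using TensorProduct.induction_on with
      | zero => simp
      | tmul m n => rw [TensorProduct.smul_tmul', hr, TensorProduct.zero_tmul]
      | add x y hx hy => rw [smul_add, hx, hy, add_zero]
    · intro r hr
      rw [Module.mem_annihilator] at hr ⊢
      intro t
      induction t using TensorProduct.induction_on with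
      | zero => simp
      | tmul m n => rw [← TensorProduct.tmul_smul, hr, TensorProduct.tmul_zero]
      | add x y hx hy => rw [smul_add, hx, hy, add_zero]
  have hT : maximalIdeal R ^ c ≤ Module.annihilator R (M ⊗[R] N) := hc.trans hann
  rw [isFiniteLength_iff_isNoetherian_isArtinian]
  refine ⟨inferInstance, ?_⟩
  let A := R ⧸ Module.annihilator R (M ⊗[R] N)
  have hA : IsArtinianRing A := by
    rw [isArtinianRing_iff_krullDimLE_zero, Ring.krullDimLE_iff]
    exact_mod_cast ringKrullDim_le_zero_of_pow_le hT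
  let _ : Module A (M ⊗[R] N) := Module.quotientAnnihilator
  have hsc : IsScalarTower R A (M ⊗[R] N) := (Module.isTorsionBySet_annihilator R _).isScalarTower
  have hfin : Module.Finite A (M ⊗[R] N) := Module.Finite.of_restrictScalars_finite R _ _
  have hart : IsArtinian A (M ⊗[R] N) := isArtinian_of_fg_of_artinian'
  exact isArtinian_of_surjective_algebraMap (R := A) (S := R) Ideal.Quotient.mk_surjective

end tensor

end Crest.Agent.R188.Noe
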