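/-
R188 (Serre positivity), top of the tree: symmetry `H_i(F_M ⊗ N) ≃ H_i(F_N ⊗ M)` by dimension
shifting.   helper622
-/
import Crest.Agent.R188.ChiTor
import Crest.Agent.R188.ChiHorse

set_option autoImplicit false
set_option linter.unusedSectionVars false

namespace Crest.Agent.R188.Top

open scoped ENNReal TensorProduct
open Crest.Agent.R183 Crest.Agent.R183.Res Crest.Agent.R188.Chi

universe u

section general

variable {R : Type u} [CommRing R] {A B A' B' : Type u} [AddCommMonoid A] [Module R A]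
  [AddCommMonoid B] [Module R B] [AddCommMonoid A'] [Module R A'] [AddCommMonoid B'] [Module R B']

/-- kernels of isomorphic maps are isomorphic -/
lemma nonempty_kerEquiv (e : A ≃ₗ[R] A') (e' : B ≃ₗ[R] B') (f : A →ₗ[R] B) (g : A' →ₗ[R] B')
    (h : ∀ a, e' (f a) = g (e a)) :
    Nonempty (↥(LinearMap.ker f) ≃ₗ[R] ↥(LinearMap.ker g)) := by
  refine ⟨(e.submoduleMap (LinearMap.ker f)).trans (LinearEquiv.ofEq _ _ ?_)⟩
  ext x
  rw [Submodule.mem_map, LinearMap.mem_ker]
  constructor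
  · rintro ⟨a, ha, rfl⟩
    show g (e a) = 0
    rw [← h, LinearMap.mem_ker.1 ha, map_zero]
  · intro hx
    refine ⟨e.symm x, ?_, by simp⟩
    rw [LinearMap.mem_ker]
    apply e'.injective
    rw [h, e.apply_symm_apply, hx, map_zero]

end general

variable {R : Type u} [CommRing R]

/-- shift of a matrix complex -/
abbrev sh (F : MCx R) : MCx R where
  ι n := F.ι (n + 1)
  fin n := F.fin (n + 1)
  dec n := F.dec (n + 1)
  d n := F.d (n + 1)
  dd n := F.dd (n + 1)

section sh

variable {F : MCx R} {M : Type u} [AddCommGroup M] [Module R M] {ε : (F.ι 0 → R) →ₗ[R] M}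

/-- augmentation of the shifted resolution -/
def shε (hF : IsRes F ε) : ((sh F).ι 0 → R) →ₗ[R] ↥(LinearMap.ker ε) :=
  (F.dM R 0).codRestrict (LinearMap.ker ε) (fun v => by rw [LinearMap.mem_ker]; exact hF.ε_d v)

lemma isRes_sh (hF : IsRes F ε) : IsRes (sh F) (shε hF) where
  surj := by
    rintro ⟨x, hx⟩
    rw [hF.ex0] at hx
    obtain ⟨y, hy⟩ := hx
    exact ⟨y, Subtype.ext hy⟩
  ex0 := by
    rw [shε, LinearMap.ker_codRestrict]
    exact hF.ex 0
  ex i := hF.ex (i + 1)

end sh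

section H0

variable {F : MCx R} {M : Type u} [AddCommGroup M] [Module R M] {ε : (F.ι 0 → R) →ₗ[R] M}

/-- `F_0 ⊗ X → X ⊗ M` -/
noncomputable def a0 (F : MCx R) (ε : (F.ι 0 → R) →ₗ[R] M) (X : Type u) [AddCommGroup X]
    [Module R X] : (F.ι 0 → X) →ₗ[R] X ⊗[R] M :=
  LinearMap.lTensor X ε ∘ₗ (TensorProduct.piScalarRight R R X (F.ι 0)).symm.toLinearMap

lemma a0_surjective (hF : IsRes F ε) (X : Type u) [AddCommGroup X] [Module R X] :
    Function.Surjective (a0 F ε X) :=
  (LinearMap.lTensor_surjective X hF.surj).comp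
    (TensorProduct.piScalarRight R R X (F.ι 0)).symm.surjective

lemma a0_eq_zero_iff (hF : IsRes F ε) (X : Type u) [AddCommGroup X] [Module R X]
    (x : F.ι 0 → X) : a0 F ε X x = 0 ↔ x ∈ LinearMap.range (F.dA R X 0) := by
  have hex : Function.Exact (F.dM R 0) ε := LinearMap.exact_iff.2 hF.ex0
  have h1 := lTensor_exact X hex hF.surj
  have h2 := h1 ((TensorProduct.piScalarRight R R X (F.ι 0)).symm x)
  have h3 : a0 F ε X x = LinearMap.lTensor X ε
      ((TensorProduct.piScalarRight R R X (F.ι 0)).symm x) := rfl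
  rw [h3, h2]
  constructor
  · rintro ⟨y, hy⟩
    refine ⟨TensorProduct.piScalarRight R R X (F.ι 1) y, ?_⟩
    have h4 := LinearMap.congr_fun (pi_lTensor (R := R) X F 0) y
    have h5 : F.dA R X 0 (TensorProduct.piScalarRight R R X (F.ι 1) y) =
      TensorProduct.piScalarRight R R X (F.ι 0) (LinearMap.lTensor X (F.dM R 0) y) := h4.symm
    rw [h5, hy, LinearEquiv.apply_symm_apply]
  · rintro ⟨y, hy⟩
    refine ⟨(TensorProduct.piScalarRight R R X (F.ι 1)).symm y, ?_⟩
    have h4 := LinearMap.congr_fun (pi_lTensor (R := R) X F 0)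
      ((TensorProduct.piScalarRight R R X (F.ι 1)).symm y)
    have h5 : TensorProduct.piScalarRight R R X (F.ι 0) (LinearMap.lTensor X (F.dM R 0)
        ((TensorProduct.piScalarRight R R X (F.ι 1)).symm y)) = F.dA R X 0 y := by
      refine h4.trans ?_
      show F.dA R X 0 (TensorProduct.piScalarRight R R X (F.ι 1)
        ((TensorProduct.piScalarRight R R X (F.ι 1)).symm y)) = _
      rw [LinearEquiv.apply_symm_apply]
    rw [hy] at h5
    rw [← h5, LinearEquiv.symm_apply_apply]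

/-- `H_0(F ⊗ X) ≃ X ⊗ M` -/
noncomputable def H0 (hF : IsRes F ε) (X : Type u) [AddCommGroup X] [Module R X] :
    HX R F X 0 ≃ₗ[R] X ⊗[R] M :=
  LinearEquiv.ofBijective
    (Submodule.liftQ _ (a0 F ε X ∘ₗ (Z (C := fun n => F.ι n → X) (F.dA R X) 0).subtype) (by
      intro z hz
      rw [LinearMap.mem_ker]
      exact (a0_eq_zero_iff hF X _).2 hz)) (by
    constructor
    · rw [← LinearMap.ker_eq_bot, LinearMap.ker_eq_bot']
      intro x hx
      obtain ⟨z, rfl⟩ := cls_surjective (C := fun n => F.ι n → X) (d := F.dA R X) 0 x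
      rw [cls_eq_zero_iff]
      exact (a0_eq_zero_iff hF X _).1 hx
    · intro y
      obtain ⟨x, rfl⟩ := a0_surjective hF X y
      exact ⟨cls (C := fun n => F.ι n → X) (F.dA R X) 0 ⟨x, trivial⟩, rfl⟩)

lemma H0_cls (hF : IsRes F ε) (X : Type u) [AddCommGroup X] [Module R X]
    (z : ↥(Z (C := fun n => F.ι n → X) (F.dA R X) 0)) :
    H0 hF X (cls (C := fun n => F.ι n → X) (F.dA R X) 0 z) = a0 F ε X z := rfl

lemma a0_pmap (X Y : Type u) [AddCommGroup X] [Module R X] [AddCommGroup Y] [Module R Y]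
    (f : X →ₗ[R] Y) (x : F.ι 0 → X) :
    a0 F ε Y (pmap F f 0 x) = f.rTensor M (a0 F ε X x) := by
  obtain ⟨t, rfl⟩ := (TensorProduct.piScalarRight R R X (F.ι 0)).surjective x
  have h1 : a0 F ε X (TensorProduct.piScalarRight R R X (F.ι 0) t) = LinearMap.lTensor X ε t := by
    show LinearMap.lTensor X ε ((TensorProduct.piScalarRight R R X (F.ι 0)).symm
      (TensorProduct.piScalarRight R R X (F.ι 0) t)) = _
    rw [LinearEquiv.symm_apply_apply]
  rw [h1]
  have h2 : pmap F f 0 (TensorProduct.piScalarRight R R X (F.ι 0) t) =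
      TensorProduct.piScalarRight R R Y (F.ι 0) (f.rTensor _ t) := by
    clear h1
    induction t using TensorProduct.induction_on with
    | zero => simp
    | tmul x v =>
      funext a
      rw [pmap_apply, LinearMap.rTensor_tmul, TensorProduct.piScalarRight_apply,
        TensorProduct.piScalarRightHom_tmul, TensorProduct.piScalarRight_apply,
        TensorProduct.piScalarRightHom_tmul, map_smul]
    | add x y hx hy => simp only [map_add, hx, hy]
  have h3 : a0 F ε Y (TensorProduct.piScalarRight R R Y (F.ι 0) (f.rTensor _ t)) =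
      LinearMap.lTensor Y ε (f.rTensor _ t) := by
    show LinearMap.lTensor Y ε ((TensorProduct.piScalarRight R R Y (F.ι 0)).symm
      (TensorProduct.piScalarRight R R Y (F.ι 0) (f.rTensor _ t))) = _
    rw [LinearEquiv.symm_apply_apply]
  rw [h2, h3]
  exact LinearMap.congr_fun ((LinearMap.lTensor_comp_rTensor _ _ _).trans
    (LinearMap.rTensor_comp_lTensor _ _ _).symm) t

/-- naturality of `H_0(F ⊗ X) ≃ X ⊗ M` -/
lemma H0_Hmap (hF : IsRes F ε) (X Y : Type u) [AddCommGroup X] [Module R X] [AddCommGroup Y]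
    [Module R Y] (f : X →ₗ[R] Y) (hf : RLin R f) (x : HX R F X 0) :
    H0 hF Y (Hmap (isMap_pmap F hf) 0 x) = f.rTensor M (H0 hF X x) := by
  obtain ⟨z, rfl⟩ := cls_surjective (C := fun n => F.ι n → X) (d := F.dA R X) 0 x
  exact a0_pmap (F := F) (ε := ε) X Y f z.1

/-- `H_1(F ⊗ X) ≃ ker (X ⊗ K → X ⊗ F_0)`, `K = ker ε` -/
lemma nonempty_H1 (hF : IsRes F ε) (X : Type u) [AddCommGroup X] [Module R X] :
    Nonempty (HX R F X 1 ≃ₗ[R] ↥(LinearMap.ker (LinearMap.lTensor X (LinearMap.ker ε).subtype))) := by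
  have hS := isRes_sh hF
  have key : ∀ v : F.ι 1 → X, F.dA R X 0 v = TensorProduct.piScalarRight R R X (F.ι 0)
      (LinearMap.lTensor X (LinearMap.ker ε).subtype (a0 (sh F) (shε hF) X v)) := by
    intro v
    obtain ⟨t, rfl⟩ := (TensorProduct.piScalarRight R R X (F.ι 1)).surjective v
    have h1 : a0 (sh F) (shε hF) X (TensorProduct.piScalarRight R R X (F.ι 1) t) =
        LinearMap.lTensor X (shε hF) t := by
      show LinearMap.lTensor X (shε hF) ((TensorProduct.piScalarRight R R X (F.ι 1)).symm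
        (TensorProduct.piScalarRight R R X (F.ι 1) t)) = _
      rw [LinearEquiv.symm_apply_apply]
    rw [h1]
    have h2 : LinearMap.lTensor X (LinearMap.ker ε).subtype (LinearMap.lTensor X (shε hF) t) =
        LinearMap.lTensor X (F.dM R 0) t := by
      rw [← LinearMap.comp_apply, ← LinearMap.lTensor_comp]
      rfl
    rw [h2]
    exact (LinearMap.congr_fun (pi_lTensor (R := R) X F 0) t).symm
  have hmem : ∀ z : ↥(Z (C := fun n => F.ι n → X) (F.dA R X) 1),
      a0 (sh F) (shε hF) X z.1 ∈ LinearMap.ker (LinearMap.lTensor X (LinearMap.ker ε).subtype) := by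
    intro z
    rw [LinearMap.mem_ker]
    have h1 : F.dA R X 0 z.1 = 0 := z.2
    rw [key] at h1
    exact (TensorProduct.piScalarRight R R X (F.ι 0)).map_eq_zero_iff.1 h1
  let φ : HX R F X 1 →ₗ[R] ↥(LinearMap.ker (LinearMap.lTensor X (LinearMap.ker ε).subtype)) :=
    Submodule.liftQ _ ((a0 (sh F) (shε hF) X ∘ₗ
      (Z (C := fun n => F.ι n → X) (F.dA R X) 1).subtype).codRestrict _ hmem) (by
      intro z hz
      rw [LinearMap.mem_ker]
      exact Subtype.ext ((a0_eq_zero_iff hS X _).2 hz))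
  refine ⟨LinearEquiv.ofBijective φ ⟨?_, ?_⟩⟩
  · rw [← LinearMap.ker_eq_bot, LinearMap.ker_eq_bot']
    intro x hx
    obtain ⟨z, rfl⟩ := cls_surjective (C := fun n => F.ι n → X) (d := F.dA R X) 1 x
    rw [cls_eq_zero_iff]
    exact (a0_eq_zero_iff hS X _).1 (congrArg Subtype.val hx)
  · rintro ⟨y, hy⟩
    obtain ⟨v, rfl⟩ := a0_surjective hS X y
    refine ⟨cls (C := fun n => F.ι n → X) (F.dA R X) 1 ⟨v, ?_⟩, rfl⟩
    show F.dA R X 0 v = 0
    rw [key, LinearMap.mem_ker.1 hy, map_zero]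

end H0

section free

variable {G : MCx R} {N : Type u} [AddCommGroup N] [Module R N] {ε : (G.ι 0 → R) →ₗ[R] N}

/-- higher homology with coefficients in a finite free module vanishes -/
lemma subsingleton_HX_pi (hG : IsRes G ε) (κ : Type) [Finite κ] (i : ℕ) :
    Subsingleton (HX R G (κ → R) (i + 1)) := by
  refine ⟨fun x y => ?_⟩
  have h0 : ∀ x : HX R G (κ → R) (i + 1), x = 0 := by
    intro x
    obtain ⟨z, rfl⟩ := cls_surjective (C := fun n => G.ι n → (κ → R)) (d := G.dA R (κ → R)) (i + 1) x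
    rw [cls_eq_zero_iff]
    have hz : G.dA R (κ → R) i z.1 = 0 := z.2
    have h1 : ∀ k : κ, (fun a => z.1 a k) ∈ LinearMap.range (G.dM R (i + 1)) := by
      intro k
      rw [← hG.ex i, LinearMap.mem_ker]
      funext a
      have h2 : (∑ b, G.d i a b • z.1 b) k = 0 := congrFun (congrFun hz a) k
      rw [Finset.sum_apply] at h2
      exact h2
    choose w hw using h1
    refine ⟨fun a k => w k a, ?_⟩
    funext a k
    have h3 : ∑ b, G.d (i + 1) a b • w k b = z.1 a k := congrFun (hw k) a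
    rw [← h3]
    show (∑ b, G.d (i + 1) a b • (fun k => w k b)) k = _
    rw [Finset.sum_apply]
    rfl
  rw [h0 x, h0 y]

end free

section snake

variable {A : Type u} [CommRing A]
variable {C C' C'' : ℕ → Type u} [∀ i, AddCommGroup (C i)] [∀ i, Module A (C i)]
  [∀ i, AddCommGroup (C' i)] [∀ i, Module A (C' i)]
  [∀ i, AddCommGroup (C'' i)] [∀ i, Module A (C'' i)]
variable {d : ∀ i, C (i + 1) →ₗ[A] C i} {d' : ∀ i, C' (i + 1) →ₗ[A] C' i}
  {d'' : ∀ i, C'' (i + 1) →ₗ[A] C'' i}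
variable {f : ∀ i, C' i →ₗ[A] C i} {g : ∀ i, C i →ₗ[A] C'' i}

lemma nonempty_snake_ker (hd : IsCx d) (S : SES d' d d'' f g) (i : ℕ)
    (h : Subsingleton (H d (i + 1))) :
    Nonempty (H d'' (i + 1) ≃ₗ[A] ↥(LinearMap.ker (Hmap S.cf i))) := by
  have hr : LinearMap.range (Hmap S.cg (i + 1)) = ⊥ := by
    rw [LinearMap.range_eq_bot]
    refine LinearMap.ext fun x => ?_
    rw [Subsingleton.elim x 0, map_zero, map_zero]
  exact ⟨(Submodule.quotEquivOfEqBot _ hr).symm ≪≫ₗ S.snake hd i⟩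

lemma nonempty_snake (hd : IsCx d) (S : SES d' d d'' f g) (i : ℕ)
    (h : Subsingleton (H d (i + 1))) (h' : Subsingleton (H d i)) :
    Nonempty (H d'' (i + 1) ≃ₗ[A] H d' i) := by
  obtain ⟨e⟩ := nonempty_snake_ker hd S i h
  have hk : LinearMap.ker (Hmap S.cf i) = ⊤ := by
    rw [LinearMap.ker_eq_top]
    exact LinearMap.ext fun x => Subsingleton.elim _ _
  exact ⟨e ≪≫ₗ LinearEquiv.ofTop _ hk⟩

end snake

section symm

variable {M N : Type u} [AddCommGroup M] [Module R M] [AddCommGroup N] [Module R N]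

lemma nonempty_ker_Hmap {G : MCx R} {ε : (G.ι 0 → R) →ₗ[R] N} (hG : IsRes G ε)
    {X Y : Type u} [AddCommGroup X] [Module R X] [AddCommGroup Y] [Module R Y]
    (f : X →ₗ[R] Y) (hf : RLin R f) :
    Nonempty (↥(LinearMap.ker (Hmap (isMap_pmap G hf) 0)) ≃ₗ[R]
      ↥(LinearMap.ker (LinearMap.rTensor N f))) :=
  nonempty_kerEquiv (A := HX R G X 0) (B := HX R G Y 0) (H0 hG X) (H0 hG Y) _ _
    (H0_Hmap hG _ _ f hf)

lemma nonempty_step_one {G : MCx R} {ε : (G.ι 0 → R) →ₗ[R] N} (hG : IsRes G ε)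
    {X Y Z' : Type u} [AddCommGroup X] [Module R X] [AddCommGroup Y] [Module R Y]
    [AddCommGroup Z'] [Module R Z']
    (f : X →ₗ[R] Y) (g : Y →ₗ[R] Z') (inj : Function.Injective f) (surj : Function.Surjective g)
    (ex : Function.Exact f g) (h1 : Subsingleton (HX R G Y 1)) :
    Nonempty (HX R G Z' 1 ≃ₗ[R] ↥(LinearMap.ker (LinearMap.rTensor N f))) := by
  obtain ⟨e2⟩ := nonempty_snake_ker (isCx_dA R G Y)
    (sesX (A := R) (R := R) G (f := f) (g := g) (fun r x => f.map_smul r x)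
      (fun r x => g.map_smul r x) inj surj ex) 0 h1
  obtain ⟨e4⟩ := nonempty_ker_Hmap hG f (fun r x => f.map_smul r x)
  exact ⟨e2 ≪≫ₗ e4⟩

lemma nonempty_step_succ (G : MCx R)
    {X Y Z' : Type u} [AddCommGroup X] [Module R X] [AddCommGroup Y] [Module R Y]
    [AddCommGroup Z'] [Module R Z']
    (f : X →ₗ[R] Y) (g : Y →ₗ[R] Z') (inj : Function.Injective f) (surj : Function.Surjective g)
    (ex : Function.Exact f g) (i : ℕ) (h1 : Subsingleton (HX R G Y (i + 1)))
    (h0 : Subsingleton (HX R G Y i)) :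
    Nonempty (HX R G Z' (i + 1) ≃ₗ[R] HX R G X i) :=
  nonempty_snake (isCx_dA R G Y)
    (sesX (A := R) (R := R) G (f := f) (g := g) (fun r x => f.map_smul r x)
      (fun r x => g.map_smul r x) inj surj ex) i h1 h0

/-- **symmetry of `Tor`** -/
theorem nonempty_HX_symm (i : ℕ) : ∀ {M N : Type u} [AddCommGroup M] [Module R M]
    [AddCommGroup N] [Module R N] {F G : MCx R} {ε : (F.ι 0 → R) →ₗ[R] M}
    {ε' : (G.ι 0 → R) →ₗ[R] N} (_ : IsRes F ε) (_ : IsRes G ε'),
    Nonempty (HX R F N i ≃ₗ[R] HX R G M i) := by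
  induction i with
  | zero =>
    intro M N _ _ _ _ F G ε ε' hF hG
    exact ⟨H0 hF N ≪≫ₗ TensorProduct.comm R N M ≪≫ₗ (H0 hG M).symm⟩
  | succ i ih =>
    intro M N _ _ _ _ F G ε ε' hF hG
    have hsub : Subsingleton (HX R G (F.ι 0 → R) (i + 1)) := subsingleton_HX_pi hG (F.ι 0) i
    cases i with
    | zero =>
      obtain ⟨e2⟩ := nonempty_step_one hG (LinearMap.ker ε).subtype ε
        (LinearMap.ker ε).subtype_injective hF.surj (LinearMap.exact_subtype_ker_map ε) hsub
      obtain ⟨e3⟩ := nonempty_H1 hF N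
      obtain ⟨e5⟩ := nonempty_kerEquiv (TensorProduct.comm R N ↥(LinearMap.ker ε))
        (TensorProduct.comm R N (F.ι 0 → R))
        (LinearMap.lTensor N (LinearMap.ker ε).subtype)
        (LinearMap.rTensor N (LinearMap.ker ε).subtype) (fun x => by
          induction x using TensorProduct.induction_on with
          | zero => simp
          | tmul x y => rfl
          | add x y hx hy => simp only [map_add, hx, hy])
      exact ⟨e3 ≪≫ₗ e5 ≪≫ₗ e2.symm⟩
    | succ i =>
      have hsub' : Subsingleton (HX R G (F.ι 0 → R) (i + 1)) := subsingleton_HX_pi hG (F.ι 0) i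
      obtain ⟨e3⟩ := nonempty_step_succ G (LinearMap.ker ε).subtype ε
        (LinearMap.ker ε).subtype_injective hF.surj (LinearMap.exact_subtype_ker_map ε) (i + 1)
        hsub hsub'
      obtain ⟨e4⟩ := ih (isRes_sh hF) hG
      exact ⟨e4 ≪≫ₗ e3.symm⟩

theorem hX_symm {M N : Type u} [AddCommGroup M] [Module R M]
    [AddCommGroup N] [Module R N] {F G : MCx R} {ε : (F.ι 0 → R) →ₗ[R] M}
    {ε' : (G.ι 0 → R) →ₗ[R] N} (hF : IsRes F ε) (hG : IsRes G ε') (Λ : AddLen.{u, u} R) (i : ℕ) :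
    hX Λ F N i = hX Λ G M i := by
  obtain ⟨e⟩ := nonempty_HX_symm i hF hG
  exact Λ.L_congr e

/-- **symmetry of `χ`** -/
theorem chiX_symm {M N : Type u} [AddCommGroup M] [Module R M]
    [AddCommGroup N] [Module R N] {F G : MCx R} {ε : (F.ι 0 → R) →ₗ[R] M}
    {ε' : (G.ι 0 → R) →ₗ[R] N} (hF : IsRes F ε) (hG : IsRes G ε') (Λ : AddLen.{u, u} R) (n : ℕ) :
    chiX Λ F N n = chiX Λ G M n :=
  chi_congr Λ (C := fun n => F.ι n → N) (C' := fun n => G.ι n → M) fun i _ => hX_symm hF hG Λ i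

end symm

end Crest.Agent.R188.Top
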