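/-
R188 (Serre positivity), top of the tree: the pairing `χ_R(M, X)`, additivity, devissage to prime
pairs.   helper622
-/
import Crest.Agent.R188.Top1
import Crest.Agent.R188.ChiLen
import Crest.Agent.R188.Noe6

set_option autoImplicit false
set_option linter.unusedSectionVars false

namespace Crest.Agent.R188.Top

open scoped ENNReal TensorProduct
open IsLocalRing
open Crest.Agent.R183 Crest.Agent.R183.Res Crest.Agent.R188.Chi

universe u v w

section dim

variable {R : Type u} [CommRing R] {M' M M'' : Type v} [AddCommGroup M'] [Module R M']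
  [AddCommGroup M] [Module R M] [AddCommGroup M''] [Module R M'']

/-- in a short exact sequence, `dim M ≤ max (dim M') (dim M'')` -/
theorem supportDim_le_max (f : M' →ₗ[R] M) (g : M →ₗ[R] M'') (hf : Function.Injective f)
    (hg : Function.Surjective g) (hex : Function.Exact f g) :
    Module.supportDim R M ≤ max (Module.supportDim R M') (Module.supportDim R M'') := by
  unfold Module.supportDim
  refine iSup_le fun p => ?_
  have hsup := Module.support_of_exact hex hf hg
  have h0 : (p.head : PrimeSpectrum R) ∈ Module.support R M' ∪ Module.support R M'' := by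
    rw [← hsup]; exact p.head.2
  have key : ∀ (N : Type v) [AddCommGroup N] [Module R N],
      (p.head : PrimeSpectrum R) ∈ Module.support R N →
      ((p.length : ℕ∞) : WithBot ℕ∞) ≤ Order.krullDim ↑(Module.support R N) := by
    intro N _ _ hN
    have hmem : ∀ i, (p i : PrimeSpectrum R) ∈ Module.support R N := fun i =>
      Module.mem_support_mono (show (p.head : PrimeSpectrum R) ≤ p i from p.head_le i) hN
    let q : LTSeries ↑(Module.support R N) :=
      { length := p.length
        toFun := fun i => ⟨p i, hmem i⟩
        step := fun i => p.step i }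
    exact Order.LTSeries.length_le_krullDim q
  rcases h0 with h0 | h0
  · exact (key M' h0).trans (le_max_left _ _)
  · exact (key M'' h0).trans (le_max_right _ _)

theorem supportDim_eq_max (f : M' →ₗ[R] M) (g : M →ₗ[R] M'') (hf : Function.Injective f)
    (hg : Function.Surjective g) (hex : Function.Exact f g) :
    Module.supportDim R M = max (Module.supportDim R M') (Module.supportDim R M'') :=
  le_antisymm (supportDim_le_max f g hf hg hex)
    (max_le (Module.supportDim_le_of_injective f hf) (Module.supportDim_le_of_surjective g hg))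

end dim

section proper

variable {R : Type u} [CommRing R] [IsLocalRing R] [IsNoetherianRing R]

/-- `M ⊗ X` has finite length, in terms of annihilators -/
def Proper (R : Type u) [CommRing R] (M : Type v) (X : Type w) [AddCommGroup M] [Module R M]
    [AddCommGroup X] [Module R X] : Prop :=
  ringKrullDim (R ⧸ (Module.annihilator R M ⊔ Module.annihilator R X)) ≤ 0

variable {M : Type v} {X : Type w} [AddCommGroup M] [Module R M]
    [AddCommGroup X] [Module R X]

lemma proper_iff [Module.Finite R M] [Module.Finite R X] :
    Proper R M X ↔ IsFiniteLength R (M ⊗[R] X) :=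
  ⟨fun h => Noe.isFiniteLength_tensorProduct h, fun h => Noe.ringKrullDim_le_zero_of_isFiniteLength h⟩

lemma Proper.mono {M' : Type v} {X' : Type w} [AddCommGroup M'] [Module R M']
    [AddCommGroup X'] [Module R X'] (h : Proper R M X)
    (hM : Module.annihilator R M ≤ Module.annihilator R M')
    (hX : Module.annihilator R X ≤ Module.annihilator R X') : Proper R M' X' :=
  (Noe.ringKrullDim_quotient_mono (sup_le_sup hM hX)).trans h

lemma Proper.symm (h : Proper R M X) : Proper R X M := by
  unfold Proper at h ⊢
  rwa [sup_comm]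

end proper

section pairing

variable {R : Type u} [CommRing R] [IsLocalRing R] [IsNoetherianRing R]

/-- the pairing `Σ_{i ≤ D} (-1)^i ℓ(Tor_i(M, X))` -/
noncomputable def pair (R : Type u) [CommRing R] [IsLocalRing R] [IsNoetherianRing R] (D : ℕ)
    (M X : Type u) [AddCommGroup M] [Module R M] [Module.Finite R M] [AddCommGroup X]
    [Module R X] : ℝ :=
  chiX (AddLen.ofLength R) (exists_res (T := R) M).choose X (D + 1)

variable {M X : Type u} [AddCommGroup M] [Module R M] [Module.Finite R M] [AddCommGroup X]
  [Module R X]

lemma pair_eq {F : MCx R} {ε : (F.ι 0 → R) →ₗ[R] M} (hF : IsRes F ε) (D : ℕ) :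
    pair R D M X = chiX (AddLen.ofLength R) F X (D + 1) := by
  obtain ⟨ε', hε'⟩ := (exists_res (T := R) M).choose_spec
  exact chiX_eq_of_isRes _ hε' hF (LinearEquiv.refl R M) X (D + 1)

lemma pair_symm (M X : Type u) [AddCommGroup M] [Module R M] [Module.Finite R M]
    [AddCommGroup X] [Module R X] [Module.Finite R X] (D : ℕ) : pair R D M X = pair R D X M := by
  obtain ⟨F, ε, hF⟩ := exists_res (T := R) M
  obtain ⟨G, ε', hG⟩ := exists_res (T := R) X
  rw [pair_eq hF, pair_eq hG]
  exact chiX_symm hF hG _ _

lemma pair_congr_right {Y : Type u} [AddCommGroup Y] [Module R Y] (e : X ≃ₗ[R] Y) (D : ℕ) :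
    pair R D M X = pair R D M Y := by
  obtain ⟨F, ε, hF⟩ := exists_res (T := R) M
  rw [pair_eq hF, pair_eq hF]
  exact chiX_congr _ F e (fun r x => e.map_smul r x) _

lemma pair_congr_left {M' : Type u} [AddCommGroup M'] [Module R M'] [Module.Finite R M']
    (e : M ≃ₗ[R] M') (D : ℕ) :
    pair R D M X = pair R D M' X := by
  obtain ⟨F, ε, hF⟩ := exists_res (T := R) M
  obtain ⟨G, ε', hG⟩ := exists_res (T := R) M'
  rw [pair_eq hF, pair_eq hG]
  exact chiX_eq_of_isRes _ hF hG e X (D + 1)

lemma pair_subsingleton_right [Subsingleton X] (D : ℕ) : pair R D M X = 0 := by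
  obtain ⟨F, ε, hF⟩ := exists_res (T := R) M
  rw [pair_eq hF, chiX_eq]
  exact Finset.sum_eq_zero fun i _ => by rw [hX_subsingleton]; simp

/-- relation with S0288's sum -/
lemma sum_tor_eq_pair (M N : ModuleCat.{u} R) [Module.Finite R M] [Module.Finite R N] (d : ℕ) :
    ((∑ i ∈ Finset.range (d + 1), (-1 : ℤ) ^ i *
      ((Module.length R (((CategoryTheory.Tor (ModuleCat.{u} R) i).obj M).obj N)).toNat : ℤ) : ℤ)
        : ℝ) = pair R d M N := by
  obtain ⟨G, ε', hG⟩ := exists_res (T := R) N
  rw [sum_tor_eq M N hG, pair_symm, pair_eq hG]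

end pairing

section additivity

variable {R : Type u} [CommRing R] [IsRegularLocalRing R] {d : ℕ} (hd : ringKrullDim R = d)
include hd

variable {M : Type u} [AddCommGroup M] [Module R M] [Module.Finite R M]

/-- additivity in the second variable -/
lemma pair_add_right {X' X X'' : Type u} [AddCommGroup X'] [Module R X'] [Module.Finite R X']
    [AddCommGroup X] [Module R X] [Module.Finite R X] [AddCommGroup X''] [Module R X'']
    [Module.Finite R X''] (f : X' →ₗ[R] X) (g : X →ₗ[R] X'') (hf : Function.Injective f)
    (hg : Function.Surjective g) (hex : Function.Exact f g) (h : Proper R M X) :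
    pair R d M X = pair R d M X' + pair R d M X'' := by
  have h' : Proper R M X' := h.mono le_rfl (LinearMap.annihilator_le_of_injective f hf)
  have h'' : Proper R M X'' := h.mono le_rfl (LinearMap.annihilator_le_of_surjective g hg)
  obtain ⟨F, ε, hF, -, hlen⟩ := exists_res_len hd M
  rw [pair_eq hF, pair_eq hF, pair_eq hF]
  refine chiX_add_of_len _ F hlen (fun r x => f.map_smul r x) (fun r x => g.map_smul r x) hf hg hex
    (Nat.lt_succ_self d) (fun i _ => ?_) (fun i _ => ?_)
  · exact hX_length_ne_top (M := X') (N := M) (proper_iff.1 h'.symm) hF i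
  · exact hX_length_ne_top (M := X'') (N := M) (proper_iff.1 h''.symm) hF i

/-- additivity in the first variable -/
lemma pair_add_left {X' X X'' : Type u} [AddCommGroup X'] [Module R X'] [Module.Finite R X']
    [AddCommGroup X] [Module R X] [Module.Finite R X] [AddCommGroup X''] [Module R X'']
    [Module.Finite R X''] (f : X' →ₗ[R] X) (g : X →ₗ[R] X'') (hf : Function.Injective f)
    (hg : Function.Surjective g) (hex : Function.Exact f g) (h : Proper R X M) :
    pair R d X M = pair R d X' M + pair R d X'' M := by
  rw [pair_symm X M, pair_symm X' M, pair_symm X'' M]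
  exact pair_add_right hd f g hf hg hex h.symm

end additivity

section devissage

variable {R : Type u} [CommRing R] [IsRegularLocalRing R]

/-- positivity of the pairing `χ(M, X)` (for proper pairs with `dim M + dim X ≤ d`) -/
def Good (R : Type u) [CommRing R] [IsRegularLocalRing R] (d : ℕ) (M X : Type u) [AddCommGroup M]
    [Module R M] [Module.Finite R M] [AddCommGroup X] [Module R X] : Prop :=
  Proper R M X → Module.supportDim R M + Module.supportDim R X ≤ (d : ℕ) →
    0 ≤ pair R d M X ∧
      (Module.supportDim R M + Module.supportDim R X = (d : ℕ) → 0 < pair R d M X)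

variable {d : ℕ}

lemma Good.symm {M X : Type u} [AddCommGroup M] [Module R M] [Module.Finite R M]
    [AddCommGroup X] [Module R X] [Module.Finite R X] (h : Good R d M X) : Good R d X M := by
  intro h1 h2
  rw [add_comm] at h2 ⊢
  rw [pair_symm X M]
  exact h h1.symm h2

lemma Good.congr {M X Y : Type u} [AddCommGroup M] [Module R M] [Module.Finite R M]
    [AddCommGroup X] [Module R X] [AddCommGroup Y] [Module R Y] (h : Good R d M X)
    (e : X ≃ₗ[R] Y) : Good R d M Y := by
  intro h1 h2
  rw [← Module.supportDim_eq_of_equiv e] at h2 ⊢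
  rw [← pair_congr_right e]
  exact h (h1.mono le_rfl e.annihilator_eq.ge) h2

lemma Good.of_subsingleton {M X : Type u} [AddCommGroup M] [Module R M] [Module.Finite R M]
    [AddCommGroup X] [Module R X] [Subsingleton X] : Good R d M X := by
  intro _ _
  rw [pair_subsingleton_right, Module.supportDim_eq_bot_of_subsingleton R X, WithBot.add_bot]
  exact ⟨le_rfl, fun h => absurd h (WithBot.bot_ne_coe)⟩

lemma Good.of_exact (hd : ringKrullDim R = d) {M X' X X'' : Type u} [AddCommGroup M] [Module R M]
    [Module.Finite R M] [AddCommGroup X'] [Module R X'] [Module.Finite R X']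
    [AddCommGroup X] [Module R X] [Module.Finite R X] [AddCommGroup X''] [Module R X'']
    [Module.Finite R X''] (f : X' →ₗ[R] X) (g : X →ₗ[R] X'') (hf : Function.Injective f)
    (hg : Function.Surjective g) (hex : Function.Exact f g) (h' : Good R d M X')
    (h'' : Good R d M X'') : Good R d M X := by
  intro h1 h2
  have hmax := supportDim_eq_max f g hf hg hex
  have p' : Proper R M X' := h1.mono le_rfl (LinearMap.annihilator_le_of_injective f hf)
  have p'' : Proper R M X'' := h1.mono le_rfl (LinearMap.annihilator_le_of_surjective g hg)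
  have l' : Module.supportDim R M + Module.supportDim R X' ≤ (d : ℕ) :=
    (add_le_add le_rfl (hmax ▸ le_max_left _ _)).trans h2
  have l'' : Module.supportDim R M + Module.supportDim R X'' ≤ (d : ℕ) :=
    (add_le_add le_rfl (hmax ▸ le_max_right _ _)).trans h2
  obtain ⟨a', b'⟩ := h' p' l'
  obtain ⟨a'', b''⟩ := h'' p'' l''
  rw [pair_add_right hd f g hf hg hex h1]
  refine ⟨add_nonneg a' a'', fun h => ?_⟩
  rcases max_choice (Module.supportDim R X') (Module.supportDim R X'') with hc | hc
  · exact add_pos_of_pos_of_nonneg (b' (by rw [← hc, ← hmax, h])) a''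
  · exact add_pos_of_nonneg_of_pos a' (b'' (by rw [← hc, ← hmax, h]))

lemma Good.right_of_prime (hd : ringKrullDim R = d) (M : Type u) [AddCommGroup M] [Module R M]
    [Module.Finite R M] (h : ∀ Q : Ideal R, Q.IsPrime → Good R d M (R ⧸ Q)) (X : Type u)
    [AddCommGroup X] [Module R X] [hX : Module.Finite R X] : Good R d M X := by
  refine IsNoetherianRing.induction_on_isQuotientEquivQuotientPrime R hX
    (motive := fun X _ _ _ => Good R d M X) ?_ ?_ ?_
  · intro N _ _ _ _
    exact Good.of_subsingleton
  · intro N _ _ _ p e
    exact (h p.1 p.2).congr e.symm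
  · intro N₁ _ _ _ N₂ _ _ _ N₃ _ _ _ f g hf hg hex h1 h3
    exact Good.of_exact hd f g hf hg hex h1 h3

/-- **devissage**: positivity for all pairs from prime pairs -/
theorem Good.of_prime (hd : ringKrullDim R = d)
    (h : ∀ P Q : Ideal R, P.IsPrime → Q.IsPrime → Good R d (R ⧸ P) (R ⧸ Q)) (M X : Type u)
    [AddCommGroup M] [Module R M] [Module.Finite R M]
    [AddCommGroup X] [Module R X] [Module.Finite R X] : Good R d M X :=
  Good.right_of_prime hd M (fun Q hQ =>
    (Good.right_of_prime hd (R ⧸ Q) (fun P hP => (h P Q hP hQ).symm) M).symm) X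

/-- **S0288 from `Good`** -/
theorem Good.serre (M N : ModuleCat.{u} R) [Module.Finite R M] [Module.Finite R N]
    (h : Good R d M N) (hlen : IsFiniteLength R (TensorProduct R M N))
    (hdim : Module.supportDim R M + Module.supportDim R N = d) :
    0 < ∑ i ∈ Finset.range (d + 1), (-1 : ℤ) ^ i *
      ((Module.length R (((CategoryTheory.Tor (ModuleCat.{u} R) i).obj M).obj N)).toNat : ℤ) := by
  have h1 := (h (proper_iff.2 hlen) hdim.le).2 hdim
  rw [← sum_tor_eq_pair] at h1
  exact_mod_cast h1

end devissage

end Crest.Agent.R188.Top
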