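import Crest.Agent.R188.Asm1
import Crest.Agent.R188.Asm2
import Crest.Agent.R188.FlgFilt
import Crest.Agent.R188.ChiEuler
import Crest.Agent.R188.Wit5
import Crest.Agent.R188.Top2

/-!
# R188, assembly (helper702), part 3: the contract (definitions shared by the last blocks)
-/

set_option autoImplicit false

namespace Crest.Agent.R188.Asm

open WittVector Crest.Agent.R183 Crest.Agent.R183.Res Crest.Agent.R188.Prf Crest.Agent.R188.Wit
open Crest.Agent.R188.Chi Crest.Agent.R188.KosG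
open scoped ENNReal TensorProduct

attribute [instance] World.ringP

/-- the maximal ideal `(p, X_1, …, X_b)` of `B = W(k)[[X_1..X_b]]` -/
noncomputable def mB (p : ℕ) [Fact p.Prime] (k : Type) [Field k] (b : ℕ) : Ideal (BB p k b) :=
  Ideal.span (Set.range (tB p k b))

section world

variable {p : ℕ} [hp : Fact p.Prime] {k : Type} [Field k] [CharP k p] {b : ℕ} (W : World p k b)

noncomputable instance World.algBPlus : Algebra (BPlus p k b) (Om W.ξ) := W.ι.toAlgebra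

noncomputable instance World.algBB : Algebra (BB p k b) (Om W.ξ) :=
  (W.ι.comp (algebraMap (BB p k b) (BPlus p k b))).toAlgebra

instance World.tower : IsScalarTower (BB p k b) (BPlus p k b) (Om W.ξ) :=
  IsScalarTower.of_algebraMap_eq fun _ => rfl

lemma World.algebraMap_BPlus (c : BPlus p k b) : algebraMap (BPlus p k b) (Om W.ξ) c = W.ι c := rfl

lemma World.algebraMap_BB (c : BB p k b) : algebraMap (BB p k b) (Om W.ξ) c =
    W.ι (algebraMap (BB p k b) (BPlus p k b) c) := rfl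

/-- the almost ideal of `h` -/
noncomputable def aI (h : W.P) : Ideal (Om W.ξ) := Ideal.span (Set.range fun n => sh W.ξ (W.perf.rtn n h))

/-- the closed ideal `W~(I)` of `W(P)` -/
noncomputable abbrev WtI (I : Ideal W.P) : Ideal (WittVector p W.P) := WI W.perf.p_zero I

/-- the ideal `θ(W~(I))` of `Ω` -/
noncomputable def JI (I : Ideal W.P) : Ideal (Om W.ξ) := (WtI W I).map (θ W.ξ)

/-- a good ideal of `P`: `h`-admissible, with finite Koszul lengths and small growth -/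
structure Good (h : W.P) (I : Ideal W.P) : Prop where
  convex : Digit.Convex p I
  mem : ∃ m, h ^ m ∈ I
  growth : ∃ (z : Fin b → BB p k b) (v : Fin b → W.P) (zr : Fin b → ℕ → BPlus p k b),
    (∀ i, z i ∈ mB p k b) ∧
    (∀ i, SharpPair W.perf W.ι (v i) (zr i)) ∧
    (∀ i, zr i 0 = algebraMap (BB p k b) (BPlus p k b) (z i)) ∧
    ∀ j : ℤ, kh (LP W.Λ) (List.ofFn v) (W.P ⧸ I) j ≠ ⊤
  fin : ∀ j : ℤ, kh (LOm W.ξ W.Λ)
    (List.ofFn fun i => algebraMap (BB p k b) (Om W.ξ) (tB p k b i)) (Om W.ξ ⧸ JI W I) j ≠ ⊤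

/-- **TWIST** (helper83, 985, 46, 414): for every matrix of rows with nonzero determinant, the
system of monomial ideals of the minors. -/
def Twist : Prop := ∀ (r : ℕ) (_ : 0 < r) (L : Matrix (Fin r) (Fin r) (BPlus p k b)),
  L.det ≠ 0 → ∃ (h : W.P) (hr : ℕ → BPlus p k b) (_ : SharpPair W.perf W.ι h hr) (_ : hr 0 ≠ 0)
    (I : (Fin (r + 1) → ℕ) → Ideal W.P) (m : ℕ),
    Flg.MonoSys (aI W h) (Flg.flagS r) (Flg.flagG (Tri.rows (Om W.ξ) L)) m
      (fun T => JI W (I T)) ∧ ∀ T, Good W h (I T)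

variable (A : Type) [CommRing A] [Algebra (BB p k b) A]

/-- `A' = Ω ⊗_B A` -/
abbrev AO : Type := Om W.ξ ⊗[BB p k b] A

/-- the length on `A'`-modules -/
noncomputable abbrev ΛA : AddLen.{0, 0} (AO W A) :=
  (LOm W.ξ W.Λ).restrict (algebraMap (Om W.ξ) (AO W A))

variable {R : Type} [CommRing R] [Algebra R A]

/-- `R → A'` -/
noncomputable def rA : R →+* AO W A :=
  ((Algebra.TensorProduct.includeRight : A →ₐ[BB p k b] AO W A) : A →+* AO W A).comp
    (algebraMap R A)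

/-- `F ⊗_R A'` -/
noncomputable def GA (F : MCx R) : MCx (AO W A) := F.map (rA W A)

end world

section situation

/-- the data of `Top.CORE` -/
structure Sit (p : ℕ) [Fact p.Prime] (k : Type) [Field k] (b : ℕ)
    (R A M : Type) [CommRing R] [IsRegularLocalRing R] [CommRing A] [Algebra R A]
    [Algebra (BB p k b) A] [AddCommGroup M] [Module R M] (d a : ℕ) where
  complete : IsAdicComplete (IsLocalRing.maximalIdeal R) R
  dim : ringKrullDim R = d
  hd : d = a + (b + 1)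
  π : BB p k d →+* R
  π_surj : Function.Surjective π
  f : BB p k d
  f_mem : f ∈ Ideal.span (Set.range (MvPowerSeries.X : Fin d → BB p k d))
  ker_π : RingHom.ker π = Ideal.span {MvPowerSeries.C (p : WittVector p k) - f}
  ntA : Nontrivial A
  surjA : Function.Surjective (algebraMap R A)
  finA : Module.Finite (BB p k b) A
  freeA : Module.Free (BB p k b) A
  comm : ∀ w : WittVector p k,
    algebraMap (BB p k b) A (MvPowerSeries.C w) = algebraMap R A (π (MvPowerSeries.C w))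
  finM : Module.Finite R M
  dimM : Module.supportDim R M = (a : ℕ)
  proper : IsFiniteLength R (M ⊗[R] A)

variable {p : ℕ} [hp : Fact p.Prime] {k : Type} [Field k] [CharP k p] [IsAlgClosed k] {b : ℕ}

/-- the constant `L(P/(t))` -/
noncomputable def World.c (W : World p k b) : ℝ :=
  ((LP W.Λ).L (W.P ⧸ Ideal.span (Set.range W.t))).toReal

/-- **LEFT** (helper111, helper876): `Ω^r` (action of `A' = Ω ⊗_B A` through the matrices of the
action of `A` on `N = B^r`) has value `χ_R(M, N) · c`, and `(Ω/J)^r` has value `0`. -/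
def LeftSide (W : World p k b) : Prop :=
  ∀ (R A M : Type) [CommRing R] [IsRegularLocalRing R] [CommRing A] [Algebra R A]
    [Algebra (BB p k b) A] [AddCommGroup M] [Module R M] [Module.Finite R M] (d a : ℕ)
    (_ : Sit p k b R A M d a) (F : MCx R) (ε : (F.ι 0 → R) →ₗ[R] M) (_ : IsRes F ε)
    (_ : F.Len d) (N : Type) [AddCommGroup N] [Module A N] [Module R N] [IsScalarTower R A N]
    [Module (BB p k b) N] [IsScalarTower (BB p k b) A N] (r : ℕ)
    (e : Module.Basis (Fin r) (BB p k b) N),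
    ((∀ i, hX (ΛA W A) (GA W A F) (Tri.OmV (Om W.ξ) (Tri.actMatrix (A := A) e)) i ≠ ⊤) ∧
      chiX (ΛA W A) (GA W A F) (Tri.OmV (Om W.ξ) (Tri.actMatrix (A := A) e)) (d + 1) =
        Top.pair R d M N * W.c) ∧
    ∀ J : Ideal (Om W.ξ), (∃ c : BB p k b, c ≠ 0 ∧ algebraMap (BB p k b) (Om W.ξ) c ∈ J) →
      (∀ j : ℤ, kh (LOm W.ξ W.Λ)
        (List.ofFn fun i => algebraMap (BB p k b) (Om W.ξ) (tB p k b i)) (Om W.ξ ⧸ J) j ≠ ⊤) →
      (∀ i, hX (ΛA W A) (GA W A F) (Tri.OmV (Om W.ξ) (Tri.actMatrix (A := A) e) ⧸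
        Flg.JV (AO W A) (Tri.OmV.coord (Om W.ξ) (Tri.actMatrix (A := A) e)) J) i ≠ ⊤) ∧
      chiX (ΛA W A) (GA W A F) (Tri.OmV (Om W.ξ) (Tri.actMatrix (A := A) e) ⧸
        Flg.JV (AO W A) (Tri.OmV.coord (Om W.ξ) (Tri.actMatrix (A := A) e)) J) (d + 1) = 0

end situation

section slevel

variable (p : ℕ) [hp : Fact p.Prime] (k : Type) [Field k] [CharP k p] [IsAlgClosed k]

/-- **VANISH** (helper546); `S = BB p k d = W(k)[[x_1..x_d]]`, `𝔪_S = mB p k d` -/
def SVanish : Prop := ∀ (d : ℕ) (M : Type) [AddCommGroup M] [Module (BB p k d) M]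
  [Module.Finite (BB p k d) M] (F : MCx (BB p k d)) (ε : (F.ι 0 → BB p k d) →ₗ[BB p k d] M)
  (_ : IsRes F ε) (D₀ : ℕ) (_ : F.Len D₀) (Γ : Type) [CommRing Γ] (φ : BB p k d →+* Γ)
  (Λ : AddLen.{0, 0} Γ) (D : Type) [AddCommGroup D] [Module Γ D]
  (t : List (BB p k d)) (v : List Γ),
  (∃ N, mB p k d ^ N ≤ Module.annihilator (BB p k d) M ⊔ Ideal.ofList t) →
  (∀ x ∈ t, x ∈ mB p k d) →
  (∀ s ∈ mB p k d, ∃ K : ℕ, φ s ^ K ∈ (Module.annihilator (BB p k d) M).map φ) →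
  (∀ x ∈ v, ∃ K : ℕ, x ^ K ∈ (Module.annihilator (BB p k d) M).map φ) →
  (∀ j : ℤ, kh Λ (v ++ [(p : Γ)]) D j ≠ ⊤) → t.length + v.length < d →
  (∀ i, hX Λ (F.map φ) D i ≠ ⊤) ∧ chiX Λ (F.map φ) D (D₀ + 1) = 0

/-- **POSITIVE** (helper546, helper415) -/
def SPositive : Prop := ∀ (d : ℕ) (M : Type) [AddCommGroup M] [Module (BB p k d) M]
  [Module.Finite (BB p k d) M] (F : MCx (BB p k d)) (ε : (F.ι 0 → BB p k d) →ₗ[BB p k d] M)
  (_ : IsRes F ε) (D₀ : ℕ) (_ : F.Len D₀) (Γ : Type) [CommRing Γ] (φ : BB p k d →+* Γ)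
  (Λ : AddLen.{0, 0} Γ) (t : List (BB p k d)) (v : List Γ),
  (∃ N, mB p k d ^ N ≤ Module.annihilator (BB p k d) M ⊔ Ideal.ofList t) →
  (∀ x ∈ t, x ∈ mB p k d) →
  (∀ s ∈ mB p k d, ∃ K : ℕ, φ s ^ K ∈ (Module.annihilator (BB p k d) M).map φ) →
  (∀ x ∈ v, ∃ K : ℕ, x ^ K ∈ (Module.annihilator (BB p k d) M).map φ) →
  (∀ s ∈ mB p k d, ∃ K : ℕ, φ s ^ K ∈ Ideal.ofList (v ++ [(p : Γ)])) →
  Module.supportDim (BB p k d) M = (t.length : ℕ) → t.length + v.length = d →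
  (∀ j : ℤ, 1 ≤ j → kh Λ (v ++ [(p : Γ)]) Γ j = 0) →
  Λ.L (Γ ⧸ Ideal.ofList (v ++ [(p : Γ)])) ≠ 0 → Λ.L (Γ ⧸ Ideal.ofList (v ++ [(p : Γ)])) ≠ ⊤ →
  (∀ i, hX Λ (F.map φ) Γ i ≠ ⊤) ∧ 0 < chiX Λ (F.map φ) Γ (D₀ + 1)

end slevel

end Crest.Agent.R188.Asm
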