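import Crest.Agent.R188.Asm3

/-!
# R188, assembly (helper702), part 4: transfer between `R`-complexes over `Ω` and `S`-complexes
over `W(P)`
-/

set_option autoImplicit false
set_option linter.unusedSectionVars false

namespace Crest.Agent.R188.Asm

open WittVector Crest.Agent.R183 Crest.Agent.R183.Res Crest.Agent.R188.Prf Crest.Agent.R188.Wit
open Crest.Agent.R188.Chi
open scoped ENNReal TensorProduct

section lift

variable {S R Γ Ω : Type} [CommRing S] [CommRing R] [CommRing Γ] [CommRing Ω]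
  {π : S →+* R} {E : S} {M : Type} [AddCommGroup M] [Module R M] [Module S M] {F : MCx R}
  {ε : (F.ι 0 → R) →ₗ[R] M} {G : MCx S} {εG : (G.ι 0 → S) →ₗ[S] M}
  {X' X : Type} [AddCommGroup X'] [Module Γ X'] [AddCommGroup X] [Module Ω X]

/-- **lifting in the `map` format** -/
theorem hX_liftG (hπ : Function.Surjective π) (hker : RingHom.ker π = Ideal.span {E})
    (hE : E ∈ nonZeroDivisors S) (hF : IsRes F ε) (hM : ∀ (s : S) (m : M), s • m = π s • m)
    (hG : IsRes G εG) (φ : S →+* Γ) (Φ : Γ →+* Ω) (g : R →+* Ω) (hg : ∀ s, Φ (φ s) = g (π s))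
    (Λ : AddLen.{0, 0} Γ) (q : X' →+ X) (hq : ∀ (c : Γ) (x : X'), q (c • x) = Φ c • q x)
    (hs : Function.Surjective q) (hk : ∀ x, q x = 0 → ∃ y, x = φ E • y)
    (h0 : ∀ y, q (φ E • y) = 0) (hreg : ∀ y : X', φ E • y = 0 → y = 0) (i : ℕ) :
    hX (Λ.restrict Φ) (F.map g) X i = hX Λ (G.map φ) X' i := by
  let _ : Module S X' := Module.compHom X' φ
  let _ : Module R X := Module.compHom X g
  let _ : Module Γ X := Module.compHom X Φ
  have h1 : SMulCommClass S Γ X' := ⟨fun s c x => smul_comm (φ s) c x⟩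
  have h2 : SMulCommClass R Γ X := ⟨fun s c x => smul_comm (g s) (Φ c) x⟩
  let q' : X' →ₗ[Γ] X := { q with map_smul' := hq }
  have hL : LiftData π E q' :=
    { lin := fun s x => by
        show q (φ s • x) = g (π s) • q x
        rw [hq, hg]
      surj := hs
      ker := hk
      zero := h0
      reg := hreg }
  rw [hX_mapψ φ G Λ (X := X') (fun r x => rfl) i,
    hX_change (X₁ := X) (X₂ := X) g F Φ Λ (AddEquiv.refl X) (fun r x => rfl) (fun a x => rfl) i]
  exact (hX_lift_eq Λ hπ hker hE hF hM hG hL i).symm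

theorem chiX_liftG (hπ : Function.Surjective π) (hker : RingHom.ker π = Ideal.span {E})
    (hE : E ∈ nonZeroDivisors S) (hF : IsRes F ε) (hM : ∀ (s : S) (m : M), s • m = π s • m)
    (hG : IsRes G εG) (φ : S →+* Γ) (Φ : Γ →+* Ω) (g : R →+* Ω) (hg : ∀ s, Φ (φ s) = g (π s))
    (Λ : AddLen.{0, 0} Γ) (q : X' →+ X) (hq : ∀ (c : Γ) (x : X'), q (c • x) = Φ c • q x)
    (hs : Function.Surjective q) (hk : ∀ x, q x = 0 → ∃ y, x = φ E • y)
    (h0 : ∀ y, q (φ E • y) = 0) (hreg : ∀ y : X', φ E • y = 0 → y = 0) (N : ℕ) :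
    chiX (Λ.restrict Φ) (F.map g) X N = chiX Λ (G.map φ) X' N := by
  rw [chiX_eq, chiX_eq]
  exact Finset.sum_congr rfl fun i _ => by
    rw [hX_liftG hπ hker hE hF hM hG φ Φ g hg Λ q hq hs hk h0 hreg]

end lift

section null

variable {A : Type} [CommRing A] (Λ : AddLen.{0, 0} A) (F : MCx A)
variable {X Y Z : Type} [AddCommGroup X] [Module A X] [AddCommGroup Y] [Module A Y]
  [AddCommGroup Z] [Module A Z]

/-- a null kernel does not matter -/
theorem hX_eq_of_null_left (f : X →ₗ[A] Y) (g : Y →ₗ[A] Z) (hf : Function.Injective f)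
    (hg : Function.Surjective g) (hex : Function.Exact f g) (h0 : ∀ i, hX Λ F X i = 0) (i : ℕ) :
    hX Λ F Y i = hX Λ F Z i := by
  have hf' : RLin A f := fun a x => f.map_smul a x
  have hg' : RLin A g := fun a x => g.map_smul a x
  apply le_antisymm
  · have := hX_mid_le Λ F hf' hg' hf hg hex i
    rwa [h0, zero_add] at this
  · cases i with
    | zero => exact hX_right_le_zero Λ F hf' hg' hf hg hex
    | succ i =>
      have := hX_right_le_succ Λ F hf' hg' hf hg hex i
      rwa [h0, add_zero] at this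

end null

end Crest.Agent.R188.Asm
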