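import Crest.Agent.R188.AsmG2
import Crest.Agent.R188.Asm2
import Crest.Agent.R188.ChiEuler
import Crest.Agent.R188.Noe6

/-! # R188, assembly glue (helper83), part 3: the Euler functional of a `World` -/

set_option autoImplicit false

namespace Crest.Agent.R188.AsmG

open WittVector Crest.Agent.R188.Prf Crest.Agent.R188.Wit Crest.Agent.R188.Flg Crest.Agent.R188.Cmp
open Crest.Agent.R188.Asm Crest.Agent.R183 Crest.Agent.R183.Res Crest.Agent.R188.Chi
open IsLocalRing
open scoped TensorProduct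

section nh

variable {R A B M : Type} [CommRing R] [IsLocalRing R] [IsNoetherianRing R] [CommRing A]
  [Nontrivial A] [Algebra R A] [CommRing B] [IsLocalRing B] [Algebra B A] [Module.Finite B A]
  [AddCommGroup M] [Module R M] [Module.Finite R M]

/-- powers of the maximal ideal of `B` come from `Ann M`, if `M ⊗ A` has finite length. -/
theorem exists_pow_mem_annihilator (hs : Function.Surjective (algebraMap R A))
    (hfl : IsFiniteLength R (M ⊗[R] A)) :
    ∃ c : ℕ, ∀ x ∈ maximalIdeal B, ∃ m ∈ Module.annihilator R M,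
      algebraMap R A m = (algebraMap B A x) ^ c := by
  have hfin : Module.Finite R A := Module.Finite.of_surjective (Algebra.linearMap R A) hs
  obtain ⟨c, hc⟩ := Noe.exists_pow_le_of_ringKrullDim_le_zero
    (Noe.ringKrullDim_le_zero_of_isFiniteLength hfl)
  refine ⟨c, fun x hx => ?_⟩
  obtain ⟨z, hz⟩ := hs (algebraMap B A x)
  -- `z` is in the maximal ideal
  have hz' : z ∈ maximalIdeal R := by
    rw [mem_maximalIdeal, mem_nonunits_iff]
    intro hu
    have hu' : IsUnit (algebraMap B A x) := by rw [← hz]; exact hu.map _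
    have h1 : (maximalIdeal B).map (algebraMap B A) = ⊤ :=
      Ideal.eq_top_of_isUnit_mem _ (Ideal.mem_map_of_mem _ hx) hu'
    have h2 : (⊤ : Submodule B A) ≤ maximalIdeal B • (⊤ : Submodule B A) := by
      rw [Ideal.smul_top_eq_map, h1]
      exact le_rfl
    have h3 := Submodule.eq_bot_of_le_smul_of_le_jacobson_bot (maximalIdeal B)
      (⊤ : Submodule B A) Module.Finite.fg_top h2 (IsLocalRing.maximalIdeal_le_jacobson _)
    exact absurd h3 (by
      intro h4
      have : (1 : A) ∈ (⊥ : Submodule B A) := by rw [← h4]; exact Submodule.mem_top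
      exact one_ne_zero ((Submodule.mem_bot B).1 this))
  have h5 : z ^ c ∈ Module.annihilator R M ⊔ Module.annihilator R A :=
    hc (Ideal.pow_mem_pow hz' c)
  obtain ⟨m, hm, n, hn, hmn⟩ := Submodule.mem_sup.1 h5
  refine ⟨m, hm, ?_⟩
  have h6 : algebraMap R A n = 0 := by
    have := Module.mem_annihilator.1 hn (1 : A)
    rwa [Algebra.smul_def, mul_one] at this
  rw [← hz, ← map_pow, ← hmn, map_add, h6, add_zero]

end nh

/-- the almost ideal -/
noncomputable def almI {p : ℕ} [hp : Fact p.Prime] {P : Type} [CommRing P] (h : IsPerf p P)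
    (ξ : WittVector p P) (h₀ : P) : Ideal (Om ξ) :=
  Ideal.span (Set.range fun n => sh ξ (h.rtn n h₀))

section world

variable {p : ℕ} [hp : Fact p.Prime] {k : Type} [Field k] [CharP k p] {b : ℕ}
  (W : World p k b)

attribute [local instance] World.ringP

variable [Algebra (BB p k b) (Om W.ξ)]

/-- the length on `Ω ⊗ A`-modules -/
noncomputable def LamA (A : Type) [CommRing A] [Algebra (BB p k b) A] :
    AddLen.{0, 0} (Om W.ξ ⊗[BB p k b] A) :=
  (LOm W.ξ W.Λ).restrict (algebraMap (Om W.ξ) (Om W.ξ ⊗[BB p k b] A))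

/-- `R → A → Ω ⊗ A` -/
noncomputable def toOmA (R : Type) [CommRing R] (A : Type) [CommRing A] [Algebra R A]
    [Algebra (BB p k b) A] : R →+* Om W.ξ ⊗[BB p k b] A :=
  (Algebra.TensorProduct.includeRight (R := BB p k b) (A := Om W.ξ) (B := A)
    : A →+* Om W.ξ ⊗[BB p k b] A).comp (algebraMap R A)

variable {A : Type} [CommRing A] [Algebra (BB p k b) A]

/-- null modules over `Ω ⊗ A` -/
theorem LamA_null {R : Type} [CommRing R] [Algebra R A] {M : Type} [AddCommGroup M] [Module R M]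
    (hB : ∀ x : BB p k b, algebraMap (BB p k b) (Om W.ξ) x =
      W.ι (algebraMap (BB p k b) (BPlus p k b) x))
    {c : ℕ} (hc : ∀ i, ∃ m ∈ Module.annihilator R M,
      algebraMap R A m = (algebraMap (BB p k b) A (tB p k b i)) ^ c)
    {F : MCx R} (hF : ∀ m ∈ Module.annihilator R M, F.NHom m)
    {h₀ : W.P} {r₀ : ℕ → BPlus p k b} (hs : SharpPair W.perf W.ι h₀ r₀) (hr₀ : r₀ 0 ≠ 0)
    (Y : Type) [AddCommGroup Y] [Module (Om W.ξ ⊗[BB p k b] A) Y]
    (hY : ∀ h ∈ almI W.perf W.ξ h₀, ∀ y : Y,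
      algebraMap (Om W.ξ) (Om W.ξ ⊗[BB p k b] A) h • y = 0)
    (hN : ∀ a, (F.map (toOmA W R A)).NHom a → ∀ y : Y, a • y = 0) :
    (LamA W A).L Y = 0 := by
  let _ : Module (Om W.ξ) Y := Module.compHom Y (algebraMap (Om W.ξ) (Om W.ξ ⊗[BB p k b] A))
  let _ : Module (WittVector p W.P) Y := Module.compHom Y (θ W.ξ)
  have e1 : (LamA W A).L Y = (LOm W.ξ W.Λ).L Y :=
    (LOm W.ξ W.Λ).restrict_L _ Y (fun _ _ => rfl)
  have e2 : (LOm W.ξ W.Λ).L Y = W.Λ.L Y := W.Λ.restrict_L _ Y (fun _ _ => rfl)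
  rw [e1, e2]
  -- the elements of `B` act nilpotently
  have hkill : ∀ i, ∀ y : Y, (algebraMap (BB p k b) (Om W.ξ) (tB p k b i)) ^ c • y = 0 := by
    intro i y
    obtain ⟨m, hm, hm2⟩ := hc i
    have h1 := hN _ ((hF m hm).map (toOmA W R A)) y
    have h2 : toOmA W R A m =
        algebraMap (Om W.ξ) (Om W.ξ ⊗[BB p k b] A)
          ((algebraMap (BB p k b) (Om W.ξ) (tB p k b i)) ^ c) := by
      have h3 : toOmA W R A m = (1 : Om W.ξ) ⊗ₜ[BB p k b] (algebraMap R A m) := rfl
      have h4 : algebraMap (Om W.ξ) (Om W.ξ ⊗[BB p k b] A)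
          ((algebraMap (BB p k b) (Om W.ξ) (tB p k b i)) ^ c) =
          ((algebraMap (BB p k b) (Om W.ξ) (tB p k b i)) ^ c) ⊗ₜ[BB p k b] (1 : A) := rfl
      rw [h3, h4, hm2, ← map_pow, ← map_pow, Algebra.algebraMap_eq_smul_one,
        Algebra.algebraMap_eq_smul_one, TensorProduct.smul_tmul]
    rw [h2] at h1
    exact h1
  refine W.null h₀ r₀ hs hr₀ Y (fun y => ⟨c, ?_, fun i => ?_⟩) (fun n y => ?_)
  · -- `p`
    have h1 := hkill 0 y
    have h2 : tB p k b 0 = (p : BB p k b) := rfl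
    rw [h2, map_natCast] at h1
    have h3 : (p : WittVector p W.P) ^ c • y = θ W.ξ ((p : WittVector p W.P) ^ c) • y := rfl
    rw [h3, map_pow, map_natCast]
    exact h1
  · have h3 : WittVector.teichmuller p (W.t i) ^ c • y =
        θ W.ξ (WittVector.teichmuller p (W.t i) ^ c) • y := rfl
    have h4 : θ W.ξ (WittVector.teichmuller p (W.t i)) =
        algebraMap (BB p k b) (Om W.ξ) (tB p k b i) := by
      have h5 := SharpPair.sh_eq (W.t_sharp i)
      rw [W.tr_zero, ← hB] at h5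
      exact h5
    rw [h3, map_pow, h4]
    exact hkill i y
  · have h3 : WittVector.teichmuller p (W.perf.rtn n h₀) • y =
        algebraMap (Om W.ξ) (Om W.ξ ⊗[BB p k b] A) (sh W.ξ (W.perf.rtn n h₀)) • y := rfl
    rw [h3]
    exact hY _ (Ideal.subset_span ⟨n, rfl⟩) y

/-- **the Euler functional** `X ↦ Σ (-1)^i L(H_i(F ⊗_R X))` on `Ω ⊗ A`-modules -/
noncomputable def eulerW {R : Type} [CommRing R] [Algebra R A] {M : Type} [AddCommGroup M]
    [Module R M]
    (hB : ∀ x : BB p k b, algebraMap (BB p k b) (Om W.ξ) x =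
      W.ι (algebraMap (BB p k b) (BPlus p k b) x))
    {c : ℕ} (hc : ∀ i, ∃ m ∈ Module.annihilator R M,
      algebraMap R A m = (algebraMap (BB p k b) A (tB p k b i)) ^ c)
    {F : MCx R} (hF : ∀ m ∈ Module.annihilator R M, F.NHom m) {D : ℕ} (hD : F.Len D)
    {h₀ : W.P} {r₀ : ℕ → BPlus p k b} (hs : SharpPair W.perf W.ι h₀ r₀) (hr₀ : r₀ 0 ≠ 0) :
    EulerFun (Om W.ξ) (Om W.ξ ⊗[BB p k b] A) (almI W.perf W.ξ h₀) :=
  Chi.eulerFun (LamA W A) (F.map (toOmA W R A)) D (fun n hn => hD n hn)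
    (fun Y _ _ hY hN => LamA_null W hB hc hF hs hr₀ Y hY hN)

end world

end Crest.Agent.R188.AsmG
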