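/-
R188, block (A3): lifting along `S → R = S/E`: for a resolution `F` over `R` an explicit resolution
`G = tcone` over `S` with `G_n = F̃_n ⊕ F̃_{n-1}` and `H_i(G ⊗ X̃) ≃ H_i(F ⊗ X̃/E)` whenever `E` is
regular on `X̃`.   helper876
-/
import Crest.Agent.R188.ChiRes

set_option autoImplicit false
set_option linter.unusedSectionVars false

namespace Crest.Agent.R188.Chi

open scoped ENNReal
open Crest.Agent.R183 Crest.Agent.R183.Res

universe u v w w' v₂ v₃

section lift

variable {S : Type w} [CommRing S] {R : Type w'} [CommRing R] (φ : S →+* R) (F : MCx R) (E : S)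

/-- lifted matrices with a twisting homotopy -/
structure MLift where
  /-- lifted differentials -/
  D : ∀ n, Matrix (F.ι n) (F.ι (n + 1)) S
  /-- twisting -/
  C : ∀ n, Matrix (F.ι n) (F.ι (n + 2)) S
  map_D : ∀ n, (D n).map φ = F.d n
  DD : ∀ n, D n * D (n + 1) = E • C n
  comm : ∀ n, D n * C (n + 1) = C n * D (n + 2)

variable {φ F E}

/-- lifts exist for `φ` surjective with kernel `(E)`, `E` a non-zero-divisor -/
theorem exists_mlift (hφ : Function.Surjective φ) (hker : RingHom.ker φ = Ideal.span {E})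
    (hE : E ∈ nonZeroDivisors S) : Nonempty (MLift φ F E) := by
  have h1 : ∀ n, ∃ D : Matrix (F.ι n) (F.ι (n + 1)) S, D.map φ = F.d n := by
    intro n
    choose s hs using hφ
    exact ⟨(F.d n).map s, by ext i j; simp [hs]⟩
  choose D hD using h1
  have h2 : ∀ n, ∃ C : Matrix (F.ι n) (F.ι (n + 2)) S, D n * D (n + 1) = E • C := by
    intro n
    have h3 : ∀ i j, ∃ c, (D n * D (n + 1)) i j = E * c := by
      intro i j
      have : (D n * D (n + 1)) i j ∈ RingHom.ker φ := by
        rw [RingHom.mem_ker]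
        have h4 : ((D n * D (n + 1)).map φ) i j = 0 := by
          rw [Matrix.map_mul, hD, hD, F.dd]; rfl
        exact h4
      rw [hker, Ideal.mem_span_singleton] at this
      exact this
    choose c hc using h3
    exact ⟨Matrix.of c, by ext i j; rw [hc]; rfl⟩
  choose C hC using h2
  refine ⟨⟨D, C, hD, hC, fun n => ?_⟩⟩
  have h5 : E • (D n * C (n + 1)) = E • (C n * D (n + 2)) := by
    rw [← Matrix.mul_smul, ← hC, ← Matrix.smul_mul, ← hC, Matrix.mul_assoc]
  ext i j
  have h6 := congrFun (congrFun h5 i) j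
  rw [Matrix.smul_apply, Matrix.smul_apply, smul_eq_mul, smul_eq_mul] at h6
  exact (mul_cancel_left_mem_nonZeroDivisors hE).1 h6

variable (L : MLift φ F E)

/-- differentials of the twisted cone -/
def tconed : ∀ n, Matrix (coneι F.ι n) (coneι F.ι (n + 1)) S
  | 0 => Matrix.fromCols (L.D 0) (E • (1 : Matrix (F.ι 0) (F.ι 0) S))
  | (n + 1) => Matrix.fromBlocks (L.D (n + 1)) (E • (1 : Matrix (F.ι (n + 1)) (F.ι (n + 1)) S))
      (-(L.C n)) (-(L.D n))

/-- the twisted cone, a complex over `S` -/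
def MLift.tcone : MCx S where
  ι := coneι F.ι
  fin := fun n => coneFin F.ι n
  dec := fun n => coneDec F.ι n
  d := tconed L
  dd := by
    intro n
    cases n with
    | zero =>
      show Matrix.fromCols (L.D 0) (E • (1 : Matrix (F.ι 0) (F.ι 0) S)) *
        (Matrix.fromBlocks (L.D 1) (E • (1 : Matrix (F.ι 1) (F.ι 1) S)) (-(L.C 0)) (-(L.D 0)) :
          Matrix (F.ι 1 ⊕ F.ι 0) (F.ι 2 ⊕ F.ι 1) S) = 0
      rw [Matrix.fromCols_mul_fromBlocks]
      simp [L.DD 0]
    | succ k =>
      show (Matrix.fromBlocks (L.D (k + 1)) (E • (1 : Matrix (F.ι (k + 1)) (F.ι (k + 1)) S))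
        (-(L.C k)) (-(L.D k)) : Matrix (F.ι (k + 1) ⊕ F.ι k) (F.ι (k + 2) ⊕ F.ι (k + 1)) S) *
        (Matrix.fromBlocks (L.D (k + 2)) (E • (1 : Matrix (F.ι (k + 2)) (F.ι (k + 2)) S))
        (-(L.C (k + 1))) (-(L.D (k + 1))) :
          Matrix (F.ι (k + 2) ⊕ F.ι (k + 1)) (F.ι (k + 3) ⊕ F.ι (k + 2)) S) = 0
      rw [Matrix.fromBlocks_multiply]
      simp [L.DD, L.comm]

lemma MLift.tcone_len {D : ℕ} (h : F.Len D) : L.tcone.Len (D + 1) := by
  intro n hn
  cases n with
  | zero => omega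
  | succ k =>
    have h1 := h (k + 1) (by omega)
    have h2 := h k (by omega)
    show IsEmpty (F.ι (k + 1) ⊕ F.ι k)
    exact isEmpty_sum.mpr ⟨h1, h2⟩

section act

variable (Y : Type v) [AddCommGroup Y] [Module S Y]

omit [CommRing R] in
lemma sum_smul_one {κ : Type} [Fintype κ] [DecidableEq κ] (i : κ) (f : κ → Y) :
    ∑ b, (E • (1 : Matrix κ κ S)) i b • f b = E • f i := by
  simp [Matrix.one_apply, ite_smul]

lemma tcone_dM_zero (z : F.ι 1 ⊕ F.ι 0 → Y) :
    L.tcone.dM Y 0 z = act Y (L.D 0) (fun a => z (Sum.inl a)) + E • (fun a => z (Sum.inr a)) := by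
  funext i
  show ∑ b : F.ι 1 ⊕ F.ι 0, (Matrix.fromCols (L.D 0) (E • (1 : Matrix (F.ι 0) (F.ι 0) S))) i b •
    z b = _
  rw [Fintype.sum_sum_type]
  show ∑ b : F.ι 1, L.D 0 i b • z (Sum.inl b) +
    ∑ b : F.ι 0, (E • (1 : Matrix (F.ι 0) (F.ι 0) S)) i b • z (Sum.inr b) =
    ∑ b : F.ι 1, L.D 0 i b • z (Sum.inl b) + E • z (Sum.inr i)
  congr 1
  exact sum_smul_one (κ := F.ι 0) Y i (fun b => z (Sum.inr b))

lemma tcone_dM_succ (n : ℕ) (z : F.ι (n + 2) ⊕ F.ι (n + 1) → Y) :
    L.tcone.dM Y (n + 1) z =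
      Sum.elim (act Y (L.D (n + 1)) (fun a => z (Sum.inl a)) + E • (fun a => z (Sum.inr a)))
        (-(act Y (L.C n) (fun a => z (Sum.inl a))) - act Y (L.D n) (fun a => z (Sum.inr a))) := by
  funext i
  show ∑ b : F.ι (n + 2) ⊕ F.ι (n + 1), (Matrix.fromBlocks (L.D (n + 1))
    (E • (1 : Matrix (F.ι (n + 1)) (F.ι (n + 1)) S)) (-(L.C n)) (-(L.D n))) i b • z b = _
  rw [Fintype.sum_sum_type]
  rcases i with i | i
  · simp only [Matrix.fromBlocks_apply₁₁, Matrix.fromBlocks_apply₁₂, Sum.elim_inl, Pi.add_apply,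
      act_apply, Pi.smul_apply]
    congr 1
    simp [Matrix.one_apply, ite_smul]
  · simp only [Matrix.fromBlocks_apply₂₁, Matrix.fromBlocks_apply₂₂, Sum.elim_inr, Pi.sub_apply,
      Pi.neg_apply, act_apply]
    simp [neg_smul, Finset.sum_neg_distrib, sub_eq_add_neg]

end act

end lift

section main

variable {S : Type w} [CommRing S] {R : Type w'} [CommRing R] {φ : S →+* R} {F : MCx R} {E : S}
  (L : MLift φ F E)
variable (A : Type u) [CommRing A]
variable {X' : Type v} [AddCommGroup X'] [Module S X'] [Module A X'] [SMulCommClass S A X']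
variable {X : Type v} [AddCommGroup X] [Module R X] [Module A X] [SMulCommClass R A X]

/-- the data `X' → X = X'/E` with `E` regular on `X'` -/
structure LiftData (φ : S →+* R) (E : S) {A : Type u} [CommRing A]
    {X' : Type v} [AddCommGroup X'] [Module S X'] [Module A X']
    {X : Type v} [AddCommGroup X] [Module R X] [Module A X] (π : X' →ₗ[A] X) : Prop where
  lin : ∀ (s : S) (x : X'), π (s • x) = φ s • π x
  surj : Function.Surjective π
  ker : ∀ x, π x = 0 → ∃ y, x = E • y
  zero : ∀ y : X', π (E • y) = 0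
  reg : ∀ y : X', E • y = 0 → y = 0

variable {A} {π : X' →ₗ[A] X}

/-- the projection `G ⊗ X' → F ⊗ X` -/
def tproj (L : MLift φ F E) (π : X' →ₗ[A] X) : ∀ n, (L.tcone.ι n → X') →ₗ[A] (F.ι n → X)
  | 0 => post (F.ι 0) π
  | (n + 1) => post (F.ι (n + 1)) π ∘ₗ
      { toFun := fun (z : F.ι (n + 1) ⊕ F.ι n → X') => fun a => z (Sum.inl a)
        map_add' := fun _ _ => rfl
        map_smul' := fun _ _ => rfl }

lemma act_post' (hπ : ∀ (s : S) (x : X'), π (s • x) = φ s • π x) {ι κ : Type} [Fintype κ]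
    (D : Matrix ι κ S) (v : κ → X') :
    post ι π (act X' D v) = act X (D.map φ) (post κ π v) := by
  funext a
  show π (∑ b, D a b • v b) = ∑ b, φ (D a b) • π (v b)
  rw [map_sum]
  exact Finset.sum_congr rfl fun b _ => hπ _ _

lemma post_E (hL : LiftData φ E π) {κ : Type} (u : κ → X') : post κ π (E • u) = 0 := by
  funext a
  exact hL.zero (u a)

lemma exists_E (hL : LiftData φ E π) {κ : Type} (u : κ → X') (hu : post κ π u = 0) :
    ∃ y : κ → X', u = E • y := by
  have : ∀ a, ∃ y, u a = E • y := fun a => hL.ker _ (congrFun hu a)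
  choose y hy using this
  exact ⟨y, funext hy⟩

lemma E_inj (hL : LiftData φ E π) {κ : Type} {u : κ → X'} (hu : E • u = 0) : u = 0 := by
  funext a
  exact hL.reg _ (congrFun hu a)

lemma isMap_tproj (hL : LiftData φ E π) :
    IsMap (C := fun n => L.tcone.ι n → X') (C' := fun n => F.ι n → X)
      (L.tcone.dA A X') (F.dA A X) (tproj L π) := by
  intro n z
  cases n with
  | zero =>
    have h := tcone_dM_zero L X' z
    show post (F.ι 0) π (L.tcone.dM X' 0 z) = act X (F.d 0) (post (F.ι 1) π fun a => z (Sum.inl a))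
    rw [h, map_add, post_E hL, add_zero, act_post' hL.lin, L.map_D]
  | succ n =>
    have h := tcone_dM_succ L X' n z
    show post (F.ι (n + 1)) π (fun a => (L.tcone.dM X' (n + 1) z) (Sum.inl a)) =
      act X (F.d (n + 1)) (post (F.ι (n + 2)) π fun a => z (Sum.inl a))
    rw [h]
    show post (F.ι (n + 1)) π (act X' (L.D (n + 1)) (fun a => z (Sum.inl a)) +
      E • (fun a => z (Sum.inr a))) = _
    rw [map_add, post_E hL, add_zero, act_post' hL.lin, L.map_D]

/-- `act` of the lifted relation -/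
lemma act_DD (n : ℕ) (v : F.ι (n + 2) → X') :
    act X' (L.D n) (act X' (L.D (n + 1)) v) = E • act X' (L.C n) v := by
  rw [← act_mul, L.DD]
  funext a
  show ∑ b, (E • L.C n) a b • v b = E • ∑ b, L.C n a b • v b
  rw [Finset.smul_sum]
  exact Finset.sum_congr rfl fun b _ => by rw [Matrix.smul_apply, smul_eq_mul, mul_smul]

lemma act_Esmul {ι κ : Type} [Fintype κ] (D : Matrix ι κ S) (v : κ → X') :
    act X' D (E • v) = E • act X' D v := map_smul _ _ _

/-- cycles lift -/
lemma exists_cycle (hL : LiftData φ E π) (n : ℕ)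
    (v : ↥(Z (C := fun n => F.ι n → X) (F.dA A X) n)) :
    ∃ z : ↥(Z (C := fun n => L.tcone.ι n → X') (L.tcone.dA A X') n),
      tproj L π n z = v := by
  cases n with
  | zero =>
    obtain ⟨x, hx⟩ := post_surjective (F.ι 0) hL.surj (v : F.ι 0 → X)
    exact ⟨⟨x, Submodule.mem_top⟩, hx⟩
  | succ n =>
    obtain ⟨x, hx⟩ := post_surjective (F.ι (n + 1)) hL.surj (v : F.ι (n + 1) → X)
    have hv : act X (F.d n) (v : F.ι (n + 1) → X) = 0 := v.2
    have h1 : post (F.ι n) π (act X' (L.D n) x) = 0 := by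
      rw [act_post' hL.lin, L.map_D, hx, hv]
    obtain ⟨y, hy⟩ := exists_E hL _ h1
    refine ⟨⟨(Sum.elim x (-y) : F.ι (n + 1) ⊕ F.ι n → X'), ?_⟩, hx⟩
    show L.tcone.dM X' n (Sum.elim x (-y) : F.ι (n + 1) ⊕ F.ι n → X') = 0
    cases n with
    | zero =>
      rw [tcone_dM_zero]
      show act X' (L.D 0) x + E • (-y) = 0
      rw [hy, smul_neg, add_neg_cancel]
    | succ n =>
      rw [tcone_dM_succ]
      have e1 : act X' (L.D (n + 1)) x + E • (-y) = 0 := by
        rw [hy, smul_neg, add_neg_cancel]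
      have e2 : -(act X' (L.C n) x) - act X' (L.D n) (-y) = 0 := by
        apply E_inj hL
        rw [smul_sub, smul_neg, ← act_DD, ← act_Esmul, smul_neg, ← hy, map_neg, sub_neg_eq_add,
          neg_add_cancel]
      funext a
      rcases a with a | a
      · exact congrFun e1 a
      · exact congrFun e2 a

/-- boundaries lift -/
lemma mem_B_of_tproj (hL : LiftData φ E π) (n : ℕ)
    (z : ↥(Z (C := fun n => L.tcone.ι n → X') (L.tcone.dA A X') n))
    (hz : tproj L π n z ∈ B (C := fun n => F.ι n → X) (F.dA A X) n) :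
    (z : L.tcone.ι n → X') ∈ B (C := fun n => L.tcone.ι n → X') (L.tcone.dA A X') n := by
  obtain ⟨v, hv⟩ := hz
  obtain ⟨w, hw⟩ := post_surjective (F.ι (n + 1)) hL.surj (v : F.ι (n + 1) → X)
  cases n with
  | zero =>
    have hv' : act X (F.d 0) v = post (F.ι 0) π (show F.ι 0 → X' from z.1) := hv
    have h1 : post (F.ι 0) π ((show F.ι 0 → X' from z.1) - act X' (L.D 0) w) = 0 := by
      rw [map_sub, act_post' hL.lin, L.map_D, hw, hv', sub_self]
    obtain ⟨u, hu⟩ := exists_E hL _ h1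
    refine ⟨(Sum.elim w u : F.ι 1 ⊕ F.ι 0 → X'), ?_⟩
    show L.tcone.dM X' 0 (Sum.elim w u : F.ι 1 ⊕ F.ι 0 → X') = z
    rw [tcone_dM_zero]
    show act X' (L.D 0) w + E • u = (show F.ι 0 → X' from z.1)
    rw [← hu]; abel
  | succ n =>
    set x : F.ι (n + 1) → X' := fun a => (z : L.tcone.ι (n + 1) → X') (Sum.inl a) with hxdef
    set y : F.ι n → X' := fun a => (z : L.tcone.ι (n + 1) → X') (Sum.inr a) with hydef
    have hv' : act X (F.d (n + 1)) v = post (F.ι (n + 1)) π x := hv
    have h1 : post (F.ι (n + 1)) π (x - act X' (L.D (n + 1)) w) = 0 := by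
      rw [map_sub, act_post' hL.lin, L.map_D, hw, hv', sub_self]
    obtain ⟨u, hu⟩ := exists_E hL _ h1
    refine ⟨(Sum.elim w u : F.ι (n + 2) ⊕ F.ι (n + 1) → X'), ?_⟩
    show L.tcone.dM X' (n + 1) (Sum.elim w u : F.ι (n + 2) ⊕ F.ι (n + 1) → X') = z
    rw [tcone_dM_succ]
    -- the first component
    have e1 : act X' (L.D (n + 1)) w + E • u = x := by rw [← hu]; abel
    -- the second component: use that `z` is a cycle
    have hz0 : L.tcone.dM X' n (z : L.tcone.ι (n + 1) → X') = 0 := z.2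
    have hzx : act X' (L.D n) x + E • y = 0 := by
      cases n with
      | zero => exact (tcone_dM_zero L X' z.1).symm.trans hz0
      | succ n =>
        have hz1 := (tcone_dM_succ L X' n z.1).symm.trans hz0
        funext a
        exact congrFun hz1 (Sum.inl a)
    have e2 : -(act X' (L.C n) w) - act X' (L.D n) u = y := by
      have h3 : E • (-(act X' (L.C n) w) - act X' (L.D n) u - y) = 0 := by
        rw [smul_sub, smul_sub, smul_neg, ← act_DD, ← act_Esmul, ← neg_add', ← map_add, e1]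
        rw [eq_neg_of_add_eq_zero_left hzx]
        abel
      exact sub_eq_zero.1 (E_inj hL h3)
    funext a
    rcases a with a | a
    · exact congrFun e1 a
    · exact congrFun e2 a

/-- **`H_i(G ⊗ X') ≃ H_i(F ⊗ X)`** -/
noncomputable def HXlift (hL : LiftData φ E π) (i : ℕ) : HX A L.tcone X' i ≃ₗ[A] HX A F X i :=
  LinearEquiv.ofBijective (Hmap (C := fun n => L.tcone.ι n → X') (C' := fun n => F.ι n → X)
    (isMap_tproj L hL) i) (by
    constructor
    · rw [injective_iff_map_eq_zero]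
      intro x hx
      obtain ⟨z, rfl⟩ := cls_surjective (C := fun n => L.tcone.ι n → X')
        (d := L.tcone.dA A X') i x
      rw [Hmap_cls, cls_eq_zero_iff] at hx
      rw [cls_eq_zero_iff]
      exact mem_B_of_tproj L hL i z hx
    · intro x
      obtain ⟨v, rfl⟩ := cls_surjective (C := fun n => F.ι n → X) (d := F.dA A X) i x
      obtain ⟨z, hz⟩ := exists_cycle L hL i v
      refine ⟨cls (C := fun n => L.tcone.ι n → X') (L.tcone.dA A X') i z, ?_⟩
      rw [Hmap_cls]
      congr 1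
      exact Subtype.ext hz)

variable (Λ : AddLen.{u, v} A)

theorem hX_lift (hL : LiftData φ E π) (i : ℕ) : hX Λ L.tcone X' i = hX Λ F X i :=
  Λ.L_congr (HXlift L hL i)

theorem chiX_lift (hL : LiftData φ E π) (N : ℕ) : chiX Λ L.tcone X' N = chiX Λ F X N := by
  rw [chiX_eq, chiX_eq]
  exact Finset.sum_congr rfl fun i _ => by rw [hX_lift L Λ hL]

end main

section res

variable {S : Type w} [CommRing S] {R : Type w} [CommRing R] {φ : S →+* R} {F : MCx R} {E : S}
  (L : MLift φ F E)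
variable {M : Type v₂} [AddCommGroup M] [Module R M] [Module S M]

lemma liftData_self (hφ : Function.Surjective φ) (hker : RingHom.ker φ = Ideal.span {E})
    (hE : E ∈ nonZeroDivisors S) :
    LiftData φ E (A := ℤ) (X' := S) (X := R) (φ.toAddMonoidHom.toIntLinearMap) where
  lin s x := by
    show φ (s • x) = φ s • φ x
    rw [smul_eq_mul, map_mul, smul_eq_mul]
  surj := hφ
  ker x hx := by
    have h : x ∈ RingHom.ker φ := hx
    rw [hker, Ideal.mem_span_singleton] at h
    exact h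
  zero y := by
    have h : E * y ∈ RingHom.ker φ := by
      rw [hker]; exact Ideal.mul_mem_right _ _ (Ideal.mem_span_singleton_self E)
    exact h
  reg y hy := by
    have h : E * y = E * 0 := by rw [mul_zero]; exact hy
    exact (mul_cancel_left_mem_nonZeroDivisors hE).1 h

/-- the augmentation over `S` -/
def εlift (ε : (F.ι 0 → R) →ₗ[R] M) (hM : ∀ (s : S) (m : M), s • m = φ s • m) :
    (L.tcone.ι 0 → S) →ₗ[S] M where
  toFun v := ε (fun a : F.ι 0 => φ (v a))
  map_add' v w := by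
    rw [← map_add]
    congr 1
    funext a
    exact map_add φ _ _
  map_smul' s v := by
    rw [RingHom.id_apply, hM, ← map_smul]
    congr 1
    funext a
    exact map_mul φ _ _

/-- **the twisted cone is a resolution of `M` over `S`** -/
theorem isRes_tcone (hφ : Function.Surjective φ) (hker : RingHom.ker φ = Ideal.span {E})
    (hE : E ∈ nonZeroDivisors S) {ε : (F.ι 0 → R) →ₗ[R] M} (hF : IsRes F ε)
    (hM : ∀ (s : S) (m : M), s • m = φ s • m) : IsRes L.tcone (εlift L ε hM) := by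
  have hL := liftData_self (R := R) hφ hker hE
  refine ⟨?_, ?_, ?_⟩
  · intro m
    obtain ⟨v, rfl⟩ := hF.surj m
    choose s hs using hφ
    refine ⟨fun a : F.ι 0 => s (v a), ?_⟩
    show ε (fun a : F.ι 0 => φ (s (v a))) = ε v
    congr 1
    funext a
    exact hs _
  · apply le_antisymm
    · intro v hv
      have h1 : (fun a : F.ι 0 => φ (v a)) ∈ LinearMap.range (F.dM R 0) := by
        rw [← hF.ex0]; exact hv
      have h2 := mem_B_of_tproj (A := ℤ) L hL 0 ⟨v, Submodule.mem_top⟩ (by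
        obtain ⟨w, hw⟩ := h1
        exact ⟨w, hw⟩)
      obtain ⟨w, hw⟩ := h2
      exact ⟨w, hw⟩
    · rintro _ ⟨z, rfl⟩
      have h1 : tproj (A := ℤ) L (φ.toAddMonoidHom.toIntLinearMap) 0 (L.tcone.dM S 0 z) =
          F.dM R 0 (tproj (A := ℤ) L (φ.toAddMonoidHom.toIntLinearMap) 1 z) :=
        isMap_tproj (A := ℤ) L hL 0 z
      show ε (fun a : F.ι 0 => φ ((L.tcone.dM S 0 z) a)) = 0
      have h2 : (fun a : F.ι 0 => φ ((L.tcone.dM S 0 z) a)) =
        F.dM R 0 (tproj (A := ℤ) L (φ.toAddMonoidHom.toIntLinearMap) 1 z) := h1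
      rw [h2, hF.ε_d]
  · intro i
    apply le_antisymm
    · intro v hv
      have h1 : tproj (A := ℤ) L (φ.toAddMonoidHom.toIntLinearMap) (i + 1) v ∈
          LinearMap.ker (F.dM R i) := by
        have h2 : tproj (A := ℤ) L (φ.toAddMonoidHom.toIntLinearMap) i (L.tcone.dM S i v) =
          F.dM R i (tproj (A := ℤ) L (φ.toAddMonoidHom.toIntLinearMap) (i + 1) v) :=
          isMap_tproj (A := ℤ) L hL i v
        rw [LinearMap.mem_ker, ← h2]
        have h3 : L.tcone.dM S i v = 0 := hv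
        rw [h3, map_zero]
      rw [hF.ex i] at h1
      have h2 := mem_B_of_tproj (A := ℤ) L hL (i + 1) ⟨v, hv⟩ (by
        obtain ⟨w, hw⟩ := h1
        exact ⟨w, hw⟩)
      obtain ⟨w, hw⟩ := h2
      exact ⟨w, hw⟩
    · rintro _ ⟨x, rfl⟩
      rw [LinearMap.mem_ker]
      exact L.tcone.dM_dM i x

variable {A : Type u} [CommRing A] (Λ : AddLen.{u, v} A)
variable {X' : Type v} [AddCommGroup X'] [Module S X'] [Module A X'] [SMulCommClass S A X']
variable {X : Type v} [AddCommGroup X] [Module R X] [Module A X] [SMulCommClass R A X]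

/-- **lifting theorem**: `F` a resolution of `M` over `R = S/E`, `G` a resolution of `M` over `S`,
`X = X'/E` with `E` regular on `X'`: `L(H_i(G ⊗_S X')) = L(H_i(F ⊗_R X))`. -/
theorem hX_lift_eq (hφ : Function.Surjective φ) (hker : RingHom.ker φ = Ideal.span {E})
    (hE : E ∈ nonZeroDivisors S) {ε : (F.ι 0 → R) →ₗ[R] M} (hF : IsRes F ε)
    (hM : ∀ (s : S) (m : M), s • m = φ s • m) {G : MCx S} {εG : (G.ι 0 → S) →ₗ[S] M}
    (hG : IsRes G εG) {π : X' →ₗ[A] X} (hπ : LiftData φ E π) (i : ℕ) :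
    hX Λ G X' i = hX Λ F X i := by
  obtain ⟨L⟩ := exists_mlift (F := F) hφ hker hE
  rw [hX_eq_of_isRes Λ hG (isRes_tcone L hφ hker hE hF hM) (LinearEquiv.refl S M) X' i]
  exact hX_lift L Λ hπ i

theorem chiX_lift_eq (hφ : Function.Surjective φ) (hker : RingHom.ker φ = Ideal.span {E})
    (hE : E ∈ nonZeroDivisors S) {ε : (F.ι 0 → R) →ₗ[R] M} (hF : IsRes F ε)
    (hM : ∀ (s : S) (m : M), s • m = φ s • m) {G : MCx S} {εG : (G.ι 0 → S) →ₗ[S] M}
    (hG : IsRes G εG) {π : X' →ₗ[A] X} (hπ : LiftData φ E π) (N : ℕ) :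
    chiX Λ G X' N = chiX Λ F X N := by
  rw [chiX_eq, chiX_eq]
  exact Finset.sum_congr rfl fun i _ => by rw [hX_lift_eq Λ hφ hker hE hF hM hG hπ]

end res

end Crest.Agent.R188.Chi
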