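/-
R188, block (A3): modules over `R = S/E` resolved over `S`: the sequence
`0 → (F ⊗ X)[-1] → G ⊗ X → F ⊗ X → 0` and Hochster's theta:
`χ_S(M, X) = (-1)^N (h_N - h_{N-1})`, `h_i = L(Tor_i^R(M, X))`, `N ≫ 0`.   helper876
-/
import Crest.Agent.R188.ChiLift

set_option autoImplicit false
set_option linter.unusedSectionVars false

namespace Crest.Agent.R188.Chi

open scoped ENNReal
open Crest.Agent.R183 Crest.Agent.R183.Res

universe u v w w' v₂ v₃

section shift

variable {R : Type w} [CommRing R]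

/-- index types of the shifted complex -/
def shι (ι : ℕ → Type) : ℕ → Type
  | 0 => Empty
  | (n + 1) => ι n

instance shFin (ι : ℕ → Type) [h : ∀ n, Fintype (ι n)] : ∀ n, Fintype (shι ι n)
  | 0 => inferInstanceAs (Fintype Empty)
  | (n + 1) => h n

instance shDec (ι : ℕ → Type) [h : ∀ n, DecidableEq (ι n)] : ∀ n, DecidableEq (shι ι n)
  | 0 => inferInstanceAs (DecidableEq Empty)
  | (n + 1) => h n

/-- differentials of the shifted complex -/
def shd (F : MCx R) : ∀ n, Matrix (shι F.ι n) (shι F.ι (n + 1)) R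
  | 0 => (0 : Matrix Empty (F.ι 0) R)
  | (n + 1) => -(F.d n)

/-- the shifted complex `F[-1]` -/
def shift (F : MCx R) : MCx R where
  ι := shι F.ι
  fin := fun n => shFin F.ι n
  dec := fun n => shDec F.ι n
  d := shd F
  dd := by
    intro n
    cases n with
    | zero =>
      show (0 : Matrix Empty (F.ι 0) R) * (-(F.d 0)) = 0
      rw [Matrix.zero_mul]
    | succ k =>
      show (-(F.d k)) * (-(F.d (k + 1))) = 0
      rw [Matrix.neg_mul, Matrix.mul_neg, F.dd, neg_zero, neg_zero]

variable {A : Type u} [CommRing A] (Λ : AddLen.{u, v} A)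
variable (F : MCx R) (X : Type v) [AddCommGroup X] [Module A X] [Module R X] [SMulCommClass R A X]

lemma hX_shift_zero : hX Λ (shift F) X 0 = 0 :=
  hX_eq_zero_of_isEmpty Λ (shift F) X 0 (inferInstanceAs (IsEmpty Empty))

lemma Z_shift (n : ℕ) : Z (C := fun n => (shift F).ι n → X) ((shift F).dA A X) (n + 1) =
    (Z (C := fun n => F.ι n → X) (F.dA A X) n : Submodule A (F.ι n → X)) := by
  ext (v : F.ι n → X)
  cases n with
  | zero =>
    constructor
    · intro _
      exact mem_Z_zero (C := fun n => F.ι n → X) (F.dA A X) v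
    · intro _
      refine (mem_Z_succ (C := fun n => (shift F).ι n → X) (i := 0)).2 ?_
      funext a
      exact Empty.elim a
  | succ n =>
    show act X (-(F.d n)) v = 0 ↔ act X (F.d n) v = 0
    rw [act_neg, neg_eq_zero]

lemma B_shift (n : ℕ) : B (C := fun n => (shift F).ι n → X) ((shift F).dA A X) (n + 1) =
    (B (C := fun n => F.ι n → X) (F.dA A X) n : Submodule A (F.ι n → X)) := by
  ext (v : F.ι n → X)
  constructor
  · rintro ⟨w, hw⟩
    refine ⟨-w, ?_⟩
    have h1 : act X (-(F.d n)) (show F.ι (n + 1) → X from w) = v := hw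
    show act X (F.d n) (-(show F.ι (n + 1) → X from w)) = v
    rw [map_neg, ← act_neg, h1]
  · rintro ⟨w, hw⟩
    refine ⟨-(show F.ι (n + 1) → X from w), ?_⟩
    have h1 : act X (F.d n) (show F.ι (n + 1) → X from w) = v := hw
    show act X (-(F.d n)) (-(show F.ι (n + 1) → X from w)) = v
    rw [act_neg, map_neg, neg_neg, h1]

/-- `H_{n+1}(F[-1] ⊗ X) = H_n(F ⊗ X)` -/
lemma hX_shift_succ (n : ℕ) : hX Λ (shift F) X (n + 1) = hX Λ F X n := by
  refine Λ.L_congr ?_
  refine Submodule.Quotient.equiv _ _ (LinearEquiv.ofEq _ _ (Z_shift F X n)) ?_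
  ext ⟨v, hv⟩
  constructor
  · rintro ⟨⟨w, hw⟩, h1, h2⟩
    have h3 : w ∈ B (C := fun n => (shift F).ι n → X) ((shift F).dA A X) (n + 1) := h1
    rw [B_shift] at h3
    have h4 : w = v := congrArg Subtype.val h2
    show v ∈ B (C := fun n => F.ι n → X) (F.dA A X) n
    rw [← h4]; exact h3
  · intro h1
    have h3 : v ∈ B (C := fun n => F.ι n → X) (F.dA A X) n := h1
    refine ⟨⟨v, by rw [Z_shift]; exact hv⟩, ?_, rfl⟩
    show v ∈ B (C := fun n => (shift F).ι n → X) ((shift F).dA A X) (n + 1)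
    rw [B_shift]; exact h3

end shift

section ses

variable {S : Type w} [CommRing S] {R : Type w'} [CommRing R] {φ : S →+* R} {F : MCx R} {E : S}
  (L : MLift φ F E)
variable (A : Type u) [CommRing A]
variable {X : Type v} [AddCommGroup X] [Module R X] [Module S X] [Module A X]
  [SMulCommClass R A X] [SMulCommClass S A X]

/-- inclusion of the shifted complex -/
def shinc (L : MLift φ F E) : ∀ n, ((shift F).ι n → X) →ₗ[A] (L.tcone.ι n → X)
  | 0 => 0
  | (n + 1) =>
    { toFun := fun (y : F.ι n → X) => (Sum.elim 0 y : F.ι (n + 1) ⊕ F.ι n → X)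
      map_add' := fun x y => by
        funext a
        rcases a with a | a
        · exact (add_zero (0 : X)).symm
        · rfl
      map_smul' := fun r x => by
        funext a
        rcases a with a | a
        · exact (smul_zero r).symm
        · rfl }

variable {A}

lemma act_map_eq (hX : ∀ (s : S) (x : X), s • x = φ s • x) {ι κ : Type} [Fintype κ]
    (D : Matrix ι κ S) (v : κ → X) : act X D v = act X (D.map φ) v := by
  funext a
  show ∑ b, D a b • v b = ∑ b, φ (D a b) • v b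
  exact Finset.sum_congr rfl fun b _ => hX _ _

/-- `0 → (F ⊗ X)[-1] → G ⊗ X → F ⊗ X → 0` -/
theorem sesTheta (hX : ∀ (s : S) (x : X), s • x = φ s • x) (hE : φ E = 0) :
    SES (C' := fun n => (shift F).ι n → X) (C := fun n => L.tcone.ι n → X)
      (C'' := fun n => F.ι n → X) ((shift F).dA A X) (L.tcone.dA A X) (F.dA A X)
      (shinc A L) (tproj L (LinearMap.id : X →ₗ[A] X)) where
  cf n y := by
    have hE0 : ∀ x : X, E • x = 0 := fun x => by rw [hX, hE, zero_smul]
    cases n with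
    | zero =>
      have h := tcone_dM_zero L X (Sum.elim 0 (show F.ι 0 → X from y))
      show (0 : F.ι 0 → X) = L.tcone.dM X 0 (Sum.elim 0 (show F.ι 0 → X from y))
      rw [h]
      show (0 : F.ι 0 → X) = act X (L.D 0) 0 + E • (show F.ι 0 → X from y)
      rw [map_zero, zero_add]
      funext a
      exact (hE0 _).symm
    | succ n =>
      have h := tcone_dM_succ L X n (Sum.elim 0 (show F.ι (n + 1) → X from y))
      show (Sum.elim 0 (act X (-(F.d n)) (show F.ι (n + 1) → X from y)) :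
        F.ι (n + 1) ⊕ F.ι n → X) =
        L.tcone.dM X (n + 1) (Sum.elim 0 (show F.ι (n + 1) → X from y))
      rw [h]
      show _ = Sum.elim (act X (L.D (n + 1)) 0 + E • (show F.ι (n + 1) → X from y))
        (-(act X (L.C n) 0) - act X (L.D n) (show F.ι (n + 1) → X from y))
      rw [map_zero, map_zero, zero_add, neg_zero, zero_sub, act_neg, act_map_eq hX (L.D n), L.map_D]
      congr 1
      funext a
      exact (hE0 _).symm
  cg n z := by
    have hE0 : ∀ x : X, E • x = 0 := fun x => by rw [hX, hE, zero_smul]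
    cases n with
    | zero =>
      have h := tcone_dM_zero L X z
      show L.tcone.dM X 0 z = act X (F.d 0) (fun a => z (Sum.inl a))
      rw [h, act_map_eq hX (L.D 0), L.map_D]
      have : E • (fun a => z (Sum.inr a) : F.ι 0 → X) = 0 := by
        funext a; exact hE0 _
      rw [this, add_zero]
    | succ n =>
      have h := tcone_dM_succ L X n z
      show (fun a => (L.tcone.dM X (n + 1) z) (Sum.inl a)) =
        act X (F.d (n + 1)) (fun a => z (Sum.inl a))
      rw [h]
      show act X (L.D (n + 1)) (fun a => z (Sum.inl a)) + E • (fun a => z (Sum.inr a)) = _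
      rw [act_map_eq hX (L.D (n + 1)), L.map_D]
      have : E • (fun a => z (Sum.inr a) : F.ι (n + 1) → X) = 0 := by
        funext a; exact hE0 _
      rw [this, add_zero]
  inj n := by
    cases n with
    | zero =>
      intro x y _
      funext a
      exact a.elim
    | succ n =>
      intro x y h
      funext a
      exact congrFun h (Sum.inr a)
  surj n := by
    cases n with
    | zero => intro x; exact ⟨x, rfl⟩
    | succ n =>
      intro x
      exact ⟨(Sum.elim (show F.ι (n + 1) → X from x) 0 : F.ι (n + 1) ⊕ F.ι n → X), rfl⟩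
  exact n := by
    cases n with
    | zero =>
      intro x
      constructor
      · intro h
        refine ⟨(fun a => a.elim : Empty → X), ?_⟩
        exact h.symm
      · rintro ⟨y, rfl⟩
        rfl
    | succ n =>
      intro x
      constructor
      · intro h
        refine ⟨(fun a => x (Sum.inr a) : F.ι n → X), ?_⟩
        funext a
        rcases a with a | a
        · exact (congrFun h a).symm
        · rfl
      · rintro ⟨y, rfl⟩
        rfl

variable (Λ : AddLen.{u, v} A)

/-- finiteness over `R` from finiteness over `S` -/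
theorem hX_ne_top_theta (hX' : ∀ (s : S) (x : X), s • x = φ s • x) (hE : φ E = 0)
    (hfin : ∀ i, hX Λ L.tcone X i ≠ ⊤) (i : ℕ) : hX Λ F X i ≠ ⊤ := by
  have hS := sesTheta (A := A) L hX' hE
  induction i using Nat.strong_induction_on with
  | _ i ih =>
    cases i with
    | zero =>
      exact ne_top_of_le_ne_top (hfin 0) (hS.h_right_le_zero Λ (isCx_dA A L.tcone X))
    | succ i =>
      refine ne_top_of_le_ne_top (ENNReal.add_ne_top.2 ⟨hfin (i + 1), ?_⟩)
        (hS.h_right_le_succ Λ (isCx_dA A L.tcone X) i)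
      cases i with
      | zero =>
        have : hX Λ (shift F) X 0 = 0 := hX_shift_zero Λ F X
        exact ne_of_eq_of_ne this ENNReal.zero_ne_top
      | succ i =>
        have h1 : hX Λ (shift F) X (i + 1) = hX Λ F X i := hX_shift_succ Λ F X i
        exact ne_of_eq_of_ne h1 (ih i (by omega))

/-- **theta**: `χ_S(M, X) = (-1)^{N+1} (h_{N+1} - h_N)` if `H_{N+1}(G ⊗ X)` is null -/
theorem chiX_theta (hX' : ∀ (s : S) (x : X), s • x = φ s • x) (hE : φ E = 0)
    (hfin : ∀ i, hX Λ L.tcone X i ≠ ⊤) (N : ℕ) (hN : hX Λ L.tcone X (N + 1) = 0) :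
    chiX Λ L.tcone X (N + 2) =
      (-1) ^ (N + 1) * ((hX Λ F X (N + 1)).toReal - (hX Λ F X N).toReal) := by
  have hS := sesTheta (A := A) L hX' hE
  have hF := hX_ne_top_theta L Λ hX' hE hfin
  have hsh : ∀ i, hX Λ (shift F) X i ≠ ⊤ := by
    intro i
    cases i with
    | zero => rw [hX_shift_zero]; exact ENNReal.zero_ne_top
    | succ i => rw [hX_shift_succ]; exact hF i
  have herr := hS.chi_add_error Λ (isCx_dA A L.tcone X) (N + 1) (fun i _ => hsh i)
    (fun i _ => hF i)
  have e1 : ∀ n, chiX Λ (shift F) X (n + 1) = - chiX Λ F X n := by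
    intro n
    induction n with
    | zero =>
      rw [chiX_eq, chiX_eq, Finset.sum_range_one, hX_shift_zero]; simp
    | succ n ih =>
      have a1 : chiX Λ (shift F) X (n + 2) = chiX Λ (shift F) X (n + 1) +
        (-1) ^ (n + 1) * (hX Λ (shift F) X (n + 1)).toReal := by
        rw [chiX_eq, chiX_eq, Finset.sum_range_succ _ (n + 1)]
      have a2 : chiX Λ F X (n + 1) = chiX Λ F X n + (-1) ^ n * (hX Λ F X n).toReal := by
        rw [chiX_eq, chiX_eq, Finset.sum_range_succ _ n]
      rw [a1, a2, ih, hX_shift_succ, pow_succ]; ring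
  have e2 : chiX Λ F X (N + 2) = chiX Λ F X (N + 1) + (-1) ^ (N + 1) *
      (hX Λ F X (N + 1)).toReal := by
    rw [chiX_eq, chiX_eq, Finset.sum_range_succ _ (N + 1)]
  -- the kernel `k (N+1)` is everything
  have hk : hS.k Λ (N + 1) = hX Λ F X N := by
    have h1 := hS.h_left Λ (N + 1)
    have h2 := hS.h_mid Λ (isCx_dA A L.tcone X) (N + 1)
    have h3 : h Λ (C := fun n => L.tcone.ι n → X) (L.tcone.dA A X) (N + 1) = 0 := hN
    rw [h3] at h2
    have h4 := (add_eq_zero.1 h2.symm).1
    rw [h4, add_zero] at h1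
    rw [← h1]
    exact hX_shift_succ Λ F X N
  have herr' : chiX Λ (shift F) X (N + 2) + chiX Λ F X (N + 2) =
      chiX Λ L.tcone X (N + 2) + (-1) ^ (N + 1) * (hS.k Λ (N + 1)).toReal := herr
  rw [e1 (N + 1), e2, hk] at herr'
  linear_combination -herr'

variable {M : Type v₂} [AddCommGroup M] [Module R M] [Module S M]

end ses

section final

variable {S : Type w} [CommRing S] {R : Type w} [CommRing R] {φ : S →+* R} {F : MCx R} {E : S}
variable {A : Type u} [CommRing A] (Λ : AddLen.{u, v} A)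
variable {X : Type v} [AddCommGroup X] [Module R X] [Module S X] [Module A X]
  [SMulCommClass R A X] [SMulCommClass S A X]
variable {M : Type v₂} [AddCommGroup M] [Module R M] [Module S M]

/-- theta for an arbitrary resolution `G` of `M` over `S` of finite length and a resolution `F` over
`R = S/E`: `χ_S(M, X) = (-1)^{N+1} (h_{N+1} - h_N)` for every `N ≥ D`. -/
theorem chiX_theta' (hφ : Function.Surjective φ) (hker : RingHom.ker φ = Ideal.span {E})
    (hE : E ∈ nonZeroDivisors S) {ε : (F.ι 0 → R) →ₗ[R] M} (hF : IsRes F ε)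
    (hM : ∀ (s : S) (m : M), s • m = φ s • m) {G : MCx S} {εG : (G.ι 0 → S) →ₗ[S] M}
    (hG : IsRes G εG) (hX' : ∀ (s : S) (x : X), s • x = φ s • x)
    (hfin : ∀ i, hX Λ G X i ≠ ⊤) {D : ℕ} (hD : ∀ i, D < i → hX Λ G X i = 0) (N : ℕ) (hN : D ≤ N) :
    chiX Λ G X (D + 1) =
      (-1) ^ (N + 1) * ((hX Λ F X (N + 1)).toReal - (hX Λ F X N).toReal) ∧
      ∀ i, hX Λ F X i ≠ ⊤ := by
  obtain ⟨L⟩ := exists_mlift (F := F) hφ hker hE
  have hφE : φ E = 0 := by
    have : E ∈ RingHom.ker φ := by rw [hker]; exact Ideal.mem_span_singleton_self E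
    exact this
  have heq : ∀ i, hX Λ G X i = hX Λ L.tcone X i := fun i =>
    hX_eq_of_isRes Λ hG (isRes_tcone L hφ hker hE hF hM) (LinearEquiv.refl S M) X i
  have hfin' : ∀ i, hX Λ L.tcone X i ≠ ⊤ := fun i => heq i ▸ hfin i
  refine ⟨?_, hX_ne_top_theta L Λ hX' hφE hfin'⟩
  rw [← chiX_theta L Λ hX' hφE hfin' N (by rw [← heq]; exact hD _ (by omega))]
  have e1 : chiX Λ G X (N + 2) = chiX Λ L.tcone X (N + 2) := by
    rw [chiX_eq, chiX_eq]
    exact Finset.sum_congr rfl fun i _ => by rw [heq]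
  rw [← e1]
  exact (chi_eq_of_le Λ (by omega) fun i hi _ => hD i (by omega)).symm

end final

section two

variable {S₁ S₂ R : Type w} [CommRing S₁] [CommRing S₂] [CommRing R]
  {φ₁ : S₁ →+* R} {φ₂ : S₂ →+* R} {E₁ : S₁} {E₂ : S₂}
variable {A : Type u} [CommRing A] (Λ : AddLen.{u, v} A)
variable {X : Type v} [AddCommGroup X] [Module R X] [Module S₁ X] [Module S₂ X] [Module A X]
  [SMulCommClass R A X] [SMulCommClass S₁ A X] [SMulCommClass S₂ A X]
variable {M : Type v₂} [AddCommGroup M] [Module R M] [Module S₁ M] [Module S₂ M]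

/-- **Hochster's theta**: if `R = S₁/E₁ = S₂/E₂`, the Euler characteristics of two `R`-modules over
`S₁` and over `S₂` agree. -/
theorem chiX_eq_of_two {F : MCx R} {ε : (F.ι 0 → R) →ₗ[R] M} (hF : IsRes F ε)
    (hφ₁ : Function.Surjective φ₁) (hker₁ : RingHom.ker φ₁ = Ideal.span {E₁})
    (hE₁ : E₁ ∈ nonZeroDivisors S₁) (hM₁ : ∀ (s : S₁) (m : M), s • m = φ₁ s • m)
    (hX₁ : ∀ (s : S₁) (x : X), s • x = φ₁ s • x)
    {G₁ : MCx S₁} {ε₁ : (G₁.ι 0 → S₁) →ₗ[S₁] M} (hG₁ : IsRes G₁ ε₁)
    (hfin₁ : ∀ i, hX Λ G₁ X i ≠ ⊤) {D₁ : ℕ} (hD₁ : ∀ i, D₁ < i → hX Λ G₁ X i = 0)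
    (hφ₂ : Function.Surjective φ₂) (hker₂ : RingHom.ker φ₂ = Ideal.span {E₂})
    (hE₂ : E₂ ∈ nonZeroDivisors S₂) (hM₂ : ∀ (s : S₂) (m : M), s • m = φ₂ s • m)
    (hX₂ : ∀ (s : S₂) (x : X), s • x = φ₂ s • x)
    {G₂ : MCx S₂} {ε₂ : (G₂.ι 0 → S₂) →ₗ[S₂] M} (hG₂ : IsRes G₂ ε₂)
    (hfin₂ : ∀ i, hX Λ G₂ X i ≠ ⊤) {D₂ : ℕ} (hD₂ : ∀ i, D₂ < i → hX Λ G₂ X i = 0) :
    chiX Λ G₁ X (D₁ + 1) = chiX Λ G₂ X (D₂ + 1) := by
  rw [(chiX_theta' Λ hφ₁ hker₁ hE₁ hF hM₁ hG₁ hX₁ hfin₁ hD₁ (max D₁ D₂) (le_max_left _ _)).1,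
    (chiX_theta' Λ hφ₂ hker₂ hE₂ hF hM₂ hG₂ hX₂ hfin₂ hD₂ (max D₁ D₂) (le_max_right _ _)).1]

end two

end Crest.Agent.R188.Chi
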