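/-
R188 (Serre positivity), block (A6), part E2: the chain lemma
`Σ (-1)^i e_l (H_i(F ⊗ V)) = Σ (-1)^i length H_i(F ⊗ V/(l)V)` for `l` weakly regular on `V`.
helper702
-/
import Crest.Agent.R188.Eq1
import Crest.Agent.R188.ChiRes

set_option autoImplicit false
set_option linter.unusedSectionVars false

namespace Crest.Agent.R188.Eq

open IsLocalRing Module Function
open scoped Pointwise
open Crest.Agent.R183 Crest.Agent.R183.Res Crest.Agent.R188.Chi

universe u v w

section step

variable {R : Type w} [CommRing R] {A : Type u} [CommRing A] [Algebra R A] (F : MCx R)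
variable {V : Type v} [AddCommGroup V] [Module A V] [Module R V] [IsScalarTower R A V]

lemma exact_lsmul_mkQ (q : A) (V : Type v) [AddCommGroup V] [Module A V] :
    Exact (LinearMap.lsmul A V q) (Submodule.mkQ (q • (⊤ : Submodule A V))) := by
  intro x
  rw [← LinearMap.mem_ker, Submodule.ker_mkQ, Submodule.mem_smul_pointwise_iff_exists]
  constructor
  · rintro ⟨y, _, hy⟩
    exact ⟨y, hy⟩
  · rintro ⟨y, hy⟩
    exact ⟨y, Submodule.mem_top, hy⟩

theorem sesQ (q : A) (hq : IsSMulRegular V q) :
    SES (C' := fun n => F.ι n → V) (C := fun n => F.ι n → V)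
      (C'' := fun n => F.ι n → QuotSMulTop q V)
      (F.dA A V) (F.dA A V) (F.dA A (QuotSMulTop q V)) (pmap F (LinearMap.lsmul A V q))
      (pmap F (Submodule.mkQ (q • (⊤ : Submodule A V)))) :=
  sesX F (RLin.of_tower _) (RLin.of_tower _) hq (Submodule.mkQ_surjective _)
    (exact_lsmul_mkQ q V)

theorem Hmap_lsmul (q : A) (hq : IsSMulRegular V q) (i : ℕ) (x : HX A F V i) :
    Hmap (sesQ F q hq).cf i x = q • x := by
  obtain ⟨z, rfl⟩ := cls_surjective i x
  rw [Hmap_cls, ← map_smul]
  congr 1

theorem ker_Hmap_mkQ (q : A) (hq : IsSMulRegular V q) (i : ℕ) :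
    LinearMap.ker (Hmap (sesQ F q hq).cg i) = q • (⊤ : Submodule A (HX A F V i)) := by
  ext x
  rw [LinearMap.mem_ker, (sesQ F q hq).exact_mid (isCx_dA A F V) i x,
    Submodule.mem_smul_pointwise_iff_exists]
  constructor
  · rintro ⟨y, hy⟩
    exact ⟨y, Submodule.mem_top, by rw [← hy, Hmap_lsmul F q hq]⟩
  · rintro ⟨y, _, hy⟩
    exact ⟨y, by rw [← hy, Hmap_lsmul F q hq]⟩

/-- `H_i(V)/q ≃ image of H_i(V) in H_i(V/q)` -/
noncomputable def quotEquivRange (q : A) (hq : IsSMulRegular V q) (i : ℕ) :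
    QuotSMulTop q (HX A F V i) ≃ₗ[A] LinearMap.range (Hmap (sesQ F q hq).cg i) :=
  (Submodule.quotEquivOfEq _ _ (ker_Hmap_mkQ F q hq i).symm).trans
    (LinearMap.quotKerEquivRange _)

/-- `H_{i+1}(V/q) / image ≃ (0 : q)` in `H_i(V)` -/
noncomputable def quotRangeEquiv (q : A) (hq : IsSMulRegular V q) (i : ℕ) :
    (HX A F (QuotSMulTop q V) (i + 1) ⧸ LinearMap.range (Hmap (sesQ F q hq).cg (i + 1))) ≃ₗ[A]
      Submodule.torsionBy A (HX A F V i) q :=
  ((sesQ F q hq).snake (isCx_dA A F V) i).trans (LinearEquiv.ofEq _ _ (by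
    ext x
    rw [LinearMap.mem_ker, Hmap_lsmul F q hq, Submodule.mem_torsionBy_iff]))

noncomputable def H0Equiv (q : A) (hq : IsSMulRegular V q) :
    QuotSMulTop q (HX A F V 0) ≃ₗ[A] HX A F (QuotSMulTop q V) 0 :=
  (quotEquivRange F q hq 0).trans ((LinearEquiv.ofEq _ _
    (LinearMap.range_eq_top.2 (sesQ F q hq).surj_zero)).trans Submodule.topEquiv)

theorem subsingleton_succ (q : A) (hq : IsSMulRegular V q) (i : ℕ)
    (h1 : Subsingleton (HX A F V i)) (h2 : Subsingleton (HX A F V (i + 1))) :
    Subsingleton (HX A F (QuotSMulTop q V) (i + 1)) := by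
  have h3 : Subsingleton (QuotSMulTop q (HX A F V (i + 1))) :=
    (Submodule.mkQ_surjective _).subsingleton
  have h4 := (quotEquivRange F q hq (i + 1)).symm.injective.subsingleton
  have h5 := (quotRangeEquiv F q hq i).injective.subsingleton
  rw [Submodule.Quotient.subsingleton_iff] at h5
  rw [h5] at h4
  exact (Submodule.topEquiv (R := A)).symm.injective.subsingleton

end step

section chain

variable {R : Type w} [CommRing R] {A : Type u} [CommRing A] [IsLocalRing A] [IsNoetherianRing A]
  [Algebra R A] (F : MCx R)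

theorem Good.of_exact {l : List A} {W' W W'' : Type v} [AddCommGroup W'] [Module A W']
    [AddCommGroup W] [Module A W] [AddCommGroup W''] [Module A W''] (f : W' →ₗ[A] W)
    (g : W →ₗ[A] W'') (h : Exact f g) (h1 : Good l W') (h2 : Good l W'')
    (hW : Module.Finite A W) : Good l W := by
  obtain ⟨_, n1, hn1⟩ := h1
  obtain ⟨_, n2, hn2⟩ := h2
  refine ⟨hW, n1 + n2, ?_⟩
  rw [pow_add]
  refine (Ideal.mul_mono hn1 hn2).trans ?_
  rw [Ideal.sup_mul, Ideal.mul_sup, Ideal.mul_sup]
  refine sup_le (sup_le ?_ (le_sup_of_le_right Ideal.mul_le_right))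
    (sup_le (le_sup_of_le_right Ideal.mul_le_left) (le_sup_of_le_right Ideal.mul_le_left))
  refine le_sup_of_le_left (Ideal.mul_le.2 fun a ha b hb => ?_)
  rw [Module.mem_annihilator] at ha hb ⊢
  intro x
  have h3 : g (b • x) = 0 := by rw [map_smul, hb]
  obtain ⟨y, hy⟩ := (h _).1 h3
  rw [mul_smul, ← hy, ← map_smul, ha, map_zero]

variable {V : Type v} [AddCommGroup V] [Module A V] [Module R V] [IsScalarTower R A V]

instance finite_HX [Module.Finite A V] (i : ℕ) : Module.Finite A (HX A F V i) := by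
  have : IsNoetherian A (F.ι i → V) := inferInstance
  infer_instance

/-- alternating sum of `e l (H_i(F ⊗ V))`, `i < N` -/
noncomputable def ee (l : List A) (V : Type v) [AddCommGroup V] [Module A V] [Module R V]
    [IsScalarTower R A V] (N : ℕ) : ℤ :=
  ∑ i ∈ Finset.range N, (-1) ^ i * e l (HX A F V i)

theorem good_quot (q : A) (hq : IsSMulRegular V q) [Module.Finite A V] (l : List A)
    (hg : ∀ i, Good (q :: l) (HX A F V i)) (i : ℕ) : Good l (HX A F (QuotSMulTop q V) i) := by
  cases i with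
  | zero => exact (hg 0).quot.congr (H0Equiv F q hq)
  | succ i =>
    refine Good.of_exact (Submodule.subtype _) (Submodule.mkQ _) (LinearMap.exact_subtype_mkQ _)
      ((hg (i + 1)).quot.congr (quotEquivRange F q hq (i + 1)))
      ((hg i).tor.congr (quotRangeEquiv F q hq i).symm) inferInstance

theorem ee_step (q : A) (hq : IsSMulRegular V q) [Module.Finite A V] (l : List A)
    (hg : ∀ i, Good (q :: l) (HX A F V i)) (N : ℕ) :
    ee F l (QuotSMulTop q V) (N + 1) =
      ee F (q :: l) V (N + 1) + (-1) ^ N * e l (Submodule.torsionBy A (HX A F V N) q) := by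
  have h0 : e l (HX A F (QuotSMulTop q V) 0) = e l (QuotSMulTop q (HX A F V 0)) :=
    (e_congr l (H0Equiv F q hq)).symm
  have h1 : ∀ i, e l (HX A F (QuotSMulTop q V) (i + 1)) =
      e l (QuotSMulTop q (HX A F V (i + 1))) + e l (Submodule.torsionBy A (HX A F V i) q) := by
    intro i
    rw [e_add l (Submodule.subtype _) (Submodule.mkQ _) (Submodule.subtype_injective _)
      (Submodule.mkQ_surjective (LinearMap.range (Hmap (sesQ F q hq).cg (i + 1))))
      (LinearMap.exact_subtype_mkQ _) (good_quot F q hq l hg (i + 1)),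
      e_congr l (quotEquivRange F q hq (i + 1)), e_congr l (quotRangeEquiv F q hq i)]
  induction N with
  | zero =>
    simp only [ee, zero_add, Finset.range_one, Finset.sum_singleton, pow_zero, one_mul, h0, e]
    ring
  | succ N ih =>
    unfold ee at ih ⊢
    rw [Finset.sum_range_succ, ih, Finset.sum_range_succ _ (N + 1), h1 N, e]
    ring

theorem quotSMulTop_congr_chain (q : A) (l : List A) :
    Nonempty ((V ⧸ (Ideal.ofList (q :: l) • ⊤ : Submodule A V)) ≃ₗ[A]
      (QuotSMulTop q V ⧸ (Ideal.ofList l • ⊤ : Submodule A (QuotSMulTop q V)))) :=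
  ⟨Submodule.quotOfListConsSMulTopEquivQuotSMulTopInner V q l⟩

theorem ee_nil (V : Type v) [AddCommGroup V] [Module A V] [Module R V]
    [IsScalarTower R A V] (N : ℕ) :
    ee F ([] : List A) V N =
      ∑ i ∈ Finset.range N, (-1) ^ i * ((Module.length A (HX A F V i)).toNat : ℤ) := rfl

theorem ee_congr (l : List A) {V V' : Type v} [AddCommGroup V] [Module A V] [Module R V]
    [IsScalarTower R A V] [AddCommGroup V'] [Module A V'] [Module R V']
    [IsScalarTower R A V'] (φ : V ≃ₗ[A] V') (N : ℕ) : ee F l V N = ee F l V' N := by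
  unfold ee
  refine Finset.sum_congr rfl fun i _ => ?_
  rw [e_congr l (HXcongr F φ (RLin.of_tower _) i)]

/-- **Chain lemma.** -/
theorem chain : ∀ (l : List A) (V : Type v) [AddCommGroup V] [Module A V] [Module R V]
    [IsScalarTower R A V] [Module.Finite A V] (_ : RingTheory.Sequence.IsWeaklyRegular V l)
    (_ : ∀ i, Good l (HX A F V i)) (k : ℕ) (_ : ∀ i, k ≤ i → Subsingleton (HX A F V i)) (N : ℕ)
    (_ : k + l.length ≤ N),
    ee F l V N = ee F ([] : List A) (V ⧸ (Ideal.ofList l • ⊤ : Submodule A V)) N ∧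
    (∀ i, Good ([] : List A) (HX A F (V ⧸ (Ideal.ofList l • ⊤ : Submodule A V)) i)) ∧
    ∀ i, k + l.length ≤ i →
      Subsingleton (HX A F (V ⧸ (Ideal.ofList l • ⊤ : Submodule A V)) i)
  | [], V, _, _, _, _, _, _, hg, k, hk, N, hN => by
    have φ : V ≃ₗ[A] (V ⧸ (Ideal.ofList ([] : List A) • ⊤ : Submodule A V)) :=
      (Submodule.quotEquivOfEqBot _ (by simp)).symm
    refine ⟨ee_congr F [] φ N, fun i => ?_, fun i hi => ?_⟩
    · exact (hg i).congr (HXcongr F φ (RLin.of_tower _) i)
    · have := hk i (by simpa using hi)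
      exact (HXcongr F φ (RLin.of_tower _) i).symm.injective.subsingleton
  | (q :: l), V, _, _, _, _, _, hr, hg, k, hk, N, hN => by
    rw [RingTheory.Sequence.isWeaklyRegular_cons_iff] at hr
    obtain ⟨hq, hr⟩ := hr
    have hN' : k + 1 + l.length ≤ N := by
      rw [List.length_cons] at hN; omega
    have hk' : ∀ i, k + 1 ≤ i → Subsingleton (HX A F (QuotSMulTop q V) i) := by
      intro i hi
      obtain ⟨j, rfl⟩ := Nat.exists_eq_add_of_le' (by omega : 1 ≤ i)
      exact subsingleton_succ F q hq j (hk j (by omega)) (hk (j + 1) (by omega))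
    obtain ⟨h1, h2, h3⟩ := chain l (QuotSMulTop q V) hr (good_quot F q hq l hg) (k + 1) hk' N hN'
    obtain ⟨φ⟩ := quotSMulTop_congr_chain (V := V) q l
    obtain ⟨M, rfl⟩ := Nat.exists_eq_add_of_le' (by omega : 1 ≤ N)
    have h4 := ee_step F q hq l hg M
    have h5 : e l (Submodule.torsionBy A (HX A F V M) q) = 0 := by
      have := hk M (by omega)
      have : Subsingleton (Submodule.torsionBy A (HX A F V M) q) := by
        exact (Submodule.subtype_injective _).subsingleton
      exact e_subsingleton l _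
    rw [h5, mul_zero, add_zero] at h4
    refine ⟨?_, fun i => ?_, fun i hi => ?_⟩
    · rw [← h4, h1]
      exact ee_congr F [] φ.symm (M + 1)
    · exact (h2 i).congr (HXcongr F φ.symm (RLin.of_tower _) i)
    · have := h3 i (by rw [List.length_cons] at hi; omega)
      exact (HXcongr F φ (RLin.of_tower _) i).injective.subsingleton

end chain

end Crest.Agent.R188.Eq
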