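/-
R188 (Serre positivity), block (A6), part E3: `X[[x]]` is flat over `k[[x]]` for every
`k`-algebra `X`.   helper702
-/
import Mathlib

set_option autoImplicit false

namespace Crest.Agent.R188.Eq

universe u v w

/-- products of copies of a Noetherian ring are flat -/
theorem flat_pi (R : Type u) [CommRing R] [IsNoetherianRing R] (S : Type v) :
    Module.Flat R (S → R) := by
  rw [Module.Flat.iff_forall_isTrivialRelation]
  intro l f x hfx
  let Z : Submodule R (Fin l → R) :=
    LinearMap.ker (∑ i, f i • (LinearMap.proj i : (Fin l → R) →ₗ[R] R))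
  have hZ : ∀ v, v ∈ Z ↔ ∑ i, f i * v i = 0 := by
    intro v
    rw [LinearMap.mem_ker]
    simp [LinearMap.sum_apply]
  obtain ⟨m, a, ha⟩ := Submodule.fg_iff_exists_fin_generating_family.1 (IsNoetherian.noetherian Z)
  have h1 : ∀ s : S, ∃ c : Fin m → R, ∑ j, c j • a j = fun i => x i s := by
    intro s
    have h2 : (fun i => x i s) ∈ Z := by
      rw [hZ]
      have := congrFun hfx s
      simpa using this
    rw [← ha] at h2
    exact (Submodule.mem_span_range_iff_exists_fun R).1 h2
  choose c hc using h1
  refine ⟨m, fun i j => a j i, fun j s => c s j, fun i => ?_, fun j => ?_⟩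
  · funext s
    have := congrFun (hc s) i
    rw [Finset.sum_apply] at this ⊢
    rw [← this]
    refine Finset.sum_congr rfl fun j _ => ?_
    simp [mul_comm]
  · rw [← hZ, ← ha]
    exact Submodule.subset_span ⟨j, rfl⟩

section

variable (k : Type u) [Field k] (σ : Type v) (X : Type w) [CommRing X] [Algebra k X]

open MvPowerSeries

theorem smul_eq_map_mul (r : MvPowerSeries σ k) (f : MvPowerSeries σ X) :
    r • f = MvPowerSeries.map (algebraMap k X) r * f := by
  rw [Algebra.smul_def]
  rfl

variable {k σ X}

omit [Field k] [CommRing X] [Algebra k X] in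
/-- the power series with given coefficients -/
def ofc (g : (σ →₀ ℕ) → X) : MvPowerSeries σ X := g

omit [Algebra k X] in
lemma coeff_ofc (g : (σ →₀ ℕ) → X) (e : σ →₀ ℕ) : coeff e (ofc g) = g e := rfl

/-- a `k`-linear map applied to all coefficients is `k[[x]]`-linear -/
noncomputable def coeffwise (φ : X →ₗ[k] k) :
    MvPowerSeries σ X →ₗ[MvPowerSeries σ k] MvPowerSeries σ k where
  toFun f := ofc fun e => φ (coeff e f)
  map_add' f g := by
    ext e
    rw [map_add, coeff_ofc, coeff_ofc, coeff_ofc, map_add, map_add]
  map_smul' r f := by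
    classical
    ext e
    rw [RingHom.id_apply, coeff_ofc, smul_eq_map_mul, smul_eq_mul, coeff_mul, coeff_mul, map_sum]
    refine Finset.sum_congr rfl fun p _ => ?_
    rw [coeff_map, ← Algebra.smul_def, map_smul, smul_eq_mul, coeff_ofc]

theorem flat_mvPowerSeries [Finite σ] : Module.Flat (MvPowerSeries σ k) (MvPowerSeries σ X) := by
  classical
  let S := Module.Basis.ofVectorSpaceIndex k X
  let b : Module.Basis S k X := Module.Basis.ofVectorSpace k X
  let φ : X →ₗ[k] (S → k) := LinearMap.pi fun s => b.coord s
  have hφ : LinearMap.ker φ = ⊥ := by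
    rw [LinearMap.ker_eq_bot]
    intro x y hxy
    refine b.ext_elem fun s => ?_
    exact congrFun hxy s
  obtain ⟨ρ, hρ⟩ := φ.exists_leftInverse_of_injective hφ
  have : Module.Flat (MvPowerSeries σ k) (S → MvPowerSeries σ k) := flat_pi _ _
  let i : MvPowerSeries σ X →ₗ[MvPowerSeries σ k] (S → MvPowerSeries σ k) :=
    LinearMap.pi fun s => coeffwise (b.coord s)
  let r : (S → MvPowerSeries σ k) →ₗ[MvPowerSeries σ k] MvPowerSeries σ X :=
    { toFun := fun g => ofc fun e => ρ fun s => coeff e (g s)
      map_add' := fun f g => by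
        ext e
        rw [map_add, coeff_ofc, coeff_ofc, coeff_ofc, ← map_add]
        congr 1
      map_smul' := fun t f => by
        ext e
        rw [RingHom.id_apply, smul_eq_map_mul, coeff_mul, coeff_ofc]
        have h1 : (fun s => coeff e ((t • f) s)) =
            ∑ p ∈ Finset.HasAntidiagonal.antidiagonal e, coeff p.1 t • (fun s => coeff p.2 (f s)) := by
          funext s
          rw [Finset.sum_apply, Pi.smul_apply, smul_eq_mul, coeff_mul]
          rfl
        rw [h1, map_sum]
        refine Finset.sum_congr rfl fun p _ => ?_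
        rw [coeff_map, ← Algebra.smul_def, map_smul, coeff_ofc] }
  refine Module.Flat.of_retract i r ?_
  ext f e
  have h2 := LinearMap.congr_fun hρ (coeff e f)
  exact h2

end

end Crest.Agent.R188.Eq
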