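/-
R188 (Serre positivity), block (A6), part E4: for a complete local ring `X` and `c_i ∈ m_X` the
sequence `x_i - c_i` is weakly regular on `X[[x_1..x_n]]` and the quotient is `X`.   helper702
-/
import Mathlib
import Crest.Agent.R227.LTComplete

set_option autoImplicit false
set_option linter.unusedSectionVars false

namespace Crest.Agent.R188.Eq

open IsLocalRing
open scoped Pointwise

universe u v w

section one

variable {S : Type u} [CommRing S] [IsLocalRing S]

lemma distinguished (s : S) (hs : s ∈ maximalIdeal S) :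
    (Polynomial.X - Polynomial.C s).IsDistinguishedAt (maximalIdeal S) where
  monic := Polynomial.monic_X_sub_C s
  mem := by
    intro n hn
    rw [Polynomial.natDegree_X_sub_C] at hn
    obtain rfl : n = 0 := by omega
    simp [hs]

lemma coe_X_sub_C (s : S) : ((Polynomial.X - Polynomial.C s : Polynomial S) : PowerSeries S) =
    PowerSeries.X - PowerSeries.C s := by
  simp

theorem exists_ev1 [IsAdicComplete (maximalIdeal S) S] (s : S) (hs : s ∈ maximalIdeal S) :
    ∃ ρ : PowerSeries S →+* S, (∀ a, ρ (PowerSeries.C a) = a) ∧ ρ PowerSeries.X = s ∧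
      RingHom.ker ρ = Ideal.span {PowerSeries.X - PowerSeries.C s} := by
  have H := distinguished s hs
  let ρ : PowerSeries S →+* S := ((Polynomial.quotientSpanXSubCAlgEquiv s).toRingHom.comp
    H.algEquivQuotient.symm.toRingEquiv.toRingHom).comp (Ideal.Quotient.mk _)
  have hC : ∀ a, ρ (PowerSeries.C a) = a := by
    intro a
    have h1 : (Ideal.Quotient.mk (Ideal.span
      {((Polynomial.X - Polynomial.C s : Polynomial S) : PowerSeries S)})) (PowerSeries.C a) =
      algebraMap S _ a := rfl
    show (Polynomial.quotientSpanXSubCAlgEquiv s) (H.algEquivQuotient.symm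
      (Ideal.Quotient.mk _ (PowerSeries.C a))) = a
    rw [h1, AlgEquiv.commutes, AlgEquiv.commutes]
    rfl
  have hk : RingHom.ker ρ = Ideal.span {PowerSeries.X - PowerSeries.C s} := by
    ext f
    rw [RingHom.mem_ker, ← coe_X_sub_C, ← Ideal.Quotient.eq_zero_iff_mem]
    show (Polynomial.quotientSpanXSubCAlgEquiv s) (H.algEquivQuotient.symm
      (Ideal.Quotient.mk _ f)) = 0 ↔ _
    rw [EmbeddingLike.map_eq_zero_iff, EmbeddingLike.map_eq_zero_iff]
  refine ⟨ρ, hC, ?_, hk⟩
  have h2 : ρ (PowerSeries.X - PowerSeries.C s) = 0 := by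
    rw [← RingHom.mem_ker, hk]
    exact Ideal.mem_span_singleton_self _
  rw [map_sub, hC, sub_eq_zero] at h2
  exact h2

theorem regular1 [IsAdicComplete (maximalIdeal S) S] (s : S) (hs : s ∈ maximalIdeal S)
    (f : PowerSeries S) (hf : (PowerSeries.X - PowerSeries.C s) * f = 0) : f = 0 := by
  have H := distinguished s hs
  have h1 : (PowerSeries.IsWeierstrassDivisorAt
      ((Polynomial.X - Polynomial.C s : Polynomial S) : PowerSeries S) (maximalIdeal S)) :=
    H.isWeierstrassDivisorAt'
  refine (h1.eq_zero_of_mul_eq (q := f) (r := 0) ?_ ?_).1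
  · rw [Polynomial.degree_zero]
    exact WithBot.bot_lt_coe _
  · rw [coe_X_sub_C, hf]
    simp

end one

section many

variable (X : Type u) [CommRing X] [IsLocalRing X]

open MvPowerSeries

/-- the sequence `x_i - c_i` -/
noncomputable def qs {n : ℕ} (c : Fin n → X) : List (MvPowerSeries (Fin n) X) :=
  List.ofFn fun i => MvPowerSeries.X i - MvPowerSeries.C (c i)

variable [IsAdicComplete (maximalIdeal X) X]

theorem exists_ev : ∀ (n : ℕ) (c : Fin n → X) (_ : ∀ i, c i ∈ maximalIdeal X),
    RingTheory.Sequence.IsWeaklyRegular (MvPowerSeries (Fin n) X) (qs X c) ∧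
    ∃ ρ : MvPowerSeries (Fin n) X →+* X, (∀ a, ρ (MvPowerSeries.C a) = a) ∧
      (∀ i, ρ (MvPowerSeries.X i) = c i) ∧ RingHom.ker ρ = Ideal.ofList (qs X c)
  | 0, c, _ => by
    refine ⟨by simp [qs], MvPowerSeries.constantCoeff, by simp, fun i => i.elim0, ?_⟩
    rw [qs, List.ofFn_zero, Ideal.ofList_nil, ← RingHom.injective_iff_ker_eq_bot]
    exact (MvPowerSeries.isEmptyEquiv (σ := Fin 0) (R := X)).injective
  | (n + 1), c, hc => by
    obtain ⟨ih1, ρ', hC', hX', hk'⟩ := exists_ev n (fun i => c i.succ) (fun i => hc i.succ)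
    have hcomp : IsAdicComplete (maximalIdeal (MvPowerSeries (Fin n) X))
      (MvPowerSeries (Fin n) X) := R227.isAdicComplete_maximalIdeal_mv
    have hs : MvPowerSeries.C (c 0) ∈ maximalIdeal (MvPowerSeries (Fin n) X) := by
      rw [R227.maximalIdeal_mv, R227.mem_idIX_iff]
      simpa using hc 0
    obtain ⟨ρ1, hC1, hX1, hk1⟩ := exists_ev1 _ hs
    let E := MvPowerSeries.finSuccEquiv X n
    let ρ0 : MvPowerSeries (Fin (n + 1)) X →+* MvPowerSeries (Fin n) X :=
      ρ1.comp E.toRingEquiv.toRingHom
    have hC0 : ∀ a, ρ0 (MvPowerSeries.C a) = MvPowerSeries.C a := by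
      intro a
      show ρ1 (MvPowerSeries.finSuccEquiv X n (MvPowerSeries.C a)) = _
      rw [MvPowerSeries.finSuccEquiv_C, hC1]
    have hX0 : ∀ i : Fin n, ρ0 (MvPowerSeries.X i.succ) = MvPowerSeries.X i := by
      intro i
      show ρ1 (MvPowerSeries.finSuccEquiv X n (MvPowerSeries.X i.succ)) = _
      rw [MvPowerSeries.finSuccEquiv_X_succ, hC1]
    have hX00 : ρ0 (MvPowerSeries.X 0) = MvPowerSeries.C (c 0) := by
      show ρ1 (MvPowerSeries.finSuccEquiv X n (MvPowerSeries.X 0)) = _
      rw [MvPowerSeries.finSuccEquiv_X_zero, hX1]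
    have hEq0 : E (MvPowerSeries.X 0 - MvPowerSeries.C (c 0)) =
        PowerSeries.X - PowerSeries.C (MvPowerSeries.C (c 0)) := by
      rw [map_sub, MvPowerSeries.finSuccEquiv_X_zero, MvPowerSeries.finSuccEquiv_C]
    have hk0 : RingHom.ker ρ0 = Ideal.span {MvPowerSeries.X 0 - MvPowerSeries.C (c 0)} := by
      ext f
      rw [RingHom.mem_ker]
      show ρ1 (E f) = 0 ↔ _
      rw [← RingHom.mem_ker, hk1, ← hEq0, Ideal.mem_span_singleton, Ideal.mem_span_singleton]
      exact map_dvd_iff E
    have hsurj0 : Function.Surjective ρ0 := by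
      intro g
      refine ⟨E.symm (PowerSeries.C g), ?_⟩
      show ρ1 (E (E.symm (PowerSeries.C g))) = g
      rw [AlgEquiv.apply_symm_apply, hC1]
    have hlist : qs X c = (MvPowerSeries.X 0 - MvPowerSeries.C (c 0)) ::
        List.ofFn fun i : Fin n => MvPowerSeries.X i.succ - MvPowerSeries.C (c i.succ) := by
      rw [qs, List.ofFn_succ]
    let _ : Algebra (MvPowerSeries (Fin (n + 1)) X) (MvPowerSeries (Fin n) X) := ρ0.toAlgebra
    let L : MvPowerSeries (Fin (n + 1)) X →ₗ[MvPowerSeries (Fin (n + 1)) X]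
      MvPowerSeries (Fin n) X := Algebra.linearMap _ _
    have hL : LinearMap.ker L = (MvPowerSeries.X 0 - MvPowerSeries.C (c 0) :
        MvPowerSeries (Fin (n + 1)) X) •
        (⊤ : Submodule (MvPowerSeries (Fin (n + 1)) X) (MvPowerSeries (Fin (n + 1)) X)) := by
      ext f
      rw [Submodule.mem_smul_pointwise_iff_exists, LinearMap.mem_ker]
      show ρ0 f = 0 ↔ _
      rw [← RingHom.mem_ker, hk0, Ideal.mem_span_singleton]
      constructor
      · rintro ⟨g, rfl⟩
        exact ⟨g, trivial, rfl⟩
      · rintro ⟨g, _, rfl⟩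
        exact ⟨g, rfl⟩
    let eL := (Submodule.quotEquivOfEq _ _ hL.symm).trans
      (L.quotKerEquivOfSurjective hsurj0)
    refine ⟨?_, ρ'.comp ρ0, fun a => ?_, fun i => ?_, ?_⟩
    · rw [hlist, RingTheory.Sequence.isWeaklyRegular_cons_iff]
      refine ⟨IsSMulRegular.of_right_eq_zero_of_smul fun f hf => ?_, ?_⟩
      · apply E.injective
        rw [map_zero]
        apply regular1 _ hs
        rw [← hEq0, ← map_mul, ← smul_eq_mul, hf, map_zero]
      · refine ((AddEquiv.isWeaklyRegular_congr (e := eL.toAddEquiv)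
          (bs := qs X fun i => c i.succ) ?_).2 ih1)
        rw [qs, List.forall₂_iff_get]
        refine ⟨by simp, fun i h1 h2 x => ?_⟩
        simp only [List.get_ofFn]
        show eL (_ • x) = _ • eL x
        rw [map_smul, Algebra.smul_def]
        congr 1
        show ρ0 _ = _
        rw [map_sub, hX0, hC0]
        rfl
    · rw [RingHom.comp_apply, hC0, hC']
    · rw [RingHom.comp_apply]
      refine Fin.cases ?_ (fun j => ?_) i
      · rw [hX00, hC']
      · rw [hX0, hX']
    · have h1 : RingHom.ker (ρ'.comp ρ0) = (RingHom.ker ρ').comap ρ0 := by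
        ext f; simp [RingHom.mem_ker]
      have h2 : Ideal.ofList (qs X fun i => c i.succ) =
          (Ideal.ofList (List.ofFn fun i : Fin n =>
            MvPowerSeries.X i.succ - MvPowerSeries.C (c i.succ))).map ρ0 := by
        rw [Ideal.map_ofList, List.map_ofFn, qs]
        congr 1
        congr 1
        funext i
        rw [Function.comp_apply, map_sub, hX0, hC0]
      rw [h1, hk', h2, Ideal.comap_map_of_surjective' _ hsurj0, hk0, hlist, Ideal.ofList_cons,
        sup_comm]

end many

end Crest.Agent.R188.Eq
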