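import Crest.Agent.R188.Str2

/-!
# R188, block A1 (helper645): transport of the hypotheses of S0288 along `R → S` flat local with
`m_R S = m_S`
-/

set_option autoImplicit false

namespace Crest.Agent.R188.Str

open Ideal IsLocalRing TensorProduct

universe u v w

section ann

variable (R : Type u) (S : Type v) [CommRing R] [CommRing S] [Algebra R S] [Module.Flat R S]
  (M : Type w) [AddCommGroup M] [Module R M] [Module.Finite R M]

/-- The annihilator of a finite module commutes with flat base change. -/
theorem annihilator_baseChange :
    Module.annihilator S (S ⊗[R] M) = (Module.annihilator R M).map (algebraMap R S) := by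
  apply le_antisymm
  · intro s hs
    rw [Module.mem_annihilator] at hs
    obtain ⟨n, m, hm⟩ := Module.Finite.exists_fin (R := R) (M := M)
    let φ : R →ₗ[R] (Fin n → M) := LinearMap.pi fun i => LinearMap.toSpanSingleton R M (m i)
    have hφ : ∀ r i, φ r i = r • m i := fun r i => rfl
    have hex : Function.Exact (Submodule.subtype (Module.annihilator R M)) φ := by
      intro r
      constructor
      · intro hr
        refine ⟨⟨r, ?_⟩, rfl⟩
        rw [Module.mem_annihilator]
        intro x
        have hx : x ∈ Submodule.span R (Set.range m) := by rw [hm]; trivial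
        refine Submodule.span_induction (p := fun x _ => r • x = 0) ?_ ?_ ?_ ?_ hx
        · rintro _ ⟨i, rfl⟩
          rw [← hφ, hr]; rfl
        · exact smul_zero r
        · intro x y _ _ hx hy
          rw [smul_add, hx, hy, add_zero]
        · intro a x _ hx
          rw [smul_comm, hx, smul_zero]
      · rintro ⟨r, rfl⟩
        funext i
        rw [hφ]
        exact Module.mem_annihilator.1 r.2 _
    have hexS := Module.Flat.lTensor_exact S hex
    have h1 : (φ.lTensor S) (s ⊗ₜ (1 : R)) = 0 := by
      apply (TensorProduct.piRight R S S (fun _ : Fin n => M)).injective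
      rw [map_zero, LinearMap.lTensor_tmul]
      funext i
      rw [TensorProduct.piRight_apply, TensorProduct.piRightHom_tmul]
      have h2 := hs ((1 : S) ⊗ₜ[R] m i)
      rw [TensorProduct.smul_tmul', smul_eq_mul, mul_one] at h2
      change s ⊗ₜ[R] (φ 1 i) = 0
      rw [hφ, one_smul]
      exact h2
    obtain ⟨z, hz⟩ := (hexS _).1 h1
    have h3 : ∀ z : S ⊗[R] ↥(Module.annihilator R M),
        TensorProduct.rid R S ((Submodule.subtype (Module.annihilator R M)).lTensor S z) ∈
          (Module.annihilator R M).map (algebraMap R S) := by
      intro z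
      induction z using TensorProduct.induction_on with
      | zero => rw [map_zero, map_zero]; exact Ideal.zero_mem _
      | add x y hx hy => rw [map_add, map_add]; exact add_mem hx hy
      | tmul t a =>
        rw [LinearMap.lTensor_tmul, TensorProduct.rid_tmul, Algebra.smul_def]
        exact Ideal.mul_mem_right _ _ (Ideal.mem_map_of_mem _ a.2)
    have h4 := h3 z
    rw [hz, TensorProduct.rid_tmul, one_smul] at h4
    exact h4
  · rw [Ideal.map_le_iff_le_comap]
    intro r hr
    rw [Ideal.mem_comap, Module.mem_annihilator]
    intro x
    induction x using TensorProduct.induction_on with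
    | zero => exact smul_zero _
    | add x y hx hy => rw [smul_add, hx, hy, add_zero]
    | tmul s m =>
      rw [algebraMap_smul, ← TensorProduct.tmul_smul, Module.mem_annihilator.1 hr,
        TensorProduct.tmul_zero]

end ann

section dim

variable (R : Type u) (S : Type v) [CommRing R] [CommRing S] [Algebra R S] [Module.Flat R S]
  [IsLocalRing R] [IsNoetherianRing R] [IsLocalRing S] [IsNoetherianRing S]
  (hm : (maximalIdeal R).map (algebraMap R S) = maximalIdeal S)

include hm

/-- `dim S / I S = dim R / I`. -/
theorem ringKrullDim_quotient_map (I : Ideal R) :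
    ringKrullDim (S ⧸ I.map (algebraMap R S)) = ringKrullDim (R ⧸ I) := by
  by_cases hI : I = ⊤
  · subst hI
    have h1 : Subsingleton (R ⧸ (⊤ : Ideal R)) := Ideal.Quotient.subsingleton_iff.2 rfl
    have h2 : Subsingleton (S ⧸ (⊤ : Ideal R).map (algebraMap R S)) :=
      Ideal.Quotient.subsingleton_iff.2 (Ideal.map_top _)
    rw [ringKrullDim_eq_bot_of_subsingleton, ringKrullDim_eq_bot_of_subsingleton]
  · have hIm : I ≤ maximalIdeal R := le_maximalIdeal hI
    have hIS : I.map (algebraMap R S) ≤ maximalIdeal S := hm ▸ Ideal.map_mono hIm
    have := isLocalRing_quotient hIm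
    have := isLocalRing_quotient hIS
    have hflat : Module.Flat (R ⧸ I) (S ⧸ I.map (algebraMap R S)) := by
      have h1 : Module.Flat (R ⧸ I) ((R ⧸ I) ⊗[R] S) := inferInstance
      exact Module.Flat.of_linearEquiv
        (Algebra.TensorProduct.quotIdealMapEquivQuotTensor S I).toLinearEquiv
    have hm' : (maximalIdeal (R ⧸ I)).map (algebraMap (R ⧸ I) (S ⧸ I.map (algebraMap R S))) =
        maximalIdeal (S ⧸ I.map (algebraMap R S)) := by
      rw [← Str.map_maximalIdeal_of_surjective (Ideal.Quotient.mk I) Ideal.Quotient.mk_surjective,
        ← Str.map_maximalIdeal_of_surjective (Ideal.Quotient.mk (I.map (algebraMap R S)))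
          Ideal.Quotient.mk_surjective, ← hm, Ideal.map_map, Ideal.map_map]
      congr 1
    exact Crest.Agent.R183.G.ringKrullDim_eq_of_map_maximalIdeal hm'

variable (M : Type w) [AddCommGroup M] [Module R M] [Module.Finite R M]

theorem supportDim_baseChange :
    Module.supportDim S (S ⊗[R] M) = Module.supportDim R M := by
  rw [Module.supportDim_eq_ringKrullDim_quotient_annihilator,
    Module.supportDim_eq_ringKrullDim_quotient_annihilator, annihilator_baseChange,
    ringKrullDim_quotient_map R S hm]

omit [IsNoetherianRing R] [IsNoetherianRing S] [Module.Finite R M] in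
theorem length_baseChange_eq :
    Module.length S (S ⊗[R] M) = Module.length R M := by
  have := Crest.Agent.R183.G.isLocalHom_of_map_maximalIdeal hm
  rw [IsLocalRing.length_baseChange R S M, hm,
    Crest.Agent.R183.G.length_quotient_maximalIdeal, mul_one]

omit [IsNoetherianRing R] [IsNoetherianRing S] [Module.Finite R M] in
theorem isFiniteLength_baseChange (h : IsFiniteLength R M) : IsFiniteLength S (S ⊗[R] M) := by
  rw [← Module.length_ne_top_iff] at h ⊢
  rwa [length_baseChange_eq R S hm]

omit [IsNoetherianRing R] [IsNoetherianRing S] [Module.Finite R M] in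
theorem nontrivial_baseChange [Nontrivial M] : Nontrivial (S ⊗[R] M) := by
  have := Crest.Agent.R183.G.isLocalHom_of_map_maximalIdeal hm
  have : Module.FaithfullyFlat R S := Module.FaithfullyFlat.of_flat_of_isLocalHom
  exact Module.FaithfullyFlat.lTensor_nontrivial R S M

variable (N : Type*) [AddCommGroup N] [Module R N]

omit [IsNoetherianRing R] [IsNoetherianRing S] [Module.Finite R M] in
theorem isFiniteLength_tensor_baseChange (h : IsFiniteLength R (M ⊗[R] N)) :
    IsFiniteLength S ((S ⊗[R] M) ⊗[S] (S ⊗[R] N)) := by
  have h1 := isFiniteLength_baseChange R S hm (M ⊗[R] N) h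
  rw [← Module.length_ne_top_iff] at h1 ⊢
  rwa [← (TensorProduct.AlgebraTensorModule.distribBaseChange R S M N).length_eq]

end dim

end Crest.Agent.R188.Str
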