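/-
R188 (Serre positivity), block (A6), part E6: dimension formula for flat local homomorphisms and
the set-up `R = k[[x]]`, `X = R/J`, `A = X[[x]]`.   helper702
-/
import Crest.Agent.R188.Eq2
import Crest.Agent.R188.Eq3
import Crest.Agent.R188.Eq4
import Crest.Agent.R188.Eq5
import Crest.Agent.R188.Str3
import Crest.Agent.R183.G11

set_option autoImplicit false
set_option linter.unusedSectionVars false

namespace Crest.Agent.R188.Eq

open IsLocalRing Module Function TensorProduct
open scoped Pointwise
open Crest.Agent.R183 Crest.Agent.R183.Res Crest.Agent.R188.Chi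

universe u v w

section dim

variable (R : Type u) (S : Type v) [CommRing R] [CommRing S] [Algebra R S] [Module.Flat R S]
  [IsLocalRing R] [IsNoetherianRing R] [IsLocalRing S] [IsNoetherianRing S]

theorem ringKrullDim_eq_add (h : (maximalIdeal R).map (algebraMap R S) ≤ maximalIdeal S) :
    ringKrullDim S = ringKrullDim R + ringKrullDim (S ⧸ (maximalIdeal R).map (algebraMap R S)) := by
  have h1 : IsLocalHom (algebraMap R S) :=
    ((IsLocalRing.local_hom_TFAE (algebraMap R S)).out 0 2).mpr h
  have h2 : (maximalIdeal S).LiesOver (maximalIdeal R) :=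
    ⟨(IsLocalRing.maximalIdeal_comap (algebraMap R S)).symm⟩
  have h3 := Str.isLocalRing_quotient h
  rw [← IsLocalRing.maximalIdeal_height_eq_ringKrullDim (R := S),
    ← IsLocalRing.maximalIdeal_height_eq_ringKrullDim (R := R),
    ← IsLocalRing.maximalIdeal_height_eq_ringKrullDim
      (R := S ⧸ (maximalIdeal R).map (algebraMap R S)),
    Ideal.height_eq_height_add_of_liesOver_of_hasGoingDown (maximalIdeal R) (maximalIdeal S),
    Str.map_maximalIdeal_of_surjective _ Ideal.Quotient.mk_surjective]
  rfl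

theorem ringKrullDim_quotient_eq_add (h : (maximalIdeal R).map (algebraMap R S) ≤ maximalIdeal S)
    (I : Ideal R) (hI : I ≤ maximalIdeal R) :
    ringKrullDim (S ⧸ I.map (algebraMap R S)) = ringKrullDim (R ⧸ I) +
      ringKrullDim (S ⧸ (maximalIdeal R).map (algebraMap R S)) := by
  have hIS : I.map (algebraMap R S) ≤ maximalIdeal S := (Ideal.map_mono hI).trans h
  have := Str.isLocalRing_quotient hI
  have := Str.isLocalRing_quotient hIS
  have hflat : Module.Flat (R ⧸ I) (S ⧸ I.map (algebraMap R S)) := by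
    have h1 : Module.Flat (R ⧸ I) ((R ⧸ I) ⊗[R] S) := inferInstance
    exact Module.Flat.of_linearEquiv
      (Algebra.TensorProduct.quotIdealMapEquivQuotTensor S I).toLinearEquiv
  have hmap : (maximalIdeal (R ⧸ I)).map (algebraMap (R ⧸ I) (S ⧸ I.map (algebraMap R S))) =
      ((maximalIdeal R).map (algebraMap R S)).map (Ideal.Quotient.mk (I.map (algebraMap R S))) := by
    rw [← Str.map_maximalIdeal_of_surjective (Ideal.Quotient.mk I) Ideal.Quotient.mk_surjective,
      Ideal.map_map, Ideal.map_map]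
    congr 1
  have hle : (maximalIdeal (R ⧸ I)).map (algebraMap (R ⧸ I) (S ⧸ I.map (algebraMap R S))) ≤
      maximalIdeal (S ⧸ I.map (algebraMap R S)) := by
    rw [hmap, ← Str.map_maximalIdeal_of_surjective _
      (Ideal.Quotient.mk_surjective (I := I.map (algebraMap R S)))]
    exact Ideal.map_mono h
  rw [ringKrullDim_eq_add (R ⧸ I) (S ⧸ I.map (algebraMap R S)) hle, hmap]
  congr 1
  exact ringKrullDim_eq_of_ringEquiv (DoubleQuot.quotQuotEquivQuotOfLE (Ideal.map_mono hI))

end dim

section homext

open MvPowerSeries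

theorem mv_hom_ext {σ : Type v} [Finite σ] {k : Type u} [CommRing k] {Y : Type w} [CommRing Y]
    (I : Ideal Y) [IsHausdorff I Y] (f g : MvPowerSeries σ k →+* Y)
    (hC : ∀ a, f (C a) = g (C a)) (hX : ∀ i, f (X i) = g (X i)) (hI : ∀ i, f (X i) ∈ I) :
    f = g := by
  have hfI : ∀ (N : ℕ) (s : MvPowerSeries σ k), s ∈ R227.idX σ k ^ N → f s ∈ I ^ N := by
    intro N s hs
    have h1 : (R227.idX σ k).map f ≤ I := by
      rw [Ideal.map_span, Ideal.span_le]
      rintro _ ⟨_, ⟨i, rfl⟩, rfl⟩
      exact hI i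
    have h2 : f s ∈ ((R227.idX σ k) ^ N).map f := Ideal.mem_map_of_mem f hs
    rw [Ideal.map_pow] at h2
    exact Ideal.pow_right_mono h1 N h2
  have hgI : ∀ (N : ℕ) (s : MvPowerSeries σ k), s ∈ R227.idX σ k ^ N → g s ∈ I ^ N := by
    intro N s hs
    have h1 : (R227.idX σ k).map g ≤ I := by
      rw [Ideal.map_span, Ideal.span_le]
      rintro _ ⟨_, ⟨i, rfl⟩, rfl⟩
      rw [← hX]
      exact hI i
    have h2 : g s ∈ ((R227.idX σ k) ^ N).map g := Ideal.mem_map_of_mem g hs
    rw [Ideal.map_pow] at h2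
    exact Ideal.pow_right_mono h1 N h2
  have hpoly : ∀ p : MvPolynomial σ k, f (p : MvPowerSeries σ k) = g (p : MvPowerSeries σ k) := by
    intro p
    induction p using MvPolynomial.induction_on with
    | C a => simpa using hC a
    | add p q hp hq => rw [MvPolynomial.coe_add, map_add, map_add, hp, hq]
    | mul_X p i hp => rw [MvPolynomial.coe_mul, map_mul, map_mul, hp, MvPolynomial.coe_X, hX]
  ext r
  rw [← sub_eq_zero]
  apply (inferInstance : IsHausdorff I Y).haus'
  intro N
  rw [SModEq.zero, smul_eq_mul, Ideal.mul_top]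
  have h3 : r - ((truncTotal N r : MvPolynomial σ k) : MvPowerSeries σ k) ∈ R227.idX σ k ^ N := by
    refine R227.mem_powX_of_coeff N _ fun e he => ?_
    rw [map_sub, MvPolynomial.coeff_coe, coeff_truncTotal _ he, sub_self]
  have h4 : f r - g r = f (r - ((truncTotal N r : MvPolynomial σ k) : MvPowerSeries σ k)) -
      g (r - ((truncTotal N r : MvPolynomial σ k) : MvPowerSeries σ k)) := by
    rw [map_sub, map_sub, hpoly]
    ring
  rw [h4]
  exact Ideal.sub_mem _ (hfI N _ h3) (hgI N _ h3)

end homext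

section setup

open MvPowerSeries

variable {k : Type u} [Field k] {d : ℕ}

theorem maximalIdeal_eq_idX :
    maximalIdeal (MvPowerSeries (Fin d) k) = R227.idX (Fin d) k := by
  rw [R227.maximalIdeal_mv, R227.idIX, IsLocalRing.maximalIdeal_eq_bot, Ideal.map_bot, bot_sup_eq]

theorem complete_k : IsAdicComplete (maximalIdeal (MvPowerSeries (Fin d) k))
    (MvPowerSeries (Fin d) k) := by
  have : IsAdicComplete (maximalIdeal k) k := by
    rw [IsLocalRing.maximalIdeal_eq_bot]
    infer_instance
  exact R227.isAdicComplete_maximalIdeal_mv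

variable {Y : Type u} [CommRing Y] [Algebra k Y] [IsLocalRing Y]

theorem complete_Y (π : MvPowerSeries (Fin d) k →ₐ[k] Y) (hπ : Surjective π) :
    IsAdicComplete (maximalIdeal Y) Y := by
  let _ : Algebra (MvPowerSeries (Fin d) k) Y := π.toRingHom.toAlgebra
  have hfin : Module.Finite (MvPowerSeries (Fin d) k) Y :=
    Module.Finite.of_surjective (Algebra.linearMap _ _) hπ
  have hk := complete_k (k := k) (d := d)
  exact R183.G.isAdicComplete_of_finite (MvPowerSeries (Fin d) k) Y

theorem exists_diagonal (π : MvPowerSeries (Fin d) k →ₐ[k] Y) (hπ : Surjective π) :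
    ∃ (l : List (MvPowerSeries (Fin d) Y)) (ρ : MvPowerSeries (Fin d) Y →+* Y),
      (∀ a ∈ l, a ∈ maximalIdeal (MvPowerSeries (Fin d) Y)) ∧ l.length = d ∧
      RingTheory.Sequence.IsWeaklyRegular (MvPowerSeries (Fin d) Y) l ∧
      (∀ r : MvPowerSeries (Fin d) k,
        ρ (algebraMap (MvPowerSeries (Fin d) k) (MvPowerSeries (Fin d) Y) r) = π r) ∧
      RingHom.ker ρ = Ideal.ofList l ∧ Surjective ρ := by
  have hY := complete_Y π hπ
  let c : Fin d → Y := fun i => π (X i)
  have hc : ∀ i, c i ∈ maximalIdeal Y := by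
    intro i
    rw [← Str.map_maximalIdeal_of_surjective (π : MvPowerSeries (Fin d) k →+* Y) hπ]
    refine Ideal.mem_map_of_mem _ ?_
    rw [maximalIdeal_eq_idX]
    exact Ideal.subset_span ⟨i, rfl⟩
  obtain ⟨h1, ρ, hC, hXρ, hker⟩ := exists_ev Y d c hc
  refine ⟨qs _ c, ρ, ?_, by simp [qs], h1, ?_, hker, fun x => ⟨C x, hC x⟩⟩
  · intro a ha
    rw [qs, List.mem_ofFn] at ha
    obtain ⟨i, rfl⟩ := ha
    rw [R227.maximalIdeal_mv, R227.mem_idIX_iff, map_sub, constantCoeff_X, constantCoeff_C,
      zero_sub]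
    exact neg_mem (hc i)
  · have h2 : ρ.comp (algebraMap (MvPowerSeries (Fin d) k) (MvPowerSeries (Fin d) Y)) =
        (π : MvPowerSeries (Fin d) k →+* Y) := by
      refine mv_hom_ext (maximalIdeal Y) _ _ ?_ ?_ ?_
      · intro a
        rw [RingHom.comp_apply, algebraMap_apply'', map_C, hC]
        exact (π.commutes a).symm
      · intro i
        rw [RingHom.comp_apply, algebraMap_apply'', map_X, hXρ]
        rfl
      · intro i
        rw [RingHom.comp_apply, algebraMap_apply'', map_X, hXρ]
        exact hc i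
    intro r
    exact congrFun (congrArg DFunLike.coe h2) r

omit [IsLocalRing Y] in
theorem dim_fibre :
    ringKrullDim (MvPowerSeries (Fin d) Y ⧸ (maximalIdeal (MvPowerSeries (Fin d) k)).map
      (algebraMap (MvPowerSeries (Fin d) k) (MvPowerSeries (Fin d) Y))) = ringKrullDim Y := by
  have h1 : (maximalIdeal (MvPowerSeries (Fin d) k)).map
      (algebraMap (MvPowerSeries (Fin d) k) (MvPowerSeries (Fin d) Y)) =
      RingHom.ker (constantCoeff : MvPowerSeries (Fin d) Y →+* Y) := by
    rw [maximalIdeal_eq_idX, Ideal.map_span]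
    apply le_antisymm
    · rw [Ideal.span_le]
      rintro _ ⟨_, ⟨i, rfl⟩, rfl⟩
      rw [algebraMap_apply'', map_X]
      simp [RingHom.mem_ker]
    · intro f hf
      have h2 : f ∈ R227.idX (Fin d) Y ^ 1 := by
        refine R227.mem_powX_of_coeff 1 _ fun e he => ?_
        have : e = 0 := by
          rw [← Finsupp.degree_eq_zero_iff]
          omega
        rw [this]
        exact hf
      rw [pow_one] at h2
      refine Ideal.span_mono ?_ h2
      rintro _ ⟨i, rfl⟩
      exact ⟨X i, ⟨i, rfl⟩, by rw [algebraMap_apply'', map_X]⟩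
  rw [h1]
  refine ringKrullDim_eq_of_ringEquiv (RingHom.quotientKerEquivOfSurjective ?_)
  intro y
  exact ⟨C y, by simp⟩

end setup

end Crest.Agent.R188.Eq
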