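/-
R188 (Serre positivity), block (A6), part E7: `R = k[[x_1..x_d]]`, coefficients in a quotient ring
`Y` of `R`.  helper702
-/
import Crest.Agent.R188.Eq6

set_option autoImplicit false
set_option linter.unusedSectionVars false

namespace Crest.Agent.R188.Eq

open IsLocalRing Module Function TensorProduct
open scoped Pointwise
open Crest.Agent.R183 Crest.Agent.R183.Res Crest.Agent.R188.Chi

universe u v w

theorem Good.of_subsingleton {A : Type u} [CommRing A] [IsLocalRing A] (l : List A) (W : Type v)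
    [AddCommGroup W] [Module A W] [Subsingleton W] : Good l W := by
  refine ⟨inferInstance, 0, ?_⟩
  refine le_sup_of_le_left ?_
  intro a _
  rw [Module.mem_annihilator]
  intro x
  exact Subsingleton.elim _ _

variable {k : Type u} [Field k] {d : ℕ}
variable {Y : Type u} [CommRing Y] [Algebra k Y] [IsLocalRing Y]

local notation "RR" => MvPowerSeries (Fin d) k
local notation "AA" => MvPowerSeries (Fin d) Y

theorem supportDim_baseChange_A [IsNoetherianRing Y]
    (N : Type u) [AddCommGroup N] [Module RR N] [Module.Finite RR N] :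
    Module.supportDim AA (AA ⊗[RR] N) = Module.supportDim RR N + ringKrullDim Y := by
  have hflat : Module.Flat RR AA := flat_mvPowerSeries
  rcases subsingleton_or_nontrivial N with hN | hN
  · have : Subsingleton (AA ⊗[RR] N) := inferInstance
    rw [Module.supportDim_eq_bot_of_subsingleton, Module.supportDim_eq_bot_of_subsingleton,
      WithBot.bot_add]
  · have hann : Module.annihilator RR N ≤ maximalIdeal RR := by
      refine IsLocalRing.le_maximalIdeal fun h => ?_
      rw [Module.annihilator_eq_top_iff] at h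
      exact not_subsingleton N h
    have hle : (maximalIdeal RR).map (algebraMap RR AA) ≤ maximalIdeal AA := by
      rw [maximalIdeal_eq_idX, Ideal.map_span, Ideal.span_le]
      rintro _ ⟨_, ⟨i, rfl⟩, rfl⟩
      rw [MvPowerSeries.algebraMap_apply'', MvPowerSeries.map_X, SetLike.mem_coe,
        R227.maximalIdeal_mv, R227.mem_idIX_iff]
      simp
    rw [Module.supportDim_eq_ringKrullDim_quotient_annihilator,
      Module.supportDim_eq_ringKrullDim_quotient_annihilator, Str.annihilator_baseChange,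
      ringKrullDim_quotient_eq_add _ _ hle _ hann, dim_fibre]

theorem good_tensor (π : RR →ₐ[k] Y) (hπ : Surjective π)
    (N : Type u) [AddCommGroup N] [Module RR N] [Module.Finite RR N]
    (l : List AA) (ρ : AA →+* Y)
    (hρ : ∀ r : RR, ρ (algebraMap RR AA r) = π r)
    (hker : RingHom.ker ρ = Ideal.ofList l) (hsurj : Surjective ρ)
    (hfin : ∃ n, maximalIdeal RR ^ n ≤ Module.annihilator RR N ⊔ RingHom.ker π) :
    Good l (AA ⊗[RR] N) := by
  have hflat : Module.Flat RR AA := flat_mvPowerSeries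
  obtain ⟨n, hn⟩ := hfin
  refine ⟨inferInstance, n, ?_⟩
  have h1 : ρ.comp (algebraMap RR AA) = (π : RR →+* Y) := RingHom.ext hρ
  rw [Str.annihilator_baseChange, ← hker, ← Ideal.comap_map_of_surjective' _ hsurj,
    ← Ideal.map_le_iff_le_comap, Ideal.map_pow, Str.map_maximalIdeal_of_surjective ρ hsurj,
    Ideal.map_map, h1, ← Str.map_maximalIdeal_of_surjective (π : RR →+* Y) hπ, ← Ideal.map_pow]
  refine (Ideal.map_mono hn).trans ?_
  rw [Ideal.map_sup, sup_le_iff]
  refine ⟨le_rfl, ?_⟩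
  rw [Ideal.map_le_iff_le_comap]
  intro x hx
  rw [Ideal.mem_comap]
  have : (π : RR →+* Y) x = 0 := hx
  rw [this]
  exact Ideal.zero_mem _

/-- `A/(l)` as an `R`-module -/
theorem exists_quot_equiv (π : RR →ₐ[k] Y) (hπ : Surjective π)
    (l : List AA) (ρ : AA →+* Y)
    (hρ : ∀ r : RR, ρ (algebraMap RR AA r) = π r)
    (hker : RingHom.ker ρ = Ideal.ofList l) :
    Nonempty ((AA ⧸ (Ideal.ofList l • ⊤ : Submodule AA AA)) ≃ₗ[RR] (RR ⧸ RingHom.ker π)) := by
  let f : RR →ₗ[RR] (AA ⧸ (Ideal.ofList l • ⊤ : Submodule AA AA)) :=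
    ((Submodule.mkQ (Ideal.ofList l • ⊤ : Submodule AA AA)).restrictScalars RR) ∘ₗ
      (Algebra.linearMap RR AA)
  have hf : ∀ r, f r = Submodule.mkQ (Ideal.ofList l • ⊤ : Submodule AA AA) (algebraMap RR AA r) :=
    fun r => rfl
  have htop : (Ideal.ofList l • ⊤ : Submodule AA AA) = RingHom.ker ρ := by
    rw [hker, smul_eq_mul, Ideal.mul_top]
  have hk : LinearMap.ker f = RingHom.ker π := by
    ext r
    rw [LinearMap.mem_ker, hf, ← LinearMap.mem_ker, Submodule.ker_mkQ, htop, RingHom.mem_ker,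
      RingHom.mem_ker, hρ]
  have hs : Surjective f := by
    intro v
    obtain ⟨a, rfl⟩ := Submodule.mkQ_surjective _ v
    obtain ⟨r, hr⟩ := hπ (ρ a)
    refine ⟨r, ?_⟩
    rw [hf, ← sub_eq_zero, ← map_sub, ← LinearMap.mem_ker, Submodule.ker_mkQ, htop,
      RingHom.mem_ker, map_sub, hρ, hr, sub_self]
  exact ⟨((Submodule.quotEquivOfEq _ _ hk.symm).trans (f.quotKerEquivOfSurjective hs)).symm⟩

theorem quot_smul (π : RR →ₐ[k] Y) (hπ : Surjective π)
    (l : List AA) (ρ : AA →+* Y)
    (hρ : ∀ r : RR, ρ (algebraMap RR AA r) = π r)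
    (hker : RingHom.ker ρ = Ideal.ofList l) (a : AA) :
    ∃ r : RR, ∀ v : (AA ⧸ (Ideal.ofList l • ⊤ : Submodule AA AA)), a • v = r • v := by
  obtain ⟨r, hr⟩ := hπ (ρ a)
  refine ⟨r, fun v => ?_⟩
  obtain ⟨b, rfl⟩ := Submodule.mkQ_surjective _ v
  rw [← algebraMap_smul AA r (Submodule.mkQ (Ideal.ofList l • ⊤ : Submodule AA AA) b), ← map_smul,
    ← map_smul, ← sub_eq_zero, ← map_sub, ← LinearMap.mem_ker, Submodule.ker_mkQ]
  have htop : (Ideal.ofList l • ⊤ : Submodule AA AA) = RingHom.ker ρ := by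
    rw [hker, smul_eq_mul, Ideal.mul_top]
  rw [htop, RingHom.mem_ker, smul_eq_mul, smul_eq_mul, map_sub, map_mul, map_mul, hρ, hr, sub_self]

set_option synthInstance.maxHeartbeats 400000 in
set_option maxHeartbeats 1000000 in
theorem main_quot [IsNoetherianRing Y] (π : RR →ₐ[k] Y) (hπ : Surjective π)
    (N : Type u) [AddCommGroup N] [Module RR N] [Module.Finite RR N]
    {F : MCx RR} {ε : (F.ι 0 → RR) →ₗ[RR] N} (hF : IsRes F ε)
    (hfin : ∃ n, maximalIdeal RR ^ n ≤ Module.annihilator RR N ⊔ RingHom.ker π)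
    (M : ℕ) (hM : 1 + d ≤ M) :
    (∀ i, Module.length RR (HX RR F (RR ⧸ RingHom.ker π) i) ≠ ⊤) ∧
    (∀ i, 1 + d ≤ i → Subsingleton (HX RR F (RR ⧸ RingHom.ker π) i)) ∧
    0 ≤ ∑ i ∈ Finset.range M, (-1) ^ i *
      ((Module.length RR (HX RR F (RR ⧸ RingHom.ker π) i)).toNat : ℤ) ∧
    (0 < ∑ i ∈ Finset.range M, (-1) ^ i *
      ((Module.length RR (HX RR F (RR ⧸ RingHom.ker π) i)).toNat : ℤ) ↔
      Module.supportDim RR N + ringKrullDim Y = d) ∧
    Module.supportDim RR N + ringKrullDim Y ≤ d := by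
  have hflat : Module.Flat RR AA := flat_mvPowerSeries
  obtain ⟨l, ρ, hl, hlen, hreg, hρ, hker, hsurj⟩ := exists_diagonal (d := d) π hπ
  have hgood := good_tensor π hπ N l ρ hρ hker hsurj hfin
  have hg : ∀ i, Good l (HX AA F AA i) := by
    intro i
    cases i with
    | zero => exact hgood.congr (H0Flat hF).symm
    | succ i =>
      have := subsingleton_HX_of_flat (A := AA) hF i
      exact Good.of_subsingleton _ _
  have hsub : ∀ i, 1 ≤ i → Subsingleton (HX AA F AA i) := by
    intro i hi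
    obtain ⟨j, rfl⟩ := Nat.exists_eq_add_of_le' hi
    exact subsingleton_HX_of_flat (A := AA) hF j
  obtain ⟨h1, h2, h3⟩ := chain F l AA hreg hg 1 hsub M (by rw [hlen]; exact hM)
  obtain ⟨ψ⟩ := exists_quot_equiv π hπ l ρ hρ hker
  have hlength : ∀ i, Module.length AA
      (HX AA F (AA ⧸ (Ideal.ofList l • ⊤ : Submodule AA AA)) i) =
      Module.length RR (HX RR F (RR ⧸ RingHom.ker π) i) := by
    intro i
    rw [length_HX_eq F (A := AA) (B := RR) (AA ⧸ (Ideal.ofList l • ⊤ : Submodule AA AA))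
      (quot_smul π hπ l ρ hρ hker) (fun r => ⟨algebraMap RR AA r, fun m => algebraMap_smul AA r m⟩) i]
    exact (HXcongr F ψ (fun r x => map_smul ψ r x) i).length_eq
  have hee : ee F l AA M = e l (AA ⊗[RR] N) := by
    unfold ee
    obtain ⟨M', rfl⟩ := Nat.exists_eq_add_of_le' (by omega : 1 ≤ M)
    rw [Finset.sum_range_succ', Finset.sum_eq_zero]
    · rw [zero_add, pow_zero, one_mul]
      exact e_congr l (H0Flat hF)
    · intro i _
      have := hsub (i + 1) (by omega)
      rw [e_subsingleton l, mul_zero]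
  have hsum : ∑ i ∈ Finset.range M, (-1) ^ i *
      ((Module.length RR (HX RR F (RR ⧸ RingHom.ker π) i)).toNat : ℤ) = e l (AA ⊗[RR] N) := by
    rw [← hee, h1, ee_nil]
    refine Finset.sum_congr rfl fun i _ => ?_
    rw [hlength]
  obtain ⟨h4, h5⟩ := e_serre l hl (AA ⊗[RR] N) hgood
  have h6 := hgood.supportDim_le l hl
  rw [supportDim_baseChange_A, hlen] at h5 h6
  refine ⟨fun i => ?_, fun i hi => ?_, ?_, ?_, h6⟩
  · rw [← hlength]
    exact (h2 i).length_ne_top
  · have := h3 i (by rw [hlen]; exact hi)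
    rw [← Module.length_eq_zero_iff (R := RR), ← hlength]
    exact Module.length_eq_zero
  · rw [hsum]; exact h4
  · rw [hsum]; exact h5

end Crest.Agent.R188.Eq
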