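/-
R188 (Serre positivity), block (A6), part E8: `R = k[[x_1..x_d]]`, all finite modules, and the
reduction of S0288 in equal characteristic.  helper702
-/
import Crest.Agent.R188.Eq7
import Crest.Agent.R188.ChiLen

set_option autoImplicit false
set_option linter.unusedSectionVars false

namespace Crest.Agent.R188.Eq

open IsLocalRing Module Function TensorProduct
open scoped Pointwise ENNReal
open Crest.Agent.R183 Crest.Agent.R183.Res Crest.Agent.R188.Chi

universe u v w

section

variable {R : Type u} [CommRing R] [IsLocalRing R]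

/-- the statement proved by devissage: Serre's theorem for `F ⊗ X`, `F` a resolution of a module
of dimension `a`; `I` is the annihilator of that module. -/
def Pos (I : Ideal R) (a : WithBot ℕ∞) (d : ℕ) (F : MCx R) (M : ℕ) (X : Type u) [AddCommGroup X]
    [Module R X] : Prop :=
  (∃ n, maximalIdeal R ^ n ≤ I ⊔ Module.annihilator R X) →
    (∀ i, hX (AddLen.ofLength R) F X i ≠ ⊤) ∧
    (∀ i, 1 + d ≤ i → hX (AddLen.ofLength R) F X i = 0) ∧
    0 ≤ chiX (AddLen.ofLength R) F X M ∧
    (0 < chiX (AddLen.ofLength R) F X M ↔ a + Module.supportDim R X = d) ∧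
    a + Module.supportDim R X ≤ d

lemma hX_ofLength (F : MCx R) (X : Type u) [AddCommGroup X] [Module R X] (i : ℕ) :
    hX (AddLen.ofLength R) F X i = ((Module.length R (HX R F X i) : ℕ∞) : ℝ≥0∞) := rfl

lemma toReal_ofLength (F : MCx R) (X : Type u) [AddCommGroup X] [Module R X] (i : ℕ) :
    (hX (AddLen.ofLength R) F X i).toReal =
      ((((Module.length R (HX R F X i)).toNat : ℤ)) : ℝ) := by
  rw [hX_ofLength]
  generalize Module.length R (HX R F X i) = x
  cases x with
  | top => simp
  | coe n => simp

lemma chiX_ofLength (F : MCx R) (X : Type u) [AddCommGroup X] [Module R X] (M : ℕ) :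
    chiX (AddLen.ofLength R) F X M = ((∑ i ∈ Finset.range M, (-1) ^ i *
      ((Module.length R (HX R F X i)).toNat : ℤ) : ℤ) : ℝ) := by
  rw [chiX_eq]
  push_cast
  refine Finset.sum_congr rfl fun i _ => ?_
  rw [toReal_ofLength]
  push_cast
  rfl

lemma supportDim_eq_max {X Y Z : Type u} [AddCommGroup X] [Module R X] [AddCommGroup Y] [Module R Y]
    [AddCommGroup Z] [Module R Z] (f : X →ₗ[R] Y) (g : Y →ₗ[R] Z) (hf : Injective f)
    (hg : Surjective g) (h : Exact f g) :
    Module.supportDim R Y = max (Module.supportDim R X) (Module.supportDim R Z) :=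
  le_antisymm (supportDim_le_of_exact f g hf hg h)
    (max_le (Module.supportDim_le_of_injective f hf) (Module.supportDim_le_of_surjective g hg))

theorem Pos.exact {I : Ideal R} {a : WithBot ℕ∞} {d : ℕ} {F : MCx R} {M : ℕ} (hM : 1 + d ≤ M)
    {X Y Z : Type u} [AddCommGroup X] [Module R X] [AddCommGroup Y] [Module R Y]
    [AddCommGroup Z] [Module R Z] (f : X →ₗ[R] Y) (g : Y →ₗ[R] Z) (hf : Injective f)
    (hg : Surjective g) (h : Exact f g) (hX' : Pos I a d F M X) (hZ : Pos I a d F M Z) :
    Pos I a d F M Y := by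
  rintro ⟨n, hn⟩
  obtain ⟨x1, x2, x3, x4, x5⟩ := hX' ⟨n, hn.trans (sup_le_sup_left
    (f.annihilator_le_of_injective hf) _)⟩
  obtain ⟨z1, z2, z3, z4, z5⟩ := hZ ⟨n, hn.trans (sup_le_sup_left
    (g.annihilator_le_of_surjective hg) _)⟩
  have hlf : RLin R f := fun r x => map_smul f r x
  have hlg : RLin R g := fun r x => map_smul g r x
  have hle := fun i => hX_mid_le (AddLen.ofLength R) F hlf hlg hf hg h i
  have hadd := chiX_add (AddLen.ofLength R) F hlf hlg hf hg h M (fun i _ => x1 i) (fun i _ => z1 i)
    (z2 M hM)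
  rw [supportDim_eq_max f g hf hg h, hadd]
  refine ⟨fun i => ne_top_of_le_ne_top (ENNReal.add_ne_top.2 ⟨x1 i, z1 i⟩) (hle i),
    fun i hi => ?_, by positivity, ?_, ?_⟩
  · have := hle i
    rw [x2 i hi, z2 i hi, add_zero] at this
    exact le_antisymm this zero_le
  · rcases le_total (Module.supportDim R X) (Module.supportDim R Z) with hc | hc
    · rw [max_eq_right hc, ← z4]
      constructor
      · intro h1
        by_contra h2
        have h3 : ¬ 0 < chiX (AddLen.ofLength R) F X M := by
          intro h3
          have h4 := x4.1 h3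
          apply h2
          rw [z4]
          refine le_antisymm z5 ?_
          rw [← h4]
          exact add_le_add_right hc a
        linarith
      · intro h1
        linarith
    · rw [max_eq_left hc, ← x4]
      constructor
      · intro h1
        by_contra h2
        have h3 : ¬ 0 < chiX (AddLen.ofLength R) F Z M := by
          intro h3
          have h4 := z4.1 h3
          apply h2
          rw [x4]
          refine le_antisymm x5 ?_
          rw [← h4]
          exact add_le_add_right hc a
        linarith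
      · intro h1
        linarith
  · rcases le_total (Module.supportDim R X) (Module.supportDim R Z) with hc | hc
    · rw [max_eq_right hc]; exact z5
    · rw [max_eq_left hc]; exact x5

theorem Pos.subsingleton (I : Ideal R) (a : WithBot ℕ∞) (d : ℕ) (F : MCx R) (M : ℕ) (X : Type u)
    [AddCommGroup X] [Module R X] [Subsingleton X] : Pos I a d F M X := by
  intro _
  have h0 : ∀ i, hX (AddLen.ofLength R) F X i = 0 := fun i =>
    hX_subsingleton (AddLen.ofLength R) F X i
  have h1 : chiX (AddLen.ofLength R) F X M = 0 := by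
    rw [chiX_eq]
    exact Finset.sum_eq_zero fun i _ => by rw [h0]; simp
  rw [h1, Module.supportDim_eq_bot_of_subsingleton, WithBot.add_bot]
  refine ⟨fun i => by rw [h0]; simp, fun i _ => h0 i, le_rfl, ?_, bot_le⟩
  constructor
  · intro h; exact absurd h (lt_irrefl _)
  · intro h
    exact absurd h (by exact (WithBot.coe_ne_bot (a := ((d : ℕ) : ℕ∞))).symm)

theorem Pos.congr {I : Ideal R} {a : WithBot ℕ∞} {d : ℕ} {F : MCx R} {M : ℕ} {X Y : Type u}
    [AddCommGroup X] [Module R X] [AddCommGroup Y] [Module R Y] (ψ : X ≃ₗ[R] Y)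
    (h : Pos I a d F M X) : Pos I a d F M Y := by
  intro hn
  have hh : ∀ i, hX (AddLen.ofLength R) F X i = hX (AddLen.ofLength R) F Y i := fun i =>
    hX_congr (AddLen.ofLength R) F ψ (fun r x => map_smul ψ r x) i
  have hc : chiX (AddLen.ofLength R) F X M = chiX (AddLen.ofLength R) F Y M :=
    chiX_congr (AddLen.ofLength R) F ψ (fun r x => map_smul ψ r x) M
  have hd := Module.supportDim_eq_of_equiv ψ
  rw [← ψ.annihilator_eq] at hn
  obtain ⟨h1, h2, h3, h4, h5⟩ := h hn
  rw [← hc, ← hd]
  exact ⟨fun i => by rw [← hh]; exact h1 i, fun i hi => by rw [← hh]; exact h2 i hi, h3, h4, h5⟩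

end

section

variable {k : Type u} [Field k] {d : ℕ}

local notation "RR" => MvPowerSeries (Fin d) k

theorem pos_quot (N : Type u) [AddCommGroup N] [Module RR N] [Module.Finite RR N]
    {F : MCx RR} {ε : (F.ι 0 → RR) →ₗ[RR] N} (hF : IsRes F ε) (M : ℕ) (hM : 1 + d ≤ M)
    (P : Ideal RR) [P.IsPrime] :
    Pos (Module.annihilator RR N) (Module.supportDim RR N) d F M (RR ⧸ P) := by
  intro hn
  rw [Ideal.annihilator_quotient] at hn
  have hloc : IsLocalRing (RR ⧸ P) :=
    Str.isLocalRing_quotient (IsLocalRing.le_maximalIdeal (Ideal.IsPrime.ne_top ‹_›))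
  have hk : RingHom.ker (Ideal.Quotient.mkₐ k P) = P := Ideal.Quotient.mkₐ_ker k P
  obtain ⟨h1, h2, h3, h4, h5⟩ := main_quot (Y := RR ⧸ P) (Ideal.Quotient.mkₐ k P)
    (Ideal.Quotient.mkₐ_surjective k P) N hF (by rw [hk]; exact hn) M hM
  rw [hk] at h1 h2 h3 h4
  rw [chiX_ofLength, Module.supportDim_quotient_eq_ringKrullDim]
  refine ⟨fun i => ?_, fun i hi => ?_, by exact_mod_cast h3, ?_, h5⟩
  · rw [hX_ofLength]
    have := h1 i
    simpa using this
  · have := h2 i hi
    rw [hX_ofLength, Module.length_eq_zero]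
    simp
  · rw [← h4]
    exact_mod_cast Iff.rfl

/-- **Serre's theorem in equal characteristic** for `F ⊗ X`, `F` a resolution of `N`. -/
theorem pos_all (N : Type u) [AddCommGroup N] [Module RR N] [Module.Finite RR N]
    {F : MCx RR} {ε : (F.ι 0 → RR) →ₗ[RR] N} (hF : IsRes F ε) (M : ℕ) (hM : 1 + d ≤ M)
    (X : Type u) [AddCommGroup X] [Module RR X] (hfin : Module.Finite RR X) :
    Pos (Module.annihilator RR N) (Module.supportDim RR N) d F M X := by
  induction hfin using IsNoetherianRing.induction_on_isQuotientEquivQuotientPrime RR with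
  | subsingleton X => exact Pos.subsingleton _ _ _ _ _ _
  | quotient X p f =>
    have := p.2
    exact (pos_quot N hF M hM p.1).congr f.symm
  | exact X Y Z f g hf hg hfg h1 h3 => exact Pos.exact hM f g hf hg hfg h1 h3

end

end Crest.Agent.R188.Eq
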