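/-
R188 (Serre positivity), block (A6), part E9: S0288 for `k[[x_1..x_d]]`, hence for every regular
local ring of equal characteristic; S0288 is reduced to mixed characteristic, complete, residue
field algebraically closed.  helper702
-/
import Crest.Agent.R188.Eq8
import Crest.Agent.R188.Str3
import Crest.Agent.R188.Noe6

set_option autoImplicit false
set_option linter.unusedSectionVars false

namespace Crest.Agent.R188.Eq

open IsLocalRing Module Function TensorProduct
open scoped Pointwise ENNReal
open Crest.Agent.R183 Crest.Agent.R183.Res Crest.Agent.R188.Chi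

universe u v w

/-- the sum of S0288 -/
noncomputable abbrev torSum (R : Type u) [CommRing R] (M N : ModuleCat.{u} R) (n : ℕ) : ℤ :=
  ∑ i ∈ Finset.range n, (-1 : ℤ) ^ i *
      ((Module.length R (((CategoryTheory.Tor (ModuleCat.{u} R) i).obj M).obj N)).toNat : ℤ)

/-- the statement S0288 for the ring `R` -/
def S288 (R : Type u) [CommRing R] : Prop :=
  ∀ (d : ℕ) (_ : ringKrullDim R = d) (M N : ModuleCat.{u} R)
    [Module.Finite R M] [Module.Finite R N] [Nontrivial M] [Nontrivial N]
    (_ : IsFiniteLength R (TensorProduct R M N))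
    (_ : Module.supportDim R M + Module.supportDim R N = d),
    0 < ∑ i ∈ Finset.range (d + 1), (-1 : ℤ) ^ i *
      ((Module.length R (((CategoryTheory.Tor (ModuleCat.{u} R) i).obj M).obj N)).toNat : ℤ)

/-- `M ⊗ N` of finite length, `R` local: `m^n ≤ Ann N + Ann M`. -/
theorem exists_pow_le (R : Type u) [CommRing R] [IsLocalRing R] [IsNoetherianRing R]
    (M N : Type u) [AddCommGroup M] [Module R M] [AddCommGroup N] [Module R N]
    [Module.Finite R M] [Module.Finite R N] (h : IsFiniteLength R (TensorProduct R M N)) :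
    ∃ n, maximalIdeal R ^ n ≤ Module.annihilator R N ⊔ Module.annihilator R M := by
  have h1 := length_ann_ne_top h
  rw [Module.length_ne_top_iff] at h1
  obtain ⟨c, hc⟩ := Noe.exists_pow_le_annihilator h1
  rw [Ideal.annihilator_quotient, sup_comm] at hc
  exact ⟨c, hc⟩

/-- **S0288 for `k[[x_1..x_d]]`** -/
theorem s288_mvPowerSeries (k : Type u) [Field k] (d : ℕ) : S288 (MvPowerSeries (Fin d) k) := by
  intro d' hd' M N _ _ _ _ hlen hdim
  have hdd : (d' : WithBot ℕ∞) = (d : ℕ) := by
    rw [← hd', R183.Cohen.ringKrullDim_mvPowerSeries, ringKrullDim_eq_zero_of_field, zero_add]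
  obtain ⟨F, ε, hF⟩ := exists_res (T := MvPowerSeries (Fin d) k) N
  rw [sum_tor_pos_iff M N hF]
  obtain rfl : d' = d := by
    have h1 : ((d' : ℕ∞) : WithBot ℕ∞) = ((d : ℕ∞) : WithBot ℕ∞) := hdd
    rw [WithBot.coe_inj] at h1
    exact_mod_cast h1
  obtain ⟨-, -, -, h4, -⟩ := pos_all (d := d') N hF (d' + 1) (by omega) M inferInstance
    (exists_pow_le _ M N hlen)
  rw [h4, add_comm]
  exact hdim

/-- S0288 descends along flat local homomorphisms `R → S` with `m_R S = m_S`. -/
theorem S288.of_flat {R S : Type u} [CommRing R] [IsLocalRing R] [IsNoetherianRing R] [CommRing S]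
    [IsLocalRing S] [IsNoetherianRing S] [Algebra R S] [Module.Flat R S]
    (hm : (maximalIdeal R).map (algebraMap R S) = maximalIdeal S) (h : S288 S) : S288 R := by
  intro d hd M N _ _ _ _ hlen hdim
  have h1 := sum_tor_baseChange hm M N (d + 1)
  rw [← h1]
  have hdS : ringKrullDim S = d := by
    rw [← hd]
    exact R183.G.ringKrullDim_eq_of_map_maximalIdeal hm
  have i1 : Nontrivial (S ⊗[R] M) := Str.nontrivial_baseChange R S hm M
  have i2 : Nontrivial (S ⊗[R] N) := Str.nontrivial_baseChange R S hm N
  have i3 : Nontrivial (ModuleCat.of S (S ⊗[R] M)) := i1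
  have i4 : Nontrivial (ModuleCat.of S (S ⊗[R] N)) := i2
  have i5 : Module.Finite S (ModuleCat.of S (S ⊗[R] M)) :=
    (inferInstance : Module.Finite S (S ⊗[R] M))
  have i6 : Module.Finite S (ModuleCat.of S (S ⊗[R] N)) :=
    (inferInstance : Module.Finite S (S ⊗[R] N))
  refine h d hdS (ModuleCat.of S (S ⊗[R] M)) (ModuleCat.of S (S ⊗[R] N)) ?_ ?_
  · exact Str.isFiniteLength_tensor_baseChange R S hm M N hlen
  · rw [← hdim]
    congr 1
    · exact Str.supportDim_baseChange R S hm M
    · exact Str.supportDim_baseChange R S hm N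

/-- S0288 is invariant under isomorphism. -/
theorem S288.of_ringEquiv {R S : Type u} [CommRing R] [IsLocalRing R] [IsNoetherianRing R]
    [CommRing S] [IsLocalRing S] [IsNoetherianRing S] (e : R ≃+* S) (h : S288 S) : S288 R := by
  let _ : Algebra R S := e.toRingHom.toAlgebra
  have hflat : Module.Flat R S := by
    let ψ : R ≃ₗ[R] S := LinearEquiv.ofBijective (Algebra.linearMap R S) e.bijective
    exact Module.Flat.of_linearEquiv ψ.symm
  refine S288.of_flat (S := S) ?_ h
  exact Str.map_maximalIdeal_of_surjective (algebraMap R S) e.surjective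

/-- **S0288 in mixed characteristic**: the remaining case. -/
def Mixed288 : Prop :=
  ∀ (S : Type) [CommRing S] [IsRegularLocalRing S] [IsAdicComplete (maximalIdeal S) S]
    [IsAlgClosed (ResidueField S)] (p : ℕ) [Fact p.Prime] [CharP (ResidueField S) p],
    (p : S) ≠ 0 → S288 S

/-- **S0288 reduces to mixed characteristic** (complete, algebraically closed residue field). -/
theorem s288_of_mixed (h : Mixed288) (R : Type) [CommRing R] [IsRegularLocalRing R] : S288 R := by
  obtain ⟨S, _, _, _, hc, hac, hflat, hm, hdim⟩ := Str.exists_gonflement_regular R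
  refine S288.of_flat hm ?_
  obtain ⟨d, hd⟩ : ∃ d : ℕ, ringKrullDim S = (d : ℕ) := by
    exact ⟨_, (IsRegularLocalRing.spanFinrank_maximalIdeal (R := S)).symm⟩
  obtain ⟨t, ht⟩ := Str.exists_generators S hd
  rcases Str.structure_of_isAlgClosed S hd t ht with ⟨e, -, -⟩ | ⟨p, hp, hch, hp0, -⟩
  · exact S288.of_ringEquiv e.symm (s288_mvPowerSeries _ d)
  · exact h S p hp0

end Crest.Agent.R188.Eq
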