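/-
R188 (Serre positivity), top of the tree: pairs killed by `p` (Hochster's theta + equal
characteristic).   helper622
-/
import Crest.Agent.R188.Top2
import Crest.Agent.R188.ChiTheta
import Crest.Agent.R188.Eq9

set_option autoImplicit false
set_option linter.unusedSectionVars false

namespace Crest.Agent.R188.Top

open scoped ENNReal TensorProduct
open IsLocalRing
open Crest.Agent.R183 Crest.Agent.R183.Res Crest.Agent.R188.Chi

universe u v w

section change

variable {R : Type u} [CommRing R] {S : Type u} [CommRing S]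
  [Algebra R S] {M X : Type u} [AddCommGroup M] [Module R M] [Module S M] [IsScalarTower R S M]
  [AddCommGroup X] [Module R X] [Module S X] [IsScalarTower R S X]

/-- `Proper` does not change under a surjective change of rings. -/
theorem proper_iff_of_surjective (hs : Function.Surjective (algebraMap R S)) :
    Proper R M X ↔ Proper S M X := by
  have hann : ∀ (M : Type u) [AddCommGroup M] [Module R M] [Module S M] [IsScalarTower R S M],
      Module.annihilator R M = (Module.annihilator S M).comap (algebraMap R S) := by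
    intro M _ _ _ _
    ext r
    rw [Ideal.mem_comap, Module.mem_annihilator, Module.mem_annihilator]
    simp only [algebraMap_smul]
  have h1 : Module.annihilator R M ⊔ Module.annihilator R X =
      (Module.annihilator S M ⊔ Module.annihilator S X).comap (algebraMap R S) := by
    rw [← Ideal.map_comap_of_surjective _ hs (Module.annihilator S M),
      ← Ideal.map_comap_of_surjective _ hs (Module.annihilator S X), ← Ideal.map_sup,
      Ideal.comap_map_of_surjective _ hs, hann M, hann X]
    symm
    rw [sup_eq_left]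
    exact le_sup_of_le_left (Ideal.comap_mono bot_le)
  have e : (R ⧸ (Module.annihilator R M ⊔ Module.annihilator R X)) ≃+*
      (S ⧸ (Module.annihilator S M ⊔ Module.annihilator S X)) :=
    RingEquiv.ofBijective (Ideal.quotientMap _ (algebraMap R S) h1.le)
      ⟨Ideal.quotientMap_injective' h1.ge, Ideal.quotientMap_surjective hs⟩
  unfold Proper
  rw [ringKrullDim_eq_of_ringEquiv e]

end change

section theta

variable {S T A : Type u} [CommRing S] [IsRegularLocalRing S] [CommRing T] [IsRegularLocalRing T]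
  [CommRing A] [IsLocalRing A] [IsNoetherianRing A] [Algebra S A] [Algebra T A]
  {E₁ : S} {E₂ : T} {M X : Type u} [AddCommGroup M] [AddCommGroup X]
  [Module S M] [Module T M] [Module A M] [IsScalarTower S A M] [IsScalarTower T A M]
  [Module S X] [Module T X] [Module A X] [IsScalarTower S A X] [IsScalarTower T A X]

/-- `χ_S(M, X) = χ_T(M, X)` if `S/E₁ = A = T/E₂` -/
theorem pair_eq_of_two [Module.Finite S M] [Module.Finite T M] [Module.Finite A M]
    [Module.Finite S X] [Module.Finite T X] {d : ℕ} (hdS : ringKrullDim S = d)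
    (hdT : ringKrullDim T = d) (h1 : Function.Surjective (algebraMap S A))
    (h2 : Function.Surjective (algebraMap T A)) (k1 : RingHom.ker (algebraMap S A) = Ideal.span {E₁})
    (k2 : RingHom.ker (algebraMap T A) = Ideal.span {E₂}) (hE1 : E₁ ∈ nonZeroDivisors S)
    (hE2 : E₂ ∈ nonZeroDivisors T) (hp : Proper S M X) :
    pair S d M X = pair T d M X := by
  have hpA : Proper A M X := (proper_iff_of_surjective h1).1 hp
  have hpT : Proper T M X := (proper_iff_of_surjective h2).2 hpA
  obtain ⟨F, ε, hF⟩ := exists_res (T := A) M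
  obtain ⟨G₁, ε₁, hG₁, -, hl₁⟩ := exists_res_len hdS M
  obtain ⟨G₂, ε₂, hG₂, -, hl₂⟩ := exists_res_len hdT M
  have c1 : ∀ s : S, ∃ t : T, ∀ m : X, s • m = t • m := fun s => by
    obtain ⟨t, ht⟩ := h2 (algebraMap S A s)
    exact ⟨t, fun m => by rw [← algebraMap_smul A s m, ← algebraMap_smul A t m, ht]⟩
  have c2 : ∀ t : T, ∃ s : S, ∀ m : X, s • m = t • m := fun t => by
    obtain ⟨s, hs⟩ := h1 (algebraMap T A t)
    exact ⟨s, fun m => by rw [← algebraMap_smul A s m, ← algebraMap_smul A t m, hs]⟩
  have i1 : SMulCommClass A S X := ⟨fun a s m => by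
    rw [← algebraMap_smul A s, ← algebraMap_smul A s, smul_comm]⟩
  have i2 : SMulCommClass T S X := ⟨fun t s m => by
    rw [← algebraMap_smul A s, ← algebraMap_smul A s, ← algebraMap_smul A t,
      ← algebraMap_smul A t, smul_comm]⟩
  have fin₁ : ∀ i, hX (AddLen.ofLength S) G₁ X i ≠ ⊤ := fun i =>
    hX_length_ne_top (proper_iff.1 hp.symm) hG₁ i
  have fin₂' : ∀ i, hX (AddLen.ofLength T) G₂ X i ≠ ⊤ := fun i =>
    hX_length_ne_top (proper_iff.1 hpT.symm) hG₂ i
  have e2 : ∀ i, hX (AddLen.ofLength S) G₂ X i = hX (AddLen.ofLength T) G₂ X i := fun i => by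
    have := Eq.length_HX_eq (R := T) (A := S) (B := T) G₂ X c1 c2 i
    rw [hX_eq, hX_eq, AddLen.ofLength_L, AddLen.ofLength_L, this]
  have fin₂ : ∀ i, hX (AddLen.ofLength S) G₂ X i ≠ ⊤ := fun i => by
    rw [e2]; exact fin₂' i
  rw [pair_eq hG₁, pair_eq hG₂, chiX_eq_of_two (AddLen.ofLength S) (R := A) (S₁ := S) (S₂ := T)
    (φ₁ := algebraMap S A) (φ₂ := algebraMap T A) (E₁ := E₁) (E₂ := E₂) hF h1 k1 hE1
    (fun s m => (algebraMap_smul A s m).symm) (fun s m => (algebraMap_smul A s m).symm) hG₁ fin₁
    (fun i hi => hX_eq_zero_of_len _ _ _ hl₁ hi) h2 k2 hE2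
    (fun s m => (algebraMap_smul A s m).symm) (fun s m => (algebraMap_smul A s m).symm) hG₂ fin₂
    (fun i hi => hX_eq_zero_of_len _ _ _ hl₂ hi)]
  rw [chiX_eq, chiX_eq]
  exact Finset.sum_congr rfl fun i _ => by rw [e2]

/-- positivity over `S` from positivity over `T` -/
theorem Good.of_two [Module.Finite S M] [Module.Finite T M] [Module.Finite A M]
    [Module.Finite S X] [Module.Finite T X] {d : ℕ} (hdS : ringKrullDim S = d)
    (hdT : ringKrullDim T = d) (h1 : Function.Surjective (algebraMap S A))
    (h2 : Function.Surjective (algebraMap T A)) (k1 : RingHom.ker (algebraMap S A) = Ideal.span {E₁})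
    (k2 : RingHom.ker (algebraMap T A) = Ideal.span {E₂}) (hE1 : E₁ ∈ nonZeroDivisors S)
    (hE2 : E₂ ∈ nonZeroDivisors T) (h : Good T d M X) : Good S d M X := by
  intro hp hdim
  rw [pair_eq_of_two hdS hdT h1 h2 k1 k2 hE1 hE2 hp]
  have hpA : Proper A M X := (proper_iff_of_surjective h1).1 hp
  have hpT : Proper T M X := (proper_iff_of_surjective h2).2 hpA
  rw [Noe.supportDim_of_surjective h1, Noe.supportDim_of_surjective (M := X) h1,
    ← Noe.supportDim_of_surjective (R := T) h2,
    ← Noe.supportDim_of_surjective (R := T) (M := X) h2] at hdim ⊢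
  exact h hpT hdim

end theta

section equal

/-- equal characteristic -/
theorem good_mvPowerSeries (k : Type u) [Field k] (d : ℕ) (M X : Type u)
    [AddCommGroup M] [Module (MvPowerSeries (Fin d) k) M] [Module.Finite (MvPowerSeries (Fin d) k) M]
    [AddCommGroup X] [Module (MvPowerSeries (Fin d) k) X]
    [Module.Finite (MvPowerSeries (Fin d) k) X] :
    Good (MvPowerSeries (Fin d) k) d M X := by
  intro hp hdim
  obtain ⟨F, ε, hF⟩ := exists_res (T := MvPowerSeries (Fin d) k) M
  obtain ⟨-, -, h3, h4, -⟩ := Eq.pos_all (d := d) M hF (d + 1) (by omega) X inferInstance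
    (Noe.exists_pow_le_of_ringKrullDim_le_zero hp)
  rw [pair_eq hF]
  exact ⟨h3, fun h => h4.2 h⟩

end equal

section rings

/-- kernel of the coefficientwise map of power series rings -/
theorem ker_mvPowerSeries_map {σ : Type*} {A B : Type*} [CommRing A] [CommRing B] (φ : A →+* B)
    {a : A} (h : RingHom.ker φ = Ideal.span {a}) :
    RingHom.ker (MvPowerSeries.map (σ := σ) φ) = Ideal.span {MvPowerSeries.C a} := by
  ext f
  rw [RingHom.mem_ker, Ideal.mem_span_singleton]
  constructor
  · intro hf
    have h1 : ∀ n, ∃ b, MvPowerSeries.coeff n f = a * b := by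
      intro n
      have h2 : MvPowerSeries.coeff n f ∈ RingHom.ker φ := by
        rw [RingHom.mem_ker, ← MvPowerSeries.coeff_map, hf, map_zero]
      rw [h, Ideal.mem_span_singleton] at h2
      exact h2
    choose b hb using h1
    let g : MvPowerSeries σ A := fun n => b n
    have hg : ∀ n, MvPowerSeries.coeff n g = b n := fun n => rfl
    refine ⟨g, ?_⟩
    ext n
    rw [MvPowerSeries.coeff_C_mul, hb, hg]
  · rintro ⟨g, rfl⟩
    have ha : φ a = 0 := by
      have : a ∈ RingHom.ker φ := by rw [h]; exact Ideal.mem_span_singleton_self a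
      exact this
    rw [map_mul, MvPowerSeries.map_C, ha, map_zero, zero_mul]

theorem mvPowerSeries_map_surjective {σ : Type*} {A B : Type*} [CommRing A] [CommRing B]
    (φ : A →+* B) (h : Function.Surjective φ) :
    Function.Surjective (MvPowerSeries.map (σ := σ) φ) := by
  intro g
  choose f hf using fun n => h (MvPowerSeries.coeff n g)
  let f' : MvPowerSeries σ A := fun n => f n
  have hf' : ∀ n, MvPowerSeries.coeff n f' = f n := fun n => rfl
  refine ⟨f', ?_⟩
  ext n
  rw [MvPowerSeries.coeff_map, hf', hf n]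

/-- `S/P = T/(q f)` if `S = W/(P - f)`, `T = W/P` -/
theorem exists_common_quotient {W S T : Type*} [CommRing W] [CommRing S] [CommRing T] (π : W →+* S)
    (hπ : Function.Surjective π) (q : W →+* T) (hq : Function.Surjective q) {P f : W}
    (hk : RingHom.ker π = Ideal.span {P - f}) (hkq : RingHom.ker q = Ideal.span {P}) :
    ∃ φ : T →+* S ⧸ Ideal.span {π P}, Function.Surjective φ ∧
      RingHom.ker φ = Ideal.span {q f} ∧ ∀ w, φ (q w) = Ideal.Quotient.mk _ (π w) := by
  have hle : RingHom.ker q ≤ RingHom.ker ((Ideal.Quotient.mk (Ideal.span {π P})).comp π) := by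
    rw [hkq, Ideal.span_singleton_le_iff_mem, RingHom.mem_ker, RingHom.comp_apply,
      Ideal.Quotient.eq_zero_iff_mem]
    exact Ideal.mem_span_singleton_self _
  let φ : T →+* S ⧸ Ideal.span {π P} :=
    RingHom.liftOfSurjective q hq ⟨(Ideal.Quotient.mk (Ideal.span {π P})).comp π, hle⟩
  have hφ : ∀ w, φ (q w) = Ideal.Quotient.mk _ (π w) := fun w =>
    RingHom.liftOfRightInverse_comp_apply q _ _ _ w
  have hPf : π P = π f := by
    have : P - f ∈ RingHom.ker π := by rw [hk]; exact Ideal.mem_span_singleton_self _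
    rw [RingHom.mem_ker, map_sub, sub_eq_zero] at this
    exact this
  refine ⟨φ, ?_, ?_, hφ⟩
  · intro y
    obtain ⟨s, rfl⟩ := Ideal.Quotient.mk_surjective y
    obtain ⟨w, rfl⟩ := hπ s
    exact ⟨q w, hφ w⟩
  · apply le_antisymm
    · intro y hy
      obtain ⟨w, rfl⟩ := hq y
      rw [RingHom.mem_ker, hφ, Ideal.Quotient.eq_zero_iff_mem, Ideal.mem_span_singleton] at hy
      obtain ⟨c, hc⟩ := hy
      obtain ⟨c', rfl⟩ := hπ c
      have h1 : w - P * c' ∈ RingHom.ker π := by
        rw [RingHom.mem_ker, map_sub, map_mul, hc, sub_self]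
      rw [hk, Ideal.mem_span_singleton] at h1
      obtain ⟨e, he⟩ := h1
      have hqP : q P = 0 := by
        have : P ∈ RingHom.ker q := by rw [hkq]; exact Ideal.mem_span_singleton_self _
        exact this
      have h2 : w = P * c' + (P - f) * e := by rw [← he]; ring
      rw [Ideal.mem_span_singleton, h2, map_add, map_mul, map_mul, map_sub, hqP]
      exact ⟨-(q e), by ring⟩
    · rw [Ideal.span_singleton_le_iff_mem, RingHom.mem_ker, hφ, Ideal.Quotient.eq_zero_iff_mem,
        hPf]
      exact Ideal.mem_span_singleton_self _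

end rings

section main

theorem good_of_quotient {S T : Type u} [CommRing S] [IsRegularLocalRing S] [CommRing T]
    [IsRegularLocalRing T] {d : ℕ} (hdS : ringKrullDim S = d) (hdT : ringKrullDim T = d) {E₁ : S}
    {E₂ : T} (hm : E₁ ∈ maximalIdeal S) (hE1 : E₁ ≠ 0) (hE2 : E₂ ≠ 0)
    (φ : T →+* S ⧸ Ideal.span {E₁}) (hφ : Function.Surjective φ)
    (hk : RingHom.ker φ = Ideal.span {E₂}) (M X : Type u) [AddCommGroup M] [Module S M]
    [Module.Finite S M] [AddCommGroup X] [Module S X] [Module.Finite S X]
    (hM : ∀ m : M, E₁ • m = 0) (hX : ∀ x : X, E₁ • x = 0)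
    (hT : ∀ (M X : Type u) [AddCommGroup M] [Module T M] [Module.Finite T M] [AddCommGroup X]
      [Module T X] [Module.Finite T X], Good T d M X) : Good S d M X := by
  have hdomS : IsDomain S := Str.isDomain_of_isRegularLocalRing S
  have hdomT : IsDomain T := Str.isDomain_of_isRegularLocalRing T
  have hle : Ideal.span {E₁} ≤ maximalIdeal S := by
    rwa [Ideal.span_singleton_le_iff_mem]
  have hloc : IsLocalRing (S ⧸ Ideal.span {E₁}) := Str.isLocalRing_quotient hle
  have tM : Module.IsTorsionBySet S M (Ideal.span {E₁} : Set S) :=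
    (Module.isTorsionBySet_span_singleton_iff E₁).2 hM
  have tX : Module.IsTorsionBySet S X (Ideal.span {E₁} : Set S) :=
    (Module.isTorsionBySet_span_singleton_iff E₁).2 hX
  let _ : Module (S ⧸ Ideal.span {E₁}) M := tM.module
  let _ : Module (S ⧸ Ideal.span {E₁}) X := tX.module
  have _ : IsScalarTower S (S ⧸ Ideal.span {E₁}) M := tM.isScalarTower
  have _ : IsScalarTower S (S ⧸ Ideal.span {E₁}) X := tX.isScalarTower
  let _ : Algebra T (S ⧸ Ideal.span {E₁}) := φ.toAlgebra
  let _ : Module T M := Module.compHom M φ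
  let _ : Module T X := Module.compHom X φ
  have _ : IsScalarTower T (S ⧸ Ideal.span {E₁}) M := IsScalarTower.of_algebraMap_smul
    fun r x => rfl
  have _ : IsScalarTower T (S ⧸ Ideal.span {E₁}) X := IsScalarTower.of_algebraMap_smul
    fun r x => rfl
  have _ : Module.Finite (S ⧸ Ideal.span {E₁}) M :=
    Module.Finite.of_restrictScalars_finite S (S ⧸ Ideal.span {E₁}) M
  have _ : Module.Finite (S ⧸ Ideal.span {E₁}) X :=
    Module.Finite.of_restrictScalars_finite S (S ⧸ Ideal.span {E₁}) X
  have _ : Module.Finite T (S ⧸ Ideal.span {E₁}) :=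
    Module.Finite.of_surjective (Algebra.linearMap T (S ⧸ Ideal.span {E₁})) hφ
  have _ : Module.Finite T M := Module.Finite.trans (S ⧸ Ideal.span {E₁}) M
  have _ : Module.Finite T X := Module.Finite.trans (S ⧸ Ideal.span {E₁}) X
  exact Good.of_two (A := S ⧸ Ideal.span {E₁}) (E₁ := E₁) (E₂ := E₂) hdS hdT
    Ideal.Quotient.mk_surjective hφ Ideal.mk_ker hk (mem_nonZeroDivisors_of_ne_zero hE1)
    (mem_nonZeroDivisors_of_ne_zero hE2) (hT M X)

variable {S : Type u} [CommRing S] [IsRegularLocalRing S]

/-- modules killed by `p`, mixed characteristic -/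
theorem good_of_p_torsion [IsAdicComplete (maximalIdeal S) S] [IsAlgClosed (ResidueField S)]
    (p : ℕ) [Fact p.Prime] [CharP (ResidueField S) p] (hp0 : (p : S) ≠ 0) {d : ℕ}
    (hd : ringKrullDim S = d) (M X : Type u) [AddCommGroup M] [Module S M] [Module.Finite S M]
    [AddCommGroup X] [Module S X] [Module.Finite S X] (hM : ∀ m : M, (p : S) • m = 0)
    (hX : ∀ x : X, (p : S) • x = 0) : Good S d M X := by
  have hdomS : IsDomain S := Str.isDomain_of_isRegularLocalRing S
  have hpm : (p : S) ∈ maximalIdeal S := by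
    rw [← residue_eq_zero_iff, map_natCast]
    exact CharP.cast_eq_zero _ p
  obtain ⟨t, ht⟩ := Str.exists_generators S hd
  obtain ⟨π, hπ, -, -, f, -, hker⟩ := Str.exists_surjective_of_perfect S p hpm
    (RingEquiv.refl (ResidueField S)) hd t ht
  obtain ⟨φ, hφs, hφk, hφq⟩ := exists_common_quotient π hπ
    (MvPowerSeries.map (WittVector.constantCoeff : WittVector p (ResidueField S) →+* ResidueField S))
    (mvPowerSeries_map_surjective _ (WittVector.constantCoeff_surjective p)) hker
    (ker_mvPowerSeries_map _ WittVector.ker_constantCoeff)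
  have hπp : π (MvPowerSeries.C (p : WittVector p (ResidueField S))) = (p : S) := by
    rw [map_natCast, map_natCast]
  have hdT : ringKrullDim (MvPowerSeries (Fin d) (ResidueField S)) = d := by
    rw [R183.Cohen.ringKrullDim_mvPowerSeries, ringKrullDim_eq_zero_of_field, zero_add]
  have hE1 : π (MvPowerSeries.C (p : WittVector p (ResidueField S))) ≠ 0 := by rwa [hπp]
  have hE2 : MvPowerSeries.map (WittVector.constantCoeff :
      WittVector p (ResidueField S) →+* ResidueField S) f ≠ 0 := by
    intro h0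
    rw [h0, Ideal.span_singleton_eq_bot.2 rfl] at hφk
    have e := RingEquiv.ofBijective φ ⟨(RingHom.injective_iff_ker_eq_bot φ).2 hφk, hφs⟩
    have h1 := ringKrullDim_eq_of_ringEquiv e
    have h2 := ringKrullDim_quotient_succ_le_of_nonZeroDivisor
      (mem_nonZeroDivisors_of_ne_zero hE1)
    rw [← h1, hdT, hd] at h2
    have h3 : ((d + 1 : ℕ) : WithBot ℕ∞) ≤ ((d : ℕ) : WithBot ℕ∞) := by exact_mod_cast h2
    have h4 : d + 1 ≤ d := by exact_mod_cast h3
    omega
  refine good_of_quotient hd hdT (by rw [hπp]; exact hpm) hE1 hE2 φ hφs hφk M X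
    (by rw [hπp]; exact hM) (by rw [hπp]; exact hX) ?_
  intro M X _ _ _ _ _ _
  exact good_mvPowerSeries (ResidueField S) d M X

/-- **CASES**: in mixed characteristic, positivity for all pairs follows from positivity for prime
pairs `(S/P, S/Q)` with `p ∉ Q`. -/
theorem good_of_mix [IsAdicComplete (maximalIdeal S) S] [IsAlgClosed (ResidueField S)]
    (p : ℕ) [Fact p.Prime] [CharP (ResidueField S) p] (hp0 : (p : S) ≠ 0) {d : ℕ}
    (hd : ringKrullDim S = d)
    (hmix : ∀ P Q : Ideal S, P.IsPrime → Q.IsPrime → (p : S) ∉ Q → Good S d (S ⧸ P) (S ⧸ Q))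
    (M X : Type u) [AddCommGroup M] [Module S M] [Module.Finite S M]
    [AddCommGroup X] [Module S X] [Module.Finite S X] : Good S d M X := by
  refine Good.of_prime hd (fun P Q hP hQ => ?_) M X
  have key : ∀ I : Ideal S, (p : S) ∈ I → ∀ m : S ⧸ I, (p : S) • m = 0 := by
    intro I hI m
    obtain ⟨s, rfl⟩ := Ideal.Quotient.mk_surjective m
    rw [← Ideal.Quotient.mk_eq_mk, ← Submodule.Quotient.mk_smul, Submodule.Quotient.mk_eq_zero,
      smul_eq_mul]
    exact Ideal.mul_mem_right _ _ hI
  by_cases h2 : (p : S) ∈ Q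
  · by_cases h1 : (p : S) ∈ P
    · exact good_of_p_torsion p hp0 hd _ _ (key P h1) (key Q h2)
    · exact (hmix Q P hQ hP h1).symm
  · exact hmix P Q hP hQ h2

/-- the remaining statement -/
def MixPrime : Prop :=
  ∀ (S : Type) [CommRing S] [IsRegularLocalRing S] [IsAdicComplete (maximalIdeal S) S]
    [IsAlgClosed (ResidueField S)] (p : ℕ) [Fact p.Prime] [CharP (ResidueField S) p],
    (p : S) ≠ 0 → ∀ d : ℕ, ringKrullDim S = d →
    ∀ P Q : Ideal S, P.IsPrime → Q.IsPrime → (p : S) ∉ Q → Good S d (S ⧸ P) (S ⧸ Q)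

/-- `Mixed288` (helper702) from prime pairs with `p ∉ Q` -/
theorem mixed288_of_mixPrime (h : MixPrime) : Eq.Mixed288 := by
  intro S _ _ _ _ p _ _ hp0 d hd M N _ _ _ _ hlen hdim
  exact Good.serre M N (good_of_mix p hp0 hd (h S p hp0 d hd) M N) hlen hdim

end main

end Crest.Agent.R188.Top
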