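/-
R188 (Serre positivity), top of the tree: the statement `CORE`.   helper622
-/
import Crest.Agent.R188.Top3
import Crest.Agent.R188.Asm1

set_option autoImplicit false
set_option linter.unusedSectionVars false

namespace Crest.Agent.R188.Top

open scoped ENNReal TensorProduct
open IsLocalRing

/-- **CORE** (to be proved from the world `Asm.World p k b`): for `R = S/(p - f)`,
`S = W(k)[[x_1..x_d]]`, `A` a quotient ring of `R` which is finite and free over
`B = W(k)[[X_1..X_b]]`, `M` of dimension `a = d - (b+1)` with `M ⊗ A` of finite length: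
`χ_R(M, N) = Σ_j μ(γ_j)` for every `B`-free `A`-module `N` with characters `γ_j`, and `μ > 0`. -/
def CORE : Prop :=
  ∀ (p : ℕ) [Fact p.Prime] (k : Type) [Field k] [IsAlgClosed k] [CharP k p]
    (R : Type) [CommRing R] [IsRegularLocalRing R] [IsAdicComplete (maximalIdeal R) R]
    (d a b : ℕ) (_ : ringKrullDim R = d) (_ : d = a + (b + 1))
    (π : MvPowerSeries (Fin d) (WittVector p k) →+* R) (_ : Function.Surjective π)
    (f : MvPowerSeries (Fin d) (WittVector p k))
    (_ : f ∈ Ideal.span (Set.range
      (MvPowerSeries.X : Fin d → MvPowerSeries (Fin d) (WittVector p k))))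
    (_ : RingHom.ker π = Ideal.span {MvPowerSeries.C (p : WittVector p k) - f})
    (A : Type) [CommRing A] [Nontrivial A] [Algebra R A]
    (_ : Function.Surjective (algebraMap R A)) [Algebra (Asm.BB p k b) A]
    [Module.Finite (Asm.BB p k b) A] [Module.Free (Asm.BB p k b) A]
    (_ : ∀ w : WittVector p k,
      algebraMap (Asm.BB p k b) A (MvPowerSeries.C w) = algebraMap R A (π (MvPowerSeries.C w)))
    (M : Type) [AddCommGroup M] [Module R M] [Module.Finite R M]
    (_ : Module.supportDim R M = (a : ℕ)) (_ : IsFiniteLength R (M ⊗[R] A)),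
    ∃ μ : (A →ₐ[Asm.BB p k b] Asm.BPlus p k b) → ℝ, (∀ γ, 0 < μ γ) ∧
      ∀ (N : Type) [AddCommGroup N] [Module A N] [Module R N] [IsScalarTower R A N]
        [Module (Asm.BB p k b) N] [IsScalarTower (Asm.BB p k b) A N] (r : ℕ)
        (e : Module.Basis (Fin r) (Asm.BB p k b) N)
        (L : Matrix (Fin r) (Fin r) (Asm.BPlus p k b))
        (γ : Fin r → A →ₐ[Asm.BB p k b] Asm.BPlus p k b),
        Tri.IsFlag (Tri.actMatrix (A := A) e) L γ → pair R d M N = ∑ j, μ (γ j)

end Crest.Agent.R188.Top
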