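import Crest.Agent.R188.Asm3
import Crest.Agent.R188.AsmG3
import Crest.Agent.R188.Top4

/-!
# R188, assembly (helper702), part 5: `CORE` from the contract of `Asm3`
-/

set_option autoImplicit false
set_option linter.unusedSectionVars false

namespace Crest.Agent.R188.Asm

open WittVector Crest.Agent.R183 Crest.Agent.R183.Res Crest.Agent.R188.Prf Crest.Agent.R188.Wit
open Crest.Agent.R188.Chi Crest.Agent.R188.KosG
open scoped ENNReal TensorProduct

variable {p : ℕ} [hp : Fact p.Prime] {k : Type} [Field k] [CharP k p] [IsAlgClosed k] {b : ℕ}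

/-- **TRANSFER** (helper622, `Slt.main`) -/
def Transfer (W : World p k b) : Prop :=
  ∀ (R A M : Type) [CommRing R] [IsRegularLocalRing R] [CommRing A] [Algebra R A]
    [Algebra (BB p k b) A] [AddCommGroup M] [Module R M] [Module.Finite R M] (d a : ℕ)
    (_ : Sit p k b R A M d a) (F : MCx R) (ε : (F.ι 0 → R) →ₗ[R] M) (_ : IsRes F ε)
    (_ : F.Len d) (γ : A →ₐ[BB p k b] BPlus p k b),
    (∀ i, hX (ΛA W A) (GA W A F) (Flg.Tw (Tri.charOm (Om W.ξ) γ)) i ≠ ⊤) ∧
    0 < chiX (ΛA W A) (GA W A F) (Flg.Tw (Tri.charOm (Om W.ξ) γ)) (d + 1) ∧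
    ∀ (h : W.P) (hr : ℕ → BPlus p k b), SharpPair W.perf W.ι h hr → hr 0 ≠ 0 →
      ∀ I : Ideal W.P, Good W h I →
      (∀ i, hX (ΛA W A) (GA W A F) ↥(Flg.twI (Tri.charOm (Om W.ξ) γ) (JI W I)) i ≠ ⊤) ∧
      chiX (ΛA W A) (GA W A F) ↥(Flg.twI (Tri.charOm (Om W.ξ) γ) (JI W I)) (d + 1) =
        chiX (ΛA W A) (GA W A F) (Flg.Tw (Tri.charOm (Om W.ξ) γ)) (d + 1)

theorem World.c_pos (W : World p k b) : 0 < W.c :=
  ENNReal.toReal_pos W.L_ne_zero W.L_ne_top

theorem mB_le_maximalIdeal (b : ℕ) : mB p k b ≤ IsLocalRing.maximalIdeal (BB p k b) := by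
  have h1 : IsLocalRing.maximalIdeal (BB p k b) = _ :=
    R183.Cohen.maximalIdeal_mvPowerSeries (σ := Fin b) (Λ := WittVector p k)
  rw [mB, Ideal.span_le]
  rintro _ ⟨i, rfl⟩
  rw [h1]
  refine Fin.cases ?_ (fun j => ?_) i
  · refine Ideal.mem_sup_left ?_
    have h2 : (p : WittVector p k) ∈ IsLocalRing.maximalIdeal (WittVector p k) := by
      rw [R183.Cohen.maximalIdeal_witt]
      exact Ideal.subset_span rfl
    have h3 := Ideal.mem_map_of_mem (MvPowerSeries.C : WittVector p k →+* BB p k b) h2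
    rw [map_natCast] at h3
    exact h3
  · exact Ideal.mem_sup_right (Ideal.subset_span ⟨j, rfl⟩)

/-- multiplication by `ι c` is injective for `c ≠ 0` -/
theorem World.isSMulRegular (W : World p k b) {c : BPlus p k b} (hc : c ≠ 0) :
    IsSMulRegular (Om W.ξ) c := by
  intro x y hxy
  have h1 : W.ι c * x = W.ι c * y := hxy
  have h2 : W.ι c * (x - y) = 0 := by rw [mul_sub, h1, sub_self]
  exact sub_eq_zero.1 (W.reg_ι c hc _ h2)

theorem sh_mem_JI (W : World p k b) {I : Ideal W.P} {x : W.P} (hx : x ∈ I) :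
    sh W.ξ x ∈ JI W I := by
  refine Ideal.mem_map_of_mem _ ?_
  show ∀ n, (WittVector.teichmuller p x).coeff n ∈ I ^ p ^ n
  intro n
  cases n with
  | zero => rw [WittVector.teichmuller_coeff_zero, pow_zero, pow_one]; exact hx
  | succ n =>
    rw [WittVector.teichmuller_coeff_pos p x _ (Nat.succ_pos n)]
    exact Ideal.zero_mem _

theorem Good.exists_mem {W : World p k b} {h : W.P} {I : Ideal W.P} (hI : Good W h I)
    {hr : ℕ → BPlus p k b} (hsp : SharpPair W.perf W.ι h hr) (hne : hr 0 ≠ 0) :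
    ∃ c : BB p k b, c ≠ 0 ∧ algebraMap (BB p k b) (Om W.ξ) c ∈ JI W I := by
  obtain ⟨m, hm⟩ := hI.mem
  obtain ⟨c', c, hc0, hc⟩ := Tri.bPlus_exists_mul (pow_ne_zero m hne)
  refine ⟨c, hc0, ?_⟩
  rw [World.algebraMap_BB, ← hc, map_mul, map_pow, ← AsmG.SharpPair.sh_eq hsp]
  have h1 : sh W.ξ h ^ m = sh W.ξ (h ^ m) := (sh_pow W.ξ h m).symm
  rw [h1]
  exact Ideal.mul_mem_right _ _ (sh_mem_JI W hm)

section formula

variable (W : World p k b) (hT : Twist W) (hL : LeftSide W) (hS : Transfer W)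
  {R A M : Type} [CommRing R] [IsRegularLocalRing R] [CommRing A] [Algebra R A]
  [Algebra (BB p k b) A] [AddCommGroup M] [Module R M] [Module.Finite R M] {d a : ℕ}
  (Z : Sit p k b R A M d a) {F : MCx R} {ε : (F.ι 0 → R) →ₗ[R] M} (hF : IsRes F ε)
  (hlen : F.Len d)

include hT hL hS Z hF hlen

theorem formula {N : Type} [AddCommGroup N] [Module A N] [Module R N] [IsScalarTower R A N]
    [Module (BB p k b) N] [IsScalarTower (BB p k b) A N] {r : ℕ}
    (e : Module.Basis (Fin r) (BB p k b) N) {L : Matrix (Fin r) (Fin r) (BPlus p k b)}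
    {γ : Fin r → A →ₐ[BB p k b] BPlus p k b}
    (hfl : Tri.IsFlag (Tri.actMatrix (A := A) e) L γ) :
    Top.pair R d M N * W.c =
      ∑ j, chiX (ΛA W A) (GA W A F) (Flg.Tw (Tri.charOm (Om W.ξ) (γ j))) (d + 1) := by
  rcases Nat.eq_zero_or_pos r with h0 | hr
  · subst h0
    have : Subsingleton N := e.equivFun.toEquiv.subsingleton
    rw [Top.pair_subsingleton_right, zero_mul]
    simp
  obtain ⟨h, hr', hsp, hne, I, m, hmono, hgood⟩ := hT r hr L hfl.det_ne_zero
  have hntA := Z.ntA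
  have hfinA := Z.finA
  obtain ⟨c, hc⟩ := AsmG.exists_pow_mem_annihilator (R := R) (A := A) (B := BB p k b) (M := M)
    Z.surjA Z.proper
  -- the Euler functional
  let E := AsmG.eulerW W (A := A) (R := R) (M := M) (fun _ => rfl)
    (fun i => hc _ (mB_le_maximalIdeal b (Ideal.subset_span ⟨i, rfl⟩)))
    (F := F) (fun m hm => hF.nhom (fun x => Module.mem_annihilator.1 hm x)) hlen hsp hne
  let V := Tri.OmV (Om W.ξ) (Tri.actMatrix (A := A) e)
  let cd := Tri.OmV.coord (Om W.ξ) (Tri.actMatrix (A := A) e)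
  have hreg : IsSMulRegular (Om W.ξ) L.det := W.isSMulRegular hfl.det_ne_zero
  obtain ⟨⟨hV1, hV2⟩, hV3⟩ := hL R A M d a Z F ε hF hlen N r e
  let T : Fin (r + 1) → ℕ := fun _ => m + 1
  have hmem := (hgood T).exists_mem hsp hne
  obtain ⟨hQ1, hQ2⟩ := hV3 (JI W (I T)) hmem (hgood T).fin
  have hVfin : E.Fn V := hV1
  have hQfin : E.Fn (V ⧸ Flg.JV (AO W A) cd (JI W (I T))) := hQ1
  have hJfin : E.Fn (Flg.JV (AO W A) cd (JI W (I T))) := E.fn_submodule _ hVfin hQfin
  have h1 : E.val V = E.val (Flg.JV (AO W A) cd (JI W (I T))) := by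
    have h2 := E.val_quot (Flg.JV (AO W A) cd (JI W (I T))) hJfin hQfin
    have h3 : E.val (V ⧸ Flg.JV (AO W A) cd (JI W (I T))) = 0 := hQ2
    rw [h2, h3, add_zero]
  have key := Flg.flag_formula_of_twist E (b := cd) (l := Tri.rows (Om W.ξ) L)
    (γ := Tri.charN (Om W.ξ) hr γ) (hfl.flg (Om W.ξ) _ hr hreg)
    (fun x hx => Tri.eq_zero_of_rows (Om W.ξ) _ hreg x hx) hmono T (fun _ => le_rfl)
    hJfin (fun k hk => by
      rw [Tri.charN_of_lt (Om W.ξ) hr γ hk]
      exact ((hS R A M d a Z F ε hF hlen (γ ⟨k, hk⟩)).2.2 h hr' hsp hne _ (hgood _)).1)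
    h1 (fun k hk => by
      rw [Tri.charN_of_lt (Om W.ξ) hr γ hk]
      exact ((hS R A M d a Z F ε hF hlen (γ ⟨k, hk⟩)).2.2 h hr' hsp hne _ (hgood _)).2)
  have h4 : E.val V = Top.pair R d M N * W.c := hV2
  rw [← h4, key, Finset.sum_range]
  refine Finset.sum_congr rfl fun j _ => ?_
  rw [Tri.charN_of_lt (Om W.ξ) hr γ j.2]
  rfl

end formula

end Crest.Agent.R188.Asm

namespace Crest.Agent.R188.Asm

open Crest.Agent.R183 Crest.Agent.R183.Res Crest.Agent.R188.Chi Crest.Agent.R188.Wit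

/-- **`CORE` from worlds satisfying the contract** -/
theorem core_of (hW : ∀ (p : ℕ) [Fact p.Prime] (k : Type) [Field k] [IsAlgClosed k] [CharP k p]
    (b : ℕ), ∃ W : World p k b, Twist W ∧ LeftSide W ∧ Transfer W) : Top.CORE := by
  intro p _ k _ _ _ R _ _ hcomp d a b hdim hd π hπ f hf hker A _ _ _ hsurj _ _ _ hcomm M _ _ _
    hsupp hfl
  obtain ⟨W, hT, hL, hS⟩ := hW p k b
  have Z : Sit p k b R A M d a :=
    { complete := hcomp
      dim := hdim
      hd := hd
      π := π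
      π_surj := hπ
      f := f
      f_mem := hf
      ker_π := hker
      ntA := inferInstance
      surjA := hsurj
      finA := inferInstance
      freeA := inferInstance
      comm := hcomm
      finM := inferInstance
      dimM := hsupp
      proper := hfl }
  obtain ⟨F, ε, hF, -, hlen⟩ := exists_res_len hdim M
  refine ⟨fun γ => chiX (ΛA W A) (GA W A F) (Flg.Tw (Tri.charOm (Om W.ξ) γ)) (d + 1) / W.c,
    fun γ => div_pos (hS R A M d a Z F ε hF hlen γ).2.1 W.c_pos, ?_⟩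
  intro N _ _ _ _ _ _ r e L γ hfl'
  have h1 := formula W hT hL hS Z hF hlen e hfl'
  rw [← Finset.sum_div, ← h1, mul_div_cancel_right₀ _ W.c_pos.ne']

end Crest.Agent.R188.Asm
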