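import Crest.Agent.R188.FlgFilt

/-! # R188, block (G): COLON and `MonoSys` from almost exact Koszul complexes -/

set_option autoImplicit false

namespace Crest.Agent.R188.Flg

open Finset

section colon

variable {Ω : Type*} [CommRing Ω] {𝔞 : Ideal Ω}

/-- the colon property from the left end (`q = s`, `q = s - 1`) of the Koszul complex -/
theorem colon_of_kosNull {s : ℕ} {g : Fin s → Ω} {I : ℕ → Submodule Ω Ω} (hK : KosNull 𝔞 g I)
    (i₀ : Fin s) (hreg : ∀ x, g i₀ * x = 0 → x = 0) (x : Ω) (hx : ∀ i, g i * x ∈ I (s - 1))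
    (h : Ω) (hh : h ∈ 𝔞) : h * x ∈ I s := by
  have hs : 0 < s := by have := i₀.2; omega
  let F : Finset (Fin s) → Ω := fun B => if B = Finset.univ then x else 0
  -- values of `kD` on functions concentrated at `univ`
  have hval : ∀ (G : Finset (Fin s) → Ω), (∀ B, B ≠ Finset.univ → G B = 0) → ∀ i : Fin s,
      kD g G ({i}ᶜ) = sg Ω i {i}ᶜ * g i * G Finset.univ := by
    intro G _ i
    rw [kD_apply, compl_compl, Finset.sum_singleton, smul_eq_mul]
    congr 2
    ext j
    by_cases hj : j = i <;> simp [hj]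
  have hf : kD g F ∈ kK I s (s - 1) := by
    refine ⟨fun B => ?_, fun B hB => ?_⟩
    · rw [kD_apply]
      refine Submodule.sum_mem _ fun i hi => ?_
      rw [mul_smul]
      refine Submodule.smul_mem _ _ ?_
      by_cases h1 : insert i B = Finset.univ
      · simp only [F, if_pos h1]; exact hx i
      · simp only [F, if_neg h1, smul_zero]; exact Submodule.zero_mem _
    · rw [kD_apply]
      refine Finset.sum_eq_zero fun i hi => ?_
      rw [Finset.mem_compl] at hi
      have h1 : insert i B ≠ Finset.univ := by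
        intro h1
        have h2 := congrArg Finset.card h1
        rw [Finset.card_insert_of_notMem hi, Finset.card_univ, Fintype.card_fin] at h2
        omega
      simp only [F, if_neg h1, smul_zero]
  obtain ⟨f', hf', hD⟩ := hK (s - 1) _ hf (kD_kD g F) h hh
  rw [Nat.sub_add_cancel hs] at hf'
  have hf'0 : ∀ B, B ≠ Finset.univ → f' B = 0 := by
    intro B hB
    refine hf'.2 B ?_
    intro hc
    apply hB
    rw [← Finset.card_eq_iff_eq_univ, hc, Fintype.card_fin]
  have h1 := congrFun hD ({i₀}ᶜ)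
  rw [hval f' hf'0, Pi.smul_apply, hval F (fun B hB => by simp [F, hB])] at h1
  have h2 : sg Ω i₀ {i₀}ᶜ * (g i₀ * (f' Finset.univ - h * x)) = 0 := by
    have h3 : F Finset.univ = x := by simp [F]
    rw [h3, smul_eq_mul] at h1
    linear_combination h1
  have h3 : sg Ω i₀ ({i₀}ᶜ : Finset (Fin s)) * sg Ω i₀ ({i₀}ᶜ : Finset (Fin s)) = 1 := by
    unfold sg
    rw [← pow_add, ← two_mul, pow_mul]
    simp
  have h4 : g i₀ * (f' Finset.univ - h * x) = 0 := by
    have := congrArg (fun y => sg Ω i₀ ({i₀}ᶜ : Finset (Fin s)) * y) h2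
    simp only [mul_zero] at this
    rwa [← mul_assoc, h3, one_mul] at this
  have h5 := hreg _ h4
  rw [← sub_eq_zero.1 h5]
  exact hf'.1 _

/-- **`MonoSys` from the Koszul complexes**: `mul`, exact `skoda`, and almost exactness of the
Koszul complex in every direction, one regular generator per block. -/
theorem MonoSys.of_kosNull {κ : Type*} [DecidableEq κ] {s : κ → ℕ} {g : ∀ k, Fin (s k) → Ω}
    {J : (κ → ℕ) → Ideal Ω} {m : ℕ}
    (hmul : ∀ t k i, ∀ x ∈ J t, g k i * x ∈ J (t + Pi.single k 1))
    (hsk : ∀ t, (∀ j, m ≤ t j) → ∀ k, ∀ x ∈ J (t + Pi.single k 1), ∃ a : Fin (s k) → Ω,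
      (∀ i, a i ∈ J t) ∧ x = ∑ i, g k i * a i)
    (hK : ∀ T : κ → ℕ, ∀ k, s k ≤ T k → KosNull 𝔞 (g k) (fun q => J (T - Pi.single k q)))
    (hreg : ∀ k, ∃ i, ∀ x, g k i * x = 0 → x = 0) : MonoSys 𝔞 s g m J where
  mul := hmul
  skoda := hsk
  colon := by
    intro t _ k x hx h hh
    obtain ⟨i₀, hi₀⟩ := hreg k
    have hs : 0 < s k := by have := i₀.2; omega
    have h1 := colon_of_kosNull (hK (t + Pi.single k (s k)) k (by simp)) i₀ hi₀ x
      (fun i => ?_) h hh
    · have h2 : t + Pi.single k (s k) - Pi.single k (s k) = t := by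
        ext j; simp
      simp only [h2] at h1
      exact h1
    · have h2 : t + Pi.single k (s k) - Pi.single k (s k - 1) = t + Pi.single k 1 := by
        ext j
        by_cases hj : j = k
        · subst hj; simp; omega
        · simp [hj]
      simp only [h2]
      exact hx i

/-- exact Skoda from an exact Koszul complex one level up: if `x ∈ J(t+e_k)` always has a
preimage, in the form of the spot `q = 0` of the Koszul complex -/
theorem skoda_of_spot {s : ℕ} {g : Fin s → Ω} {I : ℕ → Submodule Ω Ω}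
    (h0 : ∀ f ∈ kK I s 0, ∃ f' ∈ kK I s 1, kD g f' = f) (x : Ω) (hx : x ∈ I 0) :
    ∃ a : Fin s → Ω, (∀ i, a i ∈ I 1) ∧ x = ∑ i, g i * a i := by
  classical
  let F : Finset (Fin s) → Ω := fun B => if B = ∅ then x else 0
  obtain ⟨f', hf', hD⟩ := h0 F ⟨fun B => by
    by_cases hB : B = ∅
    · simp only [F, if_pos hB]; exact hx
    · simp only [F, if_neg hB]; exact Submodule.zero_mem _, fun B hB => by
    have : B ≠ ∅ := by
      rintro rfl; exact hB Finset.card_empty
    simp only [F, if_neg this]⟩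
  refine ⟨fun i => f' {i}, fun i => hf'.1 _, ?_⟩
  have h1 := congrFun hD ∅
  rw [kD_apply] at h1
  simp only [F, if_true] at h1
  rw [← h1, Finset.compl_empty]
  refine Finset.sum_congr rfl fun i _ => ?_
  rw [sg_empty, one_mul, smul_eq_mul]
  rfl

end colon

end Crest.Agent.R188.Flg
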