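import Crest.Agent.R188.FlgFilt

/-! # R188, block (G): `val V = val (J(T) V)` from almost exactness of the Koszul complexes -/

set_option autoImplicit false

namespace Crest.Agent.R188.Flg

open Finset

universe u

section rec

variable {Ω A : Type u} [CommRing Ω] [CommRing A] [Algebra Ω A] {𝔞 : Ideal Ω}
variable {V : Type u} [AddCommGroup V] [Module Ω V] [Module A V] [IsScalarTower Ω A V] {r : ℕ}

lemma coord_kD (b : V ≃ₗ[Ω] (Fin r → Ω)) {s : ℕ} (g : Fin s → Ω) (f : Finset (Fin s) → V)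
    (B : Finset (Fin s)) (c : Fin r) :
    b (kD (fun i => algebraMap Ω A (g i)) f B) c = kD g (fun B => b (f B) c) B := by
  rw [kD_apply, kD_apply, map_sum, Finset.sum_apply]
  refine Finset.sum_congr rfl fun i _ => ?_
  have h1 : (sg A i B * algebraMap Ω A (g i)) • f (insert i B) =
      (sg Ω i B * g i) • f (insert i B) := by
    rw [← algebraMap_smul A (sg Ω i B * g i) (f (insert i B))]
    simp [sg]
  rw [h1, map_smul, Pi.smul_apply]

/-- almost exactness passes from `Ω` to `V` -/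
theorem kosNull_JV (b : V ≃ₗ[Ω] (Fin r → Ω)) {s : ℕ} (g : Fin s → Ω) (I : ℕ → Ideal Ω)
    (hK : KosNull 𝔞 g I) (q : ℕ) (f : Finset (Fin s) → V)
    (hf : f ∈ kK (fun q => JV A b (I q)) s q) (hD : kD (fun i => algebraMap Ω A (g i)) f = 0)
    (h : Ω) (hh : h ∈ 𝔞) :
    ∃ f' ∈ kK (fun q => JV A b (I q)) s (q + 1),
      kD (fun i => algebraMap Ω A (g i)) f' = algebraMap Ω A h • f := by
  have h1 : ∀ c, ∃ f' ∈ kK I s (q + 1), kD g f' = h • (fun B => b (f B) c) := by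
    intro c
    refine hK q _ ⟨fun B => hf.1 B c, fun B hB => ?_⟩ ?_ h hh
    · simp only [hf.2 B hB, map_zero, Pi.zero_apply]
    · ext B
      rw [← coord_kD (A := A) b g f B c, hD]
      simp
  choose F hF1 hF2 using h1
  refine ⟨fun B => b.symm fun c => F c B, ⟨fun B c => ?_, fun B hB => ?_⟩, ?_⟩
  · simp only [LinearEquiv.apply_symm_apply]
    exact (hF1 c).1 B
  · have : (fun c => F c B) = 0 := by
      ext c; exact (hF1 c).2 B hB
    simp only [this, map_zero]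
  · ext B
    apply b.injective
    ext c
    rw [coord_kD]
    simp only [LinearEquiv.apply_symm_apply]
    have := congrFun (hF2 c) B
    rw [this]
    simp [algebraMap_smul]

lemma JV_top (b : V ≃ₗ[Ω] (Fin r → Ω)) (I : Ideal Ω) (hI : I = ⊤) : JV A b I = ⊤ := by
  subst hI
  rw [eq_top_iff]
  intro x _ c
  exact Submodule.mem_top

lemma val_JV_top (E : EulerFun Ω A 𝔞) (b : V ≃ₗ[Ω] (Fin r → Ω)) (I : Ideal Ω) (hI : I = ⊤)
    (hf : E.Fn (JV A b I)) : E.val V = E.val (JV A b I) := by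
  have h := JV_top (A := A) b I hI
  have e : (JV A b I) ≃ₗ[A] V := (LinearEquiv.ofEq _ _ h).trans Submodule.topEquiv
  exact (E.val_congr e hf).symm

/-- the Koszul recursion for `J V`, one direction -/
theorem koszul_rec_JV (E : EulerFun Ω A 𝔞) (b : V ≃ₗ[Ω] (Fin r → Ω)) {s : ℕ} (g : Fin s → Ω)
    (J' : ℕ → Ideal Ω) (hmul : ∀ i q, ∀ x ∈ J' (q + 1), g i * x ∈ J' q)
    (hK : KosNull 𝔞 g J') (hfin : ∀ q, E.Fn (JV A b (J' q))) :
    ∑ q ∈ range (s + 1), (-1 : ℝ) ^ q * (s.choose q * E.val (JV A b (J' q))) = 0 := by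
  refine koszul_recursion E (fun i => algebraMap Ω A (g i)) (fun q => JV A b (J' q)) ?_ ?_ hfin
  · intro i q x hx c
    rw [algebraMap_smul, map_smul, Pi.smul_apply, smul_eq_mul]
    exact hmul i q _ (hx c)
  · intro q f hf hD h hh
    exact kosNull_JV b g J' hK q f hf hD h hh

/-- the Koszul recursion for `J(T) V` in direction `k` -/
theorem koszul_rec_step (E : EulerFun Ω A 𝔞) (b : V ≃ₗ[Ω] (Fin r → Ω))
    {κ : Type*} [DecidableEq κ] (s : κ → ℕ)
    (g : ∀ k, Fin (s k) → Ω) (J : (κ → ℕ) → Ideal Ω)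
    (hmul : ∀ t k i, ∀ x ∈ J t, g k i * x ∈ J (t + Pi.single k 1))
    (hK : ∀ T : κ → ℕ, ∀ k, s k ≤ T k → KosNull 𝔞 (g k) (fun q => J (T - Pi.single k q)))
    (hfin : ∀ T, E.Fn (JV A b (J T))) (T : κ → ℕ) (k : κ) (hk : s k ≤ T k) :
    ∑ q ∈ range (s k + 1), (-1 : ℝ) ^ q *
      ((s k).choose q * E.val (JV A b (J (T - Pi.single k q)))) = 0 := by
  obtain ⟨J', hJ'⟩ : ∃ J' : ℕ → Ideal Ω, J' = fun q => J (T - Pi.single k q) := ⟨_, rfl⟩
  have h1 : ∀ i q, ∀ x ∈ J' (q + 1), g k i * x ∈ J' q := by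
    intro i q x hx
    subst hJ'
    by_cases hq : q + 1 ≤ T k
    · have h2 := hmul _ k i _ hx
      have h3 : T - Pi.single k (q + 1) + Pi.single k 1 = T - Pi.single k q := by
        ext j
        by_cases hj : j = k
        · subst hj; simp; omega
        · simp [hj]
      rwa [h3] at h2
    · have h3 : T - Pi.single k (q + 1) = T - Pi.single k q := by
        ext j
        by_cases hj : j = k
        · subst hj; simp; omega
        · simp [hj]
      have h2 := hx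
      simp only [h3] at h2
      exact Ideal.mul_mem_left _ _ h2
  have h2 : KosNull 𝔞 (g k) J' := by
    subst hJ'
    exact hK T k hk
  have h3 : ∀ q, E.Fn (JV A b (J' q)) := by
    intro q
    subst hJ'
    exact hfin (T - Pi.single k q)
  have h4 := koszul_rec_JV E b (g k) J' h1 h2 h3
  subst hJ'
  exact h4

/-- **`val V = c` from the Koszul recursion** -/
theorem val_of_recursion (E : EulerFun Ω A 𝔞) (b : V ≃ₗ[Ω] (Fin r → Ω))
    {κ : Type*} [Fintype κ] [DecidableEq κ] (s : κ → ℕ) (hs : ∀ k, 1 ≤ s k)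
    (g : ∀ k, Fin (s k) → Ω) (J : (κ → ℕ) → Ideal Ω) (hJ0 : J 0 = ⊤)
    (hmul : ∀ t k i, ∀ x ∈ J t, g k i * x ∈ J (t + Pi.single k 1))
    (hK : ∀ T : κ → ℕ, ∀ k, s k ≤ T k → KosNull 𝔞 (g k) (fun q => J (T - Pi.single k q)))
    (hfin : ∀ T, E.Fn (JV A b (J T))) (c : ℝ) (m : ℕ)
    (hc : ∀ T, (∀ k, m ≤ T k) → E.val (JV A b (J T)) = c) : E.val V = c := by
  have h1 := recursion s hs (fun T => E.val (JV A b (J T))) c m
    (koszul_rec_step E b s g J hmul hK hfin) hc 0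
  have h2 := val_JV_top (A := A) E b (J 0) hJ0 (hfin 0)
  exact h2.trans h1

/-- **Block (G), version with the recursion**: `val V = ∑_k val (Ω^{γ_k})`. -/
theorem flag_formula (E : EulerFun Ω A 𝔞) {b : V ≃ₗ[Ω] (Fin r → Ω)} {l : ℕ → Fin r → Ω}
    {γ : ℕ → (A →ₐ[Ω] Ω)} (hγ : IsFlag b l γ)
    (hdet : ∀ x : V, (∀ i < r, ev (l i) (b x) = 0) → x = 0) {m : ℕ}
    {J : (Fin (r + 1) → ℕ) → Ideal Ω} (hJ : MonoSys 𝔞 (flagS r) (flagG l) m J)
    (hJ0 : J 0 = ⊤)
    (hK : ∀ T : Fin (r + 1) → ℕ, ∀ k, flagS r k ≤ T k →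
      KosNull 𝔞 (flagG l k) (fun q => J (T - Pi.single k q)))
    (hfin : ∀ T, E.Fn (JV A b (J T))) (hfin' : ∀ k < r, ∀ T, E.Fn (twI (γ k) (J T)))
    (h2 : ∀ k < r, ∀ T, E.val (twI (γ k) (J T)) = E.val (Tw (γ k))) :
    E.val V = ∑ k ∈ range r, E.val (Tw (γ k)) := by
  rcases Nat.eq_zero_or_pos r with hr | hr
  · subst hr
    have : Subsingleton V := b.toEquiv.subsingleton
    rw [E.val_sub]; simp
  refine val_of_recursion E b (flagS r) (fun k => ?_) (flagG l) J hJ0 hJ.mul hK hfin _ (m + 1)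
    (fun T hT => ?_)
  · unfold flagS
    rw [Fintype.card_fun, Fintype.card_fin, Fintype.card_fin]
    exact Nat.one_le_pow _ _ hr
  · rw [val_JV_mono E hγ hdet hJ T hT (hfin T) (fun k hk => hfin' k hk _)]
    exact Finset.sum_congr rfl fun k hk => h2 k (Finset.mem_range.1 hk) _

end rec

end Crest.Agent.R188.Flg
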