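import Crest.Agent.R188.Cmp2
import Crest.Agent.R188.FlgColon
import Crest.Agent.R188.FlgRec

/-! # R188, assembly glue (helper83), part 1: graded data `GD` give a `MonoSys` -/

set_option autoImplicit false

namespace Crest.Agent.R188.AsmG

open WittVector Crest.Agent.R188.Prf Crest.Agent.R188.Wit Crest.Agent.R188.Flg Crest.Agent.R188.Cmp

universe u v w

variable {p : ℕ} [hp : Fact p.Prime] {P : Type u} {S : Type v} {S' : Type w}
  [CommRing P] [CommRing S] [CommRing S'] (D : GD p P S S') {ξ : WittVector p P} {π : P}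

/-- the almost ideal generated by the sharps of the `p`-power roots of `h` -/
noncomputable def almId (D : GD p P S S') (ξ : WittVector p P) (h : P) : Ideal (Om ξ) :=
  Ideal.span (Set.range fun n => sh ξ (D.hP.rtn n h))

/-- exact Skoda from the exact Koszul complex upstairs -/
theorem skoda_J {s : ℕ} {g : Fin s → S} {e : ℕ → S'} (hK : D.KosExW g e) (x : Om ξ)
    (hx : x ∈ D.J ξ (e 0)) :
    ∃ a : Fin s → Om ξ, (∀ i, a i ∈ D.J ξ (e 1)) ∧ x = ∑ i, sh ξ (D.ε (g i)) * a i := by
  classical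
  obtain ⟨y, hy, hyx⟩ := D.mem_J.1 hx
  let F : Finset (Fin s) → WittVector p S := fun B => if B = ∅ then y else 0
  have hF : SuppIn (D.KW (e 0)) 0 F := by
    refine ⟨fun B => ?_, fun B hB => ?_⟩
    · by_cases hB : B = ∅
      · simp only [F, if_pos hB]; exact hy
      · simp only [F, if_neg hB]; exact zero_mem _
    · have : B ≠ ∅ := by rintro rfl; exact hB Finset.card_empty
      simp only [F, if_neg this]
  have hF0 : kD (fun i => WittVector.teichmuller p (g i)) F = 0 := by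
    ext1 B
    rw [kD_apply]
    refine Finset.sum_eq_zero fun i _ => ?_
    have : insert i B ≠ ∅ := Finset.insert_ne_empty _ _
    simp only [F, if_neg this, smul_zero]
  obtain ⟨f', hf', hD⟩ := hK 0 F hF hF0
  refine ⟨fun i => θ ξ (WittVector.map D.ε (f' {i})), fun i => D.mem_J.2 ⟨_, hf'.1 _, rfl⟩, ?_⟩
  have h1 := congrFun hD ∅
  rw [kD_apply] at h1
  simp only [F, if_true] at h1
  rw [← hyx, ← h1, Finset.compl_empty, map_sum, map_sum]
  refine Finset.sum_congr rfl fun i _ => ?_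
  rw [sg_empty, one_mul, smul_eq_mul, map_mul, map_mul, map_teichmuller]
  rfl

section sys

variable {κ : Type*} [DecidableEq κ] {s : κ → ℕ} (g : ∀ k, Fin (s k) → S)
  (v : κ → S') (e : (κ → ℕ) → S')

include v in
/-- **`MonoSys` for the ideals `J(e t)`** (and all the Koszul complexes, `J 0 = ⊤`) -/
theorem monoSys_J (hξ : IsDist ξ π)
    (he0 : e 0 = 1) (he : ∀ t k, v k * e t = e (t + Pi.single k 1))
    (hg : ∀ k i, g k i ∈ D.K (v k))
    (hKE : ∀ (T : κ → ℕ) k, s k ≤ T k → D.KosEx (g k) (fun q => e (T - Pi.single k q)))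
    {h₀ : P} (hN : ∀ t, D.Nul (e t) h₀) (hI : ∀ t, ∃ m, h₀ ^ m ∈ D.I (e t))
    (hreg : ∀ k, ∃ i, ∀ x : Om ξ, sh ξ (D.ε (g k i)) * x = 0 → x = 0) (m : ℕ)
    (hm : ∀ k, s k ≤ m + 1) :
    MonoSys (almId D ξ h₀) s (fun k i => sh ξ (D.ε (g k i))) m (fun t => D.J ξ (e t)) ∧
    (∀ T : κ → ℕ, ∀ k, s k ≤ T k → KosNull (almId D ξ h₀) (fun i => sh ξ (D.ε (g k i)))
      (fun q => (D.J ξ (e (T - Pi.single k q)) : Submodule (Om ξ) (Om ξ)))) ∧
    D.J ξ (e 0) = ⊤ := by
  have hv : ∀ (T : κ → ℕ) (k : κ) (q : ℕ), q + 1 ≤ T k →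
      v k * e (T - Pi.single k (q + 1)) = e (T - Pi.single k q) := by
    intro T k q hq
    rw [he]
    congr 1
    ext j
    by_cases hj : j = k
    · subst hj; simp; omega
    · simp [hj]
  have hEW : ∀ (T : κ → ℕ) k, s k ≤ T k → D.KosExW (g k) (fun q => e (T - Pi.single k q)) := by
    intro T k hk
    exact (hKE T k hk).lift D (hg k) (fun q hq => hv T k q (by omega))
  have hKN : ∀ T : κ → ℕ, ∀ k, s k ≤ T k → KosNull (almId D ξ h₀) (fun i => sh ξ (D.ε (g k i)))
      (fun q => (D.J ξ (e (T - Pi.single k q)) : Submodule (Om ξ) (Om ξ))) := by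
    intro T k hk
    refine D.kosNull hξ (hg k) (fun q hq => hv T k q (by omega)) (hEW T k hk)
      (fun q _ => hN _) (fun q _ => hI _) ?_ ?_ le_rfl
    · rw [he]; exact hN _
    · rw [he]; exact hI _
  refine ⟨MonoSys.of_kosNull ?_ ?_ hKN hreg, hKN, by rw [he0]; exact D.J_one⟩
  · intro t k i x hx
    have := D.sh_mul_mem_J (hg k i) hx
    rwa [he] at this
  · intro t ht k x hx
    have hT : s k ≤ (t + Pi.single k 1 : κ → ℕ) k := by
      have := ht k
      have := hm k
      simp only [Pi.add_apply, Pi.single_eq_same]; omega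
    have hx' : x ∈ D.J ξ ((fun q => e (t + Pi.single k 1 - Pi.single k q)) 0) := by
      simpa using hx
    obtain ⟨a, ha, hxa⟩ := skoda_J D (hEW (t + Pi.single k 1) k hT) x hx'
    refine ⟨a, fun i => ?_, hxa⟩
    have := ha i
    simpa using this

end sys

end Crest.Agent.R188.AsmG
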