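import Crest.Agent.R188.Asm1
import Crest.Agent.R188.AsmG1

/-! # R188, assembly glue (helper83), part 2: sharp pairs in a `World` -/

set_option autoImplicit false

namespace Crest.Agent.R188.AsmG

open WittVector Crest.Agent.R188.Prf Crest.Agent.R188.Wit Crest.Agent.R188.Flg Crest.Agent.R188.Cmp
open Crest.Agent.R188.Asm Crest.Agent.R183

universe u

section roots

/-- `B⁺` has `n`-th roots -/
theorem bPlus_exists_pow {B : Type u} [CommRing B] [IsDomain B] (n : ℕ) (hn : 0 < n)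
    (c : Tri.BPlus B) : ∃ y : Tri.BPlus B, y ^ n = c := by
  obtain ⟨z, hz⟩ := IsAlgClosed.exists_pow_nat_eq (c : Tri.FB B) hn
  have hi : IsIntegral B z := by
    have h1 : IsIntegral B (z ^ n) := by rw [hz]; exact c.2
    exact h1.of_pow hn
  exact ⟨⟨z, hi⟩, Subtype.ext hz⟩

/-- compatible systems of `p`-power roots in `B⁺` -/
theorem bPlus_exists_roots {B : Type u} [CommRing B] [IsDomain B] (p : ℕ) (hp : 0 < p)
    (c : Tri.BPlus B) : ∃ r : ℕ → Tri.BPlus B, r 0 = c ∧ ∀ n, r (n + 1) ^ p = r n := by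
  choose f hf using fun c : Tri.BPlus B => bPlus_exists_pow p hp c
  refine ⟨fun n => f^[n] c, rfl, fun n => ?_⟩
  change (f^[n + 1] c) ^ p = f^[n] c
  rw [Function.iterate_succ_apply', hf]

end roots

section sharp

variable {p : ℕ} [hp : Fact p.Prime] {P : Type} [CommRing P] {h : IsPerf p P}
  {ξ : WittVector p P} {A : Type} [CommRing A] {ι : A →+* Om ξ}

lemma sh_mul (x y : P) : sh ξ (x * y) = sh ξ x * sh ξ y := by
  unfold sh
  rw [map_mul, map_mul]

lemma sh_one : sh ξ (1 : P) = 1 := by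
  unfold sh
  rw [map_one, map_one]

lemma SharpPair.mul {a a' : P} {r r' : ℕ → A} (h1 : SharpPair h ι a r) (h2 : SharpPair h ι a' r') :
    SharpPair h ι (a * a') (fun n => r n * r' n) := by
  refine ⟨fun n => by rw [mul_pow, h1.1, h2.1], fun n => ?_⟩
  rw [h.rtn_mul, sh_mul, h1.2, h2.2, map_mul]

lemma SharpPair.one : SharpPair h ι (1 : P) (fun _ => (1 : A)) := by
  refine ⟨fun n => one_pow _, fun n => ?_⟩
  rw [map_one]
  have : h.rtn n (1 : P) = 1 := h.rtn_eq_of_pow (by rw [one_pow])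
  rw [this, sh_one]

lemma SharpPair.prod {α : Type*} (s : Finset α) {a : α → P} {r : α → ℕ → A}
    (hs : ∀ i ∈ s, SharpPair h ι (a i) (r i)) :
    SharpPair h ι (∏ i ∈ s, a i) (fun n => ∏ i ∈ s, r i n) := by
  classical
  induction s using Finset.induction_on with
  | empty => simpa using SharpPair.one
  | insert i s hi ih =>
    have h1 := SharpPair.mul (hs i (Finset.mem_insert_self _ _))
      (ih fun j hj => hs j (Finset.mem_insert_of_mem hj))
    simp only [Finset.prod_insert hi]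
    exact h1

lemma SharpPair.sh_eq {a : P} {r : ℕ → A} (h1 : SharpPair h ι a r) : sh ξ a = ι (r 0) := by
  have := h1.2 0
  rwa [IsPerf.rtn_zero'] at this

lemma SharpPair.r_ne_zero {a : P} {r : ℕ → A} (h1 : SharpPair h ι a r) (h0 : r 0 ≠ 0) (n : ℕ) :
    r n ≠ 0 := by
  induction n with
  | zero => exact h0
  | succ n ih =>
    intro h2
    apply ih
    rw [← h1.1 n, h2, zero_pow hp.out.ne_zero]

end sharp

section world

variable {p : ℕ} [hp : Fact p.Prime] {k : Type} [Field k] [CharP k p] {b : ℕ}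
  (W : World p k b)

attribute [local instance] World.ringP

/-- every element of `B⁺` is a sharp -/
theorem exists_sharpPair (c : BPlus p k b) : ∃ (a : W.P) (r : ℕ → BPlus p k b),
    SharpPair W.perf W.ι a r ∧ r 0 = c := by
  obtain ⟨r, h0, h1⟩ := bPlus_exists_roots (B := BB p k b) p hp.out.pos c
  obtain ⟨a, ha⟩ := W.exists_sharp r h1
  exact ⟨a, r, ha, h0⟩

/-- sharp pairs for a family of elements of `B⁺` -/
structure SharpFam {κ : Type} (s : κ → ℕ) (c : ∀ j, Fin (s j) → BPlus p k b) where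
  /-- the elements of `P` -/
  a : (Σ j, Fin (s j)) → W.P
  /-- the roots -/
  rr : (Σ j, Fin (s j)) → ℕ → BPlus p k b
  sharp : ∀ x, SharpPair W.perf W.ι (a x) (rr x)
  zero : ∀ x, rr x 0 = c x.1 x.2

theorem nonempty_sharpFam {κ : Type} (s : κ → ℕ) (c : ∀ j, Fin (s j) → BPlus p k b) :
    Nonempty (SharpFam W s c) := by
  choose a r h1 h2 using fun x : (Σ j, Fin (s j)) => exists_sharpPair W (c x.1 x.2)
  exact ⟨⟨a, r, h1, h2⟩⟩

variable {W} in
lemma SharpFam.sh_a {κ : Type} {s : κ → ℕ} {c : ∀ j, Fin (s j) → BPlus p k b}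
    (F : SharpFam W s c) (x : Σ j, Fin (s j)) : sh W.ξ (F.a x) = W.ι (c x.1 x.2) := by
  rw [SharpPair.sh_eq (F.sharp x), F.zero]

variable {W} in
/-- the product of one nonzero generator per block -/
lemma SharpFam.prod {κ : Type} [Fintype κ] {s : κ → ℕ} {c : ∀ j, Fin (s j) → BPlus p k b}
    (F : SharpFam W s c) (i₀ : ∀ j, Fin (s j)) (hc : ∀ j, c j (i₀ j) ≠ 0) :
    SharpPair W.perf W.ι (∏ j, F.a ⟨j, i₀ j⟩) (fun n => ∏ j, F.rr ⟨j, i₀ j⟩ n) ∧
      (∏ j, F.rr ⟨j, i₀ j⟩ 0) ≠ 0 := by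
  refine ⟨SharpPair.prod _ fun j _ => F.sharp _, ?_⟩
  rw [Finset.prod_ne_zero_iff]
  intro j _
  rw [F.zero]
  exact hc j

end world

end Crest.Agent.R188.AsmG
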