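import Crest.Agent.R188.FlgEx2

/-! # R188, blocks (F)+(G): flags over `Ω` and the module `V = Ω^r` over `Ω ⊗_B S`. -/

set_option autoImplicit false

namespace Crest.Agent.R188.Flg

open Finset Matrix
open scoped TensorProduct

universe u

section minors

variable {O : Type*} [CommRing O] {r : ℕ} (l : ℕ → Fin r → O)

/-- if all `k`-minors of the first `k` rows vanish, so do the `(k+1)`-minors -/
lemma mu_succ_eq_zero {k : ℕ} (h : ∀ τ : Fin k → Fin r, mu l k τ = 0) (τ : Fin (k + 1) → Fin r) :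
    mu l (k + 1) τ = 0 := by
  rw [← ev_uv_self]
  have : uv l k τ = 0 := by
    unfold uv
    refine Finset.sum_eq_zero fun j _ => ?_
    rw [h, mul_zero, zero_smul]
  rw [this, ev_zero]

lemma exists_mu_ne_zero (hdet : Matrix.det (Matrix.of fun i j : Fin r => l i j) ≠ 0) (k : ℕ)
    (hk : k ≤ r) : ∃ τ : Fin k → Fin r, mu l k τ ≠ 0 := by
  induction hk using Nat.decreasingInduction with
  | self => exact ⟨id, hdet⟩
  | of_succ k hk ih =>
    by_contra hcon
    push Not at hcon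
    obtain ⟨τ, hτ⟩ := ih
    exact hτ (mu_succ_eq_zero l hcon τ)

lemma mu_map {Ω : Type*} [CommRing Ω] (f : O →+* Ω) (k : ℕ) (τ : Fin k → Fin r) :
    mu (fun k c => f (l k c)) k τ = f (mu l k τ) := by
  unfold mu
  rw [RingHom.map_det]
  rfl

/-- every `k`-minor ideal contains the determinant, in a form for `Fin (r+1)`-blocks -/
lemma exists_flagG_ne_zero (hdet : Matrix.det (Matrix.of fun i j : Fin r => l i j) ≠ 0)
    (k : Fin (r + 1)) : ∃ i : Fin (flagS r k), flagG l k i ≠ 0 := by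
  obtain ⟨τ, hτ⟩ := exists_mu_ne_zero l hdet k.val (by omega)
  refine ⟨Fintype.equivFin (Fin k.val → Fin r) τ, ?_⟩
  unfold flagG
  rwa [Equiv.symm_apply_apply]

lemma flagG_map {Ω : Type*} [CommRing Ω] (f : O →+* Ω) (k : Fin (r + 1)) (i : Fin (flagS r k)) :
    flagG (fun k c => f (l k c)) k i = f (flagG l k i) := mu_map l f _ _

end minors

section transfer

variable {B O Ω S A : Type u} [CommRing B] [CommRing O] [CommRing Ω] [CommRing S] [CommRing A]
  [Algebra B O] [Algebra O Ω] [Algebra B Ω] [IsScalarTower B O Ω] [Algebra B S] [Algebra Ω A]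
  {r : ℕ} {ρ : S →ₐ[B] Matrix (Fin r) (Fin r) B} {l : ℕ → Fin r → O} {γ : ℕ → (S →ₐ[B] O)}
  {V : Type u} [AddCommGroup V] [Module Ω V] [Module A V] [IsScalarTower Ω A V]
  (b : V ≃ₗ[Ω] (Fin r → Ω)) (σ : S →+* A) (γ' : ℕ → (A →ₐ[Ω] Ω))

omit [Algebra B Ω] [IsScalarTower B O Ω] in
lemma ev_mulVec (a : Fin r → Ω) (M : Matrix (Fin r) (Fin r) Ω) (x : Fin r → Ω) :
    ev a (M *ᵥ x) = ev (a ᵥ* M) x := by
  have h1 : ∀ a x : Fin r → Ω, ev a x = a ⬝ᵥ x := fun a x => rfl
  rw [h1, h1, Matrix.dotProduct_mulVec]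

include b in
/-- **the flag over `Ω`** -/
theorem isFlag_of
    (hreg : ∀ D : O, D ≠ 0 → ∀ x : Ω, algebraMap O Ω D * x = 0 → x = 0)
    (hl : ∀ k < r, ∀ s : S, ∃ D : O, D ≠ 0 ∧ ∃ n : ℕ → O,
        D • ((l k) ᵥ* ((ρ s).map (algebraMap B O)) - γ k s • l k) = ∑ i ∈ range k, n i • l i)
    (hσ : ∀ s x, b (σ s • x) = ((ρ s).map (algebraMap B Ω)) *ᵥ b x)
    (hspan : ∀ a : A, a ∈ Submodule.span Ω (Set.range σ))
    (hγ' : ∀ k s, γ' k (σ s) = algebraMap O Ω (γ k s)) :
    IsFlag b (fun k c => algebraMap O Ω (l k c)) γ' := by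
  intro k hk x hx a
  induction hspan a using Submodule.span_induction with
  | mem a ha =>
    obtain ⟨s, rfl⟩ := ha
    obtain ⟨D, hD, n, hn⟩ := hl k hk s
    have h1 : algebraMap O Ω D * (ev (fun c => algebraMap O Ω (l k c)) (b (σ s • x)) -
        γ' k (σ s) * ev (fun c => algebraMap O Ω (l k c)) (b x)) = 0 := by
      rw [hσ, hγ', ev_mulVec]
      have h2 : (fun c => algebraMap O Ω (l k c)) ᵥ* (ρ s).map (algebraMap B Ω) =
          fun c => algebraMap O Ω ((l k ᵥ* (ρ s).map (algebraMap B O)) c) := by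
        ext c
        simp only [Matrix.vecMul, dotProduct, Matrix.map_apply, map_sum, map_mul,
          ← IsScalarTower.algebraMap_apply B O Ω]
      rw [h2]
      have h3 : algebraMap O Ω D * (ev (fun c => algebraMap O Ω ((l k ᵥ* (ρ s).map (algebraMap B O)) c)) (b x) -
          algebraMap O Ω (γ k s) * ev (fun c => algebraMap O Ω (l k c)) (b x)) =
          ∑ c, algebraMap O Ω ((D • ((l k) ᵥ* ((ρ s).map (algebraMap B O)) - γ k s • l k)) c) * b x c := by
        unfold ev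
        rw [Finset.mul_sum, ← Finset.sum_sub_distrib, Finset.mul_sum]
        refine Finset.sum_congr rfl fun c _ => ?_
        simp only [Pi.smul_apply, Pi.sub_apply, smul_eq_mul, map_mul, map_sub]
        ring
      rw [h3, hn]
      have h4 : ∀ c, algebraMap O Ω ((∑ i ∈ range k, n i • l i) c) * b x c =
          ∑ i ∈ range k, algebraMap O Ω (n i) * (algebraMap O Ω (l i c) * b x c) := by
        intro c
        rw [Finset.sum_apply, map_sum, Finset.sum_mul]
        refine Finset.sum_congr rfl fun i _ => ?_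
        simp only [Pi.smul_apply, smul_eq_mul, map_mul]
        ring
      simp_rw [h4]
      rw [Finset.sum_comm]
      refine Finset.sum_eq_zero fun i hi => ?_
      rw [← Finset.mul_sum]
      have h5 := hx i (Finset.mem_range.1 hi)
      unfold ev at h5
      rw [h5, mul_zero]
    exact sub_eq_zero.1 (hreg D hD _ h1)
  | zero => rw [zero_smul, map_zero, ev_zero, map_zero, zero_mul]
  | add a a' _ _ h1 h2 =>
    rw [add_smul, map_add, ev_add, h1, h2, map_add, add_mul]
  | smul ω a _ h1 =>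
    rw [smul_assoc, map_smul, ev_smul, h1, map_smul, smul_eq_mul, mul_assoc]

omit [CommRing A] [Algebra Ω A] [Module A V] [IsScalarTower Ω A V] [CommRing B] [Algebra B O]
  [Algebra B Ω] [IsScalarTower B O Ω] in
/-- the determinant condition -/
theorem hdet_of
    (hreg : ∀ D : O, D ≠ 0 → ∀ x : Ω, algebraMap O Ω D * x = 0 → x = 0)
    (hdet : Matrix.det (Matrix.of fun i j : Fin r => l i j) ≠ 0) (x : V)
    (hx : ∀ i < r, ev (fun c => algebraMap O Ω (l i c)) (b x) = 0) : x = 0 := by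
  let M : Matrix (Fin r) (Fin r) Ω := (Matrix.of fun i j : Fin r => l i j).map (algebraMap O Ω)
  have h1 : M *ᵥ (b x) = 0 := by
    ext i
    exact hx i i.2
  have h2 : M.adjugate *ᵥ (M *ᵥ (b x)) = 0 := by rw [h1, Matrix.mulVec_zero]
  rw [Matrix.mulVec_mulVec, Matrix.adjugate_mul, Matrix.smul_mulVec, Matrix.one_mulVec] at h2
  have h3 : M.det = algebraMap O Ω (Matrix.det (Matrix.of fun i j : Fin r => l i j)) := by
    rw [RingHom.map_det]; rfl
  apply b.injective
  rw [map_zero]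
  ext c
  have h4 := congrFun h2 c
  rw [Pi.smul_apply, smul_eq_mul, h3] at h4
  exact hreg _ hdet _ h4

end transfer

section concrete

variable {B Ω S : Type u} [CommRing B] [CommRing Ω] [CommRing S] [Algebra B Ω] [Algebra B S]
  {r : ℕ}

/-- the representation of `Ω ⊗_B S` on `Ω^r` -/
noncomputable def matRep (Ω : Type u) [CommRing Ω] [Algebra B Ω]
    (ρ : S →ₐ[B] Matrix (Fin r) (Fin r) B) :
    (Ω ⊗[B] S) →ₐ[Ω] Matrix (Fin r) (Fin r) Ω :=
  Algebra.TensorProduct.lift (Algebra.ofId Ω _)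
    (((Algebra.ofId B Ω).mapMatrix (m := Fin r)).comp ρ) (fun _ _ => Algebra.commutes _ _)

lemma matRep_tmul (ρ : S →ₐ[B] Matrix (Fin r) (Fin r) B) (ω : Ω) (s : S) :
    matRep Ω ρ (ω ⊗ₜ s) = ω • (ρ s).map (algebraMap B Ω) := by
  rw [matRep, Algebra.TensorProduct.lift_tmul, Algebra.ofId_apply, ← Algebra.smul_def]
  rfl

/-- `Ω^r` with the action of `Ω ⊗_B S` through `ρ` -/
def VO (Ω : Type u) [CommRing Ω] [Algebra B Ω] (_ρ : S →ₐ[B] Matrix (Fin r) (Fin r) B) : Type u :=
  Fin r → Ω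

variable (ρ : S →ₐ[B] Matrix (Fin r) (Fin r) B)

instance : AddCommGroup (VO Ω ρ) := inferInstanceAs (AddCommGroup (Fin r → Ω))
instance : Module Ω (VO Ω ρ) := inferInstanceAs (Module Ω (Fin r → Ω))

noncomputable instance : Module (Ω ⊗[B] S) (VO Ω ρ) :=
  Module.compHom (Fin r → Ω)
    (((Matrix.toLinAlgEquiv' (R := Ω) (n := Fin r)).toAlgHom.comp (matRep Ω ρ)) :
      (Ω ⊗[B] S) →+* Module.End Ω (Fin r → Ω))

/-- the identity `VO Ω ρ = Ω^r` -/
def VO.b : VO Ω ρ ≃ₗ[Ω] (Fin r → Ω) := LinearEquiv.refl Ω (Fin r → Ω)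

lemma VO.smul_def (a : Ω ⊗[B] S) (x : VO Ω ρ) :
    VO.b ρ (a • x) = matRep Ω ρ a *ᵥ VO.b ρ x := rfl

instance : IsScalarTower Ω (Ω ⊗[B] S) (VO Ω ρ) where
  smul_assoc ω a x := by
    apply (VO.b ρ).injective
    rw [VO.smul_def, map_smul, map_smul, VO.smul_def, Matrix.smul_mulVec]

lemma VO.hσ (s : S) (x : VO Ω ρ) :
    VO.b ρ ((Algebra.TensorProduct.includeRight (R := B) (A := Ω) s : Ω ⊗[B] S) • x) =
      ((ρ s).map (algebraMap B Ω)) *ᵥ VO.b ρ x := by
  rw [VO.smul_def, Algebra.TensorProduct.includeRight_apply, matRep_tmul, one_smul]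

lemma hspan_tensor (a : Ω ⊗[B] S) : a ∈ Submodule.span Ω (Set.range
    (Algebra.TensorProduct.includeRight (R := B) (A := Ω) (B := S))) := by
  induction a using TensorProduct.induction_on with
  | zero => exact Submodule.zero_mem _
  | tmul ω s =>
    have : ω ⊗ₜ[B] s = ω • ((1 : Ω) ⊗ₜ[B] s) := by rw [TensorProduct.smul_tmul', smul_eq_mul, mul_one]
    rw [this]
    exact Submodule.smul_mem _ _ (Submodule.subset_span ⟨s, rfl⟩)
  | add a a' h1 h2 => exact Submodule.add_mem _ h1 h2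

variable {O : Type u} [CommRing O] [Algebra B O] [Algebra O Ω] [IsScalarTower B O Ω]

/-- the character of `Ω ⊗_B S` induced by `γ : S → O` -/
noncomputable def chr (Ω : Type u) [CommRing Ω] [Algebra B Ω] [Algebra O Ω] [IsScalarTower B O Ω]
    (γ : S →ₐ[B] O) : (Ω ⊗[B] S) →ₐ[Ω] Ω :=
  Algebra.TensorProduct.lift (AlgHom.id Ω Ω) ((IsScalarTower.toAlgHom B O Ω).comp γ)
    (fun _ _ => Commute.all _ _)

lemma chr_includeRight (γ : S →ₐ[B] O) (s : S) :
    chr Ω γ (Algebra.TensorProduct.includeRight (R := B) (A := Ω) s) = algebraMap O Ω (γ s) := by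
  rw [chr, Algebra.TensorProduct.includeRight_apply, Algebra.TensorProduct.lift_tmul]
  simp

end concrete

/-- **(F)+(G)**: the package.  `O` absolutely integrally closed (integrally closed in its
algebraically closed fraction field `K`), `O → Ω` with nonzero elements regular on `Ω`,
`S` an integral `B`-algebra with a representation on `B^r`. -/
theorem exists_flag_package {B O Ω S : Type u} [CommRing B] [CommRing O] [IsDomain O]
    [CommRing Ω] [CommRing S] (K : Type*) [Field K]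
    [Algebra B O] [Algebra O K] [Algebra B K] [IsScalarTower B O K] [IsFractionRing O K]
    [IsIntegrallyClosed O] [IsAlgClosed K] [Algebra O Ω] [Algebra B Ω] [IsScalarTower B O Ω]
    [Algebra B S] [Algebra.IsIntegral B S] {r : ℕ} (hr0 : 0 < r)
    (ρ : S →ₐ[B] Matrix (Fin r) (Fin r) B)
    (hreg : ∀ D : O, D ≠ 0 → ∀ x : Ω, algebraMap O Ω D * x = 0 → x = 0) :
    ∃ (l : ℕ → Fin r → O) (γ : ℕ → (S →ₐ[B] O)),
      -- the relations over `O`
      (∀ k < r, ∀ s : S, ∃ D : O, D ≠ 0 ∧ ∃ n : ℕ → O,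
        D • ((l k) ᵥ* ((ρ s).map (algebraMap B O)) - γ k s • l k) = ∑ i ∈ range k, n i • l i) ∧
      Matrix.det (Matrix.of fun i j : Fin r => l i j) ≠ 0 ∧
      -- the minors
      (∀ k : Fin (r + 1), ∃ i, flagG l k i ≠ 0) ∧
      (∀ (k : Fin (r + 1)) i, flagG (fun k c => algebraMap O Ω (l k c)) k i =
        algebraMap O Ω (flagG l k i)) ∧
      -- the flag over `Ω`
      IsFlag (VO.b (Ω := Ω) ρ) (fun k c => algebraMap O Ω (l k c)) (fun k => chr Ω (γ k)) ∧
      (∀ x : VO Ω ρ, (∀ i < r, ev (fun c => algebraMap O Ω (l i c)) (VO.b ρ x) = 0) → x = 0) := by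
  obtain ⟨l, γ, h1, h2⟩ := exists_flag (O := O) K ρ hr0
  refine ⟨l, γ, h1, h2, exists_flagG_ne_zero l h2, fun k i => flagG_map l _ k i, ?_, ?_⟩
  · exact isFlag_of (VO.b ρ)
      (Algebra.TensorProduct.includeRight (R := B) (A := Ω) (B := S) : S →+* Ω ⊗[B] S)
      (fun k => chr Ω (γ k)) hreg h1 (VO.hσ ρ) hspan_tensor (fun k s => chr_includeRight (γ k) s)
  · exact hdet_of (VO.b ρ) hreg h2

end Crest.Agent.R188.Flg
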