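import Crest.Agent.R188.UB5
import Crest.Agent.R188.AsmG2
import Crest.Agent.R188.Asm3
import Crest.Agent.R188.FlgEx3

/-!
# R188, assembly (helper985): the `MonoSys` half of `Asm.Twist`

For a matrix `L` of rows over `B⁺` with nonzero determinant, sharps `F.a` of the minors, and the
monomial ideals `I T` of `P` (`UB3.D`): the ideals `JI W (I T)` form a `MonoSys`.
-/

set_option autoImplicit false
set_option linter.unusedSectionVars false
set_option linter.unusedVariables false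
set_option linter.style.haveILetI false

namespace Crest.Agent.R188.AsmU

open WittVector Crest.Agent.R183 Crest.Agent.R188.Prf Crest.Agent.R188.Wit Crest.Agent.R188.Flg
open Crest.Agent.R188.Cmp Crest.Agent.R188.Asm Crest.Agent.R188.AsmG Crest.Agent.R188.UB

attribute [local instance] World.ringP

variable {p : ℕ} [hp : Fact p.Prime] {k : Type} [Field k] [CharP k p] {b : ℕ} (W : World p k b)

lemma World.nontrivial_P : Nontrivial W.P := by
  by_contra h
  rw [not_nontrivial_iff_subsingleton] at h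
  apply W.L_ne_zero
  haveI : Subsingleton (W.P ⧸ Ideal.span (Set.range W.t)) :=
    (Ideal.Quotient.mk_surjective (I := Ideal.span (Set.range W.t))).subsingleton
  exact (LP W.Λ).L_subsingleton

instance World.charP : CharP W.P p := by
  haveI := World.nontrivial_P W
  exact (CharP.charP_iff_prime_eq_zero hp.out).2 W.perf.p_zero

section IT

variable {κ : Type} [Fintype κ] [DecidableEq κ] {s : κ → ℕ} (g : (Σ k, Fin (s k)) → W.P)

/-- the monomial ideal `I T ⊆ P`, `T` natural -/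
noncomputable def IT (T : κ → ℕ) : Ideal W.P :=
  (UB.D W.perf g).I (eν W.perf g (toR T))

lemma JI_IT (T : κ → ℕ) : JI W (IT W g T) = (UB.D W.perf g).J W.ξ (eν W.perf g (toR T)) := rfl

lemma convex_IT (T : κ → ℕ) : Digit.Convex p (IT W g T) := (UB.D W.perf g).I_convex _

lemma exists_pow_mem_IT (i₀ : ∀ j, Fin (s j)) (T : κ → ℕ) :
    ∃ m, hc g i₀ ^ m ∈ IT W g T := exists_pow_hc_mem_I W.perf g i₀ (toR_nonneg T)

/-- the `MonoSys` of the ideals `JI W (IT W g T)`. -/
theorem monoSys_IT (i₀ : ∀ j, Fin (s j)) (hs : ∀ j, 0 < s j)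
    (hreg : ∀ j, ∀ x : Om W.ξ, sh W.ξ (g ⟨j, i₀ j⟩) * x = 0 → x = 0) (m : ℕ)
    (hm : ∀ j, s j ≤ m + 1) :
    MonoSys (aI W (hc g i₀)) s (fun j i => sh W.ξ (g ⟨j, i⟩)) m (fun T => JI W (IT W g T)) := by
  have h := (monoSys_J (UB.D W.perf g) (ξ := W.ξ) (π := W.π)
    (fun j i => ΘS W.perf g (DD.nat p 1) j i)
    (fun j => eν W.perf g (Pi.single j ((DD.nat p 1 : DD p) : ℝ)))
    (fun T => eν W.perf g (toR T)) W.dist (eν_toR_zero W.perf g)
    (fun t j => eν_toR_single W.perf g t j) (fun j i => ΘS_mem W.perf g (DD.nat p 1) j i)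
    (fun T j hT => kosEx_nat W.perf g T (hs j) hT) (h₀ := hc g i₀)
    (fun t => nul W.perf g _ i₀) (fun t => exists_pow_hc_mem_I W.perf g i₀ (toR_nonneg t))
    (fun j => ⟨i₀ j, ?_⟩) m hm).1
  · simp only [ε_ΘS_one] at h
    exact h
  · rw [ε_ΘS_one]
    exact hreg j

end IT

section flag

variable {r : ℕ} (L : Matrix (Fin r) (Fin r) (BPlus p k b))

/-- the minors of `L` in `B⁺` -/
noncomputable def minors : ∀ j, Fin (flagS r j) → BPlus p k b :=
  flagG (Tri.rows (BPlus p k b) L)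


lemma flagG_rows (j : Fin (r + 1)) (i : Fin (flagS r j)) :
    flagG (Tri.rows (Om W.ξ) L) j i = W.ι (minors L j i) := by
  have h1 : (Tri.rows (Om W.ξ) L) = fun k' c => W.ι (Tri.rows (BPlus p k b) L k' c) := by
    funext k' c
    unfold Tri.rows
    split_ifs
    · rfl
    · rw [map_zero]
  rw [h1, flagG_map]
  rfl

lemma exists_minors_ne_zero (hL : L.det ≠ 0) (j : Fin (r + 1)) : ∃ i, minors L j i ≠ 0 := by
  refine exists_flagG_ne_zero _ ?_ j
  have : (Matrix.of fun i j : Fin r => Tri.rows (BPlus p k b) L i j) = L := by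
    ext i j
    simp [Tri.rows]
  rwa [this]

lemma flagS_pos (hr : 0 < r) (j : Fin (r + 1)) : 0 < flagS r j := by
  haveI : Nonempty (Fin r) := ⟨⟨0, hr⟩⟩
  exact Fintype.card_pos

/-- a bound for the number of minors -/
def mB' (r : ℕ) : ℕ := Finset.univ.sup (flagS r)

lemma flagS_le (j : Fin (r + 1)) : flagS r j ≤ mB' r + 1 :=
  (Finset.le_sup (f := flagS r) (Finset.mem_univ j)).trans (Nat.le_succ _)

/-- **the `MonoSys` half of `Twist`**: everything but `growth` and `fin` of `Good`. -/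
theorem twist_aux (hr : 0 < r) (hL : L.det ≠ 0) (F : SharpFam W (flagS r) (minors L))
    (i₀ : ∀ j, Fin (flagS r j)) (hi₀ : ∀ j, minors L j (i₀ j) ≠ 0) :
    SharpPair W.perf W.ι (hc F.a i₀) (fun n => ∏ j, F.rr ⟨j, i₀ j⟩ n) ∧
    (∏ j, F.rr ⟨j, i₀ j⟩ 0) ≠ 0 ∧
    MonoSys (aI W (hc F.a i₀)) (flagS r) (flagG (Tri.rows (Om W.ξ) L)) (mB' r)
      (fun T => JI W (IT W F.a T)) := by
  obtain ⟨h1, h2⟩ := F.prod i₀ hi₀
  refine ⟨h1, h2, ?_⟩
  have h3 : flagG (Tri.rows (Om W.ξ) L) = fun j i => sh W.ξ (F.a ⟨j, i⟩) := by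
    funext j i
    rw [flagG_rows, F.sh_a]
  rw [h3]
  refine monoSys_IT W F.a i₀ (flagS_pos hr) (fun j x hx => ?_) _ flagS_le
  rw [F.sh_a] at hx
  exact W.reg_ι _ (hi₀ j) x hx

/-- **`Twist` from the remaining parts of `Good`.** -/
theorem twist_of_good (hG : ∀ (r : ℕ) (_ : 0 < r) (L : Matrix (Fin r) (Fin r) (BPlus p k b))
    (_ : L.det ≠ 0) (F : SharpFam W (flagS r) (minors L)) (i₀ : ∀ j, Fin (flagS r j))
    (_ : ∀ j, minors L j (i₀ j) ≠ 0) (T : Fin (r + 1) → ℕ),
      Good W (hc F.a i₀) (IT W F.a T)) : Twist W := by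
  intro r hr L hL
  obtain ⟨F⟩ := nonempty_sharpFam W (flagS r) (minors L)
  choose i₀ hi₀ using exists_minors_ne_zero L hL
  obtain ⟨h1, h2, h3⟩ := twist_aux W L hr hL F i₀ hi₀
  exact ⟨_, _, h1, h2, IT W F.a, mB' r, h3, fun T => hG r hr L hL F i₀ hi₀ T⟩

end flag

end Crest.Agent.R188.AsmU
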