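/-
R188 (Serre positivity), block (T3), part 1: traces and characters over a field.   helper365

* `trace_of_exact` : traces are additive on short exact sequences with endomorphisms;
* `IsCh t Γ` : the function `t : A → K` is the sum of the characters in the multiset `Γ`;
* `exists_isCh` : the trace of a commutative ring acting on a f.d. space over an algebraically
  closed field is a sum of characters;
* `IsCh.unique` : in characteristic zero the multiset is unique;
* `trace_of_rows` : traces from a triangular row flag.
-/
import Mathlib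

set_option autoImplicit false

namespace Crest.Agent.R188.Chr

open Module

universe u v w

section trace

variable {K : Type*} [Field K] {V' V V'' : Type*} [AddCommGroup V'] [Module K V']
  [AddCommGroup V] [Module K V] [AddCommGroup V''] [Module K V''] [FiniteDimensional K V]

/-- **Additivity of the trace** on short exact sequences. -/
theorem trace_of_exact (i : V' →ₗ[K] V) (p : V →ₗ[K] V'') (hi : Function.Injective i)
    (hp : Function.Surjective p) (h : Function.Exact i p) (f' : Module.End K V')
    (f : Module.End K V) (f'' : Module.End K V'') (h1 : ∀ x, i (f' x) = f (i x))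
    (h2 : ∀ x, p (f x) = f'' (p x)) :
    LinearMap.trace K V f = LinearMap.trace K V' f' + LinearMap.trace K V'' f'' := by
  have : FiniteDimensional K V' := FiniteDimensional.of_injective i hi
  have : FiniteDimensional K V'' := Module.Finite.of_surjective p hp
  obtain ⟨s, hs⟩ := LinearMap.exists_rightInverse_of_surjective p (LinearMap.range_eq_top.2 hp)
  have hs' : ∀ y, p (s y) = y := fun y => LinearMap.congr_fun hs y
  -- the retraction
  have hrange : ∀ x, x - s (p x) ∈ LinearMap.range i := by
    intro x
    have : p (x - s (p x)) = 0 := by rw [map_sub, hs', sub_self]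
    exact (h _).1 this
  let e := LinearEquiv.ofInjective i hi
  let q : V →ₗ[K] LinearMap.range i :=
    LinearMap.codRestrict (LinearMap.range i) (LinearMap.id - s ∘ₗ p) (by
      intro x; exact hrange x)
  let r : V →ₗ[K] V' := e.symm.toLinearMap ∘ₗ q
  have hir : ∀ x, i (r x) = x - s (p x) := by
    intro x
    have h3 : e (r x) = q x := e.apply_symm_apply _
    have h4 : (e (r x) : V) = i (r x) := LinearEquiv.ofInjective_apply i (r x)
    rw [← h4, h3]
    rfl
  have hri : ∀ x, r (i x) = x := by
    intro x
    apply hi
    rw [hir, h.apply_apply_eq_zero, map_zero, sub_zero]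
  have h3 : f = (i ∘ₗ (r ∘ₗ f)) + (s ∘ₗ (p ∘ₗ f)) := by
    ext x
    simp only [LinearMap.add_apply, LinearMap.comp_apply]
    rw [hir]; abel
  rw [h3, map_add, LinearMap.trace_comp_comm' , LinearMap.trace_comp_comm' (p ∘ₗ f) s]
  congr 1
  · congr 1
    ext x
    simp only [LinearMap.comp_apply]
    rw [← h1, hri]
  · congr 1
    ext x
    simp only [LinearMap.comp_apply]
    rw [h2, hs']

end trace

section chars

variable {A : Type u} [CommRing A] {K : Type w} [Field K]

/-- `t` is the sum of the characters in `Γ`. -/
def IsCh (t : A → K) (Γ : Multiset (A →+* K)) : Prop := ∀ a, t a = (Γ.map fun g => g a).sum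

theorem IsCh.add {t t' t'' : A → K} {Γ' Γ'' : Multiset (A →+* K)} (h' : IsCh t' Γ')
    (h'' : IsCh t'' Γ'') (h : ∀ a, t a = t' a + t'' a) : IsCh t (Γ' + Γ'') := by
  intro a
  rw [h, h' a, h'' a, Multiset.map_add, Multiset.sum_add]

theorem sum_eq_finset (Γ : Multiset (A →+* K)) (S : Finset (A →+* K)) [DecidableEq (A →+* K)]
    (hS : Γ.toFinset ⊆ S) (a : A) :
    (Γ.map fun g => g a).sum = ∑ g ∈ S, (Γ.count g : K) * g a := by
  rw [Finset.sum_multiset_map_count]
  simp only [nsmul_eq_mul]
  refine Finset.sum_subset hS ?_
  intro g _ hg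
  rw [Multiset.mem_toFinset, ← Multiset.count_eq_zero] at hg
  rw [hg]; simp

/-- **Uniqueness** (independence of characters), characteristic zero. -/
theorem IsCh.unique [CharZero K] {t : A → K} {Γ₁ Γ₂ : Multiset (A →+* K)} (h1 : IsCh t Γ₁)
    (h2 : IsCh t Γ₂) : Γ₁ = Γ₂ := by
  classical
  let S := Γ₁.toFinset ∪ Γ₂.toFinset
  have hli : LinearIndependent K (fun g : A →+* K => (g : A → K)) := by
    have h0 := linearIndependent_monoidHom A K
    have := h0.comp (fun g : A →+* K => (g : A →* K)) (by
      intro g g' h
      ext a
      exact DFunLike.congr_fun h a)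
    exact this
  have h3 : ∑ g ∈ S, ((Γ₁.count g : K) - (Γ₂.count g : K)) • (g : A → K) = 0 := by
    funext a
    have e1 := h1 a
    rw [h2 a, sum_eq_finset Γ₁ S Finset.subset_union_left,
      sum_eq_finset Γ₂ S Finset.subset_union_right] at e1
    simp only [Finset.sum_apply, Pi.smul_apply, smul_eq_mul, sub_mul, Finset.sum_sub_distrib,
      Pi.zero_apply]
    rw [e1, sub_self]
  have h4 := linearIndependent_iff'.1 hli S _ h3
  ext g
  by_cases hg : g ∈ S
  · have := h4 g hg
    rw [sub_eq_zero] at this
    exact_mod_cast this
  · rw [Finset.mem_union, not_or, Multiset.mem_toFinset, Multiset.mem_toFinset] at hg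
    rw [Multiset.count_eq_zero.2 hg.1, Multiset.count_eq_zero.2 hg.2]

end chars

section existence

variable {A : Type u} [CommRing A] {K : Type w} [Field K]

/-- the trace function of a representation -/
noncomputable def tr {V : Type v} [AddCommGroup V] [Module K V] (ρ : A →+* Module.End K V) : A → K :=
  fun a => LinearMap.trace K V (ρ a)

section sub

variable {V : Type v} [AddCommGroup V] [Module K V] (ρ : A →+* Module.End K V)
  (W : Submodule K V) (hW : ∀ a, ∀ x ∈ W, ρ a x ∈ W)

/-- subrepresentation -/
def repSub : A →+* Module.End K W where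
  toFun a := (ρ a).restrict (hW a)
  map_one' := by ext x; simp
  map_mul' a b := by ext x; simp
  map_zero' := by ext x; simp
  map_add' a b := by ext x; simp

/-- quotient representation -/
def repQuot : A →+* Module.End K (V ⧸ W) where
  toFun a := W.mapQ W (ρ a) (hW a)
  map_one' := by ext x; simp
  map_mul' a b := by ext x; simp
  map_zero' := by ext x; simp
  map_add' a b := by ext x; simp

theorem tr_eq_add [FiniteDimensional K V] (a : A) :
    tr ρ a = tr (repSub ρ W hW) a + tr (repQuot ρ W hW) a :=
  trace_of_exact W.subtype W.mkQ W.subtype_injective W.mkQ_surjective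
    (LinearMap.exact_subtype_mkQ W) _ _ _ (fun _ => rfl) (fun _ => rfl)

end sub

/-- **Existence of the characters.**  Every `g ∈ Γ` is compatible with the scalars, and `Γ` has
`dim V` elements. -/
theorem exists_isCh [IsAlgClosed K] (n : ℕ) : ∀ (V : Type v) [AddCommGroup V] [Module K V]
    [FiniteDimensional K V] (ρ : A →+* Module.End K V), finrank K V = n →
    ∃ Γ : Multiset (A →+* K), IsCh (tr ρ) Γ ∧ Γ.card = n ∧
      ∀ g ∈ Γ, ∀ a c, (∀ x, ρ a x = c • x) → g a = c := by
  induction n using Nat.strong_induction_on with
  | _ n ih =>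
    intro V _ _ _ ρ hn
    rcases subsingleton_or_nontrivial V with hV | hV
    · refine ⟨0, ?_, ?_, by simp⟩
      · intro a
        have : ρ a = 0 := Subsingleton.elim _ _
        simp [tr, this]
      · rw [← hn, Module.finrank_zero_of_subsingleton]; rfl
    by_cases hsc : ∀ a, ∃ c : K, ρ a = c • (1 : Module.End K V)
    · choose γ hγ using hsc
      have hinj : ∀ c c' : K, c • (1 : Module.End K V) = c' • (1 : Module.End K V) → c = c' := by
        intro c c' h
        have h1 : (1 : Module.End K V) ≠ 0 := one_ne_zero
        exact smul_left_injective K h1 h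
      let g : A →+* K :=
        { toFun := γ
          map_one' := hinj _ _ (by rw [← hγ, map_one, one_smul])
          map_mul' := fun a b => hinj _ _ (by
            rw [← hγ, map_mul, hγ a, hγ b]
            ext x
            simp [mul_smul, smul_comm (γ a) (γ b)])
          map_zero' := hinj _ _ (by rw [← hγ, map_zero, zero_smul])
          map_add' := fun a b => hinj _ _ (by
            rw [← hγ, map_add, hγ a, hγ b, add_smul]) }
      refine ⟨Multiset.replicate n g, ?_, by simp, ?_⟩
      · intro a
        rw [Multiset.map_replicate, Multiset.sum_replicate]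
        show LinearMap.trace K V (ρ a) = n • γ a
        rw [hγ, map_smul, LinearMap.trace_one, hn, smul_eq_mul, nsmul_eq_mul, mul_comm]
      · intro g' hg' a c hc
        rw [Multiset.eq_of_mem_replicate hg']
        refine hinj _ _ ?_
        rw [show g a = γ a from rfl, ← hγ]
        ext x
        rw [hc]; rfl
    · push Not at hsc
      obtain ⟨a₀, ha₀⟩ := hsc
      obtain ⟨c, hc⟩ := Module.End.exists_eigenvalue (ρ a₀)
      let W : Submodule K V := Module.End.eigenspace (ρ a₀) c
      have hmemW : ∀ x, x ∈ W ↔ ρ a₀ x = c • x := fun x => Module.End.mem_eigenspace_iff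
      have hW : ∀ a, ∀ x ∈ W, ρ a x ∈ W := by
        intro a x hx
        rw [hmemW] at hx ⊢
        rw [← Module.End.mul_apply, ← map_mul, mul_comm, map_mul, Module.End.mul_apply, hx,
          map_smul]
      have hW0 : W ≠ ⊥ := hc
      have hW1 : W ≠ ⊤ := by
        intro h
        apply ha₀ c
        ext x
        have : x ∈ W := by rw [h]; trivial
        exact (hmemW x).1 this
      have hadd : finrank K (V ⧸ W) + finrank K W = finrank K V :=
        Submodule.finrank_quotient_add_finrank W
      have hpos1 : 0 < finrank K W := by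
        rw [Module.finrank_pos_iff_exists_ne_zero]
        obtain ⟨x, hx, hx0⟩ := Submodule.exists_mem_ne_zero_of_ne_bot hW0
        exact ⟨⟨x, hx⟩, fun h => hx0 (congrArg Subtype.val h)⟩
      have hpos2 : 0 < finrank K (V ⧸ W) := by
        have : Nontrivial (V ⧸ W) := Submodule.Quotient.nontrivial_iff.2 hW1
        exact Module.finrank_pos
      obtain ⟨Γ', h1', h2', h3'⟩ := ih (finrank K W) (by omega) W (repSub ρ W hW) rfl
      obtain ⟨Γ'', h1'', h2'', h3''⟩ := ih (finrank K (V ⧸ W)) (by omega) (V ⧸ W)
        (repQuot ρ W hW) rfl
      refine ⟨Γ' + Γ'', h1'.add h1'' (tr_eq_add ρ W hW), by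
        rw [Multiset.card_add, h2', h2'']; omega, ?_⟩
      intro g hg a c hc
      rcases Multiset.mem_add.1 hg with hg | hg
      · refine h3' g hg a c ?_
        intro x
        exact Subtype.ext (hc x.1)
      · refine h3'' g hg a c ?_
        intro x
        obtain ⟨y, rfl⟩ := W.mkQ_surjective x
        show W.mkQ (ρ a y) = _
        rw [hc, map_smul]

end existence

section rows

variable {K : Type w} [Field K]

/-- trace from a triangular row flag, matrix form -/
theorem trace_of_tri {r : ℕ} (X W T : Matrix (Fin r) (Fin r) K) (hW : W.det ≠ 0)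
    (h : W * X = T * W) : X.trace = T.trace := by
  have hu : IsUnit W.det := isUnit_iff_ne_zero.2 hW
  have h1 : X = W⁻¹ * (T * W) := by
    rw [← h, ← Matrix.mul_assoc, Matrix.nonsing_inv_mul W hu, Matrix.one_mul]
  rw [h1, Matrix.trace_mul_comm, Matrix.mul_assoc, Matrix.mul_nonsing_inv W hu, Matrix.mul_one]

end rows

end Crest.Agent.R188.Chr
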