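/-
R188 (Serre positivity), block (T3), part 2: the character multiset of a finite module over a
finite `B`-algebra `A`.   helper365

For an `A`-module `N`, `rep B K N : A →+* End_K (K ⊗_B N)`; `tr (rep B K N) : A → K` is additive on
short exact sequences; if `N` is `B`-free with a triangular row flag with characters `γ_k`, then
`tr (rep B K N) = ∑ γ_k`.
-/
import Mathlib
import Crest.Agent.R188.Chr1

set_option autoImplicit false
set_option maxHeartbeats 400000

namespace Crest.Agent.R188.Chr

open Module TensorProduct

universe u v w

section flat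

/-- a field containing a domain is flat over it -/
theorem flat_of_injective {B : Type*} [CommRing B] [IsDomain B] {K : Type*} [Field K] [Algebra B K]
    (h : Function.Injective (algebraMap B K)) : Module.Flat B K := by
  have : FaithfulSMul B K := (faithfulSMul_iff_algebraMap_injective B K).2 h
  let _ : Algebra (FractionRing B) K := FractionRing.liftAlgebra B K
  have : IsScalarTower B (FractionRing B) K := FractionRing.isScalarTower_liftAlgebra B K
  have : Module.Flat B (FractionRing B) := IsLocalization.flat (FractionRing B) (nonZeroDivisors B)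
  exact Module.Flat.trans B (FractionRing B) K

end flat

section rep

variable (B : Type*) [CommRing B] {A : Type u} [CommRing A] [Algebra B A] (K : Type w) [Field K]
  [Algebra B K]

/-- the action of `A` on `K ⊗_B N` -/
noncomputable def rep (N : Type v) [AddCommGroup N] [Module A N] [Module B N]
    [IsScalarTower B A N] : A →+* Module.End K (K ⊗[B] N) where
  toFun a := (Algebra.lsmul B B N a).baseChange K
  map_one' := by
    rw [map_one]; exact LinearMap.baseChange_id
  map_mul' a b := by
    rw [map_mul]; exact LinearMap.baseChange_comp _ _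
  map_zero' := by
    rw [map_zero]; exact LinearMap.baseChange_zero
  map_add' a b := by
    rw [map_add]; exact LinearMap.baseChange_add _ _

variable {N N' N'' : Type v} [AddCommGroup N] [Module A N] [Module B N]
    [IsScalarTower B A N] [AddCommGroup N'] [Module A N'] [Module B N']
    [IsScalarTower B A N'] [AddCommGroup N''] [Module A N''] [Module B N'']
    [IsScalarTower B A N'']

@[simp] theorem rep_tmul (a : A) (x : K) (n : N) : rep B K N a (x ⊗ₜ[B] n) = x ⊗ₜ[B] (a • n) := rfl

theorem rep_algebraMap (b : B) (x : K ⊗[B] N) :
    rep B K N (algebraMap B A b) x = (algebraMap B K b) • x := by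
  induction x with
  | zero => simp
  | add x y hx hy => rw [map_add, hx, hy, smul_add]
  | tmul x n =>
    rw [rep_tmul, algebraMap_smul, TensorProduct.tmul_smul, algebraMap_smul]

/-- **Additivity** -/
theorem tr_rep_add [Module.Flat B K] [Module.Finite B N] (f : N' →ₗ[A] N) (g : N →ₗ[A] N'')
    (hf : Function.Injective f) (hg : Function.Surjective g) (h : Function.Exact f g) (a : A) :
    tr (rep B K N) a = tr (rep B K N') a + tr (rep B K N'') a := by
  let f' : N' →ₗ[B] N := f.restrictScalars B
  let g' : N →ₗ[B] N'' := g.restrictScalars B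
  refine trace_of_exact (f'.baseChange K) (g'.baseChange K) ?_ ?_ ?_ _ _ _ ?_ ?_
  · exact Module.Flat.lTensor_preserves_injective_linearMap (M := K) f' hf
  · exact LinearMap.lTensor_surjective K hg
  · exact lTensor_exact K (f := f') (g := g') h hg
  · intro x
    induction x with
    | zero => simp
    | add x y hx hy => simp only [map_add, hx, hy]
    | tmul x n =>
      rw [rep_tmul, LinearMap.baseChange_tmul, LinearMap.baseChange_tmul, rep_tmul]
      show x ⊗ₜ[B] (f (a • n)) = x ⊗ₜ[B] (a • f n)
      rw [map_smul]
  · intro x
    induction x with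
    | zero => simp
    | add x y hx hy => simp only [map_add, hx, hy]
    | tmul x n =>
      rw [rep_tmul, LinearMap.baseChange_tmul, LinearMap.baseChange_tmul, rep_tmul]
      show x ⊗ₜ[B] (g (a • n)) = x ⊗ₜ[B] (a • g n)
      rw [map_smul]

/-- invariance under isomorphisms -/
theorem tr_rep_congr (e : N ≃ₗ[A] N') (a : A) : tr (rep B K N) a = tr (rep B K N') a := by
  let E : (K ⊗[B] N) ≃ₗ[K] (K ⊗[B] N') := (e.restrictScalars B).baseChange B K N N'
  have h : ∀ y, E (rep B K N a y) = rep B K N' a (E y) := by
    intro y
    induction y with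
    | zero => simp
    | add x y hx hy => simp only [map_add, hx, hy]
    | tmul x n =>
      show x ⊗ₜ[B] (e (a • n)) = x ⊗ₜ[B] (a • e n)
      rw [map_smul]
  have h2 : rep B K N' a = E.conj (rep B K N a) := by
    apply LinearMap.ext
    intro x
    obtain ⟨y, rfl⟩ := E.surjective x
    rw [LinearEquiv.conj_apply_apply, LinearEquiv.symm_apply_apply, h]
  rw [tr, tr, h2, LinearMap.trace_conj']

/-- trace on a `B`-free module in terms of matrices -/
theorem tr_rep_eq_trace {r : ℕ} (b : Basis (Fin r) B N) (a : A) :
    tr (rep B K N) a =
      ((LinearMap.toMatrix b b (Algebra.lsmul B B N a)).map (algebraMap B K)).trace := by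
  have h1 : Module.Free B N := Module.Free.of_basis b
  have h2 : Module.Finite B N := Module.Finite.of_basis b
  have h3 : tr (rep B K N) a = algebraMap B K (LinearMap.trace B N (Algebra.lsmul B B N a)) :=
    LinearMap.trace_baseChange (Algebra.lsmul B B N a) K
  rw [h3, LinearMap.trace_eq_matrix_trace B b]
  simp only [Matrix.trace, Matrix.diag_apply, Matrix.map_apply, map_sum]

/-- **Flag input.** -/
theorem isCh_of_rows {r : ℕ} (b : Basis (Fin r) B N) (l : Fin r → (N →ₗ[B] K))
    (hdet : (Matrix.of fun i j => l i (b j)).det ≠ 0) (γ : Fin r → (A →+* K))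
    (htri : ∀ a k, ∃ c : Fin r → K, (∀ j, k ≤ j → c j = 0) ∧
      ∀ v, l k (a • v) = γ k a * l k v + ∑ j, c j * l j v) :
    IsCh (tr (rep B K N)) (Multiset.map γ Finset.univ.val) := by
  intro a
  rw [tr_rep_eq_trace B K b a]
  choose c hc1 hc2 using htri a
  rw [trace_of_tri _ (Matrix.of fun i j => l i (b j))
    (Matrix.of fun i j => (if i = j then γ i a else 0) + c i j) hdet ?_]
  · rw [Multiset.map_map]
    show ∑ i, _ = Finset.univ.sum _
    refine Finset.sum_congr rfl fun i _ => ?_
    simp [hc1 i i le_rfl]
  · ext i j
    rw [Matrix.mul_apply, Matrix.mul_apply]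
    simp only [Matrix.of_apply, Matrix.map_apply]
    have h1 : l i (a • b j) = ∑ m, l i (b m) *
        algebraMap B K (LinearMap.toMatrix b b (Algebra.lsmul B B N a) m j) := by
      have h2 : a • b j = ∑ m, (LinearMap.toMatrix b b (Algebra.lsmul B B N a) m j) • b m := by
        rw [← b.sum_repr (a • b j)]
        refine Finset.sum_congr rfl fun m _ => ?_
        rw [LinearMap.toMatrix_apply]
        rfl
      rw [h2, map_sum]
      refine Finset.sum_congr rfl fun m _ => ?_
      rw [map_smul, Algebra.smul_def, mul_comm]
    rw [← h1, hc2 i (b j)]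
    simp only [add_mul, Finset.sum_add_distrib]
    congr 1
    simp

end rep

end Crest.Agent.R188.Chr
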