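import Crest.Agent.R188.Tri3
import Crest.Agent.R188.FlgCramer

/-!
# R188, block FLAG DATA (helper645), part 4: base change of the flag to `Ω`
-/

set_option autoImplicit false
set_option linter.unusedSectionVars false

namespace Crest.Agent.R188.Tri

open TensorProduct Matrix

universe u v w x y

section norm

variable {B : Type u} [CommRing B] [IsDomain B]
  (F : Type v) [Field F] [Algebra B F] [Algebra.IsAlgebraic B F] [FaithfulSMul B F]
  {Bp : Type x} [CommRing Bp] [Algebra B Bp] [Algebra Bp F] [IsScalarTower B Bp F]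
  [IsIntegralClosure Bp B F]

include F in
/-- every nonzero element of `Bp` divides a nonzero element of `B` -/
theorem exists_mul_eq_algebraMap {c : Bp} (hc : c ≠ 0) :
    ∃ (c' : Bp) (b : B), b ≠ 0 ∧ c * c' = algebraMap B Bp b := by
  have hinj := IsIntegralClosure.algebraMap_injective Bp B F
  have h0 : (algebraMap Bp F c) ≠ 0 := fun h => hc (hinj (by rw [h, map_zero]))
  obtain ⟨y, hy0, hy⟩ := (Algebra.IsAlgebraic.isAlgebraic (R := B)
    (algebraMap Bp F c)⁻¹).exists_integral_multiple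
  refine ⟨IsIntegralClosure.mk' Bp (y • (algebraMap Bp F c)⁻¹) hy, y, hy0, hinj ?_⟩
  rw [map_mul, IsIntegralClosure.algebraMap_mk', ← IsScalarTower.algebraMap_apply,
    Algebra.smul_def, mul_left_comm, mul_inv_cancel₀ h0, mul_one]

include F in
theorem isSMulRegular_of_ne_zero {X : Type*} [AddCommGroup X] [Module Bp X]
    (h : ∀ b : B, b ≠ 0 → IsSMulRegular X (algebraMap B Bp b)) {c : Bp} (hc : c ≠ 0) :
    IsSMulRegular X c := by
  obtain ⟨c', b, hb, hcc⟩ := exists_mul_eq_algebraMap (B := B) F hc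
  have h1 := h b hb
  rw [← hcc, mul_comm] at h1
  exact IsSMulRegular.of_mul h1

end norm

section omega

variable {B : Type u} {A : Type w} [CommRing B] [CommRing A] [Algebra B A]
  {Bp : Type x} [CommRing Bp] [Algebra B Bp] {Ω : Type y} [CommRing Ω] [Algebra Bp Ω]

/-- the flag property of rows `L` with characters `γ` for the commuting matrices `ρ` -/
structure IsFlag {r : ℕ} (ρ : A →ₐ[B] Matrix (Fin r) (Fin r) B) (L : Matrix (Fin r) (Fin r) Bp)
    (γ : Fin r → A →ₐ[B] Bp) : Prop where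
  det_ne_zero : L.det ≠ 0
  upper : ∀ a k j, k < j → (L * (ρ a).map (algebraMap B Bp) * L.adjugate) k j = 0
  diag : ∀ a k, (L * (ρ a).map (algebraMap B Bp) * L.adjugate) k k = L.det * γ k a

variable {r : ℕ} {ρ : A →ₐ[B] Matrix (Fin r) (Fin r) B} {L : Matrix (Fin r) (Fin r) Bp}
  {γ : Fin r → A →ₐ[B] Bp}

theorem det_smul_mul (ρ : A →ₐ[B] Matrix (Fin r) (Fin r) B) (L : Matrix (Fin r) (Fin r) Bp)
    (a : A) :
    (L * (ρ a).map (algebraMap B Bp) * L.adjugate) * L =
      L.det • (L * (ρ a).map (algebraMap B Bp)) := by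
  rw [Matrix.mul_assoc, Matrix.adjugate_mul, Matrix.mul_smul, Matrix.mul_one]

/-- the sum of the characters is the trace -/
theorem IsFlag.sum_eq_trace [IsDomain Bp] (h : IsFlag ρ L γ) (a : A) :
    ∑ k, γ k a = algebraMap B Bp (ρ a).trace := by
  have h1 : (L * (ρ a).map (algebraMap B Bp) * L.adjugate).trace =
      L.det * algebraMap B Bp (ρ a).trace := by
    rw [Matrix.trace_mul_comm, ← Matrix.mul_assoc, Matrix.adjugate_mul, Matrix.smul_mul,
      Matrix.one_mul, Matrix.trace_smul, smul_eq_mul]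
    congr 1
    rw [Matrix.trace, Matrix.trace, map_sum]
    rfl
  have h2 : (L * (ρ a).map (algebraMap B Bp) * L.adjugate).trace = L.det * ∑ k, γ k a := by
    rw [Matrix.trace, Finset.mul_sum]
    exact Finset.sum_congr rfl fun k _ => h.diag a k
  exact mul_left_cancel₀ h.det_ne_zero (h2.symm.trans h1)

variable (Ω L) in
/-- the rows over `Ω`, in the format of `Flg` (indexed by `ℕ`) -/
def rows : ℕ → Fin r → Ω := fun k j => if hk : k < r then algebraMap Bp Ω (L ⟨k, hk⟩ j) else 0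

theorem rows_of_lt {k : ℕ} (hk : k < r) (j : Fin r) :
    rows Ω L k j = algebraMap Bp Ω (L ⟨k, hk⟩ j) := dif_pos hk

theorem ev_rows {k : ℕ} (hk : k < r) (x : Fin r → Ω) :
    Flg.ev (rows Ω L k) x = ((L.map (algebraMap Bp Ω)) *ᵥ x) ⟨k, hk⟩ := by
  rw [Flg.ev, Matrix.mulVec, dotProduct]
  refine Finset.sum_congr rfl fun j _ => ?_
  rw [rows_of_lt hk]
  rfl

/-- minors of the rows come from `Bp` -/
theorem mu_rows {k : ℕ} (hk : k ≤ r) (τ : Fin k → Fin r) :
    Flg.mu (rows Ω L) k τ =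
      algebraMap Bp Ω (L.submatrix (Fin.castLE hk) τ).det := by
  rw [Flg.mu, RingHom.map_det]
  congr 1
  ext i j
  rw [Matrix.of_apply, rows_of_lt (i.2.trans_le hk)]
  rfl

theorem mu_rows_full : Flg.mu (rows Ω L) r id = algebraMap Bp Ω L.det := by
  rw [mu_rows le_rfl]
  rfl

/-- **the flag over `Ω`**: on `{x | l_i x = 0, i < k}` the algebra acts on `l_k` through `γ_k`. -/
theorem IsFlag.ev_mulVec (h : IsFlag ρ L γ) (hreg : IsSMulRegular Ω L.det) (a : A) {k : ℕ}
    (hk : k < r) (x : Fin r → Ω) (hx : ∀ i < k, Flg.ev (rows Ω L i) x = 0) :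
    Flg.ev (rows Ω L k) ((((ρ a).map (algebraMap B Bp)).map (algebraMap Bp Ω)) *ᵥ x) =
      algebraMap Bp Ω (γ ⟨k, hk⟩ a) * Flg.ev (rows Ω L k) x := by
  have h1 : ((L * (ρ a).map (algebraMap B Bp) * L.adjugate).map (algebraMap Bp Ω)) *ᵥ
      ((L.map (algebraMap Bp Ω)) *ᵥ x) =
      L.det • ((L.map (algebraMap Bp Ω)) *ᵥ
        ((((ρ a).map (algebraMap B Bp)).map (algebraMap Bp Ω)) *ᵥ x)) := by
    rw [Matrix.mulVec_mulVec, ← Matrix.map_mul, det_smul_mul ρ L a, Matrix.mulVec_mulVec,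
      ← Matrix.map_mul]
    have h2 : (L.det • (L * (ρ a).map (algebraMap B Bp))).map (algebraMap Bp Ω) =
        algebraMap Bp Ω L.det • ((L * (ρ a).map (algebraMap B Bp)).map (algebraMap Bp Ω)) := by
      ext i j
      simp only [Matrix.map_apply, Matrix.smul_apply, smul_eq_mul, map_mul]
    rw [h2, Matrix.smul_mulVec]
    ext i
    simp [Algebra.smul_def]
  have h3 := congrFun h1 ⟨k, hk⟩
  apply hreg
  change L.det • Flg.ev (rows Ω L k) _ = L.det • (_ * Flg.ev (rows Ω L k) x)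
  rw [ev_rows hk, ev_rows hk]
  have h4 : (L.det • ((L.map (algebraMap Bp Ω)) *ᵥ
        ((((ρ a).map (algebraMap B Bp)).map (algebraMap Bp Ω)) *ᵥ x))) ⟨k, hk⟩ =
      L.det • (((L.map (algebraMap Bp Ω)) *ᵥ
        ((((ρ a).map (algebraMap B Bp)).map (algebraMap Bp Ω)) *ᵥ x)) ⟨k, hk⟩) := rfl
  rw [← h4, ← h3]
  conv_lhs => rw [Matrix.mulVec, dotProduct]
  rw [Finset.sum_eq_single ⟨k, hk⟩]
  · rw [Matrix.map_apply, h.diag, map_mul, Algebra.smul_def, mul_assoc]
  · intro j _ hj
    rcases lt_or_gt_of_ne hj with hlt | hgt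
    · have h5 := hx j.1 hlt
      rw [ev_rows j.2] at h5
      have h6 : ((L.map (algebraMap Bp Ω)) *ᵥ x) j = 0 := h5
      rw [h6, mul_zero]
    · rw [Matrix.map_apply, h.upper a _ _ hgt, map_zero, zero_mul]
  · intro hcon
    exact absurd (Finset.mem_univ _) hcon

end omega

section exists_flag

variable {B : Type u} {A : Type w} [CommRing B] [IsDomain B] [CommRing A] [Algebra B A]
  (F : Type v) [Field F] [Algebra B F] [IsAlgClosed F] [Algebra.IsAlgebraic B F] [FaithfulSMul B F]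
  (Bp : Type x) [CommRing Bp] [Algebra B Bp] [Algebra Bp F] [IsScalarTower B Bp F]
  [IsIntegralClosure Bp B F] [Algebra.IsIntegral B A]

include F in
theorem exists_isFlag {r : ℕ} (ρ : A →ₐ[B] Matrix (Fin r) (Fin r) B) :
    ∃ (L : Matrix (Fin r) (Fin r) Bp) (γ : Fin r → A →ₐ[B] Bp), IsFlag ρ L γ := by
  obtain ⟨L, γ, h1, h2⟩ := exists_rows F Bp ρ
  exact ⟨L, γ, h1, fun a => (h2 a).1, fun a => (h2 a).2⟩

end exists_flag

section module

variable {B : Type u} {A : Type w} [CommRing B] [CommRing A] [Algebra B A]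
  {V : Type v} [AddCommGroup V] [Module B V] [Module A V] [IsScalarTower B A V]

/-- the matrices of the action of `A` on a finite free `B`-module `V` with basis `b` -/
noncomputable def actMatrix {r : ℕ} (b : Module.Basis (Fin r) B V) :
    A →ₐ[B] Matrix (Fin r) (Fin r) B :=
  (LinearMap.toMatrixAlgEquiv b).toAlgHom.comp (Algebra.lsmul B B V)

theorem actMatrix_mulVec {r : ℕ} (b : Module.Basis (Fin r) B V) (a : A) (v : V) :
    actMatrix b a *ᵥ b.equivFun v = b.equivFun (a • v) := by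
  have h1 := LinearMap.toMatrix_mulVec_repr b b (Algebra.lsmul B B V a) v
  exact h1

end module

end Crest.Agent.R188.Tri
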