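/-
R188 (Serre positivity), block (T3), part 3: `χ(N) = ∑_{γ ∈ Γ(N)} μ(γ)` for all finite modules.
helper365
-/
import Mathlib
import Crest.Agent.R188.Chr2
import Crest.Agent.R188.Noe7
import Crest.Agent.R188.Tri4

set_option autoImplicit false
set_option maxHeartbeats 400000
set_option linter.unusedSectionVars false

namespace Crest.Agent.R188.Chr

open Module TensorProduct

universe u v w x

section lift

variable {B : Type u} [CommRing B] {A : Type v} [CommRing A] [Algebra B A]
  (F : Type w) [Field F] [Algebra B F]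
  {Bp : Type x} [CommRing Bp] [Algebra B Bp] [Algebra Bp F] [IsScalarTower B Bp F]

/-- a character with values in `Bp`, as a character with values in `F` -/
def toF (γ : A →ₐ[B] Bp) : A →+* F := (algebraMap Bp F).comp γ.toRingHom

@[simp] theorem toF_apply (γ : A →ₐ[B] Bp) (a : A) : toF F γ a = algebraMap Bp F (γ a) := rfl

variable [IsIntegralClosure Bp B F]

theorem toF_injective : Function.Injective (toF F : (A →ₐ[B] Bp) → (A →+* F)) := by
  intro γ γ' h
  ext a
  exact IsIntegralClosure.algebraMap_injective Bp B F (RingHom.congr_fun h a)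

theorem exists_toF [Algebra.IsIntegral B A] (g : A →+* F)
    (hg : ∀ b, g (algebraMap B A b) = algebraMap B F b) : ∃ γ : A →ₐ[B] Bp, toF F γ = g := by
  let g' : A →ₐ[B] F := { g with commutes' := hg }
  refine ⟨Tri.descendChar F Bp g', ?_⟩
  ext a
  exact Tri.algebraMap_descendChar F Bp g' a

theorem exists_map_toF (Γ : Multiset (A →+* F))
    (h : ∀ g ∈ Γ, ∃ γ : A →ₐ[B] Bp, toF F γ = g) :
    ∃ Γ' : Multiset (A →ₐ[B] Bp), Γ'.map (toF F) = Γ := by
  induction Γ using Multiset.induction_on with
  | empty => exact ⟨0, rfl⟩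
  | cons g Γ ih =>
    obtain ⟨Γ', h'⟩ := ih fun g' hg' => h g' (Multiset.mem_cons_of_mem hg')
    obtain ⟨γ, hγ⟩ := h g (Multiset.mem_cons_self _ _)
    exact ⟨γ ::ₘ Γ', by rw [Multiset.map_cons, h', hγ]⟩

/-- the trace of a `B`-free module with a flag is the sum of the characters -/
theorem isCh_of_isFlag [IsDomain Bp] {N : Type*} [AddCommGroup N] [Module A N] [Module B N]
    [IsScalarTower B A N] {r : ℕ} (e : Basis (Fin r) B N) {L : Matrix (Fin r) (Fin r) Bp}
    {γ : Fin r → A →ₐ[B] Bp} (h : Tri.IsFlag (Tri.actMatrix (A := A) e) L γ) :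
    IsCh (tr (rep B F N)) ((Finset.univ.val.map γ).map (toF F)) := by
  intro a
  have h1 := congrArg (algebraMap Bp F) (h.sum_eq_trace a)
  rw [map_sum, ← IsScalarTower.algebraMap_apply] at h1
  rw [tr_rep_eq_trace B F e a, Multiset.map_map, Multiset.map_map]
  refine Eq.trans ?_ h1.symm
  rw [Matrix.trace, Matrix.trace, map_sum]
  rfl

/-- **The characters of a finite module.** -/
theorem exists_chars [IsAlgClosed F] [Algebra.IsIntegral B A] (N : Type*) [AddCommGroup N]
    [Module A N] [Module B N] [IsScalarTower B A N] [Module.Finite B N] :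
    ∃ Γ : Multiset (A →ₐ[B] Bp), IsCh (tr (rep (A := A) B F N)) (Γ.map (toF F)) ∧
      Γ.card = finrank F (F ⊗[B] N) ∧ ∀ γ ∈ Γ, ∀ a, (∀ n : N, a • n = 0) → γ a = 0 := by
  obtain ⟨Γ, h1, h2, h3⟩ := exists_isCh _ (F ⊗[B] N) (rep (A := A) B F N) rfl
  obtain ⟨Γ', rfl⟩ := exists_map_toF (B := B) (Bp := Bp) F Γ (fun g hg =>
    exists_toF F g (fun b => h3 g hg _ _ (fun x => rep_algebraMap B F b x)))
  refine ⟨Γ', h1, by rw [← h2, Multiset.card_map], fun γ hγ a ha => ?_⟩
  have h4 := h3 (toF F γ) (Multiset.mem_map_of_mem _ hγ) a 0 (fun x => by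
    rw [zero_smul]
    induction x with
    | zero => rw [map_zero]
    | add x y hx hy => rw [map_add, hx, hy, add_zero]
    | tmul x n => rw [rep_tmul, ha, TensorProduct.tmul_zero])
  exact IsIntegralClosure.algebraMap_injective Bp B F (by rw [map_zero]; exact h4)

end lift

section main

variable {B : Type u} [CommRing B] [IsRegularLocalRing B] {A : Type v} [CommRing A]
  [IsNoetherianRing A] [Algebra B A] [Module.Finite B A] [Module.Free B A]
  (F : Type w) [Field F] [Algebra B F] [IsAlgClosed F] [CharZero F] [Module.Flat B F]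

/-- **Extension from `B`-free modules to all finite modules**, abstract form. -/
theorem chi_eq_aux (χ : ∀ (L : Type v) [AddCommGroup L] [Module A L], ℝ)
    (hadd : ∀ (X Y Z : Type v) [AddCommGroup X] [Module A X] [AddCommGroup Y] [Module A Y]
      [AddCommGroup Z] [Module A Z] [Module.Finite A X] [Module.Finite A Y] [Module.Finite A Z]
      (f : X →ₗ[A] Y) (g : Y →ₗ[A] Z), Function.Injective f → Function.Surjective g →
      Function.Exact f g → χ Y = χ X + χ Z)
    (μ : (A →+* F) → ℝ)
    (hfree : ∀ (L : Type v) [AddCommGroup L] [Module A L] [Module B L] [IsScalarTower B A L]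
      [Module.Finite A L], Module.Free B L → ∃ Γ : Multiset (A →+* F),
        IsCh (tr (rep B F L)) Γ ∧ χ L = (Γ.map μ).sum)
    (N : Type v) [AddCommGroup N] [Module A N] [Module B N] [IsScalarTower B A N]
    [Module.Finite A N] (Γ : Multiset (A →+* F)) (hΓ : IsCh (tr (rep B F N)) Γ) :
    χ N = (Γ.map μ).sum := by
  have key : ∀ [Module B N] [IsScalarTower B A N] (Γ : Multiset (A →+* F)),
      IsCh (tr (rep (A := A) B F N)) Γ → χ N = (Γ.map μ).sum := by
    refine Noe.syz_induction (B := B) (S := A) (P := fun L _ _ =>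
      ∀ [Module B L] [IsScalarTower B A L] (Γ : Multiset (A →+* F)),
        IsCh (tr (rep (A := A) B F L)) Γ → χ L = (Γ.map μ).sum) ?_ ?_ N
    · intro L _ _ _ _ _ hL iB iT Γ hΓ
      have hL' : @Module.Free B L _ _ iB := by
        rename_i iB₀ iT₀ _
        have h0 : iB₀ = iB := by
          refine Module.ext' _ _ fun b x => ?_
          have h1 := @IsScalarTower.smul_assoc B A L _ _ _ iT₀ b 1 x
          have h2 := @IsScalarTower.smul_assoc B A L _ _ _ iT b 1 x
          rw [one_smul] at h1 h2
          exact h1.symm.trans h2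
        subst h0
        exact hL
      obtain ⟨Γ₀, h1, h2⟩ := @hfree L _ _ iB iT _ hL'
      rw [hΓ.unique h1, h2]
    · intro L _ _ _ r f hf hK iB iT Γ hΓ
      have hfin : Module.Finite B L := Module.Finite.trans A L
      have hfinK : Module.Finite B (LinearMap.ker f) := Module.Finite.trans A _
      obtain ⟨ΓK, hk1, -, -⟩ := exists_isCh _ (F ⊗[B] (LinearMap.ker f))
        (rep (A := A) B F (LinearMap.ker f)) rfl
      obtain ⟨ΓF, hF1, hF2⟩ := hfree (Fin r → A) inferInstance
      have h3 : IsCh (tr (rep (A := A) B F (Fin r → A))) (ΓK + Γ) :=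
        hk1.add hΓ (fun a => tr_rep_add B F (LinearMap.ker f).subtype f
          (Submodule.subtype_injective _) hf (LinearMap.exact_subtype_ker_map f) a)
      have h4 := hadd _ _ _ (LinearMap.ker f).subtype f (Submodule.subtype_injective _) hf
        (LinearMap.exact_subtype_ker_map f)
      rw [hF2, hF1.unique h3, Multiset.map_add, Multiset.sum_add, hK ΓK hk1] at h4
      linarith
  exact key Γ hΓ

end main

end Crest.Agent.R188.Chr
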