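/-
R188 (Serre positivity), block (T3), part 4: the output for the assembly.   helper365

`χ` additive on finite `A`-modules, `χ(N) = ∑_k μ(γ_k)` for all `B`-free `N` with a flag
(`Tri.IsFlag`).  Then `χ(N) = ∑_{γ ∈ Γ} μ(γ)` for all finite `N` and some multiset `Γ` of
characters (depending on `N` only); `χ(A/Q) > 0` for `Q ∩ B = 0`, `χ(N) = 0` for `N` torsion.
-/
import Mathlib
import Crest.Agent.R188.Chr3
import Crest.Agent.R188.Tri6

set_option autoImplicit false
set_option maxHeartbeats 400000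
set_option linter.unusedSectionVars false

namespace Crest.Agent.R188.Chr

open Module TensorProduct

universe u v w x

section main

variable {B : Type u} [CommRing B] [IsRegularLocalRing B] [IsDomain B] {A : Type v} [CommRing A]
  [Algebra B A] [Module.Finite B A] [Module.Free B A]
  (F : Type w) [Field F] [Algebra B F] [IsAlgClosed F] [CharZero F] [Algebra.IsAlgebraic B F]
  [FaithfulSMul B F]
  {Bp : Type x} [CommRing Bp] [Algebra B Bp] [Algebra Bp F] [IsScalarTower B Bp F]
  [IsIntegralClosure Bp B F]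

include F in
/-- **All finite modules.** -/
theorem exists_multiset (χ : ∀ (L : Type v) [AddCommGroup L] [Module A L], ℝ)
    (hadd : ∀ (X Y Z : Type v) [AddCommGroup X] [Module A X] [AddCommGroup Y] [Module A Y]
      [AddCommGroup Z] [Module A Z] [Module.Finite A X] [Module.Finite A Y] [Module.Finite A Z]
      (f : X →ₗ[A] Y) (g : Y →ₗ[A] Z), Function.Injective f → Function.Surjective g →
      Function.Exact f g → χ Y = χ X + χ Z)
    (μ : (A →ₐ[B] Bp) → ℝ)
    (hflag : ∀ (N : Type v) [AddCommGroup N] [Module A N] [Module B N] [IsScalarTower B A N]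
      (r : ℕ) (e : Basis (Fin r) B N) (L : Matrix (Fin r) (Fin r) Bp)
      (γ : Fin r → A →ₐ[B] Bp), Tri.IsFlag (Tri.actMatrix (A := A) e) L γ →
        χ N = ∑ j, μ (γ j))
    (N : Type v) [AddCommGroup N] [Module A N] [Module B N] [IsScalarTower B A N]
    [Module.Finite A N] :
    ∃ Γ : Multiset (A →ₐ[B] Bp), χ N = (Γ.map μ).sum ∧
      Γ.card = finrank F (F ⊗[B] N) ∧ ∀ γ ∈ Γ, ∀ a, (∀ n : N, a • n = 0) → γ a = 0 := by
  classical
  have hNB : IsNoetherianRing A := IsNoetherianRing.of_finite B A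
  have hflat : Module.Flat B F := flat_of_injective (FaithfulSMul.algebraMap_injective B F)
  have hdom : IsDomain Bp := (IsIntegralClosure.algebraMap_injective Bp B F).isDomain _
  have hBN : Module.Finite B N := Module.Finite.trans A N
  obtain ⟨Γ, h1, h2, h3⟩ := exists_chars (A := A) (B := B) (Bp := Bp) F N
  refine ⟨Γ, ?_, h2, h3⟩
  let μ' : (A →+* F) → ℝ := fun g => if h : ∃ γ : A →ₐ[B] Bp, toF F γ = g then μ h.choose else 0
  have hμ' : ∀ γ : A →ₐ[B] Bp, μ' (toF F γ) = μ γ := by
    intro γ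
    have h : ∃ γ' : A →ₐ[B] Bp, toF F γ' = toF F γ := ⟨γ, rfl⟩
    have h' : h.choose = γ := toF_injective F h.choose_spec
    show (if h : ∃ γ' : A →ₐ[B] Bp, toF F γ' = toF F γ then μ h.choose else 0) = μ γ
    rw [dif_pos h, h']
  have hsum : ∀ Γ' : Multiset (A →ₐ[B] Bp), ((Γ'.map (toF F)).map μ').sum = (Γ'.map μ).sum := by
    intro Γ'
    rw [Multiset.map_map]
    congr 1
    exact Multiset.map_congr rfl fun γ _ => hμ' γ
  rw [← hsum Γ]
  refine chi_eq_aux F χ hadd μ' ?_ N _ h1
  intro L _ _ _ _ _ hL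
  have hBL : Module.Finite B L := Module.Finite.trans A L
  let e : Basis (Fin (finrank B L)) B L := Module.finBasis B L
  obtain ⟨M, γ, hM⟩ := Tri.exists_isFlag F Bp (Tri.actMatrix (A := A) e)
  refine ⟨(Finset.univ.val.map γ).map (toF F), isCh_of_isFlag F e hM, ?_⟩
  rw [hsum, Multiset.map_map]
  exact hflag L _ e M γ hM

include F in
/-- **torsion modules** -/
theorem chi_torsion (χ : ∀ (L : Type v) [AddCommGroup L] [Module A L], ℝ)
    (hadd : ∀ (X Y Z : Type v) [AddCommGroup X] [Module A X] [AddCommGroup Y] [Module A Y]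
      [AddCommGroup Z] [Module A Z] [Module.Finite A X] [Module.Finite A Y] [Module.Finite A Z]
      (f : X →ₗ[A] Y) (g : Y →ₗ[A] Z), Function.Injective f → Function.Surjective g →
      Function.Exact f g → χ Y = χ X + χ Z)
    (μ : (A →ₐ[B] Bp) → ℝ)
    (hflag : ∀ (N : Type v) [AddCommGroup N] [Module A N] [Module B N] [IsScalarTower B A N]
      (r : ℕ) (e : Basis (Fin r) B N) (L : Matrix (Fin r) (Fin r) Bp)
      (γ : Fin r → A →ₐ[B] Bp), Tri.IsFlag (Tri.actMatrix (A := A) e) L γ →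
        χ N = ∑ j, μ (γ j))
    (N : Type v) [AddCommGroup N] [Module A N] [Module.Finite A N] (b : B) (hb : b ≠ 0)
    (hN : ∀ n : N, algebraMap B A b • n = 0) : χ N = 0 := by
  let _ : Module B N := Module.compHom N (algebraMap B A)
  have : IsScalarTower B A N := IsScalarTower.of_algebraMap_smul fun _ _ => rfl
  obtain ⟨Γ, h1, -, h3⟩ := exists_multiset F χ hadd μ hflag N
  have : Γ = 0 := by
    rw [Multiset.eq_zero_iff_forall_notMem]
    intro γ hγ
    have h4 := h3 γ hγ _ hN
    rw [AlgHom.commutes] at h4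
    have h5 : algebraMap B F b = 0 := by
      rw [IsScalarTower.algebraMap_apply B Bp F, h4, map_zero]
    exact hb (FaithfulSMul.algebraMap_injective B F (by rw [h5, map_zero]))
  rw [h1, this]
  rfl

include F in
/-- **prime quotients `A/Q`, `Q ∩ B = 0`** : the characters are the extensions to `A/Q`, there is
at least one. -/
theorem chi_quot_prime (χ : ∀ (L : Type v) [AddCommGroup L] [Module A L], ℝ)
    (hadd : ∀ (X Y Z : Type v) [AddCommGroup X] [Module A X] [AddCommGroup Y] [Module A Y]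
      [AddCommGroup Z] [Module A Z] [Module.Finite A X] [Module.Finite A Y] [Module.Finite A Z]
      (f : X →ₗ[A] Y) (g : Y →ₗ[A] Z), Function.Injective f → Function.Surjective g →
      Function.Exact f g → χ Y = χ X + χ Z)
    (μ : (A →ₐ[B] Bp) → ℝ)
    (hflag : ∀ (N : Type v) [AddCommGroup N] [Module A N] [Module B N] [IsScalarTower B A N]
      (r : ℕ) (e : Basis (Fin r) B N) (L : Matrix (Fin r) (Fin r) Bp)
      (γ : Fin r → A →ₐ[B] Bp), Tri.IsFlag (Tri.actMatrix (A := A) e) L γ →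
        χ N = ∑ j, μ (γ j))
    (Q : Ideal A) [Q.IsPrime] (hQ : Function.Injective (algebraMap B (A ⧸ Q))) :
    ∃ Γ : Multiset (A →ₐ[B] Bp), Γ ≠ 0 ∧ (∀ γ ∈ Γ, RingHom.ker γ = Q) ∧
      χ (A ⧸ Q) = (Γ.map μ).sum := by
  have hflat : Module.Flat B F := flat_of_injective (FaithfulSMul.algebraMap_injective B F)
  have hint : Algebra.IsIntegral B (A ⧸ Q) := inferInstance
  obtain ⟨Γ, h1, h2, h3⟩ := exists_multiset F χ hadd μ hflag (A ⧸ Q)
  refine ⟨Γ, ?_, ?_, h1⟩
  · rintro rfl
    rw [Multiset.card_zero] at h2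
    have h4 : Subsingleton (F ⊗[B] (A ⧸ Q)) := Module.finrank_zero_iff.1 h2.symm
    have h5 : Function.Injective ((Algebra.linearMap B (A ⧸ Q)).lTensor F) :=
      Module.Flat.lTensor_preserves_injective_linearMap _ hQ
    have h6 : Subsingleton (F ⊗[B] B) := h5.subsingleton
    exact not_subsingleton F ((TensorProduct.rid B F).symm.injective.subsingleton)
  · intro γ hγ
    have hle : Q ≤ RingHom.ker γ := by
      intro a ha
      refine h3 γ hγ a ?_
      intro n
      obtain ⟨n, rfl⟩ := Ideal.Quotient.mk_surjective n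
      rw [Algebra.smul_def, Ideal.Quotient.algebraMap_eq, Ideal.Quotient.eq_zero_iff_mem.2 ha,
        zero_mul]
    refine le_antisymm ?_ hle
    let g : (A ⧸ Q) →+* Bp := Ideal.Quotient.lift Q (γ : A →+* Bp) (fun a ha => hle ha)
    have hker : RingHom.ker g = ⊥ := by
      apply Ideal.eq_bot_of_comap_eq_bot (R := B)
      rw [eq_bot_iff]
      intro b hb
      rw [Ideal.mem_comap, RingHom.mem_ker] at hb
      have h4 : g (algebraMap B (A ⧸ Q) b) = algebraMap B Bp b := by
        rw [IsScalarTower.algebraMap_apply B A (A ⧸ Q), Ideal.Quotient.algebraMap_eq]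
        show γ (algebraMap B A b) = _
        rw [AlgHom.commutes]
      rw [h4] at hb
      have h5 : algebraMap B F b = 0 := by
        rw [IsScalarTower.algebraMap_apply B Bp F, hb, map_zero]
      rw [Ideal.mem_bot]
      exact FaithfulSMul.algebraMap_injective B F (by rw [h5, map_zero])
    intro a ha
    rw [← Ideal.Quotient.eq_zero_iff_mem]
    have h6 : Ideal.Quotient.mk Q a ∈ RingHom.ker g := ha
    rw [hker] at h6
    exact h6

include F in
theorem chi_quot_pos (χ : ∀ (L : Type v) [AddCommGroup L] [Module A L], ℝ)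
    (hadd : ∀ (X Y Z : Type v) [AddCommGroup X] [Module A X] [AddCommGroup Y] [Module A Y]
      [AddCommGroup Z] [Module A Z] [Module.Finite A X] [Module.Finite A Y] [Module.Finite A Z]
      (f : X →ₗ[A] Y) (g : Y →ₗ[A] Z), Function.Injective f → Function.Surjective g →
      Function.Exact f g → χ Y = χ X + χ Z)
    (μ : (A →ₐ[B] Bp) → ℝ)
    (hflag : ∀ (N : Type v) [AddCommGroup N] [Module A N] [Module B N] [IsScalarTower B A N]
      (r : ℕ) (e : Basis (Fin r) B N) (L : Matrix (Fin r) (Fin r) Bp)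
      (γ : Fin r → A →ₐ[B] Bp), Tri.IsFlag (Tri.actMatrix (A := A) e) L γ →
        χ N = ∑ j, μ (γ j))
    (Q : Ideal A) [Q.IsPrime] (hQ : Function.Injective (algebraMap B (A ⧸ Q)))
    (hμ : ∀ γ : A →ₐ[B] Bp, RingHom.ker γ = Q → 0 < μ γ) : 0 < χ (A ⧸ Q) := by
  obtain ⟨Γ, h1, h2, h3⟩ := chi_quot_prime F χ hadd μ hflag Q hQ
  rw [h3]
  obtain ⟨γ₀, hγ₀⟩ := Multiset.exists_mem_of_ne_zero h1
  obtain ⟨Γ', rfl⟩ := Multiset.exists_cons_of_mem hγ₀
  rw [Multiset.map_cons, Multiset.sum_cons]
  refine add_pos_of_pos_of_nonneg (hμ _ (h2 _ hγ₀)) (Multiset.sum_nonneg fun y hy => ?_)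
  obtain ⟨γ, hγ, rfl⟩ := Multiset.mem_map.1 hy
  exact (hμ _ (h2 _ (Multiset.mem_cons_of_mem hγ))).le

end main

end Crest.Agent.R188.Chr
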