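/-
R188 (Serre positivity), top of the tree: `MixPrime ⇐ CORE` (with the character bookkeeping as an
abstract structure `MltData`).   helper622
-/
import Crest.Agent.R188.Top4
import Crest.Agent.R188.Noe7
import Crest.Agent.R183.CohenWitt

set_option autoImplicit false
set_option linter.unusedSectionVars false

namespace Crest.Agent.R188.Top

open scoped ENNReal TensorProduct
open IsLocalRing

/-- multiplicities of characters -/
structure MltData (B A : Type) [CommRing B] [IsDomain B] [CommRing A] [Algebra B A] where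
  /-- the multiplicity of `γ` in `N` -/
  mlt : (A →ₐ[B] Tri.BPlus B) → ∀ (N : Type) [AddCommGroup N] [Module A N], ℕ
  add : ∀ (γ : A →ₐ[B] Tri.BPlus B) (N' N N'' : Type) [AddCommGroup N'] [Module A N']
    [Module.Finite A N'] [AddCommGroup N] [Module A N] [Module.Finite A N] [AddCommGroup N'']
    [Module A N''] [Module.Finite A N''] (f : N' →ₗ[A] N) (g : N →ₗ[A] N''),
    Function.Injective f → Function.Surjective g → Function.Exact f g →
      mlt γ N = mlt γ N' + mlt γ N''
  flag : ∀ (N : Type) [AddCommGroup N] [Module A N] [Module B N] [IsScalarTower B A N] (r : ℕ)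
    (e : Module.Basis (Fin r) B N) (L : Matrix (Fin r) (Fin r) (Tri.BPlus B))
    (γ : Fin r → A →ₐ[B] Tri.BPlus B), Tri.IsFlag (Tri.actMatrix (A := A) e) L γ →
      ∀ g, mlt g N = Nat.card {j : Fin r // γ j = g}
  pos : ∀ (N : Type) [AddCommGroup N] [Module A N] [Module B N] [IsScalarTower B A N]
    [Module.Finite A N], (∃ x : N, ∀ b : B, b • x = 0 → b = 0) → ∃ γ, 0 < mlt γ N

section formula

variable {B A : Type} [CommRing B] [IsRegularLocalRing B] [IsDomain B] [CommRing A] [Algebra B A]
  [Module.Finite B A] [Module.Free B A] (D : MltData B A)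

/-- the finite set of characters of `A` -/
theorem MltData.exists_finset : ∃ T : Finset (A →ₐ[B] Tri.BPlus B),
    ∀ (N : Type) [AddCommGroup N] [Module A N] [Module.Finite A N] (g), g ∉ T → D.mlt g N = 0 := by
  classical
  have hnoeth : IsNoetherianRing A := IsNoetherianRing.of_finite B A
  let e : Module.Basis (Fin (Module.finrank B A)) B A := Module.finBasis B A
  have hint : Algebra.IsIntegral B A := inferInstance
  obtain ⟨L, γ, hfl⟩ := Tri.exists_isFlag_bPlus (Tri.actMatrix (A := A) e)
  refine ⟨Finset.univ.image γ, fun N _ _ _ g hg => ?_⟩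
  have hA : D.mlt g A = 0 := by
    rw [D.flag A _ e L γ hfl g, Nat.card_eq_zero]
    left
    refine ⟨fun j => hg ?_⟩
    rw [Finset.mem_image]
    exact ⟨j.1, Finset.mem_univ _, j.2⟩
  have hpi : ∀ n : ℕ, D.mlt g (Fin n → A) = 0 := by
    intro n
    induction n with
    | zero =>
      have h := D.add g (Fin 0 → A) (Fin 0 → A) (Fin 0 → A) LinearMap.id LinearMap.id
        Function.injective_id Function.surjective_id (fun x => ⟨fun _ => ⟨x, rfl⟩,
          fun _ => Subsingleton.elim _ _⟩)
      omega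
    | succ n ih =>
      let i : A →ₗ[A] (Fin (n + 1) → A) := LinearMap.single A (fun _ => A) 0
      let q : (Fin (n + 1) → A) →ₗ[A] (Fin n → A) := LinearMap.funLeft A A Fin.succ
      have h := D.add g A (Fin (n + 1) → A) (Fin n → A) i q
        (by
          intro x y hxy
          have := congrFun hxy 0
          simpa [i] using this)
        (by
          intro y
          exact ⟨Fin.cons 0 y, by funext j; simp [q, LinearMap.funLeft_apply]⟩)
        (by
          intro x
          constructor
          · intro hx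
            refine ⟨x 0, ?_⟩
            funext j
            refine Fin.cases ?_ (fun j => ?_) j
            · simp [i]
            · have : x j.succ = 0 := congrFun hx j
              rw [this]
              simp [i]
          · rintro ⟨y, rfl⟩
            funext j
            simp [i, q, LinearMap.funLeft_apply])
      rw [h, hA, ih]
  obtain ⟨n, f, hf⟩ := Module.Finite.exists_fin' A N
  have h := D.add g (LinearMap.ker f) (Fin n → A) N (LinearMap.ker f).subtype f
    (Submodule.subtype_injective _) hf (LinearMap.exact_subtype_ker_map f)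
  rw [hpi] at h
  omega

variable {R : Type} [CommRing R] [IsRegularLocalRing R] {d : ℕ} (hd : ringKrullDim R = d)
  [Algebra R A] (hs : Function.Surjective (algebraMap R A)) {M : Type} [AddCommGroup M] [Module R M]
  [Module.Finite R M]

include hs in
lemma finite_of_surj (N : Type) [AddCommGroup N] [Module A N] [Module.Finite A N] [Module R N]
    [IsScalarTower R A N] : Module.Finite R N := by
  have : Module.Finite R A := Module.Finite.of_surjective (Algebra.linearMap R A) hs
  exact Module.Finite.trans A N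

lemma Proper.of_algebra (h : Proper R M A) (N : Type) [AddCommGroup N] [Module A N] [Module R N]
    [IsScalarTower R A N] : Proper R M N := by
  refine h.mono le_rfl ?_
  intro r hr
  rw [Module.mem_annihilator] at hr ⊢
  intro n
  have h1 := hr 1
  rw [Algebra.smul_def, mul_one] at h1
  rw [← algebraMap_smul A r n, h1, zero_smul]

include hd hs in
/-- **the character formula for all finite modules** -/
theorem MltData.formula (T : Finset (A →ₐ[B] Tri.BPlus B))
    (hT : ∀ (N : Type) [AddCommGroup N] [Module A N] [Module.Finite A N] (g), g ∉ T →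
      D.mlt g N = 0) (hp : Proper R M A) (μ : (A →ₐ[B] Tri.BPlus B) → ℝ)
    (hμ : ∀ (N : Type) [AddCommGroup N] [Module A N] [Module R N] [IsScalarTower R A N]
        [Module B N] [IsScalarTower B A N] (r : ℕ)
        (e : Module.Basis (Fin r) B N)
        (L : Matrix (Fin r) (Fin r) (Tri.BPlus B))
        (γ : Fin r → A →ₐ[B] Tri.BPlus B),
        Tri.IsFlag (Tri.actMatrix (A := A) e) L γ → pair R d M N = ∑ j, μ (γ j))
    (N : Type) [AddCommGroup N] [Module A N] [Module.Finite A N] [i1 : Module R N]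
    [i2 : IsScalarTower R A N] : pair R d M N = ∑ g ∈ T, (D.mlt g N : ℝ) * μ g := by
  classical
  have hnoeth : IsNoetherianRing A := IsNoetherianRing.of_finite B A
  have hint : Algebra.IsIntegral B A := inferInstance
  -- the case of `B`-free modules
  have hfree : ∀ (L : Type) [AddCommGroup L] [Module A L] [Module B L] [IsScalarTower B A L]
      [Module.Finite A L] [Module R L] [IsScalarTower R A L], Module.Free B L →
      pair R d M L = ∑ g ∈ T, (D.mlt g L : ℝ) * μ g := by
    intro L _ _ _ _ _ _ _ _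
    have : Module.Finite B L := Module.Finite.trans A L
    let e : Module.Basis (Fin (Module.finrank B L)) B L := Module.finBasis B L
    obtain ⟨Lm, γ, hfl⟩ := Tri.exists_isFlag_bPlus (Tri.actMatrix (A := A) e)
    rw [hμ L _ e Lm γ hfl]
    have hmem : ∀ j, γ j ∈ T := by
      intro j
      by_contra hj
      have h1 := hT L (γ j) hj
      rw [D.flag L _ e Lm γ hfl, Nat.card_eq_zero] at h1
      rcases h1 with h1 | h1
      · exact h1.false ⟨j, rfl⟩
      · exact (not_finite_iff_infinite.2 h1) inferInstance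
    rw [← Finset.sum_fiberwise_of_maps_to (s := Finset.univ) (t := T) (g := γ)
      (fun j _ => hmem j)]
    refine Finset.sum_congr rfl fun g _ => ?_
    rw [D.flag L _ e Lm γ hfl]
    have h2 : ∀ j ∈ Finset.univ.filter (fun j => γ j = g), μ (γ j) = μ g := by
      intro j hj
      rw [(Finset.mem_filter.1 hj).2]
    rw [Finset.sum_congr rfl h2, Finset.sum_const, nsmul_eq_mul]
    congr 1
    rw [Nat.card_eq_fintype_card, Fintype.card_subtype]
  refine Noe.syz_induction (B := B) (S := A)
    (P := fun L _ _ => ∀ (i1 : Module R L) (i2 : IsScalarTower R A L),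
      pair R d M L = ∑ g ∈ T, (D.mlt g L : ℝ) * μ g) ?_ ?_ N i1 i2
  · intro L _ _ _ _ _ hL i1 i2
    exact hfree L hL
  · intro L _ _ _ r f hf ih i1 i2
    have h1 := hfree (Fin r → A) inferInstance
    have h2 := ih inferInstance inferInstance
    have f1 : Module.Finite R L := finite_of_surj hs L
    have f2 : Module.Finite R (Fin r → A) := finite_of_surj hs (Fin r → A)
    have f3 : Module.Finite R ↥(LinearMap.ker f) := finite_of_surj hs ↥(LinearMap.ker f)
    have h3 := pair_add_right hd (M := M) ((LinearMap.ker f).subtype.restrictScalars R)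
      (f.restrictScalars R) (Submodule.subtype_injective _) hf
      (LinearMap.exact_subtype_ker_map f) (Proper.of_algebra hp (Fin r → A))
    have h4 : ∀ g, D.mlt g (Fin r → A) = D.mlt g ↥(LinearMap.ker f) + D.mlt g L := fun g =>
      D.add g (LinearMap.ker f) (Fin r → A) L (LinearMap.ker f).subtype f
        (Submodule.subtype_injective _) hf (LinearMap.exact_subtype_ker_map f)
    rw [h1, h2] at h3
    have h5 : ∑ g ∈ T, (D.mlt g (Fin r → A) : ℝ) * μ g =
        ∑ g ∈ T, (D.mlt g ↥(LinearMap.ker f) : ℝ) * μ g + ∑ g ∈ T, (D.mlt g L : ℝ) * μ g := by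
      rw [← Finset.sum_add_distrib]
      refine Finset.sum_congr rfl fun g _ => ?_
      rw [h4]
      push_cast
      ring
    linarith

end formula

section main

open Noe R183.Cohen

lemma exists_nat_of_le {x : WithBot ℕ∞} (h0 : x ≠ ⊥) {d : ℕ} (h : x ≤ (d : ℕ)) :
    ∃ a : ℕ, x = (a : ℕ) := by
  cases x with
  | bot => exact absurd rfl h0
  | coe x =>
    have h1 : x ≤ (d : ℕ∞) := by exact_mod_cast h
    obtain ⟨n, rfl⟩ := ENat.ne_top_iff_exists.1 (ne_top_of_le_ne_top (ENat.natCast_ne_top d) h1)
    exact ⟨n, rfl⟩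

/-- **`MixPrime ⇐ CORE`** -/
theorem mixPrime_of_core (hcore : CORE)
    (hD : ∀ (p : ℕ) [Fact p.Prime] (k : Type) [Field k] [IsAlgClosed k] [CharP k p] (b : ℕ)
      (A : Type) [CommRing A] [Algebra (Asm.BB p k b) A] [Module.Finite (Asm.BB p k b) A],
      Nonempty (MltData (Asm.BB p k b) A)) : MixPrime := by
  intro R _ _ _ _ p _ _ hp0 d hd P Q hP hQ hpQ hprop hdim
  have hdomR : IsDomain R := Str.isDomain_of_isRegularLocalRing R
  have hpm : (p : R) ∈ maximalIdeal R := by
    rw [← residue_eq_zero_iff, map_natCast]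
    exact CharP.cast_eq_zero _ p
  rw [Module.supportDim_quotient_eq_ringKrullDim, Module.supportDim_quotient_eq_ringKrullDim]
    at hdim ⊢
  have hPm : P ≤ maximalIdeal R := IsLocalRing.le_maximalIdeal hP.ne_top
  have hQm : Q ≤ maximalIdeal R := IsLocalRing.le_maximalIdeal hQ.ne_top
  have hntP : Nontrivial (R ⧸ P) := Ideal.Quotient.nontrivial_iff.2 hP.ne_top
  have hntQ : Nontrivial (R ⧸ Q) := Ideal.Quotient.nontrivial_iff.2 hQ.ne_top
  obtain ⟨a, ha⟩ : ∃ a : ℕ, ringKrullDim (R ⧸ P) = (a : ℕ) := exists_nat_of_le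
    (lt_of_lt_of_le (WithBot.bot_lt_coe _) ringKrullDim_nonneg_of_nontrivial).ne' (by rw [← hd]; exact ringKrullDim_quotient_le P)
  obtain ⟨c, hc⟩ : ∃ c : ℕ, ringKrullDim (R ⧸ Q) = (c : ℕ) := exists_nat_of_le
    (lt_of_lt_of_le (WithBot.bot_lt_coe _) ringKrullDim_nonneg_of_nontrivial).ne' (by rw [← hd]; exact ringKrullDim_quotient_le Q)
  -- `dim R/(p, Q) < dim R/Q`
  have hpQ1 : ringKrullDim (R ⧸ (Ideal.span {(p : R)} ⊔ Q)) + 1 ≤ (c : ℕ) := by
    rw [← hc]
    exact Noe.ringKrullDim_quotient_add_one_le le_sup_right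
      ((le_sup_left : Ideal.span {(p : R)} ≤ _) (Ideal.mem_span_singleton_self _)) hpQ
  have hpQ0 : 0 ≤ ringKrullDim (R ⧸ (Ideal.span {(p : R)} ⊔ Q)) := by
    have h1 : Ideal.span {(p : R)} ⊔ Q ≠ ⊤ := fun h => (maximalIdeal.isMaximal R).ne_top
      (top_le_iff.1 (h ▸ sup_le (by rwa [Ideal.span_singleton_le_iff_mem]) hQm))
    have h2 : Nontrivial (R ⧸ (Ideal.span {(p : R)} ⊔ Q)) := Ideal.Quotient.nontrivial_iff.2 h1
    exact ringKrullDim_nonneg_of_nontrivial
  have hc1 : 1 ≤ c := by
    have h1 : (1 : WithBot ℕ∞) ≤ (c : ℕ) := by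
      calc (1 : WithBot ℕ∞) = 0 + 1 := by rw [zero_add]
        _ ≤ _ := add_le_add hpQ0 le_rfl
        _ ≤ _ := hpQ1
    exact_mod_cast h1
  rw [ha, hc] at hdim ⊢
  have hac : a + c ≤ d := by exact_mod_cast hdim
  obtain ⟨b, hb⟩ : ∃ b, d = a + (b + 1) := ⟨d - a - 1, by omega⟩
  have hcb : c ≤ b + 1 := by omega
  -- the complete intersection
  have hCM : CM R (b + 1 + a) R := CM.of_regular R (by rw [hd, hb, add_comm])
  have hpR : ringKrullDim (R ⧸ Ideal.span {(p : R)}) ≤ (b + a : ℕ) := by
    have h1 := ringKrullDim_quotient_succ_le_of_nonZeroDivisor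
      (mem_nonZeroDivisors_of_ne_zero hp0)
    rw [hd, hb] at h1
    refine Noe.le_of_add_one_le_add_one' ?_
    refine h1.trans (le_of_eq ?_)
    push_cast
    ring
  have hIp : ringKrullDim (R ⧸ (Ideal.span {(p : R)} ⊔ Q)) ≤ (b : ℕ) := by
    refine Noe.le_of_add_one_le_add_one' ?_
    refine hpQ1.trans ?_
    exact_mod_cast hcb
  have hAI : ringKrullDim (R ⧸ (P ⊔ Q)) ≤ 0 := by
    have h1 := hprop
    unfold Proper at h1
    rwa [Ideal.annihilator_quotient, Ideal.annihilator_quotient] at h1
  obtain ⟨G, hGl, hGQ, -, hGCM, hPG, hGp, -⟩ := exists_G_param hCM hpR hQm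
    (by rw [hc]; exact_mod_cast hcb) hIp (le_of_eq ha) hAI
  set J : Ideal R := Ideal.ofList G with hJ
  have hJQ : J ≤ Q := by
    rw [hJ]
    unfold Ideal.ofList
    rw [Ideal.span_le]
    exact fun g hg => hGQ g hg
  have hJm : J ≤ maximalIdeal R := hJQ.trans hQm
  -- parameters, coefficient ring
  obtain ⟨t, ht, e, hte⟩ := exists_sop_mixed' (p := p) hJm hpm hGp
  obtain ⟨s, hs⟩ := Str.exists_generators R hd
  obtain ⟨π, hπ, -, hπr, f, hf, hker⟩ := Str.exists_surjective_of_perfect R p hpm
    (RingEquiv.refl (ResidueField R)) hd s hs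
  let g : WittVector p (ResidueField R) →+* R := π.comp MvPowerSeries.C
  have hgr : ∀ w, residue R (g w) = WittVector.constantCoeff w := fun w => hπr w
  have hgloc : IsLocalHom g := by
    refine ⟨fun w hw => ?_⟩
    by_contra hcon
    have h1 : w ∈ maximalIdeal (WittVector p (ResidueField R)) := (mem_maximalIdeal _).2 hcon
    rw [(isCohen_witt p (ResidueField R)).maximalIdeal_eq, Ideal.mem_span_singleton] at h1
    obtain ⟨v, rfl⟩ := h1
    rw [map_mul, map_natCast] at hw
    exact (mem_maximalIdeal _).1 (Ideal.mul_mem_right _ _ hpm) hw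
  have hgs : Function.Surjective ((residue R).comp g) := by
    intro x
    obtain ⟨w, hw⟩ := WittVector.constantCoeff_surjective (R := ResidueField R) p x
    exact ⟨w, by rw [RingHom.comp_apply, hgr, hw]⟩
  have hgfin : ((residue R).comp g).Finite := RingHom.Finite.of_surjective _ hgs
  let _ : Algebra (Asm.BB p (ResidueField R) b) R := (psEval (maximalIdeal R) g t ht).toAlgebra
  obtain ⟨hfin, hfree, hinj⟩ := noe_mixed (isCohen_witt p (ResidueField R)) g hgloc hgfin J hJm
    hGCM t ht hte rfl
  have hntA : Nontrivial (R ⧸ J) := Ideal.Quotient.nontrivial_iff.2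
    (fun h => hQ.ne_top (top_le_iff.1 (h ▸ hJQ)))
  -- CORE
  have hPA : Proper R (R ⧸ P) (R ⧸ J) := by
    unfold Proper
    rwa [Ideal.annihilator_quotient, Ideal.annihilator_quotient]
  obtain ⟨μ, hμ, hform⟩ := hcore p (ResidueField R) R d a b hd hb π hπ f hf hker (R ⧸ J)
    Ideal.Quotient.mk_surjective (by
      intro w
      show Ideal.Quotient.mk J (psEval (maximalIdeal R) g t ht (MvPowerSeries.C w)) = _
      rw [psEval_C]
      rfl) (R ⧸ P)
    (by rw [Module.supportDim_quotient_eq_ringKrullDim, ha]) (proper_iff.1 hPA)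
  obtain ⟨D⟩ := hD p (ResidueField R) b (R ⧸ J)
  have hregW : IsRegularLocalRing (WittVector p (ResidueField R)) := (isCohen_witt p (ResidueField R)).isRegularLocalRing
  have hregB : IsRegularLocalRing (Asm.BB p (ResidueField R) b) :=
    isRegularLocalRing_mvPowerSeries b
  obtain ⟨T, hT⟩ := D.exists_finset
  -- the module `R/Q` over `A = R/J`
  let _ : Algebra (R ⧸ J) (R ⧸ Q) := (Ideal.Quotient.factor hJQ).toAlgebra
  have tow : IsScalarTower R (R ⧸ J) (R ⧸ Q) := IsScalarTower.of_algebraMap_eq fun r => rfl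
  have towB : IsScalarTower (Asm.BB p (ResidueField R) b) (R ⧸ J) (R ⧸ Q) :=
    IsScalarTower.of_algebraMap_eq fun r => rfl
  have hsQ : Function.Surjective (algebraMap (R ⧸ J) (R ⧸ Q)) :=
    Ideal.Quotient.factor_surjective hJQ
  have hfinQ : Module.Finite (R ⧸ J) (R ⧸ Q) :=
    Module.Finite.of_surjective (Algebra.linearMap (R ⧸ J) (R ⧸ Q)) hsQ
  have hfml := D.formula hd Ideal.Quotient.mk_surjective T hT hPA μ hform (R ⧸ Q)
  rw [hfml]
  have hnn : ∀ g ∈ T, 0 ≤ (D.mlt g (R ⧸ Q) : ℝ) * μ g := fun g _ =>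
    mul_nonneg (Nat.cast_nonneg _) (hμ g).le
  refine ⟨Finset.sum_nonneg hnn, fun hsum => ?_⟩
  have hcb' : c = b + 1 := by
    have h1 : a + c = d := by exact_mod_cast hsum
    omega
  -- `B → R/Q` is injective
  have hfinBQ : Module.Finite (Asm.BB p (ResidueField R) b) (R ⧸ Q) :=
    Module.Finite.trans (R ⧸ J) (R ⧸ Q)
  have hdB : ringKrullDim (Asm.BB p (ResidueField R) b) = (b + 1 : ℕ) := by
    rw [ringKrullDim_mvPowerSeries, (isCohen_witt p (ResidueField R)).ringKrullDim_eq]
    push_cast
    rw [add_comm]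
  have hinjQ : Function.Injective (algebraMap (Asm.BB p (ResidueField R) b) (R ⧸ Q)) := by
    refine injective_of_isIntegral_of_ringKrullDim_le ?_ ?_
    · rw [hdB]
      exact fun h => ENat.natCast_ne_top (b + 1) (WithBot.coe_injective h)
    · rw [hdB, hc, hcb']
  obtain ⟨γ, hγ⟩ := D.pos (R ⧸ Q) ⟨1, fun x hx => by
    rw [Algebra.smul_def, mul_one] at hx
    exact hinjQ (hx.trans (map_zero _).symm)⟩
  have hγT : γ ∈ T := by
    by_contra hcon
    rw [hT _ γ hcon] at hγ
    exact lt_irrefl _ hγ
  refine Finset.sum_pos' hnn ⟨γ, hγT, ?_⟩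
  exact mul_pos (by exact_mod_cast hγ) (hμ γ)

/-- **S0288 ⇐ CORE** -/
theorem s288_of_core (hcore : CORE)
    (hD : ∀ (p : ℕ) [Fact p.Prime] (k : Type) [Field k] [IsAlgClosed k] [CharP k p] (b : ℕ)
      (A : Type) [CommRing A] [Algebra (Asm.BB p k b) A] [Module.Finite (Asm.BB p k b) A],
      Nonempty (MltData (Asm.BB p k b) A)) (R : Type) [CommRing R] [IsRegularLocalRing R] :
    Eq.S288 R :=
  Eq.s288_of_mixed (mixed288_of_mixPrime (mixPrime_of_core hcore hD)) R

end main

end Crest.Agent.R188.Top
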