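/-
R188 (Serre positivity), block (T3), part 5: `MltData` of `Top5`.   helper365
-/
import Mathlib
import Crest.Agent.R188.Chr4
import Crest.Agent.R188.Top5

set_option autoImplicit false
set_option maxHeartbeats 400000
set_option linter.unusedSectionVars false

namespace Crest.Agent.R188.Chr

open Module TensorProduct

universe u v w x

section mlt

variable {B A : Type} [CommRing B] [IsDomain B] [CommRing A] [Algebra B A]

open Classical in
/-- the multiplicity of `γ` in `N` (auxiliary: `B`-structure explicit) -/
noncomputable def mltAux (γ : A →ₐ[B] Tri.BPlus B) (N : Type) [AddCommGroup N] [Module A N]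
    [Module B N] [IsScalarTower B A N] : ℕ :=
  if h : ∃ Γ : Multiset (A →ₐ[B] Tri.BPlus B),
    IsCh (tr (rep (A := A) B (Tri.FB B) N)) (Γ.map (toF (Tri.FB B))) then h.choose.count γ else 0

/-- the multiplicity of `γ` in `N` -/
noncomputable def mltFun (γ : A →ₐ[B] Tri.BPlus B) (N : Type) [AddCommGroup N] [Module A N] : ℕ :=
  @mltAux B A _ _ _ _ γ N _ _ (Module.compHom N (algebraMap B A))
    (@IsScalarTower.of_algebraMap_smul B A N _ _ _ _ (Module.compHom N (algebraMap B A)).toSMul
      fun _ _ => rfl)

theorem mltFun_eq_aux (γ : A →ₐ[B] Tri.BPlus B) (N : Type) [AddCommGroup N]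
    [Module A N] [iB : Module B N] [iT : IsScalarTower B A N] : mltFun γ N = mltAux γ N := by
  have h0 : iB = Module.compHom N (algebraMap B A) := by
    refine Module.ext' _ _ fun b x => ?_
    have h1 := @IsScalarTower.smul_assoc B A N _ _ _ iT b 1 x
    rw [one_smul] at h1
    rw [← h1, Algebra.smul_def, mul_one]
    rfl
  subst h0
  rfl

open Classical in
theorem mltFun_eq [CharZero (Tri.FB B)] (γ : A →ₐ[B] Tri.BPlus B) (N : Type) [AddCommGroup N]
    [Module A N] [iB : Module B N] [iT : IsScalarTower B A N] (Γ : Multiset (A →ₐ[B] Tri.BPlus B))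
    (h : IsCh (tr (rep (A := A) B (Tri.FB B) N)) (Γ.map (toF (Tri.FB B)))) :
    mltFun γ N = Γ.count γ := by
  have hex : ∃ Γ : Multiset (A →ₐ[B] Tri.BPlus B),
    IsCh (tr (rep (A := A) B (Tri.FB B) N)) (Γ.map (toF (Tri.FB B))) := ⟨Γ, h⟩
  have h2 : mltAux γ N = hex.choose.count γ := dif_pos hex
  have h3 : hex.choose = Γ :=
    Multiset.map_injective (toF_injective (Tri.FB B)) (hex.choose_spec.unique h)
  rw [mltFun_eq_aux, h2, h3]

end mlt

/-- **the multiplicities** -/
theorem nonempty_mltData (B A : Type) [CommRing B] [IsDomain B] [CharZero B] [CommRing A]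
    [Algebra B A] [Module.Finite B A] : Nonempty (Top.MltData B A) := by
  classical
  have hc : CharZero (Tri.FB B) :=
    charZero_of_injective_algebraMap (FaithfulSMul.algebraMap_injective B (Tri.FB B))
  have hflat : Module.Flat B (Tri.FB B) :=
    flat_of_injective (FaithfulSMul.algebraMap_injective B (Tri.FB B))
  have hint : Algebra.IsIntegral B A := inferInstance
  refine ⟨{ mlt := fun γ N _ _ => mltFun γ N, add := ?_, flag := ?_, pos := ?_ }⟩
  · intro γ N' N N'' _ _ _ _ _ _ _ _ _ f g hf hg hfg
    let _ : Module B N' := Module.compHom N' (algebraMap B A)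
    have : IsScalarTower B A N' := IsScalarTower.of_algebraMap_smul fun _ _ => rfl
    let _ : Module B N := Module.compHom N (algebraMap B A)
    have : IsScalarTower B A N := IsScalarTower.of_algebraMap_smul fun _ _ => rfl
    let _ : Module B N'' := Module.compHom N'' (algebraMap B A)
    have : IsScalarTower B A N'' := IsScalarTower.of_algebraMap_smul fun _ _ => rfl
    have : Module.Finite B N' := Module.Finite.trans A N'
    have : Module.Finite B N := Module.Finite.trans A N
    have : Module.Finite B N'' := Module.Finite.trans A N''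
    obtain ⟨Γ', h', -, -⟩ := exists_chars (A := A) (B := B) (Bp := Tri.BPlus B) (Tri.FB B) N'
    obtain ⟨Γ'', h'', -, -⟩ := exists_chars (A := A) (B := B) (Bp := Tri.BPlus B) (Tri.FB B) N''
    have h : IsCh (tr (rep (A := A) B (Tri.FB B) N)) ((Γ' + Γ'').map (toF (Tri.FB B))) := by
      rw [Multiset.map_add]
      exact h'.add h'' (fun a => tr_rep_add B (Tri.FB B) f g hf hg hfg a)
    rw [mltFun_eq γ N' Γ' h', mltFun_eq γ N'' Γ'' h'', mltFun_eq γ N _ h, Multiset.count_add]
  · intro N _ _ _ _ r e L γ hL g
    rw [mltFun_eq g N _ (isCh_of_isFlag (Tri.FB B) e hL), Multiset.count_map, Nat.card_eq_fintype_card,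
      Fintype.card_subtype, Finset.card_def, Finset.filter_val]
    congr 1
    refine Multiset.filter_congr fun j _ => ?_
    exact eq_comm
  · intro N _ _ _ _ _ hx
    obtain ⟨x, hx⟩ := hx
    have : Module.Finite B N := Module.Finite.trans A N
    obtain ⟨Γ, h1, h2, -⟩ := exists_chars (A := A) (B := B) (Bp := Tri.BPlus B) (Tri.FB B) N
    have hinj : Function.Injective (LinearMap.toSpanSingleton B N x) := by
      rw [← LinearMap.ker_eq_bot, eq_bot_iff]
      intro b hb
      exact hx b hb
    have hne : Γ ≠ 0 := by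
      rintro rfl
      rw [Multiset.card_zero] at h2
      have h4 : Subsingleton ((Tri.FB B) ⊗[B] N) := Module.finrank_zero_iff.1 h2.symm
      have h5 : Function.Injective ((LinearMap.toSpanSingleton B N x).lTensor (Tri.FB B)) :=
        Module.Flat.lTensor_preserves_injective_linearMap _ hinj
      have h6 : Subsingleton ((Tri.FB B) ⊗[B] B) := h5.subsingleton
      exact not_subsingleton (Tri.FB B)
        ((TensorProduct.rid B (Tri.FB B)).symm.injective.subsingleton)
    obtain ⟨γ, hγ⟩ := Multiset.exists_mem_of_ne_zero hne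
    refine ⟨γ, ?_⟩
    show 0 < mltFun γ N
    rw [mltFun_eq γ N Γ h1]
    exact Multiset.count_pos.2 hγ

instance charZero_witt (p : ℕ) [Fact p.Prime] (k : Type*) [Field k] [CharP k p] :
    CharZero (WittVector p k) := by
  obtain ⟨q, hq⟩ := CharP.exists (WittVector p k)
  rcases eq_or_ne q 0 with rfl | hq0
  · exact CharP.charP_to_charZero _
  · exfalso
    have hqp : q.Prime := (CharP.char_is_prime_or_zero (WittVector p k) q).resolve_right hq0
    have h1 : (q : WittVector p k) = 0 := CharP.cast_eq_zero _ q
    have h2 : ((q : ℕ) : k) = 0 := by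
      have := congrArg (WittVector.constantCoeff (p := p) (R := k)) h1
      rwa [map_natCast, map_zero] at this
    rw [CharP.cast_eq_zero_iff k p] at h2
    have h3 : p = q := (Nat.prime_dvd_prime_iff_eq (Fact.out : p.Prime) hqp).1 h2
    subst h3
    exact WittVector.p_nonzero p k h1

instance charZero_BB (p : ℕ) [Fact p.Prime] (k : Type) [Field k] [CharP k p] (b : ℕ) :
    CharZero (Asm.BB p k b) :=
  charZero_of_injective_ringHom (f := (MvPowerSeries.C : WittVector p k →+* Asm.BB p k b))
    (MvPowerSeries.C_injective)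

/-- **S0288 ⇐ CORE**, no further input. -/
theorem s288_of_core (hcore : Top.CORE) (R : Type) [CommRing R] [IsRegularLocalRing R] :
    Eq.S288 R :=
  Top.s288_of_core hcore (fun p _ k _ _ _ b A _ _ _ => nonempty_mltData (Asm.BB p k b) A) R

end Crest.Agent.R188.Chr
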