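/-
R188, block A5 / WIT (helper46): graded pieces of Witt vectors.

`ι ρ : S → S'` ring homs, `e ∈ S'`.  `Gr ι ρ e = {s | ρ s = e * ι s}` (for a graded ring `S`
with constants `ι` and coaction `ρ s_γ = s_γ u^γ` this is the degree `γ` part for `e = u^γ`), and
`WGr ι ρ e = {x ∈ W(S) | W(ρ) x = [e] * W(ι) x}`.
-/
import Crest.Agent.R188.Wit2

set_option autoImplicit false
set_option linter.unusedSectionVars false
set_option linter.unusedVariables false
set_option linter.style.haveILetI false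

namespace Crest.Agent.R188.Wit

open WittVector Function Crest.Agent.R188.Prf

universe u v w

variable {p : ℕ} [hp : Fact p.Prime] {S : Type u} [CommRing S] {S' : Type v} [CommRing S']

local notation "𝕎" => WittVector p
local notation "τ" => WittVector.teichmuller p

/-- the "degree `e`" part of `S`. -/
def Gr (ι ρ : S →+* S') (e : S') : AddSubgroup S where
  carrier := {s | ρ s = e * ι s}
  zero_mem' := by simp
  add_mem' := by
    intro a b ha hb
    simp only [Set.mem_ofPred_eq] at *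
    rw [map_add, map_add, ha, hb, mul_add]
  neg_mem' := by
    intro a ha
    simp only [Set.mem_ofPred_eq] at *
    rw [map_neg, map_neg, ha, mul_neg]

/-- the "degree `e`" part of `W(S)`. -/
def WGr (ι ρ : S →+* S') (e : S') : AddSubgroup (𝕎 S) where
  carrier := {x | WittVector.map ρ x = τ e * WittVector.map ι x}
  zero_mem' := by simp
  add_mem' := by
    intro a b ha hb
    simp only [Set.mem_ofPred_eq] at *
    rw [map_add, map_add, ha, hb, mul_add]
  neg_mem' := by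
    intro a ha
    simp only [Set.mem_ofPred_eq] at *
    rw [map_neg, map_neg, ha, mul_neg]

variable {ι ρ : S →+* S'} {e f : S'}

lemma mem_Gr {s : S} : s ∈ Gr ι ρ e ↔ ρ s = e * ι s := Iff.rfl

lemma mem_WGr {x : 𝕎 S} :
    x ∈ WGr (p := p) ι ρ e ↔ WittVector.map ρ x = τ e * WittVector.map ι x := Iff.rfl

lemma mul_mem_Gr {s t : S} (hs : s ∈ Gr ι ρ e) (ht : t ∈ Gr ι ρ f) : s * t ∈ Gr ι ρ (e * f) := by
  rw [mem_Gr] at *
  rw [map_mul, map_mul, hs, ht]; ring

lemma mul_mem_WGr {x y : 𝕎 S} (hx : x ∈ WGr ι ρ e) (hy : y ∈ WGr ι ρ f) :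
    x * y ∈ WGr ι ρ (e * f) := by
  rw [mem_WGr] at *
  rw [map_mul, map_mul, map_mul, hx, hy]; ring

lemma one_mem_WGr : (1 : 𝕎 S) ∈ WGr ι ρ (1 : S') := by
  rw [mem_WGr]; simp

lemma mul_mem_WGr' {x y : 𝕎 S} (hx : x ∈ WGr ι ρ (1 : S')) (hy : y ∈ WGr ι ρ f) :
    x * y ∈ WGr ι ρ f := by
  have := mul_mem_WGr hx hy
  rwa [one_mul] at this

lemma teich_mem_WGr {s : S} (hs : s ∈ Gr ι ρ e) : τ s ∈ WGr ι ρ e := by
  rw [mem_WGr, map_teichmuller, map_teichmuller, mem_Gr.1 hs, map_mul]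

lemma mem_WGr_iff_coeff (h0 : (p : S') = 0) {x : 𝕎 S} :
    x ∈ WGr ι ρ e ↔ ∀ n, x.coeff n ∈ Gr ι ρ (e ^ p ^ n) := by
  rw [mem_WGr]
  constructor
  · intro hx n
    have := congrArg (fun t : 𝕎 S' => t.coeff n) hx
    rw [teich_mul_coeff h0] at this
    rw [mem_Gr]
    simpa only [WittVector.map_coeff] using this
  · intro hx
    ext n
    rw [teich_mul_coeff h0, WittVector.map_coeff, WittVector.map_coeff]
    exact hx n

section Perf

variable (hS : IsPerf p S) (hS' : IsPerf p S')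

include hS hS'

lemma rtn_mem_Gr {n : ℕ} {s : S} (hs : s ∈ Gr ι ρ (e ^ p ^ n)) : hS.rtn n s ∈ Gr ι ρ e := by
  rw [mem_Gr] at *
  rw [hS.map_rtn hS', hS.map_rtn hS', hs, hS'.rtn_mul, hS'.rtn_eq_of_pow (n := n) (y := e) rfl]

lemma mem_WGr_iff_digit {x : 𝕎 S} :
    x ∈ WGr ι ρ e ↔ ∀ n, hS.rtn n (x.coeff n) ∈ Gr ι ρ e := by
  rw [mem_WGr_iff_coeff hS'.p_zero]
  constructor
  · intro hx n
    exact rtn_mem_Gr hS hS' (hx n)
  · intro hx n
    have := hx n
    rw [mem_Gr] at this ⊢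
    have h2 := congrArg (fun t => t ^ p ^ n) this
    simp only [mul_pow] at h2
    rw [← map_pow, ← map_pow, hS.rtn_pow] at h2
    exact h2

/-- `p x ∈ WGr` implies `x ∈ WGr`. -/
lemma of_p_mul_mem {x : 𝕎 S} (hx : (p : 𝕎 S) * x ∈ WGr ι ρ e) : x ∈ WGr ι ρ e := by
  rw [mem_WGr] at *
  rw [map_mul, map_mul, map_natCast, map_natCast] at hx
  exact eq_of_p_mul hS' (by rw [hx]; ring)

lemma of_p_pow_mul_mem {n : ℕ} {x : 𝕎 S} (hx : (p : 𝕎 S) ^ n * x ∈ WGr ι ρ e) :
    x ∈ WGr ι ρ e := by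
  induction n with
  | zero => simpa using hx
  | succ n ih =>
    rw [pow_succ', mul_assoc] at hx
    exact ih (of_p_mul_mem hS hS' hx)

lemma coeff_zero_mem {x : 𝕎 S} (hx : x ∈ WGr ι ρ e) : x.coeff 0 ∈ Gr ι ρ e := by
  have := (mem_WGr_iff_coeff hS'.p_zero).1 hx 0
  simpa using this

/-- `x = [x₀] + p y` inside `WGr`. -/
lemma exists_eq_teich_add_mem {x : 𝕎 S} (hx : x ∈ WGr ι ρ e) :
    ∃ y ∈ WGr ι ρ e, x = τ (x.coeff 0) + (p : 𝕎 S) * y := by
  obtain ⟨y, hy⟩ := exists_eq_teich_add hS x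
  refine ⟨y, ?_, hy⟩
  apply of_p_mul_mem hS hS'
  have h1 : (p : 𝕎 S) * y = x - τ (x.coeff 0) := eq_sub_of_add_eq' hy.symm
  rw [h1]
  exact sub_mem hx (teich_mem_WGr (coeff_zero_mem hS hS' hx))

/-- `WGr` is `p`-adically closed in `W(S)`. -/
lemma mem_of_forall_sub {x : 𝕎 S} (hx : ∀ n, ∃ y ∈ WGr ι ρ e, (p : 𝕎 S) ^ n ∣ x - y) :
    x ∈ WGr ι ρ e := by
  rw [mem_WGr, ← sub_eq_zero]
  apply eq_zero_of_forall_dvd hS'
  intro n
  obtain ⟨y, hy, z, hz⟩ := hx n
  rw [mem_WGr] at hy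
  have hxy : x = y + (p : 𝕎 S) ^ n * z := by rw [← hz]; ring
  refine ⟨WittVector.map ρ z - τ e * WittVector.map ι z, ?_⟩
  rw [hxy, map_add, map_add, map_mul, map_mul, map_pow, map_pow, map_natCast, map_natCast, hy]
  ring

/-- `ξ x ∈ WGr` implies `x ∈ WGr` when `ξ` has degree one ("constant") and is distinguished. -/
lemma of_xi_mul_mem {ξ : 𝕎 S} {π : S} (hξ : IsDist ξ π) (hξ1 : ξ ∈ WGr ι ρ (1 : S')) {x : 𝕎 S}
    (hx : ξ * x ∈ WGr ι ρ e) : x ∈ WGr ι ρ e := by
  rw [mem_WGr] at *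
  rw [map_one, one_mul] at hξ1
  rw [map_mul, map_mul, hξ1] at hx
  exact xi_cancel hS' (hξ.map ι) (by rw [hx]; ring)

end Perf

/-! ### module structure over the constants -/

section Const

variable {P : Type w} [CommRing P] [Algebra P S]

/-- `W(S)` as a `W(P)`-algebra (local instance!). -/
noncomputable abbrev wAlg (p : ℕ) [Fact p.Prime] (P : Type w) (S : Type u) [CommRing P]
    [CommRing S] [Algebra P S] : Algebra (WittVector p P) (WittVector p S) :=
  (WittVector.map (algebraMap P S)).toAlgebra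

attribute [local instance] wAlg

lemma algebraMap_mem_WGr (hP : ∀ a : P, ρ (algebraMap P S a) = ι (algebraMap P S a)) (a : 𝕎 P) :
    WittVector.map (algebraMap P S) a ∈ WGr ι ρ (1 : S') := by
  rw [mem_WGr, map_one, one_mul]
  ext n
  simp only [WittVector.map_coeff]
  exact hP _

/-- `WGr` as a `W(P)`-submodule of `W(S)`. -/
noncomputable def WGrM (P : Type w) [CommRing P] [Algebra P S] (ι ρ : S →+* S') (e : S')
    (hP : ∀ a : P, ρ (algebraMap P S a) = ι (algebraMap P S a)) :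
    Submodule (WittVector p P) (WittVector p S) where
  __ := WGr ι ρ e
  smul_mem' := by
    intro a x hx
    rw [Algebra.smul_def]
    exact mul_mem_WGr' (algebraMap_mem_WGr hP a) hx

end Const

end Crest.Agent.R188.Wit
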