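/-
R188, block A5 / WIT (helper46): lifting exactness (mod `a` + `a`-adic completeness + torsion
freeness), and reduction modulo a regular element.
-/
import Mathlib

set_option autoImplicit false
set_option linter.unusedSectionVars false
set_option linter.unusedVariables false
set_option linter.style.haveILetI false

namespace Crest.Agent.R188.Wit

open Function
open scoped Pointwise

universe u v₁ v₂ v₃ v₄

variable {A : Type u} [CommRing A] (a : A)
variable {M : Type v₁} [AddCommGroup M] [Module A M] {N : Type v₂} [AddCommGroup N] [Module A N]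
  {Q : Type v₃} [AddCommGroup Q] [Module A Q] {T : Type v₄} [AddCommGroup T] [Module A T]

/-- spot exactness modulo `a`. -/
def ExMod (f : M →ₗ[A] N) (g : N →ₗ[A] Q) : Prop :=
  ∀ n : N, (∃ q, g n = a • q) → ∃ m n', n = f m + a • n'

/-- separated for the `a`-adic topology. -/
def Sep (N : Type v₂) [AddCommGroup N] [Module A N] : Prop :=
  ∀ n : N, (∀ k : ℕ, ∃ n', n = a ^ k • n') → n = 0

/-- complete (every series `∑ a^i m_i` converges). -/
def Cpl (M : Type v₁) [AddCommGroup M] [Module A M] : Prop :=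
  ∀ m : ℕ → M, ∃ s : M, ∀ k : ℕ, ∃ m' : M, s = (∑ i ∈ Finset.range k, a ^ i • m i) + a ^ k • m'

/-- torsion free. -/
def Tf (Q : Type v₃) [AddCommGroup Q] [Module A Q] : Prop := ∀ q : Q, a • q = 0 → q = 0

variable {a}

/-- **lifting exactness at one spot.** -/
theorem exact_of_exMod {f : M →ₗ[A] N} {g : N →ₗ[A] Q} (hgf : ∀ m, g (f m) = 0)
    (hM : Cpl a M) (hN : Sep a N) (hQ : Tf a Q) (h : ExMod a f g) : Exact f g := by
  intro n
  constructor
  · intro hn
    have step : ∀ n : N, g n = 0 → ∃ m n', n = f m + a • n' ∧ g n' = 0 := by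
      intro n hn
      obtain ⟨m, n', hmn⟩ := h n ⟨0, by rw [hn, smul_zero]⟩
      refine ⟨m, n', hmn, hQ _ ?_⟩
      rw [← map_smul]
      have : a • n' = n - f m := by rw [hmn]; abel
      rw [this, map_sub, hn, hgf, sub_zero]
    choose! μ ν h1 h2 using step
    let s : ℕ → N := fun k => ν^[k] n
    have hs : ∀ k, g (s k) = 0 := by
      intro k
      induction k with
      | zero => exact hn
      | succ k ih =>
        have : s (k + 1) = ν (s k) := Function.iterate_succ_apply' _ _ _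
        rw [this]
        exact h2 _ ih
    have hsum : ∀ k, n = f (∑ i ∈ Finset.range k, a ^ i • μ (s i)) + a ^ k • s k := by
      intro k
      induction k with
      | zero => simp [s]
      | succ k ih =>
        have h3 : s (k + 1) = ν (s k) := Function.iterate_succ_apply' _ _ _
        rw [Finset.sum_range_succ, map_add, map_smul, add_assoc, pow_succ, mul_smul,
          ← smul_add, h3, ← h1 _ (hs k)]
        exact ih
    obtain ⟨m, hm⟩ := hM (fun i => μ (s i))
    refine ⟨m, ?_⟩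
    rw [← sub_eq_zero]
    apply hN
    intro k
    obtain ⟨m', hm'⟩ := hm k
    refine ⟨f m' - s k, ?_⟩
    rw [hm', map_add, map_smul, smul_sub]
    conv_lhs => rw [hsum k]
    abel
  · rintro ⟨m, rfl⟩
    exact hgf m

/-- **lifting surjectivity.** -/
theorem surjective_of_mod {f : M →ₗ[A] N} (hM : Cpl a M) (hN : Sep a N)
    (h : ∀ n : N, ∃ m n', n = f m + a • n') : Surjective f := by
  have h0 : Exact f (0 : N →ₗ[A] PUnit.{1}) :=
    exact_of_exMod (a := a) (fun m => rfl) hM hN (fun q _ => Subsingleton.elim _ _)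
      (fun n _ => h n)
  intro n
  exact (h0 n).1 rfl

/-- **reduction modulo a regular element**: if the complex is exact at `N` and at `Q` and `a` is
regular on `T` then it is exact at `N` modulo `a`. -/
theorem exMod_of_exact {f : M →ₗ[A] N} {g : N →ₗ[A] Q} {k : Q →ₗ[A] T}
    (hfg : Exact f g) (hgk : Exact g k) (hT : Tf a T) : ExMod a f g := by
  rintro n ⟨q, hq⟩
  have h1 : k q = 0 := by
    apply hT
    rw [← map_smul, ← hq]
    exact hgk.apply_apply_eq_zero n
  obtain ⟨n', rfl⟩ := (hgk q).1 h1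
  have h2 : g (n - a • n') = 0 := by rw [map_sub, map_smul, hq, sub_self]
  obtain ⟨m, hm⟩ := (hfg _).1 h2
  exact ⟨m, n', by rw [hm]; abel⟩

/-- the last spot: `g` surjective. -/
theorem exMod_of_exact_last {f : M →ₗ[A] N} {g : N →ₗ[A] Q}
    (hfg : Exact f g) (hg : Surjective g) : ExMod a f g := by
  rintro n ⟨q, hq⟩
  obtain ⟨n', rfl⟩ := hg q
  have h2 : g (n - a • n') = 0 := by rw [map_sub, map_smul, hq, sub_self]
  obtain ⟨m, hm⟩ := (hfg _).1 h2
  exact ⟨m, n', by rw [hm]; abel⟩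

lemma mem_smul_top {X : Type v₁} [AddCommGroup X] [Module A X] (x : X) :
    x ∈ a • (⊤ : Submodule A X) ↔ ∃ y, x = a • y := by
  constructor
  · intro hx
    obtain ⟨y, -, hy⟩ := hx
    exact ⟨y, hy.symm⟩
  · rintro ⟨y, rfl⟩
    exact Submodule.smul_mem_pointwise_smul y a ⊤ trivial

/-- quotient form of `ExMod`. -/
theorem exMod_iff {f : M →ₗ[A] N} {g : N →ₗ[A] Q} (hgf : ∀ m, g (f m) = 0) :
    ExMod a f g ↔ Exact (QuotSMulTop.map a f) (QuotSMulTop.map a g) := by
  constructor
  · intro h x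
    obtain ⟨n, rfl⟩ := Submodule.Quotient.mk_surjective _ x
    rw [QuotSMulTop.map_apply_mk, Submodule.Quotient.mk_eq_zero, mem_smul_top]
    constructor
    · intro hn
      obtain ⟨m, n', hmn⟩ := h n hn
      refine ⟨Submodule.Quotient.mk m, ?_⟩
      rw [QuotSMulTop.map_apply_mk, Submodule.Quotient.eq, mem_smul_top]
      exact ⟨-n', by rw [hmn, smul_neg]; abel⟩
    · rintro ⟨y, hy⟩
      obtain ⟨m, rfl⟩ := Submodule.Quotient.mk_surjective _ y
      rw [QuotSMulTop.map_apply_mk, Submodule.Quotient.eq, mem_smul_top] at hy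
      obtain ⟨z, hz⟩ := hy
      refine ⟨-g z, ?_⟩
      have : n = f m - a • z := by rw [← hz]; abel
      rw [this, map_sub, hgf, map_smul, zero_sub, smul_neg]
  · intro h n hn
    have h1 : QuotSMulTop.map a g (Submodule.Quotient.mk n) = 0 := by
      rw [QuotSMulTop.map_apply_mk, Submodule.Quotient.mk_eq_zero, mem_smul_top]
      exact hn
    obtain ⟨y, hy⟩ := (h _).1 h1
    obtain ⟨m, rfl⟩ := Submodule.Quotient.mk_surjective _ y
    rw [QuotSMulTop.map_apply_mk, Submodule.Quotient.eq, mem_smul_top] at hy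
    obtain ⟨z, hz⟩ := hy
    exact ⟨m, -z, by rw [smul_neg, ← hz]; abel⟩

/-! ### complexes `… → C 2 → C 1 → C 0 → 0` -/

section Cx

variable {C : ℕ → Type v₁} [∀ i, AddCommGroup (C i)] [∀ i, Module A (C i)]
  (d : ∀ i, C (i + 1) →ₗ[A] C i)

/-- an `a`-complete `a`-torsion free complex `… → C 2 → C 1 → C 0 → 0` exact modulo `a` is
exact. -/
theorem cx_exact_of_mod (hd : ∀ i x, d i (d (i + 1) x) = 0) (hC : ∀ i, Cpl a (C i))
    (hS : ∀ i, Sep a (C i)) (hT : ∀ i, Tf a (C i))
    (h0 : ∀ n : C 0, ∃ m n', n = d 0 m + a • n') (h : ∀ i, ExMod a (d (i + 1)) (d i)) :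
    Surjective (d 0) ∧ ∀ i, Exact (d (i + 1)) (d i) :=
  ⟨surjective_of_mod (hC 1) (hS 0) h0,
    fun i => exact_of_exMod (hd i) (hC (i + 2)) (hS (i + 1)) (hT i) (h i)⟩

/-- an exact complex `… → C 1 → C 0 → 0` of modules on which `x` is regular is exact modulo
`x`. -/
theorem cx_exMod_of_exact {x : A} (hT : ∀ i, Tf x (C i))
    (h0 : Surjective (d 0)) (h : ∀ i, Exact (d (i + 1)) (d i)) (i : ℕ) :
    ExMod x (d (i + 1)) (d i) := by
  cases i with
  | zero => exact exMod_of_exact_last (h 0) h0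
  | succ i => exact exMod_of_exact (h (i + 1)) (h i) (hT i)

end Cx

/-! ### permanence of `Cpl`, `Sep`, `Tf` -/

section Perm

lemma Tf.pow (hQ : Tf a Q) (k : ℕ) : Tf (a ^ k) Q := by
  induction k with
  | zero => intro q hq; simpa using hq
  | succ k ih =>
    intro q hq
    rw [pow_succ, mul_smul] at hq
    exact hQ _ (ih _ hq)

lemma Tf.pi {ι : Type v₂} (hQ : Tf a Q) : Tf a (ι → Q) := by
  intro q hq
  funext i
  exact hQ _ (congrFun hq i)

lemma Sep.pi {ι : Type v₁} (hQ : Sep a N) : Sep a (ι → N) := by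
  intro q hq
  funext i
  apply hQ
  intro k
  obtain ⟨n', hn'⟩ := hq k
  exact ⟨n' i, congrFun hn' i⟩

lemma Cpl.pi {ι : Type v₂} (hM : Cpl a M) : Cpl a (ι → M) := by
  intro m
  choose s hs using fun i => hM (fun k => m k i)
  choose m' hm' using hs
  refine ⟨s, fun k => ⟨fun i => m' i k, ?_⟩⟩
  funext i
  rw [hm' i k]
  simp [Finset.sum_apply]

lemma Sep.sub {f : M →ₗ[A] N} (hf : Injective f) (hN : Sep a N) : Sep a M := by
  intro m hm
  apply hf
  rw [map_zero]
  apply hN
  intro k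
  obtain ⟨m', rfl⟩ := hm k
  exact ⟨f m', by rw [map_smul]⟩

lemma Tf.sub {f : M →ₗ[A] N} (hf : Injective f) (hN : Tf a N) : Tf a M := by
  intro m hm
  apply hf
  rw [map_zero]
  apply hN
  rw [← map_smul, hm, map_zero]

lemma Cpl.quot {f : M →ₗ[A] N} (hf : Surjective f) (hM : Cpl a M) : Cpl a N := by
  intro n
  choose m hm using fun i => hf (n i)
  obtain ⟨s, hs⟩ := hM m
  refine ⟨f s, fun k => ?_⟩
  obtain ⟨m', hm'⟩ := hs k
  refine ⟨f m', ?_⟩
  rw [hm', map_add, map_sum, map_smul]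
  simp only [map_smul, hm]

/-- a closed saturated submodule of a complete module is complete. -/
lemma Cpl.submodule {K : Submodule A N} (hN : Cpl a N)
    (hcl : ∀ x : N, (∀ k : ℕ, ∃ y ∈ K, ∃ z, x = y + a ^ k • z) → x ∈ K)
    (hsat : ∀ (k : ℕ) (z : N), a ^ k • z ∈ K → ∃ z' ∈ K, a ^ k • z = a ^ k • z') :
    Cpl a K := by
  intro m
  obtain ⟨s, hs⟩ := hN (fun i => (m i : N))
  have hsK : s ∈ K := by
    apply hcl
    intro k
    obtain ⟨m', hm'⟩ := hs k
    exact ⟨_, K.sum_mem fun i _ => K.smul_mem _ (m i).2, m', hm'⟩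
  refine ⟨⟨s, hsK⟩, fun k => ?_⟩
  obtain ⟨m', hm'⟩ := hs k
  have h1 : a ^ k • m' ∈ K := by
    have : a ^ k • m' = s - ∑ i ∈ Finset.range k, a ^ i • (m i : N) := by rw [hm']; abel
    rw [this]
    exact K.sub_mem hsK (K.sum_mem fun i _ => K.smul_mem _ (m i).2)
  obtain ⟨z', hz', hz⟩ := hsat k m' h1
  refine ⟨⟨z', hz'⟩, Subtype.ext ?_⟩
  rw [Submodule.coe_add, Submodule.coe_smul, AddSubmonoidClass.coe_finsetSum]
  simp only [Submodule.coe_smul]
  rw [← hz]
  exact hm'

lemma cpl_of_isPrecomplete [IsPrecomplete (Ideal.span {a}) M] : Cpl a M := by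
  intro m
  have h : ∀ {i j : ℕ}, i ≤ j → (∑ l ∈ Finset.range i, a ^ l • m l) ≡
      (∑ l ∈ Finset.range j, a ^ l • m l)
      [SMOD (Ideal.span {a} ^ i • (⊤ : Submodule A M))] := by
    intro i j hij
    induction hij with
    | refl => exact SModEq.refl _
    | @step j hij ih =>
      refine ih.trans ?_
      rw [SModEq.sub_mem, ← neg_mem_iff, neg_sub, Finset.sum_range_succ, add_sub_cancel_left]
      refine Submodule.smul_mem_smul ?_ trivial
      rw [Ideal.span_singleton_pow]
      exact Ideal.mem_span_singleton.2 (pow_dvd_pow _ hij)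
  obtain ⟨s, hs⟩ := IsPrecomplete.prec (I := Ideal.span {a}) inferInstance h
  refine ⟨s, fun k => ?_⟩
  have h3 := (hs k).symm
  rw [SModEq.sub_mem, Ideal.span_singleton_pow, Submodule.ideal_span_singleton_smul] at h3
  obtain ⟨m', -, hm'⟩ := h3
  refine ⟨m', ?_⟩
  have : a ^ k • m' = s - ∑ l ∈ Finset.range k, a ^ l • m l := hm'
  rw [this]; abel

lemma sep_of_isHausdorff [IsHausdorff (Ideal.span {a}) N] : Sep a N := by
  intro n hn
  apply IsHausdorff.haus (I := Ideal.span {a}) inferInstance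
  intro k
  rw [SModEq.zero, Ideal.span_singleton_pow, Submodule.ideal_span_singleton_smul]
  obtain ⟨n', hn'⟩ := hn k
  rw [hn']
  exact Submodule.smul_mem_pointwise_smul n' _ ⊤ trivial

end Perm

end Crest.Agent.R188.Wit
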