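/-
R188, block CMP (helper46): comparison of the graded pieces `K~` of `W(S)` with the closed ideals
`W~(I)` of `W(P)` and with the ideals `J = θ(W~(I))` of `Om ξ = W(P)/ξ`.
-/
import Crest.Agent.R188.Wit3
import Crest.Agent.R188.Wit4
import Crest.Agent.R188.Wit5

set_option autoImplicit false
set_option linter.unusedSectionVars false
set_option linter.unusedVariables false
set_option linter.style.haveILetI false

namespace Crest.Agent.R188.Cmp

open WittVector Function Crest.Agent.R188.Prf Crest.Agent.R188.Wit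

universe u v w

local notation "τ" => WittVector.teichmuller _

/-- a perfect ring `P`, a perfect "graded" `P`-algebra `S` (constants `ι`, coaction `ρ`) with an
augmentation `ε : S → P`. -/
structure GD (p : ℕ) [Fact p.Prime] (P : Type u) (S : Type v) (S' : Type w)
    [CommRing P] [CommRing S] [CommRing S'] where
  hP : IsPerf p P
  hS : IsPerf p S
  hS' : IsPerf p S'
  i : P →+* S
  ε : S →+* P
  ι : S →+* S'
  ρ : S →+* S'
  εi : ∀ a, ε (i a) = a
  ρi : ∀ a, ρ (i a) = ι (i a)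

namespace GD

variable {p : ℕ} [hp : Fact p.Prime] {P : Type u} {S : Type v} {S' : Type w}
  [CommRing P] [CommRing S] [CommRing S'] (D : GD p P S S')

/-- the degree `e` part of `S`. -/
abbrev K (e : S') : AddSubgroup S := Gr D.ι D.ρ e

/-- the degree `e` part of `W(S)`. -/
abbrev KW (e : S') : AddSubgroup (WittVector p S) := WGr D.ι D.ρ e

lemma i_mem (a : P) : D.i a ∈ D.K (1 : S') := by
  rw [mem_Gr, one_mul]; exact D.ρi a

lemma i_mul_mem {e : S'} (a : P) {s : S} (hs : s ∈ D.K e) : D.i a * s ∈ D.K e := by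
  have := mul_mem_Gr (D.i_mem a) hs
  rwa [one_mul] at this

lemma mapi_mem (a : WittVector p P) : WittVector.map D.i a ∈ D.KW (1 : S') := by
  rw [mem_WGr, map_one, one_mul]
  ext n
  simp only [WittVector.map_coeff]
  exact D.ρi _

lemma mapi_mul_mem {e : S'} (a : WittVector p P) {s : WittVector p S} (hs : s ∈ D.KW e) :
    WittVector.map D.i a * s ∈ D.KW e := mul_mem_WGr' (D.mapi_mem a) hs

/-- the ideal `ε(K e)` of `P`. -/
def I (e : S') : Ideal P where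
  carrier := {x | ∃ s ∈ D.K e, D.ε s = x}
  zero_mem' := ⟨0, zero_mem _, map_zero _⟩
  add_mem' := by
    rintro _ _ ⟨s, hs, rfl⟩ ⟨t, ht, rfl⟩
    exact ⟨s + t, add_mem hs ht, map_add _ _ _⟩
  smul_mem' := by
    rintro a _ ⟨s, hs, rfl⟩
    exact ⟨D.i a * s, D.i_mul_mem a hs, by rw [map_mul, D.εi, smul_eq_mul]⟩

lemma mem_I {e : S'} {x : P} : x ∈ D.I e ↔ ∃ s ∈ D.K e, D.ε s = x := Iff.rfl

lemma I_pow (e : S') (n : ℕ) {x : P} (hx : x ∈ D.I e ^ n) : x ∈ D.I (e ^ n) := by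
  induction n generalizing x with
  | zero =>
    rw [pow_zero]
    exact ⟨D.i x, D.i_mem x, D.εi x⟩
  | succ n ih =>
    rw [pow_succ] at hx
    refine Submodule.mul_induction_on hx ?_ ?_
    · intro a ha b hb
      obtain ⟨s, hs, rfl⟩ := ih ha
      obtain ⟨t, ht, rfl⟩ := hb
      exact ⟨s * t, by rw [pow_succ]; exact mul_mem_Gr hs ht, map_mul _ _ _⟩
    · intro a b ha hb
      exact Ideal.add_mem _ ha hb

lemma rtn_mem_I {e : S'} {n : ℕ} {x : P} (hx : x ∈ D.I (e ^ p ^ n)) : D.hP.rtn n x ∈ D.I e := by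
  obtain ⟨s, hs, rfl⟩ := hx
  exact ⟨D.hS.rtn n s, rtn_mem_Gr D.hS D.hS' hs, D.hS.map_rtn D.hP D.ε n s⟩

lemma I_convex (e : S') : R183.Digit.Convex p (D.I e) := by
  intro n x hx
  have := D.rtn_mem_I (D.I_pow e (p ^ n) hx)
  rwa [D.hP.rtn_eq_of_pow (n := n) (y := x) rfl] at this

/-- the closed ideal `W~(I e)` of `W(P)`. -/
abbrev WtI (e : S') : Ideal (WittVector p P) := WI D.hP.p_zero (D.I e)

lemma map_mem_WtI {e : S'} {y : WittVector p S} (hy : y ∈ D.KW e) :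
    WittVector.map D.ε y ∈ D.WtI e := by
  rw [mem_WI_iff_digit D.hP (D.I_convex e)]
  intro n
  rw [WittVector.map_coeff, ← D.hS.map_rtn D.hP D.ε]
  exact ⟨_, (mem_WGr_iff_digit D.hS D.hS').1 hy n, rfl⟩

lemma exists_lift {e : S'} {x : WittVector p P} (hx : x ∈ D.WtI e) :
    ∃ y ∈ D.KW e, WittVector.map D.ε y = x := by
  rw [mem_WI_iff_digit D.hP (D.I_convex e)] at hx
  choose k hk hk2 using hx
  refine ⟨WittVector.mk p (fun n => k n ^ p ^ n), ?_, ?_⟩
  · rw [mem_WGr_iff_digit D.hS D.hS']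
    intro n
    rw [WittVector.coeff_mk, D.hS.rtn_eq_of_pow (n := n) (y := k n) rfl]
    exact hk n
  · ext n
    rw [WittVector.map_coeff, WittVector.coeff_mk, map_pow, hk2, D.hP.rtn_pow]

/-- the kernel of `K e → P` is killed by all `h^{1/p^n}`. -/
def Nul (e : S') (h : P) : Prop := ∀ s ∈ D.K e, D.ε s = 0 → ∀ n, D.i (D.hP.rtn n h) * s = 0

lemma Nul.lift {e : S'} {h : P} (hN : D.Nul e h) {y : WittVector p S} (hy : y ∈ D.KW e)
    (hy0 : WittVector.map D.ε y = 0) (n : ℕ) :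
    WittVector.map D.i (τ (D.hP.rtn n h)) * y = 0 := by
  rw [map_teichmuller]
  ext m
  rw [teich_mul_coeff D.hS.p_zero, WittVector.zero_coeff]
  apply D.hS.red_pow m (x := _)
  -- reduce to the digit
  have hd := (mem_WGr_iff_digit D.hS D.hS').1 hy m
  have h0 : D.ε (D.hS.rtn m (y.coeff m)) = 0 := by
    rw [D.hS.map_rtn D.hP D.ε]
    have : D.ε (y.coeff m) = 0 := by
      rw [← WittVector.map_coeff, hy0, WittVector.zero_coeff]
    rw [this, IsPerf.rtn_zero]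
  have h1 := hN _ hd h0 n
  have h2 : y.coeff m = D.hS.rtn m (y.coeff m) ^ p ^ m := (D.hS.rtn_pow m _).symm
  rw [h2, ← mul_pow, h1, zero_pow (pow_ne_zero _ hp.out.ne_zero),
    zero_pow (pow_ne_zero _ hp.out.ne_zero)]

variable {ξ : WittVector p P} {π : P}

/-- the ideal `J e = θ(W~(I e))` of `Om ξ`. -/
noncomputable def J (ξ : WittVector p P) (e : S') : Ideal (Om ξ) := (D.WtI e).map (θ ξ)

lemma mem_J {e : S'} {a : Om ξ} : a ∈ D.J ξ e ↔ ∃ y ∈ D.KW e, θ ξ (WittVector.map D.ε y) = a := by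
  unfold J
  rw [Ideal.mem_map_iff_of_surjective _ (θ_surjective ξ)]
  constructor
  · rintro ⟨x, hx, rfl⟩
    obtain ⟨y, hy, rfl⟩ := D.exists_lift hx
    exact ⟨y, hy, rfl⟩
  · rintro ⟨y, hy, rfl⟩
    exact ⟨_, D.map_mem_WtI hy, rfl⟩

lemma J_one : D.J ξ (1 : S') = ⊤ := by
  rw [Ideal.eq_top_iff_one, mem_J]
  exact ⟨1, one_mem_WGr, by rw [map_one, map_one]⟩

lemma sh_mul_mem_J {e f : S'} {g : S} (hg : g ∈ D.K f) {a : Om ξ} (ha : a ∈ D.J ξ e) :
    sh ξ (D.ε g) * a ∈ D.J ξ (f * e) := by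
  obtain ⟨y, hy, rfl⟩ := D.mem_J.1 ha
  refine D.mem_J.2 ⟨τ g * y, mul_mem_WGr (teich_mem_WGr hg) hy, ?_⟩
  rw [map_mul, map_mul, map_teichmuller]
  rfl

lemma mul_mem_J {e f : S'} {a b : Om ξ} (ha : a ∈ D.J ξ f) (hb : b ∈ D.J ξ e) :
    a * b ∈ D.J ξ (f * e) := by
  obtain ⟨y, hy, rfl⟩ := D.mem_J.1 ha
  obtain ⟨z, hz, rfl⟩ := D.mem_J.1 hb
  exact D.mem_J.2 ⟨y * z, mul_mem_WGr hy hz, by rw [map_mul, map_mul]⟩

/-- **the kernel of `K~ / ξ → Om ξ` is `h^{1/p^∞}`-null.** -/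
theorem ker_null (hξ : IsDist ξ π) {e : S'} {h : P} (hN : D.Nul e h) {m : ℕ}
    (hm : h ^ m ∈ D.I e) {y : WittVector p S} (hy : y ∈ D.KW e)
    (hy0 : θ ξ (WittVector.map D.ε y) = 0) (n : ℕ) :
    ∃ y' ∈ D.KW e, WittVector.map D.i (τ (D.hP.rtn n h)) * y = WittVector.map D.i ξ * y' := by
  obtain ⟨z, hz⟩ := θ_eq_zero_iff.1 hy0
  -- `[h^{1/p^{n+1}}] z ∈ W~(I)`
  have h1 : τ (D.hP.rtn (n + 1) h) * z ∈ D.WtI e := by
    have hz' : ξ * z ∈ D.WtI e := by rw [← hz]; exact D.map_mem_WtI hy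
    have h2 := xi_torsion_WI D.hP (D.I_convex e) hξ hz' hm (n + 1 + m)
    rw [D.hP.rtn_pow_comm] at h2
    have h3 : D.hP.rtn (n + 1) h =
        D.hP.rtn (n + 1 + m) h ^ (p ^ m - m) * D.hP.rtn (n + 1 + m) h ^ m := by
      rw [← pow_add, Nat.sub_add_cancel (Nat.lt_pow_self hp.out.one_lt).le,
        D.hP.rtn_add_pow]
    rw [h3, map_mul, mul_assoc]
    exact Ideal.mul_mem_left _ _ h2
  obtain ⟨y', hy', hy2⟩ := D.exists_lift h1
  set t := WittVector.map D.i (WittVector.teichmuller p (D.hP.rtn (n + 1) h)) with ht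
  have e1 : ∀ a, WittVector.map D.ε (WittVector.map D.i a) = (a : WittVector p P) := by
    intro a; ext k; simp only [WittVector.map_coeff]; exact D.εi _
  have h4 : t * (t * y - WittVector.map D.i ξ * y') = 0 := by
    refine hN.lift D (sub_mem (D.mapi_mul_mem _ hy) (D.mapi_mul_mem _ hy')) ?_ (n + 1)
    rw [map_sub, map_mul, map_mul, e1, e1, hz, hy2]; ring
  have h5 : D.hP.rtn n h = D.hP.rtn (n + 1) h ^ (p - 2) * (D.hP.rtn (n + 1) h *
      D.hP.rtn (n + 1) h) := by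
    rw [← pow_two, ← pow_add, Nat.sub_add_cancel hp.out.two_le, D.hP.rtn_succ_pow]
  refine ⟨WittVector.map D.i (τ (D.hP.rtn (n + 1) h)) ^ (p - 2) * (t * y'), ?_, ?_⟩
  · rw [← map_pow]
    exact D.mapi_mul_mem _ (D.mapi_mul_mem _ hy')
  · rw [h5, map_mul, map_mul, map_mul, map_mul, map_pow, map_pow]
    linear_combination (WittVector.map D.i (τ (D.hP.rtn (n + 1) h)) ^ (p - 2)) * h4

end GD

end Crest.Agent.R188.Cmp
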