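import Crest.Agent.R188.FlgEuler

/-! # R188, block (G): the homological Koszul complex on `Finset (Fin s) → M`

`kD g f B = ∑_{i ∉ B} (-1)^{#{j ∈ B, j < i}} g i • f (insert i B)`.
`KosNull 𝔞 g I`: the graded complex `C q = {f | f B ∈ I q, f B = 0 unless #B = q}` has
almost zero homology in every degree.
-/

set_option autoImplicit false

namespace Crest.Agent.R188.Flg

open Finset

universe u v

section basic

variable {R : Type*} [CommRing R] {M : Type*} [AddCommGroup M] [Module R M] {s : ℕ}

/-- the Koszul sign `(-1)^{#{j ∈ B, j < i}}` -/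
def sg (R : Type*) [CommRing R] (i : Fin s) (B : Finset (Fin s)) : R :=
  (-1) ^ (B.filter (· < i)).card

lemma sg_empty (i : Fin s) : sg R i (∅ : Finset (Fin s)) = 1 := by simp [sg]

lemma sg_insert_of_lt {i j : Fin s} {B : Finset (Fin s)} (hj : j ∉ B) (h : j < i) :
    sg R i (insert j B) = - sg R i B := by
  unfold sg
  rw [Finset.filter_insert, if_pos h, Finset.card_insert_of_notMem (by simp [hj]), pow_succ]
  ring

lemma sg_insert_of_not_lt {i j : Fin s} {B : Finset (Fin s)} (h : ¬ j < i) :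
    sg R i (insert j B) = sg R i B := by
  unfold sg
  rw [Finset.filter_insert, if_neg h]

lemma sg_comm {i j : Fin s} {B : Finset (Fin s)} (hi : i ∉ B) (hj : j ∉ B) (hij : i ≠ j) :
    sg R i B * sg R j (insert i B) = - (sg R j B * sg R i (insert j B)) := by
  rcases lt_or_gt_of_ne hij with h | h
  · rw [sg_insert_of_lt hi h, sg_insert_of_not_lt (not_lt.2 h.le)]
    ring
  · rw [sg_insert_of_lt hj h, sg_insert_of_not_lt (not_lt.2 h.le)]
    ring

/-- the Koszul differential -/
def kD (g : Fin s → R) : (Finset (Fin s) → M) →ₗ[R] (Finset (Fin s) → M) where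
  toFun f B := ∑ i ∈ Bᶜ, (sg R i B * g i) • f (insert i B)
  map_add' f f' := by
    ext B
    simp [smul_add, Finset.sum_add_distrib]
  map_smul' a f := by
    ext B
    simp only [Pi.smul_apply, RingHom.id_apply, Finset.smul_sum]
    refine Finset.sum_congr rfl fun i _ => ?_
    rw [smul_comm]

lemma kD_apply (g : Fin s → R) (f : Finset (Fin s) → M) (B : Finset (Fin s)) :
    kD g f B = ∑ i ∈ Bᶜ, (sg R i B * g i) • f (insert i B) := rfl

theorem kD_kD (g : Fin s → R) (f : Finset (Fin s) → M) : kD g (kD g f) = 0 := by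
  ext B
  rw [kD_apply]
  have h1 : ∀ i ∈ Bᶜ, (sg R i B * g i) • kD g f (insert i B) =
      ∑ j : Fin s, if j ∉ B ∧ j ≠ i then
        ((sg R i B * sg R j (insert i B)) * (g i * g j)) • f (insert j (insert i B)) else 0 := by
    intro i hi
    rw [kD_apply, Finset.smul_sum, ← Finset.sum_filter]
    refine Finset.sum_congr ?_ fun j _ => ?_
    · ext j
      simp only [mem_compl, mem_insert, not_or, mem_filter, mem_univ, true_and]
      tauto
    · rw [smul_smul]
      congr 1
      ring
  rw [Finset.sum_congr rfl h1]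
  have h2 : (∑ i ∈ Bᶜ, ∑ j : Fin s, if j ∉ B ∧ j ≠ i then
        ((sg R i B * sg R j (insert i B)) * (g i * g j)) • f (insert j (insert i B)) else 0) =
      ∑ x : Fin s × Fin s, if x.1 ∉ B ∧ x.2 ∉ B ∧ x.2 ≠ x.1 then
        ((sg R x.1 B * sg R x.2 (insert x.1 B)) * (g x.1 * g x.2)) •
          f (insert x.2 (insert x.1 B)) else 0 := by
    rw [Fintype.sum_prod_type]
    have : Bᶜ = (Finset.univ : Finset (Fin s)).filter (fun i => i ∉ B) := by
      ext i; simp
    rw [this, Finset.sum_filter]
    refine Finset.sum_congr rfl fun i _ => ?_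
    by_cases hi : i ∈ B
    · simp [hi]
    · simp [hi]
  rw [h2]
  refine Finset.sum_involution (fun x _ => (x.2, x.1)) ?_ ?_ ?_ ?_
  · rintro ⟨i, j⟩ _
    simp only
    by_cases h : i ∉ B ∧ j ∉ B ∧ j ≠ i
    · rw [if_pos h, if_pos ⟨h.2.1, h.1, fun e => h.2.2 e.symm⟩]
      rw [sg_comm h.1 h.2.1 (fun e => h.2.2 e.symm), Finset.insert_comm j i, mul_comm (g j) (g i),
        ← add_smul]
      rw [neg_mul, neg_add_cancel, zero_smul]
    · rw [if_neg h, if_neg (fun h' => h ⟨h'.2.1, h'.1, fun e => h'.2.2 e.symm⟩), add_zero]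
  · rintro ⟨i, j⟩ _ hne
    simp only [ne_eq, Prod.mk.injEq, not_and] at *
    intro e1 _
    apply hne
    rw [if_neg]
    rintro ⟨_, _, h3⟩
    exact h3 e1
  · intro x _; exact Finset.mem_univ _
  · rintro ⟨i, j⟩ _; rfl

/-- the graded pieces -/
def kK (I : ℕ → Submodule R M) (s q : ℕ) : Submodule R (Finset (Fin s) → M) where
  carrier := {f | (∀ B, f B ∈ I q) ∧ ∀ B, B.card ≠ q → f B = 0}
  add_mem' := by
    rintro f f' ⟨h1, h2⟩ ⟨h3, h4⟩
    refine ⟨fun B => add_mem (h1 B) (h3 B), fun B hB => ?_⟩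
    rw [Pi.add_apply, h2 B hB, h4 B hB, add_zero]
  zero_mem' := ⟨fun B => zero_mem _, fun B _ => rfl⟩
  smul_mem' := by
    rintro a f ⟨h1, h2⟩
    refine ⟨fun B => Submodule.smul_mem _ _ (h1 B), fun B hB => ?_⟩
    rw [Pi.smul_apply, h2 B hB, smul_zero]

lemma mem_kK {I : ℕ → Submodule R M} {q : ℕ} {f : Finset (Fin s) → M} :
    f ∈ kK I s q ↔ (∀ B, f B ∈ I q) ∧ ∀ B, B.card ≠ q → f B = 0 := Iff.rfl

lemma kD_mem {I : ℕ → Submodule R M} {g : Fin s → R}
    (hg : ∀ i q, ∀ x ∈ I (q + 1), g i • x ∈ I q) {q : ℕ} {f : Finset (Fin s) → M}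
    (hf : f ∈ kK I s (q + 1)) : kD g f ∈ kK I s q := by
  refine ⟨fun B => ?_, fun B hB => ?_⟩
  · rw [kD_apply]
    refine Submodule.sum_mem _ fun i _ => ?_
    rw [mul_smul]
    exact Submodule.smul_mem _ _ (hg i q _ (hf.1 _))
  · rw [kD_apply]
    refine Finset.sum_eq_zero fun i hi => ?_
    rw [Finset.mem_compl] at hi
    rw [hf.2 _ (by rw [Finset.card_insert_of_notMem hi]; omega), smul_zero]

/-- almost exactness of the Koszul complex -/
def KosNull (𝔞 : Ideal R) (g : Fin s → R) (I : ℕ → Submodule R M) : Prop :=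
  ∀ q, ∀ f ∈ kK I s q, kD g f = 0 → ∀ h ∈ 𝔞, ∃ f' ∈ kK I s (q + 1), kD g f' = h • f

lemma kK_top (I : ℕ → Submodule R M) : kK I s (s + 1) = ⊥ := by
  rw [eq_bot_iff]
  rintro f ⟨_, h2⟩
  rw [Submodule.mem_bot]
  ext B
  refine h2 B ?_
  have := Finset.card_le_univ B
  rw [Fintype.card_fin] at this
  omega

/-- the graded piece as a finite power -/
noncomputable def kKequiv (I : ℕ → Submodule R M) (s q : ℕ) :
    kK I s q ≃ₗ[R] ({B : Finset (Fin s) // B.card = q} → ↥(I q)) where
  toFun f B := ⟨f.1 B.1, f.2.1 _⟩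
  invFun f := ⟨fun B => if h : B.card = q then (f ⟨B, h⟩ : M) else 0, by
    refine ⟨fun B => ?_, fun B hB => ?_⟩
    · by_cases h : B.card = q
      · simp only [dif_pos h]; exact (f ⟨B, h⟩).2
      · simp only [dif_neg h]; exact zero_mem _
    · simp only [dif_neg hB]⟩
  map_add' f f' := rfl
  map_smul' a f := rfl
  left_inv f := by
    apply Subtype.ext
    ext B
    by_cases h : B.card = q
    · simp [h]
    · simp only [dif_neg h]; exact (f.2.2 B h).symm
  right_inv f := by
    ext ⟨B, hB⟩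
    simp [hB]

noncomputable def kKequiv' (I : ℕ → Submodule R M) (s q : ℕ) :
    kK I s q ≃ₗ[R] (Fin (s.choose q) → ↥(I q)) :=
  (kKequiv I s q).trans (LinearEquiv.funCongrLeft R _ (Fintype.equivFinOfCardEq (by
    rw [Fintype.card_finset_len, Fintype.card_fin])).symm)

/-- the syzygies of the generators (the spot `q = 1`): antisymmetric coefficients -/
theorem KosNull.syz {𝔞 : Ideal R} {g : Fin s → R} {I : ℕ → Submodule R M} (hK : KosNull 𝔞 g I)
    (a : Fin s → M) (ha : ∀ i, a i ∈ I 1) (h0 : ∑ i, g i • a i = 0) (h : R) (hh : h ∈ 𝔞) :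
    ∃ b : Fin s → Fin s → M, (∀ i j, b i j ∈ I 2) ∧ (∀ i, b i i = 0) ∧
      (∀ i j, b i j = - b j i) ∧ ∀ j, h • a j = ∑ i, g i • b i j := by
  classical
  set f : Finset (Fin s) → M := fun B => if hB : B.card = 1 then
    a ((Finset.card_eq_one.1 hB).choose) else 0 with hf
  have hf1 : ∀ i, f {i} = a i := by
    intro i
    have hc : ({i} : Finset (Fin s)).card = 1 := Finset.card_singleton i
    have := (Finset.card_eq_one.1 hc).choose_spec
    rw [Finset.singleton_inj] at this
    simp only [hf, dif_pos hc]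
    rw [← this]
  have hf2 : ∀ B, B.card ≠ 1 → f B = 0 := by
    intro B hB
    simp only [hf, dif_neg hB]
  have hfK : f ∈ kK I s 1 := by
    refine ⟨fun B => ?_, hf2⟩
    by_cases hB : B.card = 1
    · obtain ⟨i, rfl⟩ := Finset.card_eq_one.1 hB
      rw [hf1]; exact ha i
    · rw [hf2 B hB]; exact zero_mem _
  have hfD : kD g f = 0 := by
    ext B
    rw [kD_apply]
    by_cases hB : B = ∅
    · subst hB
      simp only [Finset.compl_empty, sg_empty, one_mul, Pi.zero_apply]
      rw [← h0]
      refine Finset.sum_congr rfl fun i _ => ?_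
      rw [← hf1 i]
      rfl
    · refine Finset.sum_eq_zero fun i hi => ?_
      rw [Finset.mem_compl] at hi
      rw [hf2, smul_zero]
      rw [Finset.card_insert_of_notMem hi]
      have := Finset.card_pos.2 (Finset.nonempty_iff_ne_empty.2 hB)
      omega
  obtain ⟨f', hf', hD⟩ := hK 1 f hfK hfD h hh
  refine ⟨fun i j => if i = j then 0 else sg R i {j} • f' (insert i {j}), ?_, ?_, ?_, ?_⟩
  · intro i j
    by_cases hij : i = j
    · simp [hij]
    · simp only [if_neg hij]
      exact Submodule.smul_mem _ _ (hf'.1 _)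
  · intro i; simp
  · intro i j
    by_cases hij : i = j
    · subst hij; simp
    · have hji : ¬ j = i := fun e => hij e.symm
      simp only [if_neg hij, if_neg hji]
      have h1 := sg_comm (R := R) (B := ∅) (i := i) (j := j) (by simp) (by simp) hij
      simp only [sg_empty, one_mul, insert_empty_eq] at h1
      rw [h1, neg_smul, neg_neg]
      congr 2
      ext x; simp [or_comm]
  · intro j
    have h1 := congrFun hD {j}
    rw [kD_apply, Pi.smul_apply, hf1] at h1
    rw [← h1]
    have h2 : (∑ i, g i • (if i = j then (0 : M) else sg R i {j} • f' (insert i {j}))) =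
        ∑ i ∈ ({j} : Finset (Fin s))ᶜ, g i • (if i = j then (0 : M) else sg R i {j} • f' (insert i {j})) := by
      symm
      refine Finset.sum_subset (Finset.subset_univ _) fun i _ hi => ?_
      simp only [mem_compl, mem_singleton, not_not] at hi
      simp [hi]
    rw [h2]
    refine Finset.sum_congr rfl fun i hi => ?_
    simp only [mem_compl, mem_singleton] at hi
    rw [if_neg hi, smul_smul, mul_comm]

end basic

/-- sums over an antisymmetric family: only the combinations `g i u j - g j u i` matter. -/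
theorem antisymm_sum_mem {R M : Type*} [CommRing R] [AddCommGroup M] [Module R M] {s : ℕ}
    (g : Fin s → R) (b : Fin s → Fin s → R) (hb0 : ∀ i, b i i = 0) (hb : ∀ i j, b i j = - b j i)
    (w : Fin s → M) (S : Submodule R M)
    (hS : ∀ i j, b i j • (g i • w j - g j • w i) ∈ S) :
    ∑ j, (∑ i, g i • b i j) • w j ∈ S := by
  have h1 : ∑ j, (∑ i, g i • b i j) • w j = ∑ x : Fin s × Fin s, (g x.1 * b x.1 x.2) • w x.2 := by
    rw [Fintype.sum_prod_type_right]
    refine Finset.sum_congr rfl fun j _ => ?_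
    rw [Finset.sum_smul]
    rfl
  rw [h1]
  have h2 : (Finset.univ : Finset (Fin s × Fin s)) =
      (univ.filter fun x => x.1 < x.2) ∪ ((univ.filter fun x => x.2 < x.1) ∪
        (univ.filter fun x => x.1 = x.2)) := by
    ext x
    simp only [mem_univ, mem_union, mem_filter, true_and, true_iff]
    rcases lt_trichotomy x.1 x.2 with h | h | h
    · left; exact h
    · right; right; exact h
    · right; left; exact h
  rw [h2, Finset.sum_union, Finset.sum_union]
  · have h3 : ∑ x ∈ univ.filter (fun x : Fin s × Fin s => x.1 = x.2), (g x.1 * b x.1 x.2) • w x.2 = 0 := by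
      refine Finset.sum_eq_zero fun x hx => ?_
      rw [Finset.mem_filter] at hx
      rw [hx.2, hb0, mul_zero, zero_smul]
    have h4 : ∑ x ∈ univ.filter (fun x : Fin s × Fin s => x.2 < x.1), (g x.1 * b x.1 x.2) • w x.2 =
        ∑ x ∈ univ.filter (fun x : Fin s × Fin s => x.1 < x.2), (g x.2 * b x.2 x.1) • w x.1 := by
      refine Finset.sum_nbij' (fun x => (x.2, x.1)) (fun x => (x.2, x.1)) ?_ ?_ ?_ ?_ ?_ <;>
        simp
    rw [h3, h4, add_zero, ← Finset.sum_add_distrib]
    refine Submodule.sum_mem _ fun x _ => ?_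
    have := hS x.1 x.2
    rw [hb x.2 x.1]
    convert this using 1
    rw [smul_sub, smul_smul, smul_smul, sub_eq_add_neg, ← neg_smul]
    congr 2 <;> ring
  · rw [Finset.disjoint_filter]
    intro x _ h1 h2
    rw [h2] at h1
    exact lt_irrefl _ h1
  · rw [Finset.disjoint_union_right]
    constructor
    · rw [Finset.disjoint_filter]
      intro x _ h1 h2
      exact lt_asymm h1 h2
    · rw [Finset.disjoint_filter]
      intro x _ h1 h2
      rw [h2] at h1
      exact lt_irrefl _ h1

section recursion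

variable {Ω A : Type u} [CommRing Ω] [CommRing A] [Algebra Ω A] {𝔞 : Ideal Ω}

/-- **Koszul recursion**: almost exactness of the Koszul complex gives the alternating identity. -/
theorem koszul_recursion (E : EulerFun Ω A 𝔞) {M : Type u} [AddCommGroup M] [Module A M] {s : ℕ}
    (g : Fin s → A) (I : ℕ → Submodule A M) (hg : ∀ i q, ∀ x ∈ I (q + 1), g i • x ∈ I q)
    (hK : ∀ q, ∀ f ∈ kK I s q, kD g f = 0 → ∀ h ∈ 𝔞, ∃ f' ∈ kK I s (q + 1),
      kD g f' = algebraMap Ω A h • f)
    (hfn : ∀ q, E.Fn (I q)) :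
    ∑ q ∈ range (s + 1), (-1 : ℝ) ^ q * (s.choose q * E.val (I q)) = 0 := by
  have hpi := fun q => E.fn_val_pi (hfn q) (s.choose q)
  have hC : ∀ q, E.Fn (kK I s q) := fun q => E.fn_congr (kKequiv' I s q).symm (hpi q).1
  have hV : ∀ q, E.val (kK I s q) = s.choose q * E.val (I q) := fun q => by
    rw [E.val_congr (kKequiv' I s q) (hC q), (hpi q).2]
  have h := E.sum_eq_zero (C := fun q => ↥(kK I s q))
    (fun q => (kD g).restrict (p := kK I s (q + 1)) (q := kK I s q) (fun f hf => kD_mem hg hf))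
    ?_ ?_ ?_ hC s ?_
  · rw [← h]
    refine Finset.sum_congr rfl fun q _ => ?_
    rw [hV]
  · intro i x
    apply Subtype.ext
    exact kD_kD g x.1
  · intro a ha x
    have h0 : kD g x.1 = 0 := by
      ext B
      rw [kD_apply]
      refine Finset.sum_eq_zero fun i hi => ?_
      rw [Finset.mem_compl] at hi
      rw [x.2.2 _ (by rw [Finset.card_insert_of_notMem hi]; omega), smul_zero]
    obtain ⟨f', hf', hD⟩ := hK 0 x.1 x.2 h0 a ha
    exact ⟨⟨f', hf'⟩, Subtype.ext hD⟩
  · intro i a ha x hx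
    obtain ⟨f', hf', hD⟩ := hK (i + 1) x.1 x.2 (congrArg Subtype.val hx) a ha
    exact ⟨⟨f', hf'⟩, Subtype.ext hD⟩
  · constructor
    rintro ⟨f, hf⟩ ⟨f', hf'⟩
    have h1 : f = 0 := by
      have := hf
      simp only [kK_top, Submodule.mem_bot] at this
      exact this
    have h2 : f' = 0 := by
      have := hf'
      simp only [kK_top, Submodule.mem_bot] at this
      exact this
    exact Subtype.ext (h1.trans h2.symm)

end recursion

end Crest.Agent.R188.Flg
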