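/-
R188, block CMP (helper46): exact Koszul complexes on the graded pieces of `S` give almost exact
Koszul complexes (`Flg.KosNull`) on the ideals `J(e q)` of `Om ξ`.
-/
import Crest.Agent.R188.Cmp1
import Crest.Agent.R188.FlgKos

set_option autoImplicit false
set_option linter.unusedSectionVars false
set_option linter.unusedVariables false
set_option linter.style.haveILetI false

namespace Crest.Agent.R188.Cmp

open WittVector Function Crest.Agent.R188.Prf Crest.Agent.R188.Wit Crest.Agent.R188.Flg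

universe u v w

/-- the Koszul differential commutes with ring homs. -/
lemma kD_map {R : Type u} [CommRing R] {R' : Type v} [CommRing R'] (φ : R →+* R') {s : ℕ}
    (g : Fin s → R) (f : Finset (Fin s) → R) (B : Finset (Fin s)) :
    φ (kD g f B) = kD (fun i => φ (g i)) (fun B => φ (f B)) B := by
  rw [kD_apply, kD_apply, map_sum]
  refine Finset.sum_congr rfl fun i _ => ?_
  simp only [sg, smul_eq_mul, map_mul, map_pow, map_neg, map_one]

lemma kD_comp_map {R : Type u} [CommRing R] {R' : Type v} [CommRing R'] (φ : R →+* R') {s : ℕ}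
    (g : Fin s → R) (f : Finset (Fin s) → R) :
    (fun B => φ (kD g f B)) = kD (fun i => φ (g i)) (fun B => φ (f B)) := by
  funext B; exact kD_map φ g f B

lemma kD_mul {R : Type u} [CommRing R] {s : ℕ} (g : Fin s → R) (a : R)
    (f : Finset (Fin s) → R) : kD g (fun B => a * f B) = fun B => a * kD g f B := by
  have : (fun B => a * f B) = a • f := rfl
  rw [this, map_smul]; rfl

lemma kD_sub' {R : Type u} [CommRing R] {s : ℕ} (g : Fin s → R)
    (f f' : Finset (Fin s) → R) : kD g (fun B => f B - f' B) = fun B => kD g f B - kD g f' B := by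
  have : (fun B => f B - f' B) = f - f' := rfl
  rw [this, map_sub]; rfl

section Supp

variable {R : Type u} [CommRing R] {s : ℕ}

/-- functions supported in cardinality `q` with values in `K`. -/
def SuppIn (K : AddSubgroup R) (q : ℕ) (f : Finset (Fin s) → R) : Prop :=
  (∀ B, f B ∈ K) ∧ ∀ B, B.card ≠ q → f B = 0

lemma kD_suppIn {K K' : AddSubgroup R} {g : Fin s → R} (hg : ∀ i, ∀ x ∈ K', g i * x ∈ K)
    {q : ℕ} {f : Finset (Fin s) → R} (hf : SuppIn K' (q + 1) f) : SuppIn K q (kD g f) := by
  refine ⟨fun B => ?_, fun B hB => ?_⟩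
  · rw [kD_apply]
    refine sum_mem fun i _ => ?_
    have h1 := hg i _ (hf.1 (insert i B))
    unfold sg
    rcases neg_one_pow_eq_or R (B.filter (· < i)).card with h | h
    · rw [h, one_mul]; exact h1
    · rw [h, neg_one_mul, neg_smul]; exact neg_mem h1
  · rw [kD_apply]
    refine Finset.sum_eq_zero fun i hi => ?_
    rw [Finset.mem_compl] at hi
    rw [hf.2 _ (by rw [Finset.card_insert_of_notMem hi]; omega), smul_zero]

lemma SuppIn.eq_zero {K : AddSubgroup R} {q : ℕ} {f : Finset (Fin s) → R} (hf : SuppIn K q f)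
    (hq : s < q) : f = 0 := by
  funext B
  apply hf.2
  have := Finset.card_le_univ B
  rw [Fintype.card_fin] at this
  omega

lemma SuppIn.zero (K : AddSubgroup R) (q : ℕ) : SuppIn K q (0 : Finset (Fin s) → R) :=
  ⟨fun _ => zero_mem _, fun _ _ => rfl⟩

lemma kD_suppIn' {K : ℕ → AddSubgroup R} {g : Fin s → R}
    (hg : ∀ q < s, ∀ i, ∀ x ∈ K (q + 1), g i * x ∈ K q)
    (q : ℕ) {f : Finset (Fin s) → R} (hf : SuppIn (K (q + 1)) (q + 1) f) :
    SuppIn (K q) q (kD g f) := by
  by_cases hq : q < s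
  · exact kD_suppIn (hg q hq) hf
  · rw [hf.eq_zero (by omega), map_zero]
    exact SuppIn.zero _ _

end Supp

namespace GD

variable {p : ℕ} [hp : Fact p.Prime] {P : Type u} {S : Type v} {S' : Type w}
  [CommRing P] [CommRing S] [CommRing S'] (D : GD p P S S') {s : ℕ}

/-- exactness of the Koszul complex `… → K(e (q+1))^{..} → K(e q)^{..} → …` of `S` at all
spots. -/
def KosEx (g : Fin s → S) (e : ℕ → S') : Prop :=
  ∀ q, ∀ f : Finset (Fin s) → S, SuppIn (D.K (e q)) q f → kD g f = 0 →
    ∃ f', SuppIn (D.K (e (q + 1))) (q + 1) f' ∧ kD g f' = f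

/-- the same for `W(S)`. -/
def KosExW (g : Fin s → S) (e : ℕ → S') : Prop :=
  ∀ q, ∀ f : Finset (Fin s) → WittVector p S, SuppIn (D.KW (e q)) q f →
    kD (fun i => WittVector.teichmuller p (g i)) f = 0 →
    ∃ f', SuppIn (D.KW (e (q + 1))) (q + 1) f' ∧
      kD (fun i => WittVector.teichmuller p (g i)) f' = f

/-- the module of `SuppIn` functions. -/
def CW (s : ℕ) (e : S') (q : ℕ) : Submodule ℤ (Finset (Fin s) → WittVector p S) where
  carrier := {f | SuppIn (D.KW e) q f}
  zero_mem' := ⟨fun _ => zero_mem _, fun _ _ => rfl⟩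
  add_mem' := by
    rintro f f' ⟨h1, h2⟩ ⟨h3, h4⟩
    exact ⟨fun B => add_mem (h1 B) (h3 B), fun B hB => by
      rw [Pi.add_apply, h2 B hB, h4 B hB, add_zero]⟩
  smul_mem' := by
    rintro n f ⟨h1, h2⟩
    exact ⟨fun B => zsmul_mem (h1 B) n, fun B hB => by rw [Pi.smul_apply, h2 B hB, smul_zero]⟩

lemma zsmul_p (k : ℕ) {X : Type v} [CommRing X] (x : X) : ((p : ℤ) ^ k) • x = (p : X) ^ k * x := by
  rw [zsmul_eq_mul]; push_cast; ring

lemma cpl_WS (hS : IsPerf p S) : Cpl (p : ℤ) (Finset (Fin s) → WittVector p S) := by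
  apply Cpl.pi
  haveI := isAdicComplete hS
  intro m
  obtain ⟨t, ht⟩ := (cpl_of_isPrecomplete (a := (p : WittVector p S)) (M := WittVector p S)) m
  refine ⟨t, fun k => ?_⟩
  obtain ⟨m', hm'⟩ := ht k
  refine ⟨m', ?_⟩
  rw [hm', zsmul_p]
  congr 1
  exact Finset.sum_congr rfl fun i _ => by rw [zsmul_p, smul_eq_mul]

lemma sep_WS (hS : IsPerf p S) : Sep (p : ℤ) (Finset (Fin s) → WittVector p S) := by
  apply Sep.pi
  intro x hx
  apply eq_zero_of_forall_dvd hS
  intro n
  obtain ⟨y, hy⟩ := hx n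
  rw [zsmul_p] at hy
  exact ⟨y, hy⟩

lemma tf_WS (hS : IsPerf p S) : Tf (p : ℤ) (Finset (Fin s) → WittVector p S) := by
  apply Tf.pi
  intro x hx
  apply p_regular hS
  have := zsmul_p (p := p) 1 x
  rw [pow_one, pow_one] at this
  rw [← this]; exact hx

lemma cpl_CW (e : S') (q : ℕ) : Cpl (p : ℤ) (D.CW s e q) := by
  apply Cpl.submodule (cpl_WS D.hS)
  · intro x hx
    have hz : ∀ B, ∀ k, ∃ y ∈ D.KW e, (p : WittVector p S) ^ k ∣ x B - y := by
      intro B k
      obtain ⟨y, hy, z, hz⟩ := hx k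
      refine ⟨y B, hy.1 B, z B, ?_⟩
      rw [hz, Pi.add_apply, Pi.smul_apply, zsmul_p]; ring
    refine ⟨fun B => mem_of_forall_sub D.hS D.hS' (hz B), fun B hB => ?_⟩
    apply eq_zero_of_forall_dvd D.hS
    intro k
    obtain ⟨y, hy, z, hz⟩ := hx k
    refine ⟨z B, ?_⟩
    rw [hz, Pi.add_apply, Pi.smul_apply, zsmul_p, hy.2 B hB, zero_add]
  · intro k z hz
    refine ⟨z, ⟨fun B => ?_, fun B hB => ?_⟩, rfl⟩
    · have := hz.1 B
      rw [Pi.smul_apply, zsmul_p] at this
      exact of_p_pow_mul_mem D.hS D.hS' this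
    · have := hz.2 B hB
      rw [Pi.smul_apply, zsmul_p] at this
      exact eq_of_p_pow_mul D.hS (by rw [this, mul_zero])

/-- **Witt lift of an exact Koszul complex.** -/
theorem KosEx.lift {g : Fin s → S} {e : ℕ → S'} {v : S'} (hg : ∀ i, g i ∈ D.K v)
    (hv : ∀ q < s, v * e (q + 1) = e q) (h : D.KosEx g e) : D.KosExW g e := by
  classical
  intro q f hf hf0
  let G : Fin s → WittVector p S := fun i => WittVector.teichmuller p (g i)
  have hG : ∀ q < s, ∀ i, ∀ x ∈ D.KW (e (q + 1)), G i * x ∈ D.KW (e q) := by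
    intro q hq i x hx
    have := mul_mem_WGr (teich_mem_WGr (p := p) (hg i)) hx
    rwa [hv q hq] at this
  let F : D.CW s (e (q + 1)) (q + 1) →ₗ[ℤ] D.CW s (e q) q :=
    { toFun := fun f => ⟨kD G f.1, kD_suppIn' (K := fun q => D.KW (e q)) hG q f.2⟩
      map_add' := fun a b => Subtype.ext (map_add (kD G) a.1 b.1)
      map_smul' := fun n a => Subtype.ext (by
        show kD G (n • a.1) = n • kD G a.1
        exact map_zsmul (kD G) n a.1) }
  let H : D.CW s (e q) q →ₗ[ℤ] (Finset (Fin s) → WittVector p S) :=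
    { toFun := fun f => kD G f.1
      map_add' := fun a b => map_add (kD G) a.1 b.1
      map_smul' := fun n a => map_zsmul (kD G) n a.1 }
  have hFH : ∀ m, H (F m) = 0 := fun m => kD_kD G m.1
  have hex : Exact F H := by
    refine exact_of_exMod (a := (p : ℤ)) hFH (cpl_CW D _ _)
      (Sep.sub (f := (D.CW s (e q) q).subtype) (Submodule.injective_subtype _) (sep_WS D.hS))
      (tf_WS D.hS) ?_
    rintro ⟨f, hf⟩ ⟨y, hy⟩
    have hy' : ∀ B, kD G f B = (p : WittVector p S) * y B := by
      intro B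
      have := congrFun hy B
      have h2 := zsmul_p (p := p) 1 (y B)
      rw [pow_one, pow_one] at h2
      rw [← h2]; exact this
    -- coefficient zero
    have hc : kD g (fun B => (f B).coeff 0) = 0 := by
      have h1 := kD_comp_map (WittVector.constantCoeff (p := p) (R := S)) G f
      have h2 : (fun i => WittVector.constantCoeff (p := p) (G i)) = g := by
        funext i; simp [G, WittVector.constantCoeff]
      rw [h2] at h1
      have h3 : (fun B => WittVector.constantCoeff (p := p) (kD G f B)) =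
          (0 : Finset (Fin s) → S) := by
        funext B
        rw [hy', map_mul, map_natCast, D.hS.p_zero, zero_mul]; rfl
      rw [h3] at h1
      exact h1.symm
    obtain ⟨m0, hm0, hm1⟩ := h q (fun B => (f B).coeff 0)
      ⟨fun B => coeff_zero_mem D.hS D.hS' (hf.1 B), fun B hB => by
        show (f B).coeff 0 = 0
        rw [hf.2 B hB, WittVector.zero_coeff]⟩ hc
    let m : Finset (Fin s) → WittVector p S := fun B => WittVector.teichmuller p (m0 B)
    have hm : SuppIn (D.KW (e (q + 1))) (q + 1) m :=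
      ⟨fun B => teich_mem_WGr (hm0.1 B), fun B hB => by
        show WittVector.teichmuller p (m0 B) = 0
        rw [hm0.2 B hB, WittVector.teichmuller_zero]⟩
    have hdiff : ∀ B, ∃ n, f B - kD G m B = (p : WittVector p S) * n := by
      intro B
      have : (p : WittVector p S) ∣ f B - kD G m B := by
        rw [p_dvd_iff D.hS]
        have h5 : WittVector.constantCoeff (p := p) (kD G m B) = (f B).coeff 0 := by
          rw [kD_map]
          have h2 : (fun i => WittVector.constantCoeff (p := p) (G i)) = g := by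
            funext i; simp [G, WittVector.constantCoeff]
          have h3 : (fun B => WittVector.constantCoeff (p := p) (m B)) = m0 := by
            funext i; simp [m, WittVector.constantCoeff]
          rw [h2, h3, hm1]
        have h6 : WittVector.constantCoeff (p := p) (f B - kD G m B) = 0 := by
          rw [map_sub, h5]
          exact sub_self _
        exact h6
      exact this
    choose n hn using hdiff
    have hkm := kD_suppIn' (K := fun q => D.KW (e q)) hG q hm
    have hnm : SuppIn (D.KW (e q)) q n := by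
      refine ⟨fun B => ?_, fun B hB => ?_⟩
      · apply of_p_mul_mem D.hS D.hS'
        rw [← hn]
        exact sub_mem (hf.1 B) (hkm.1 B)
      · apply p_regular D.hS
        rw [← hn, hf.2 B hB, hkm.2 B hB, sub_zero]
    refine ⟨⟨m, hm⟩, ⟨n, hnm⟩, Subtype.ext ?_⟩
    funext B
    show f B = kD G m B + (p : ℤ) • n B
    have h2 := zsmul_p (p := p) 1 (n B)
    rw [pow_one, pow_one] at h2
    rw [h2, ← hn]; ring
  obtain ⟨⟨f', hf'⟩, hF⟩ := (hex ⟨f, hf⟩).1 hf0
  exact ⟨f', hf', congrArg Subtype.val hF⟩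

variable {ξ : WittVector p P} {π : P}

/-- **(J3): the Koszul complex on the ideals `J(e q)` of `Om ξ` is almost exact.** -/
theorem kosNull (hξ : IsDist ξ π) {g : Fin s → S} {e : ℕ → S'} {v : S'} (hg : ∀ i, g i ∈ D.K v)
    (hv : ∀ q < s, v * e (q + 1) = e q) (h : D.KosExW g e) {h₀ : P}
    (hN : ∀ q ≤ s, D.Nul (e q) h₀) (hI : ∀ q ≤ s, ∃ m, h₀ ^ m ∈ D.I (e q))
    (hN' : D.Nul (v * e 0) h₀) (hI' : ∃ m, h₀ ^ m ∈ D.I (v * e 0))
    {𝔞 : Ideal (Om ξ)} (h𝔞 : 𝔞 ≤ Ideal.span (Set.range fun n => sh ξ (D.hP.rtn n h₀))) :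
    KosNull 𝔞 (fun i => sh ξ (D.ε (g i))) (fun q => (D.J ξ (e q) : Submodule (Om ξ) (Om ξ))) := by
  classical
  intro q f hf hf0 a ha
  let G : Fin s → WittVector p S := fun i => WittVector.teichmuller p (g i)
  have hG : ∀ q < s, ∀ i, ∀ x ∈ D.KW (e (q + 1)), G i * x ∈ D.KW (e q) := by
    intro q hq i x hx
    have := mul_mem_WGr (teich_mem_WGr (p := p) (hg i)) hx
    rwa [hv q hq] at this
  let Θ : WittVector p S →+* Om ξ := (θ ξ).comp (WittVector.map D.ε)
  have hΘi : ∀ x, Θ (WittVector.map D.i x) = θ ξ x := by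
    intro x
    show θ ξ (WittVector.map D.ε (WittVector.map D.i x)) = θ ξ x
    congr 1
    ext k; simp only [WittVector.map_coeff]; exact D.εi _
  have hΘG : (fun i => Θ (G i)) = fun i => sh ξ (D.ε (g i)) := by
    funext i
    show θ ξ (WittVector.map D.ε (WittVector.teichmuller p (g i))) = _
    rw [map_teichmuller]; rfl
  -- trivial degrees
  by_cases hqs : s < q
  · have hf00 : f = 0 := by
      funext B
      apply hf.2
      have := Finset.card_le_univ B
      rw [Fintype.card_fin] at this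
      omega
    exact ⟨0, zero_mem _, by rw [hf00, map_zero, smul_zero]⟩
  -- it suffices to treat the generators of the almost ideal
  have key : ∀ n, ∃ f' ∈ kK (fun q => (D.J ξ (e q) : Submodule (Om ξ) (Om ξ))) s (q + 1),
      kD (fun i => sh ξ (D.ε (g i))) f' = sh ξ (D.hP.rtn n h₀) • f := by
    intro n
    -- lift `f`
    have hl : ∀ B, ∃ y, y ∈ D.KW (e q) ∧ Θ y = f B ∧ (B.card ≠ q → y = 0) := by
      intro B
      by_cases hB : B.card = q
      · obtain ⟨y, hy, hy2⟩ := D.mem_J.1 (hf.1 B)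
        exact ⟨y, hy, hy2, fun h => absurd hB h⟩
      · exact ⟨0, zero_mem _, by rw [map_zero, hf.2 B hB], fun _ => rfl⟩
    choose F hF1 hF2 hF3 using hl
    have hFs : SuppIn (D.KW (e q)) q F := ⟨hF1, hF3⟩
    have hΘF : (fun B => Θ (F B)) = f := by funext B; exact hF2 B
    -- the differential of the lift lies in the kernel of `Θ`
    have hker : ∀ B, Θ (kD G F B) = 0 := by
      intro B
      rw [kD_map, hΘG, hΘF, hf0]; rfl
    -- degree of the differential
    obtain ⟨e', he', hNe', hIe', hsupp⟩ : ∃ e' : S', v * e q = e' ∧ D.Nul e' h₀ ∧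
        (∃ m, h₀ ^ m ∈ D.I e') ∧ ∀ B, kD G F B ∈ D.KW e' := by
      have hmem : ∀ B, kD G F B ∈ D.KW (v * e q) := by
        intro B
        rw [kD_apply]
        refine sum_mem fun i _ => ?_
        have h1 : G i * F (insert i B) ∈ D.KW (v * e q) :=
          mul_mem_WGr (teich_mem_WGr (p := p) (hg i)) (hF1 _)
        unfold sg
        rcases neg_one_pow_eq_or (WittVector p S) (B.filter (· < i)).card with h | h
        · rw [h, one_mul]; exact h1
        · rw [h, neg_one_mul, neg_smul]; exact neg_mem h1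
      cases q with
      | zero => exact ⟨_, rfl, hN', hI', hmem⟩
      | succ q =>
        refine ⟨_, rfl, ?_, ?_, hmem⟩
        · rw [hv q (by omega)]; exact hN q (by omega)
        · rw [hv q (by omega)]; exact hI q (by omega)
    obtain ⟨m, hm⟩ := hIe'
    -- kill the kernel
    set t := WittVector.map D.i (WittVector.teichmuller p (D.hP.rtn n h₀)) with ht
    have hy : ∀ B, ∃ y', y' ∈ D.KW e' ∧ t * kD G F B = WittVector.map D.i ξ * y' := by
      intro B
      obtain ⟨y', hy', hy2⟩ := D.ker_null hξ hNe' hm (hsupp B) (hker B) n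
      exact ⟨y', hy', hy2⟩
    choose Y hY1 hY2 using hy
    -- `Y` is a cycle and is supported correctly
    have hξS : IsDist (WittVector.map D.i ξ) (D.i π) := hξ.map D.i
    have hYD : kD G (fun B => t * F B) = fun B => WittVector.map D.i ξ * Y B := by
      rw [kD_mul]
      funext B
      exact hY2 B
    have hYc : kD G Y = 0 := by
      have h1 := kD_kD G (fun B => t * F B)
      rw [hYD, kD_mul] at h1
      funext B
      exact xi_regular D.hS hξS (congrFun h1 B)
    -- find a preimage of `Y`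
    have hYpre : ∃ Z, SuppIn (D.KW (e q)) q Z ∧ kD G Z = Y := by
      cases q with
      | zero =>
        -- then `kD G F = 0`
        have h0 : ∀ B, kD G F B = 0 := by
          intro B
          rw [kD_apply]
          refine Finset.sum_eq_zero fun i hi => ?_
          rw [Finset.mem_compl] at hi
          rw [hF3 _ (by rw [Finset.card_insert_of_notMem hi]; omega), smul_zero]
        have hY0 : Y = 0 := by
          funext B
          apply xi_regular D.hS hξS
          rw [← hY2, h0, mul_zero]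
        exact ⟨0, ⟨fun _ => zero_mem _, fun _ _ => rfl⟩, by rw [hY0, map_zero]⟩
      | succ q =>
        have hY0 : ∀ B, B.card ≠ q → Y B = 0 := by
          intro B hB
          apply xi_regular D.hS hξS
          rw [← hY2, (kD_suppIn' (K := fun q => D.KW (e q)) hG q hFs).2 B hB, mul_zero]
        have he'' : e' = e q := by rw [← he', hv q (by omega)]
        obtain ⟨Z, hZ, hZ2⟩ := h q Y ⟨fun B => he'' ▸ hY1 B, hY0⟩ hYc
        exact ⟨Z, hZ, hZ2⟩
    obtain ⟨Z, hZ, hZ2⟩ := hYpre
    -- `t F - ξ Z` is a cycle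
    have hc : kD G (fun B => t * F B - WittVector.map D.i ξ * Z B) = 0 := by
      rw [kD_sub', hYD, kD_mul, hZ2]
      funext B
      exact sub_self _
    have hs : SuppIn (D.KW (e q)) q (fun B => t * F B - WittVector.map D.i ξ * Z B) := by
      refine ⟨fun B => sub_mem (D.mapi_mul_mem _ (hF1 B)) (D.mapi_mul_mem _ (hZ.1 B)),
        fun B hB => ?_⟩
      simp only
      rw [hF3 B hB, hZ.2 B hB, mul_zero, mul_zero, sub_zero]
    obtain ⟨F', hF', hF'2⟩ := h q _ hs hc
    refine ⟨fun B => Θ (F' B), ⟨fun B => D.mem_J.2 ⟨F' B, hF'.1 B, rfl⟩, fun B hB => by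
      show Θ (F' B) = 0
      rw [hF'.2 B hB, map_zero]⟩, ?_⟩
    rw [← hΘG, ← kD_comp_map]
    funext B
    have := congrFun hF'2 B
    show Θ (kD G F' B) = _
    have h3 : kD G F' B = t * F B - WittVector.map D.i ξ * Z B := this
    rw [h3, map_sub, map_mul, map_mul, hF2, ht, hΘi, hΘi, θ_xi, zero_mul, sub_zero]
    rfl
  have ha' := h𝔞 ha
  refine Submodule.span_induction (p := fun a _ => ∃ f' ∈ kK (fun q => (D.J ξ (e q) :
    Submodule (Om ξ) (Om ξ))) s (q + 1), kD (fun i => sh ξ (D.ε (g i))) f' = a • f)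
    ?_ ?_ ?_ ?_ ha'
  · rintro _ ⟨n, rfl⟩
    exact key n
  · exact ⟨0, zero_mem _, by rw [map_zero, zero_smul]⟩
  · rintro a b _ _ ⟨fa, hfa, ha⟩ ⟨fb, hfb, hb⟩
    exact ⟨fa + fb, add_mem hfa hfb, by rw [map_add, ha, hb, add_smul]⟩
  · rintro c a _ ⟨fa, hfa, ha⟩
    exact ⟨c • fa, Submodule.smul_mem _ _ hfa, by rw [map_smul, ha, smul_smul, smul_eq_mul]⟩

end GD

end Crest.Agent.R188.Cmp
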