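import Mathlib
import Crest.Agent.R183.AddLen

/-!
# R188, block FINA (helper414), part 1: the abstract finiteness argument (7113 (III))
-/

set_option autoImplicit false

namespace Crest.Agent.R188.FinA

open scoped ENNReal
open Crest.Agent.R183

universe u

section facts

variable {A : Type u} [CommRing A] (Λ : AddLen.{u, u} A)

/-- The length is the supremum over the finitely generated submodules. -/
def Cont : Prop := ∀ (X : Type u) [AddCommGroup X] [Module A X] (c : ℝ≥0∞),
  (∀ N : Submodule A X, N.FG → Λ.L N ≤ c) → Λ.L X ≤ c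

variable {X Y : Type u} [AddCommGroup X] [Module A X] [AddCommGroup Y] [Module A Y]

/-- multiplication by `a` -/
abbrev mulL (X : Type u) [AddCommGroup X] [Module A X] (a : A) : X →ₗ[A] X :=
  LinearMap.lsmul A X a

/-- `L(X[a]) = L(X/aX)` when `L(X) < ∞`. -/
theorem L_ker_eq (a : A) (h : Λ.L X ≠ ⊤) :
    Λ.L (LinearMap.ker (mulL X a)) = Λ.L (X ⧸ LinearMap.range (mulL X a)) := by
  have h1 := Λ.L_ker_add_range (mulL X a)
  have h2 := Λ.L_eq_add_quotient (LinearMap.range (mulL X a))
  have h3 : Λ.L (LinearMap.range (mulL X a)) ≠ ⊤ := ne_top_of_le_ne_top h (Λ.L_submodule_le _)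
  rw [h1, add_comm] at h2
  exact (ENNReal.add_right_inj h3).1 h2

/-- finitely many generators -/
theorem L_le_card_mul (J : Ideal A) (hJ : ∀ a ∈ J, ∀ x : X, a • x = 0) (n : ℕ) (g : Fin n → X)
    (hg : Submodule.span A (Set.range g) = ⊤) : Λ.L X ≤ n * Λ.L (A ⧸ J) := by
  rw [← Λ.L_finset_pi]
  let f : (Fin n → A) →ₗ[A] X := Fintype.linearCombination A g
  have hf : ∀ v : Fin n → A, f v = ∑ i, v i • g i := fun v => Fintype.linearCombination_apply A g v
  let f' : (Fin n → A ⧸ J) →ₗ[A] X := ∑ i : Fin n,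
    (Submodule.liftQ J (LinearMap.toSpanSingleton A X (g i)) (by
      intro a ha
      rw [LinearMap.mem_ker, LinearMap.toSpanSingleton_apply]
      exact hJ a ha _)) ∘ₗ LinearMap.proj i
  refine Λ.L_le_of_surjective f' ?_
  intro x
  have hx : x ∈ Submodule.span A (Set.range g) := by rw [hg]; trivial
  obtain ⟨v, hv⟩ := (Submodule.mem_span_range_iff_exists_fun A).1 hx
  refine ⟨fun i => Submodule.Quotient.mk (v i), ?_⟩
  rw [← hv]
  simp only [f', LinearMap.coe_sum, Finset.sum_apply, LinearMap.comp_apply, LinearMap.proj_apply]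
  refine Finset.sum_congr rfl fun i _ => ?_
  exact Submodule.liftQ_apply J (LinearMap.toSpanSingleton A X (g i)) (v i)

/-- the same for a finitely generated submodule -/
theorem exists_card_bound (N : Submodule A X) (hN : N.FG) : ∃ n : ℕ,
    (∀ J : Ideal A, (∀ a ∈ J, ∀ x : X, a • x = 0) → Λ.L N ≤ n * Λ.L (A ⧸ J)) ∧
    (∀ (J : Ideal A) (h : A), (∀ a ∈ J, ∀ x : X, a • x = 0) →
      Λ.L (N ⧸ LinearMap.range (mulL N h)) ≤ n * Λ.L (A ⧸ (J ⊔ Ideal.span {h}))) := by
  obtain ⟨n, g, hg⟩ := Submodule.fg_iff_exists_fin_generating_family.1 hN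
  have hmem : ∀ i, g i ∈ N := fun i => by
    rw [← hg]; exact Submodule.subset_span ⟨i, rfl⟩
  let g' : Fin n → N := fun i => ⟨g i, hmem i⟩
  have hg' : Submodule.span A (Set.range g') = ⊤ := by
    apply Submodule.map_injective_of_injective N.subtype_injective
    rw [Submodule.map_span, Submodule.map_top, Submodule.range_subtype]
    refine Eq.trans ?_ hg
    congr 1
    ext x
    simp only [Set.mem_image, Set.mem_range, exists_exists_eq_and]
    rfl
  refine ⟨n, fun J hJ => ?_, fun J h hJ => ?_⟩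
  · exact L_le_card_mul Λ J (fun a ha x => Subtype.ext (hJ a ha x)) n g' hg'
  · refine L_le_card_mul Λ _ ?_ n (fun i => Submodule.Quotient.mk (g' i)) ?_
    · intro a ha x
      obtain ⟨x, rfl⟩ := Submodule.Quotient.mk_surjective _ x
      rw [← Submodule.Quotient.mk_smul, Submodule.Quotient.mk_eq_zero]
      obtain ⟨b, hb, c, hc, rfl⟩ := Submodule.mem_sup.1 ha
      obtain ⟨d, rfl⟩ := Ideal.mem_span_singleton'.1 hc
      refine ⟨d • x, ?_⟩
      apply Subtype.ext
      show h • (d • (x : X)) = (b + d * h) • (x : X)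
      rw [add_smul, hJ b hb, zero_add, smul_smul, mul_comm]
    · rw [eq_top_iff]
      rintro x _
      obtain ⟨x, rfl⟩ := Submodule.Quotient.mk_surjective _ x
      have hx : x ∈ Submodule.span A (Set.range g') := by rw [hg']; trivial
      have := Submodule.mem_map_of_mem (f := (LinearMap.range (mulL N h)).mkQ) hx
      rw [Submodule.map_span, ← Set.range_comp] at this
      exact this

/-- The sup argument of 7113 (III): if `X` is killed by `𝔶` with `L(A/𝔶) < ∞`, and for every `q`
there is a submodule `K q` killed by `h q` with `L(X / K q) ≤ c`, where `L(A/(𝔶 + h q)) → 0`, then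
`L(X) ≤ c`. -/
theorem L_le_of_almost (hc : Cont Λ) (𝔶 : Ideal A) (h𝔶 : ∀ a ∈ 𝔶, ∀ x : X, a • x = 0)
    (hfin : Λ.L (A ⧸ 𝔶) ≠ ⊤) {ι : Type*} (h : ι → A) (K : ι → Submodule A X)
    (hK : ∀ q, ∀ x ∈ K q, h q • x = 0) (c : ℝ≥0∞) (hcK : ∀ q, Λ.L (X ⧸ K q) ≤ c)
    (hnull : ∀ ε : ℝ≥0∞, 0 < ε → ∃ q, Λ.L (A ⧸ (𝔶 ⊔ Ideal.span {h q})) ≤ ε) : Λ.L X ≤ c := by
  refine hc X c fun N hN => ?_
  obtain ⟨n, hn1, hn2⟩ := exists_card_bound Λ N hN
  have hNfin : Λ.L N ≠ ⊤ :=
    ne_top_of_le_ne_top (ENNReal.mul_ne_top (ENNReal.natCast_ne_top n) hfin) (hn1 𝔶 h𝔶)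
  have key : ∀ q, Λ.L N ≤ c + n * Λ.L (A ⧸ (𝔶 ⊔ Ideal.span {h q})) := by
    intro q
    rw [Λ.L_eq_add_quotient ((K q).comap N.subtype), add_comm]
    refine add_le_add ?_ ?_
    · refine le_trans ?_ (hcK q)
      refine Λ.L_le_of_injective (Submodule.mapQ _ (K q) N.subtype le_rfl) ?_
      rw [← LinearMap.ker_eq_bot, Submodule.ker_mapQ]
      simp
    · refine le_trans ?_ (hn2 𝔶 (h q) h𝔶)
      rw [← L_ker_eq Λ (h q) hNfin]
      refine Λ.L_le_of_injective (Submodule.inclusion ?_) (Submodule.inclusion_injective _)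
      intro x hx
      rw [LinearMap.mem_ker]
      exact Subtype.ext (hK q x.1 hx)
  rcases Nat.eq_zero_or_pos n with hn0 | hn0
  · subst hn0
    by_cases hι : Nonempty ι
    · obtain ⟨q⟩ := hι
      simpa using key q
    · exfalso
      obtain ⟨q, _⟩ := hnull 1 one_pos
      exact hι ⟨q⟩
  refine ENNReal.le_of_forall_pos_le_add fun ε hε _ => ?_
  have hn1' : (n : ℝ≥0∞) ≠ 0 := by exact_mod_cast hn0.ne'
  obtain ⟨q, hq⟩ := hnull (ε / n) (ENNReal.div_pos (by exact_mod_cast hε.ne')
    (ENNReal.natCast_ne_top n))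
  refine (key q).trans (add_le_add le_rfl ?_)
  refine (mul_le_mul_right hq _).trans ?_
  rw [ENNReal.mul_div_cancel hn1' (ENNReal.natCast_ne_top n)]

end facts

section noeth

variable {A : Type u} [CommRing A] (Λ : AddLen.{u, u} A)

/-- one step: if `W'' ≤ W` and `W` is generated by `W''` and `w`, `J W ≤ W''`. -/
theorem L_quot_le_one {W : Type u} [AddCommGroup W] [Module A W] (W'' : Submodule A W) (w : W)
    (J : Ideal A) (hJ : ∀ a ∈ J, ∀ x : W, a • x ∈ W'')
    (hw : W'' ⊔ Submodule.span A {w} = ⊤) : Λ.L (W ⧸ W'') ≤ Λ.L (A ⧸ J) := by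
  have := L_le_card_mul Λ (X := W ⧸ W'') J ?_ 1 (fun _ => Submodule.Quotient.mk w) ?_
  · simpa using this
  · intro a ha x
    obtain ⟨x, rfl⟩ := Submodule.Quotient.mk_surjective _ x
    rw [← Submodule.Quotient.mk_smul, Submodule.Quotient.mk_eq_zero]
    exact hJ a ha x
  · rw [eq_top_iff]
    rintro x _
    obtain ⟨x, rfl⟩ := Submodule.Quotient.mk_surjective _ x
    have hx : x ∈ W'' ⊔ Submodule.span A {w} := by rw [hw]; trivial
    obtain ⟨y, hy, z, hz, rfl⟩ := Submodule.mem_sup.1 hx
    obtain ⟨a, rfl⟩ := Submodule.mem_span_singleton.1 hz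
    have h0 : (Submodule.Quotient.mk y : W ⧸ W'') = 0 := (Submodule.Quotient.mk_eq_zero _).2 hy
    rw [Submodule.Quotient.mk_add, h0, zero_add, Submodule.Quotient.mk_smul]
    exact Submodule.smul_mem _ _ (Submodule.subset_span ⟨0, rfl⟩)

/-- `L(W) ≤ length(Z) L(A/𝔪A)` if `W` is the `A`-span of the image of `Z`. -/
theorem L_le_length_mul_aux {R : Type*} [CommRing R] [IsLocalRing R] (φ : R →+* A) (n : ℕ) :
    ∀ {Z : Type u} [AddCommGroup Z] [Module R Z] {W : Type u} [AddCommGroup W] [Module A W]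
      (f : Z →+ W) (_ : ∀ (r : R) (z : Z), f (r • z) = φ r • f z)
      (_ : Submodule.span A (Set.range f) = ⊤) (_ : Module.length R Z = n),
    Λ.L W ≤ n * Λ.L (A ⧸ (IsLocalRing.maximalIdeal R).map φ) := by
  induction n with
  | zero =>
    intro Z _ _ W _ _ f hf hs hn
    have hZ : Subsingleton Z := Module.length_eq_zero_iff.1 (by simpa using hn)
    have hW : Subsingleton W := by
      rw [← Submodule.subsingleton_iff A]
      constructor
      have h0 : Submodule.span A (Set.range f) = ⊥ := by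
        rw [Submodule.span_eq_bot]
        rintro _ ⟨z, rfl⟩
        rw [Subsingleton.elim z 0, map_zero]
      have h1 : (⊤ : Submodule A W) = ⊥ := hs.symm.trans h0
      intro a b
      have ha : a = ⊥ := le_bot_iff.1 (h1 ▸ le_top)
      have hb : b = ⊥ := le_bot_iff.1 (h1 ▸ le_top)
      rw [ha, hb]
    rw [Λ.L_subsingleton]; simp
  | succ n ih =>
    intro Z _ _ W _ _ f hf hs hn
    have hfl : IsFiniteLength R Z := by
      rw [← Module.length_ne_top_iff, hn]
      exact ENat.natCast_ne_top _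
    have hNA := isFiniteLength_iff_isNoetherian_isArtinian.1 hfl
    have : IsNoetherian R Z := hNA.1
    have hnt : Nontrivial Z := by
      rw [← not_subsingleton_iff_nontrivial]
      intro h
      have := (Module.length_eq_zero_iff (R := R)).2 h
      rw [hn] at this
      simp at this
    obtain ⟨Z', hZ', -⟩ : ∃ Z' : Submodule R Z, IsCoatom Z' ∧ ⊥ ≤ Z' :=
      (eq_top_or_exists_le_coatom (⊥ : Submodule R Z)).resolve_left bot_ne_top
    have hsimple : IsSimpleModule R (Z ⧸ Z') := isSimpleModule_iff_isCoatom.2 hZ'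
    have hlen : Module.length R Z = Module.length R Z' + Module.length R (Z ⧸ Z') :=
      Module.length_eq_add_of_exact Z'.subtype Z'.mkQ Z'.subtype_injective Z'.mkQ_surjective
        (LinearMap.exact_subtype_mkQ Z')
    rw [Module.length_eq_one R (Z ⧸ Z'), hn] at hlen
    have hlen' : Module.length R Z' = n := by
      have h1 : ((n : ℕ∞) + 1) = Module.length R Z' + 1 := by rw [← hlen]; push_cast; rfl
      exact (ENat.add_left_injective_of_ne_top (n := 1) (by simp) h1).symm
    have hm : ∀ r ∈ IsLocalRing.maximalIdeal R, ∀ z : Z, r • z ∈ Z' := by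
      intro r hr z
      have h1 : Module.annihilator R (Z ⧸ Z') = IsLocalRing.maximalIdeal R :=
        IsLocalRing.eq_maximalIdeal (IsSimpleModule.annihilator_isMaximal)
      have h2 : r ∈ Module.annihilator R (Z ⧸ Z') := by rw [h1]; exact hr
      have h3 := Module.mem_annihilator.1 h2 (Submodule.Quotient.mk z)
      rwa [← Submodule.Quotient.mk_smul, Submodule.Quotient.mk_eq_zero] at h3
    obtain ⟨z0, hz0⟩ : ∃ z0, z0 ∉ Z' := by
      by_contra h
      push Not at h
      exact hZ'.1 (eq_top_iff.2 fun x _ => h x)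
    have hZtop : Z' ⊔ Submodule.span R {z0} = ⊤ := by
      refine hZ'.2 _ (lt_of_le_of_ne le_sup_left fun h => hz0 ?_)
      rw [h]
      exact Submodule.mem_sup_right (Submodule.mem_span_singleton_self z0)
    set W' : Submodule A W := Submodule.span A (f '' (Z' : Set Z)) with hW'
    have hfW : ∀ z ∈ Z', f z ∈ W' := fun z hz => Submodule.subset_span ⟨z, hz, rfl⟩
    rw [Λ.L_eq_add_quotient W']
    have h1 : Λ.L W' ≤ n * Λ.L (A ⧸ (IsLocalRing.maximalIdeal R).map φ) := by
      let f' : Z' →+ W' :=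
        { toFun := fun z => ⟨f z, hfW z z.2⟩
          map_zero' := Subtype.ext (map_zero f)
          map_add' := fun a b => Subtype.ext (map_add f _ _) }
      refine ih f' (fun r z => Subtype.ext (hf r z)) ?_ hlen'
      apply Submodule.map_injective_of_injective W'.subtype_injective
      rw [Submodule.map_span, Submodule.map_top, Submodule.range_subtype]
      refine Eq.trans ?_ hW'.symm
      congr 1
      ext x
      constructor
      · rintro ⟨_, ⟨z, rfl⟩, rfl⟩
        exact ⟨z, z.2, rfl⟩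
      · rintro ⟨z, hz, rfl⟩
        exact ⟨_, ⟨⟨z, hz⟩, rfl⟩, rfl⟩
    have h2 : Λ.L (W ⧸ W') ≤ Λ.L (A ⧸ (IsLocalRing.maximalIdeal R).map φ) := by
      refine L_quot_le_one Λ W' (f z0) _ ?_ ?_
      · intro a ha x
        have hx : x ∈ Submodule.span A (Set.range f) := by rw [hs]; trivial
        induction hx using Submodule.span_induction with
        | mem x hx =>
          obtain ⟨z, rfl⟩ := hx
          refine Submodule.span_induction (p := fun a _ => a • f z ∈ W') ?_ ?_ ?_ ?_ ha
          · rintro _ ⟨r, hr, rfl⟩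
            rw [← hf]
            exact hfW _ (hm r hr z)
          · simp
          · intro a b _ _ ha hb
            rw [add_smul]; exact add_mem ha hb
          · intro a b _ hb
            rw [smul_eq_mul, mul_smul]; exact Submodule.smul_mem _ _ hb
        | zero => simp
        | add x y _ _ hx hy => rw [smul_add]; exact add_mem hx hy
        | smul b x _ hx => rw [smul_comm]; exact Submodule.smul_mem _ _ hx
      · rw [eq_top_iff, ← hs, Submodule.span_le]
        rintro _ ⟨z, rfl⟩
        have hz : z ∈ Z' ⊔ Submodule.span R {z0} := by rw [hZtop]; trivial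
        obtain ⟨y, hy, w, hw, rfl⟩ := Submodule.mem_sup.1 hz
        obtain ⟨r, rfl⟩ := Submodule.mem_span_singleton.1 hw
        rw [map_add, hf]
        exact add_mem (Submodule.mem_sup_left (hfW y hy))
          (Submodule.mem_sup_right (Submodule.smul_mem _ _ (Submodule.mem_span_singleton_self _)))
    push_cast
    rw [add_mul, one_mul]
    exact add_le_add h1 h2

/-- `L(W) ≤ length(Z) L(A/𝔪A)` if `W` is the `A`-span of the image of `Z`. -/
theorem L_le_length_mul {R : Type*} [CommRing R] [IsLocalRing R] (φ : R →+* A)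
    {Z : Type u} [AddCommGroup Z] [Module R Z] {W : Type u} [AddCommGroup W] [Module A W]
    (f : Z →+ W) (hf : ∀ (r : R) (z : Z), f (r • z) = φ r • f z)
    (hs : Submodule.span A (Set.range f) = ⊤) {n : ℕ} (hn : Module.length R Z ≤ n) :
    Λ.L W ≤ n * Λ.L (A ⧸ (IsLocalRing.maximalIdeal R).map φ) := by
  obtain ⟨m, hm⟩ := ENat.ne_top_iff_exists.1 (ne_top_of_le_ne_top (ENat.natCast_ne_top n) hn)
  refine (L_le_length_mul_aux Λ φ m f hf hs hm.symm).trans ?_
  rw [← hm] at hn
  have : m ≤ n := by exact_mod_cast hn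
  gcongr

end noeth

end Crest.Agent.R188.FinA
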