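/-
R188, block A5 (helper46): (DXI) lengths modulo `a` and modulo `ξ = c + a u`, for `a`-torsion free
modules killed by a power of `c`.
-/
import Crest.Agent.R183.AddLen
import Crest.Agent.R188.Wit4

set_option autoImplicit false
set_option linter.unusedSectionVars false
set_option linter.unusedVariables false
set_option linter.style.haveILetI false

namespace Crest.Agent.R188.Wit

open Function Crest.Agent.R183
open scoped Pointwise ENNReal

universe u v

variable {A : Type u} [CommRing A]

section SES

variable {x : A} {M N P : Type v} [AddCommGroup M] [Module A M] [AddCommGroup N] [Module A N]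
  [AddCommGroup P] [Module A P] {f : M →ₗ[A] N} {g : N →ₗ[A] P}

lemma quotSMulTop_map_injective (hf : Injective f) (hg : Surjective g) (hfg : Exact f g)
    (hP : Tf x P) : Injective (QuotSMulTop.map x f) := by
  rw [injective_iff_map_eq_zero]
  intro m hm
  obtain ⟨m, rfl⟩ := Submodule.Quotient.mk_surjective _ m
  rw [QuotSMulTop.map_apply_mk, Submodule.Quotient.mk_eq_zero, mem_smul_top] at hm
  obtain ⟨n, hn⟩ := hm
  have h1 : g n = 0 := by
    apply hP
    rw [← map_smul, ← hn]
    exact hfg.apply_apply_eq_zero m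
  obtain ⟨m', rfl⟩ := (hfg n).1 h1
  rw [← map_smul] at hn
  rw [Submodule.Quotient.mk_eq_zero, mem_smul_top]
  exact ⟨m', hf hn⟩

lemma quotSMulTop_map_surjective (hg : Surjective g) : Surjective (QuotSMulTop.map x g) := by
  intro y
  obtain ⟨y, rfl⟩ := Submodule.Quotient.mk_surjective _ y
  obtain ⟨n, rfl⟩ := hg y
  exact ⟨Submodule.Quotient.mk n, rfl⟩

lemma quotSMulTop_map_exact (hg : Surjective g) (hfg : Exact f g) :
    Exact (QuotSMulTop.map x f) (QuotSMulTop.map x g) :=
  (exMod_iff (a := x) fun m => hfg.apply_apply_eq_zero m).1 (exMod_of_exact_last hfg hg)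

/-- additivity of the length modulo `x` when `x` is regular on the cokernel. -/
lemma L_quotSMulTop_add (Λ : AddLen.{u, v} A) (hf : Injective f) (hg : Surjective g)
    (hfg : Exact f g) (hP : Tf x P) :
    Λ.L (QuotSMulTop x N) = Λ.L (QuotSMulTop x M) + Λ.L (QuotSMulTop x P) :=
  Λ.add' (QuotSMulTop.map x f) (QuotSMulTop.map x g) (quotSMulTop_map_injective hf hg hfg hP)
    (quotSMulTop_map_surjective hg) (quotSMulTop_map_exact hg hfg)

end SES

section DXI

variable {a c u : A}

lemma pow_mul_of_xi {D : Type v} [AddCommGroup D] [Module A D] {x : D}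
    (hx : (c + a * u) • x = 0) (M : ℕ) : (a * u) ^ M • x = (-c) ^ M • x := by
  induction M with
  | zero => simp
  | succ M ih =>
    have h1 : (a * u) • x = (-c) • x := by
      rw [add_smul] at hx
      rw [neg_smul]
      exact eq_neg_of_add_eq_zero_right hx
    rw [pow_succ', mul_smul, ih, smul_comm, h1, smul_smul, ← pow_succ]

/-- `ξ = c + a u` is regular on `a`-torsion free `c`-nilpotent modules. -/
theorem tf_xi (hu : IsUnit u) {D : Type v} [AddCommGroup D] [Module A D] (ha : Tf a D) {M : ℕ}
    (hc : ∀ x : D, c ^ M • x = 0) : Tf (c + a * u) D := by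
  intro x hx
  have h1 := pow_mul_of_xi hx M
  rw [neg_pow, mul_smul, hc, smul_zero, mul_pow, mul_smul] at h1
  have h2 := ha.pow M _ h1
  exact (hu.pow M).smul_eq_zero.1 h2

/-- **(DXI)** `L(D/ξ) = L(D/a)`. -/
theorem L_xi_eq (Λ : AddLen.{u, v} A) (hu : IsUnit u) (M : ℕ) :
    ∀ {D : Type v} [AddCommGroup D] [Module A D] (_ : Tf a D) (_ : ∀ x : D, c ^ M • x = 0),
      Λ.L (QuotSMulTop (c + a * u) D) = Λ.L (QuotSMulTop a D) := by
  induction M with
  | zero =>
    intro D _ _ ha hc
    haveI : Subsingleton D := ⟨fun x y => by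
      have h1 := hc x
      have h2 := hc y
      rw [pow_zero, one_smul] at h1 h2
      rw [h1, h2]⟩
    haveI : Subsingleton (QuotSMulTop (c + a * u) D) := Submodule.Quotient.subsingleton_iff.2 (by
      rw [eq_top_iff]; intro x _; rw [Subsingleton.elim x 0]; exact zero_mem _)
    haveI : Subsingleton (QuotSMulTop a D) := Submodule.Quotient.subsingleton_iff.2 (by
      rw [eq_top_iff]; intro x _; rw [Subsingleton.elim x 0]; exact zero_mem _)
    rw [Λ.L_subsingleton, Λ.L_subsingleton]
  | succ M ih =>
    intro D _ _ ha hc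
    -- `0 → ker c → D → c D → 0`
    let φ : D →ₗ[A] D := LinearMap.lsmul A D c
    have hφ : ∀ x, φ x = c • x := fun x => rfl
    let K := LinearMap.ker φ
    let Rg := LinearMap.range φ
    have hK : Tf a K := Tf.sub (f := K.subtype) K.injective_subtype ha
    have hR : Tf a Rg := Tf.sub (f := Rg.subtype) Rg.injective_subtype ha
    have hRc : ∀ x : Rg, c ^ M • x = 0 := by
      rintro ⟨_, y, rfl⟩
      apply Subtype.ext
      show c ^ M • φ y = 0
      rw [hφ, smul_smul, ← pow_succ]
      exact hc y
    have hRξ : Tf (c + a * u) Rg := tf_xi hu hR hRc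
    have e1 := L_quotSMulTop_add (x := c + a * u) Λ (Submodule.injective_subtype K)
      φ.surjective_rangeRestrict (by
        intro x
        rw [← LinearMap.mem_ker, LinearMap.ker_rangeRestrict]
        simp [K]) hRξ
    have e2 := L_quotSMulTop_add (x := a) Λ (Submodule.injective_subtype K)
      φ.surjective_rangeRestrict (by
        intro x
        rw [← LinearMap.mem_ker, LinearMap.ker_rangeRestrict]
        simp [K]) hR
    rw [e1, e2, ih hR hRc]
    congr 1
    -- on `K` we have `ξ = a u`
    apply Λ.L_congr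
    refine Submodule.quotEquivOfEq _ _ ?_
    ext x
    rw [mem_smul_top, mem_smul_top]
    have hcK : ∀ y : K, c • y = 0 := by
      rintro ⟨y, hy⟩
      exact Subtype.ext hy
    obtain ⟨w, rfl⟩ := hu
    constructor
    · rintro ⟨y, rfl⟩
      exact ⟨(w : A) • y, by rw [add_smul, hcK, zero_add, mul_smul]⟩
    · rintro ⟨y, rfl⟩
      refine ⟨((w⁻¹ : Aˣ) : A) • y, ?_⟩
      rw [add_smul, hcK, zero_add, smul_smul, mul_assoc, Units.mul_inv, mul_one]

/-- saturated submodules stay injective modulo `ξ`. -/
theorem xi_injective (hu : IsUnit u) {D : Type v} [AddCommGroup D] [Module A D]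
    (D' : Submodule A D) (ha : Tf a (D ⧸ D')) {M : ℕ} (hc : ∀ x : D, c ^ M • x = 0) :
    Injective (QuotSMulTop.map (c + a * u) D'.subtype) := by
  refine quotSMulTop_map_injective D'.injective_subtype D'.mkQ_surjective
    (LinearMap.exact_subtype_mkQ D') (tf_xi hu ha (M := M) ?_)
  intro x
  obtain ⟨y, rfl⟩ := Submodule.Quotient.mk_surjective _ x
  rw [← Submodule.Quotient.mk_smul, hc, Submodule.Quotient.mk_zero]

end DXI

end Crest.Agent.R188.Wit
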