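import Crest.Agent.R188.FinA1
import Crest.Agent.R188.Wit5
import Crest.Agent.R188.WitLen
import Crest.Agent.R183.AddLenInst

/-!
# R188, block FINA (helper414), part 2: lengths of closed-ideal quotients over `P` and over `Om ξ`
-/

set_option autoImplicit false
set_option linter.unusedSectionVars false
set_option linter.style.haveILetI false

namespace Crest.Agent.R188.FinA

open scoped ENNReal Pointwise
open WittVector Function Crest.Agent.R188.Prf Crest.Agent.R188.Wit Crest.Agent.R183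

universe u

section semi

variable {A : Type u} {B : Type*} [CommRing A] [CommRing B] (Λ : AddLen.{u, u} A) (φ : A →+* B)
variable {X : Type u} [AddCommGroup X] [Module A X] {Y : Type u} [AddCommGroup Y] [Module B Y]

/-- a semilinear surjection with kernel `N` up to null. -/
theorem L_eq_of_semilinear (f : X →+ Y) (hf : ∀ a x, f (a • x) = φ a • f x) (hs : Surjective f)
    (N : Submodule A X) (hN : ∀ x ∈ N, f x = 0)
    (hnull : ∀ K : Submodule A X, (∀ x ∈ K, f x = 0) → Λ.L (K.map N.mkQ) = 0) :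
    (Λ.restrict φ).L Y = Λ.L (X ⧸ N) := by
  letI : Module A Y := Module.compHom Y φ
  rw [Λ.restrict_L φ Y (fun _ _ => rfl)]
  let F : X →ₗ[A] Y := { toFun := f, map_add' := f.map_add, map_smul' := fun a x => hf a x }
  have hNF : N ≤ LinearMap.ker F := fun x hx => hN x hx
  let G : (X ⧸ N) →ₗ[A] Y := N.liftQ F hNF
  have hG : Surjective G := by
    intro y
    obtain ⟨x, rfl⟩ := hs y
    exact ⟨N.mkQ x, rfl⟩
  have hk : LinearMap.ker G = (LinearMap.ker F).map N.mkQ := Submodule.ker_liftQ _ _ _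
  have h1 := Λ.L_ker_add_range G
  rw [hk, hnull _ (fun x hx => hx), zero_add] at h1
  rw [h1, LinearMap.range_eq_top.2 hG]
  exact (Λ.L_congr Submodule.topEquiv).symm

theorem L_le_of_semilinear_inj (f : X →+ Y) (hf : ∀ a x, f (a • x) = φ a • f x)
    (hi : Injective f) : Λ.L X ≤ (Λ.restrict φ).L Y := by
  letI : Module A Y := Module.compHom Y φ
  rw [Λ.restrict_L φ Y (fun _ _ => rfl)]
  let F : X →ₗ[A] Y := { toFun := f, map_add' := f.map_add, map_smul' := fun a x => hf a x }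
  exact Λ.L_le_of_injective F hi

end semi

section transfer

variable {p : ℕ} [hp : Fact p.Prime] {P : Type u} [CommRing P] (hP : IsPerf p P)

local notation "𝕎" => WittVector p
local notation "τ" => WittVector.teichmuller p

open Crest.Agent.R183.Digit (Convex)

/-- the quotient `W~(I)/W~(I ⊓ I')`. -/
abbrev XW (I I' : Ideal P) : Type u :=
  ↥(WI hP.p_zero I) ⧸ (WI hP.p_zero (I ⊓ I')).submoduleOf (WI hP.p_zero I)

/-- `J(I) = θ(W~(I))` -/
noncomputable abbrev JI (ξ : 𝕎 P) (I : Ideal P) : Ideal (Om ξ) := (WI hP.p_zero I).map (θ ξ)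

variable {hP} in
lemma mem_JI {ξ : 𝕎 P} {I : Ideal P} {x : Om ξ} :
    x ∈ JI hP ξ I ↔ ∃ y ∈ WI hP.p_zero I, θ ξ y = x :=
  Ideal.mem_map_iff_of_surjective _ (θ_surjective ξ)

/-- `W~(I)/W~(I ⊓ I')` is `p`-torsion free. -/
lemma tf_XW {I I' : Ideal P} (hI : Convex p I) (hI' : Convex p I') :
    Tf (p : 𝕎 P) (XW hP I I') := by
  intro x hx
  obtain ⟨x, rfl⟩ := Submodule.Quotient.mk_surjective _ x
  rw [← Submodule.Quotient.mk_smul, Submodule.Quotient.mk_eq_zero] at hx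
  rw [Submodule.Quotient.mk_eq_zero]
  exact WI_of_p_mul_mem hP (Convex.inf hI hI') hx

lemma teich_smul_XW {I I' : Ideal P} (hI : Convex p I) (hI' : Convex p I') {a : P}
    (ha : ∀ x ∈ I, a * x ∈ I') (x : XW hP I I') : τ a • x = 0 := by
  obtain ⟨x, rfl⟩ := Submodule.Quotient.mk_surjective _ x
  rw [← Submodule.Quotient.mk_smul, Submodule.Quotient.mk_eq_zero]
  show τ a * (x : 𝕎 P) ∈ WI hP.p_zero (I ⊓ I')
  rw [WI_inf hP hI hI']
  exact ⟨Ideal.mul_mem_left _ _ x.2, teich_mul_mem_WI ha x.2⟩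

/-- `L_P(I/(I ⊓ I')) = L(X/p)`. -/
theorem L_quot_P (Λ : AddLen.{u, u} (𝕎 P)) {I I' : Ideal P} (hI : Convex p I)
    (_ : Convex p I') :
    (Λ.restrict (constantCoeff : 𝕎 P →+* P)).L (↥I ⧸ (I ⊓ I').submoduleOf I) =
      Λ.L (QuotSMulTop (p : 𝕎 P) (XW hP I I')) := by
  let f0 : ↥(WI hP.p_zero I) →+ ↥I :=
    { toFun := fun x => ⟨(x : 𝕎 P).coeff 0, coeff_zero_mem_of_WI x.2⟩
      map_zero' := Subtype.ext (by simp)
      map_add' := fun x y => Subtype.ext (by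
        show constantCoeff ((x : 𝕎 P) + (y : 𝕎 P)) =
          constantCoeff (x : 𝕎 P) + constantCoeff (y : 𝕎 P)
        rw [map_add]) }
  let f : XW hP I I' →+ (↥I ⧸ (I ⊓ I').submoduleOf I) :=
    QuotientAddGroup.map _ _ f0 (by
      intro x hx
      exact coeff_zero_mem_of_WI (h0 := hP.p_zero) (I := I ⊓ I') hx)
  have hfmk : ∀ x, f (Submodule.Quotient.mk x) = Submodule.Quotient.mk (f0 x) := fun x => rfl
  refine L_eq_of_semilinear Λ _ f ?_ ?_ _ ?_ ?_
  · intro a x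
    obtain ⟨x, rfl⟩ := Submodule.Quotient.mk_surjective _ x
    rw [← Submodule.Quotient.mk_smul, hfmk, hfmk, ← Submodule.Quotient.mk_smul]
    exact congrArg _ (Subtype.ext (map_mul constantCoeff a (x : 𝕎 P)))
  · intro y
    obtain ⟨y, rfl⟩ := Submodule.Quotient.mk_surjective _ y
    refine ⟨Submodule.Quotient.mk ⟨τ (y : P), teich_mem_WI y.2⟩, ?_⟩
    rw [hfmk]
    exact congrArg _ (Subtype.ext (teichmuller_coeff_zero p (y : P)))
  · intro x hx
    rw [mem_smul_top] at hx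
    obtain ⟨y, rfl⟩ := hx
    obtain ⟨y, rfl⟩ := Submodule.Quotient.mk_surjective _ y
    rw [← Submodule.Quotient.mk_smul, hfmk, Submodule.Quotient.mk_eq_zero]
    have h1 : (f0 ((p : 𝕎 P) • y) : P) = 0 := by
      show constantCoeff ((p : 𝕎 P) * (y : 𝕎 P)) = 0
      rw [map_mul, map_natCast, hP.p_zero, zero_mul]
    show (f0 ((p : 𝕎 P) • y) : P) ∈ I ⊓ I'
    rw [h1]
    exact zero_mem _
  · intro K hK
    have : K.map (Submodule.mkQ ((p : 𝕎 P) • (⊤ : Submodule (𝕎 P) (XW hP I I')))) = ⊥ := by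
      rw [eq_bot_iff, Submodule.map_le_iff_le_comap]
      intro x hx
      rw [Submodule.mem_comap, Submodule.mem_bot, Submodule.mkQ_apply,
        Submodule.Quotient.mk_eq_zero, mem_smul_top]
      have h0 := hK x hx
      obtain ⟨x, rfl⟩ := Submodule.Quotient.mk_surjective _ x
      rw [hfmk, Submodule.Quotient.mk_eq_zero] at h0
      have h1 : (x : 𝕎 P).coeff 0 ∈ I ⊓ I' := h0
      obtain ⟨y, hy, hxy⟩ := WI_exists_eq_teich_add hP hI x.2
      refine ⟨Submodule.Quotient.mk ⟨y, hy⟩, ?_⟩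
      rw [← Submodule.Quotient.mk_smul, ← sub_eq_zero, ← Submodule.Quotient.mk_sub,
        Submodule.Quotient.mk_eq_zero]
      show (x : 𝕎 P) - (p : 𝕎 P) * y ∈ WI hP.p_zero (I ⊓ I')
      have : (x : 𝕎 P) - (p : 𝕎 P) * y = τ ((x : 𝕎 P).coeff 0) := by
        nth_rewrite 1 [hxy]; ring
      rw [this]
      exact teich_mem_WI h1
    rw [this]
    exact Λ.L_subsingleton

/-- key point: the kernel of `W~(I)/W~(I ⊓ I') → J(I)/(J(I) ⊓ J(I'))` modulo `ξ` is null. -/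
theorem ker_null {ξ : 𝕎 P} {π : P} (hξ : IsDist ξ π) {I I' I0 : Ideal P} (hI : Convex p I)
    (hI' : Convex p I') (hI0 : Convex p I0) (h1 : I ≤ I0) (h2 : I' ≤ I0) {M : ℕ}
    (hπ : ∀ x ∈ I0, π ^ M * x ∈ I') {c : P} (hc : c ∈ I0) (k : ℕ) {x : 𝕎 P}
    (hx : x ∈ WI hP.p_zero I) (hx' : θ ξ x ∈ JI hP ξ I') :
    ∃ y ∈ WI hP.p_zero I, τ (hP.rtn k c) * x - ξ * y ∈ WI hP.p_zero (I ⊓ I') := by
  obtain ⟨b, hb, hbx⟩ := mem_JI.1 hx'
  have h3 : θ ξ (x - b) = 0 := by rw [map_sub, hbx, sub_self]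
  obtain ⟨z, hz⟩ := θ_eq_zero_iff.1 h3
  set t := τ (hP.rtn k c) with ht
  have h4 : t * z ∈ WI hP.p_zero I0 := by
    refine xi_torsion_WI hP hI0 hξ ?_ hc k
    rw [← hz]
    exact sub_mem (WI_mono h1 hx) (WI_mono h2 hb)
  -- `E = W~(I0)`, `D' = W~(I) + W~(I')`
  let E : Submodule (𝕎 P) (𝕎 P) := WI hP.p_zero I0
  let D' : Submodule (𝕎 P) E := (WI hP.p_zero I ⊔ WI hP.p_zero I').submoduleOf E
  have hTf : Tf (p : 𝕎 P) (E ⧸ D') := by
    intro y hy
    obtain ⟨y, rfl⟩ := Submodule.Quotient.mk_surjective _ y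
    rw [← Submodule.Quotient.mk_smul, Submodule.Quotient.mk_eq_zero] at hy
    rw [Submodule.Quotient.mk_eq_zero]
    have hy2 : (p : 𝕎 P) * (y : 𝕎 P) ∈ WI hP.p_zero I ⊔ WI hP.p_zero I' := hy
    show (y : 𝕎 P) ∈ WI hP.p_zero I ⊔ WI hP.p_zero I'
    obtain ⟨a, ha, b, hb, hab⟩ := Submodule.mem_sup.1 hy2
    obtain ⟨a', ha', e1⟩ := WI_exists_eq_teich_add hP hI ha
    obtain ⟨b', hb', e2⟩ := WI_exists_eq_teich_add hP hI' hb
    have e3 : a.coeff 0 + b.coeff 0 = 0 := by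
      have := congrArg (constantCoeff : 𝕎 P →+* P) hab
      rw [map_add, map_mul, map_natCast, hP.p_zero, zero_mul] at this
      exact this
    have e4 : a.coeff 0 ∈ I := coeff_zero_mem_of_WI ha
    have e5 : b.coeff 0 ∈ I' := coeff_zero_mem_of_WI hb
    have e6 : a.coeff 0 ∈ I' := by
      rw [eq_neg_of_add_eq_zero_left e3]; exact neg_mem e5
    have e7 : b.coeff 0 ∈ I := by
      rw [eq_neg_of_add_eq_zero_right e3]; exact neg_mem e4
    have e8 : τ (a.coeff 0) + τ (b.coeff 0) ∈ WI hP.p_zero (I ⊓ I') :=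
      add_mem (teich_mem_WI ⟨e4, e6⟩) (teich_mem_WI ⟨e7, e5⟩)
    obtain ⟨w, hw, e9⟩ := WI_exists_eq_teich_add hP (Convex.inf hI hI') e8
    have e10 : (τ (a.coeff 0) + τ (b.coeff 0)).coeff 0 = 0 := by
      have : constantCoeff (τ (a.coeff 0) + τ (b.coeff 0)) = a.coeff 0 + b.coeff 0 := by
        rw [map_add]
        show (τ (a.coeff 0)).coeff 0 + (τ (b.coeff 0)).coeff 0 = _
        rw [teichmuller_coeff_zero, teichmuller_coeff_zero]
      rw [e3] at this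
      exact this
    rw [e10, teichmuller_zero, zero_add] at e9
    have e11 : (y : 𝕎 P) = (a' + w) + b' := by
      apply eq_of_p_mul hP
      rw [← hab, mul_add, mul_add, ← e9]
      nth_rewrite 1 [e1]
      nth_rewrite 1 [e2]
      ring
    rw [e11]
    exact Submodule.add_mem_sup (add_mem ha' (WI_mono inf_le_left hw)) hb'
  have hnil : ∀ y : E ⧸ D', τ π ^ M • y = 0 := by
    intro y
    obtain ⟨y, rfl⟩ := Submodule.Quotient.mk_surjective _ y
    rw [← Submodule.Quotient.mk_smul, Submodule.Quotient.mk_eq_zero]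
    show τ π ^ M * (y : 𝕎 P) ∈ WI hP.p_zero I ⊔ WI hP.p_zero I'
    rw [← map_pow]
    exact Submodule.mem_sup_right (teich_mul_mem_WI hπ y.2)
  obtain ⟨u, hu, he⟩ := hξ.ex
  have hTξ : Tf ξ (E ⧸ D') := by
    rw [he]
    exact tf_xi hu hTf hnil
  have h5 : (Submodule.Quotient.mk ⟨t * z, h4⟩ : E ⧸ D') = 0 := by
    apply hTξ
    rw [← Submodule.Quotient.mk_smul, Submodule.Quotient.mk_eq_zero]
    show ξ * (t * z) ∈ WI hP.p_zero I ⊔ WI hP.p_zero I'
    have : ξ * (t * z) = t * x + -(t * b) := by linear_combination -t * hz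
    rw [this]
    exact Submodule.add_mem_sup (Ideal.mul_mem_left _ _ hx) (neg_mem (Ideal.mul_mem_left _ _ hb))
  rw [Submodule.Quotient.mk_eq_zero] at h5
  have h6 : t * z ∈ WI hP.p_zero I ⊔ WI hP.p_zero I' := h5
  obtain ⟨y, hy, b', hb', h7⟩ := Submodule.mem_sup.1 h6
  refine ⟨y, hy, ?_⟩
  rw [WI_inf hP hI hI']
  refine ⟨sub_mem (Ideal.mul_mem_left _ _ hx) (Ideal.mul_mem_left _ _ hy), ?_⟩
  have : t * x - ξ * y = t * b + ξ * b' := by linear_combination t * hz - ξ * h7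
  rw [this]
  exact add_mem (Ideal.mul_mem_left _ _ hb) (Ideal.mul_mem_left _ _ hb')

/-- **transfer**: `L_P(I/(I ⊓ I')) = L_Om(J(I)/(J(I) ⊓ J(I')))`. -/
theorem transfer (Λ : AddLen.{u, u} (𝕎 P)) {ξ : 𝕎 P} {π : P} (hξ : IsDist ξ π)
    {I I' I0 : Ideal P} (hI : Convex p I)
    (hI' : Convex p I') (hI0 : Convex p I0) (h1 : I ≤ I0) (h2 : I' ≤ I0) {M : ℕ}
    (hπ : ∀ x ∈ I0, π ^ M * x ∈ I') {c : P} (hc : c ∈ I0)
    {κ : Type*} (t : κ → P) (ht : ∀ i, ∀ x ∈ I, t i ^ M * x ∈ I')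
    (hnull : ∀ (X : Type u) [AddCommGroup X] [Module (𝕎 P) X],
      (∀ x : X, (p : 𝕎 P) ^ M • x = 0) → (∀ i, ∀ x : X, τ (t i) ^ M • x = 0) →
      (∀ k, ∀ x : X, τ (hP.rtn k c) • x = 0) → Λ.L X = 0) :
    (Λ.restrict (constantCoeff : 𝕎 P →+* P)).L (↥I ⧸ (I ⊓ I').submoduleOf I) =
      (Λ.restrict (θ ξ)).L (↥(JI hP ξ I) ⧸ (JI hP ξ I ⊓ JI hP ξ I').submoduleOf (JI hP ξ I)) := by
  rw [L_quot_P hP Λ hI hI']
  obtain ⟨u, hu, he⟩ := hξ.ex
  have hnilX : ∀ y : XW hP I I', τ π ^ M • y = 0 := by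
    intro y
    rw [← map_pow]
    exact teich_smul_XW hP hI hI' (fun x hx => hπ x (h1 hx)) y
  rw [← L_xi_eq Λ hu M (tf_XW hP hI hI') hnilX, ← he]
  symm
  let f0 : ↥(WI hP.p_zero I) →+ ↥(JI hP ξ I) :=
    { toFun := fun x => ⟨θ ξ (x : 𝕎 P), Ideal.mem_map_of_mem _ x.2⟩
      map_zero' := Subtype.ext (map_zero _)
      map_add' := fun x y => Subtype.ext (map_add _ _ _) }
  let f : XW hP I I' →+ (↥(JI hP ξ I) ⧸ (JI hP ξ I ⊓ JI hP ξ I').submoduleOf (JI hP ξ I)) :=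
    QuotientAddGroup.map _ _ f0 (by
      intro x hx
      have hx2 : (x : 𝕎 P) ∈ WI hP.p_zero (I ⊓ I') := hx
      rw [WI_inf hP hI hI'] at hx2
      exact ⟨Ideal.mem_map_of_mem _ hx2.1, Ideal.mem_map_of_mem _ hx2.2⟩)
  have hfmk : ∀ x, f (Submodule.Quotient.mk x) = Submodule.Quotient.mk (f0 x) := fun x => rfl
  refine L_eq_of_semilinear Λ _ f ?_ ?_ _ ?_ ?_
  · intro a x
    obtain ⟨x, rfl⟩ := Submodule.Quotient.mk_surjective _ x
    rw [← Submodule.Quotient.mk_smul, hfmk, hfmk, ← Submodule.Quotient.mk_smul]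
    exact congrArg _ (Subtype.ext (map_mul _ _ _))
  · intro y
    obtain ⟨y, rfl⟩ := Submodule.Quotient.mk_surjective _ y
    obtain ⟨z, hz, hzy⟩ := mem_JI.1 y.2
    refine ⟨Submodule.Quotient.mk ⟨z, hz⟩, ?_⟩
    rw [hfmk]
    exact congrArg _ (Subtype.ext hzy)
  · intro x hx
    rw [mem_smul_top] at hx
    obtain ⟨y, rfl⟩ := hx
    obtain ⟨y, rfl⟩ := Submodule.Quotient.mk_surjective _ y
    rw [← Submodule.Quotient.mk_smul, hfmk, Submodule.Quotient.mk_eq_zero]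
    have h1 : (f0 (ξ • y) : Om ξ) = 0 := by
      show θ ξ (ξ * (y : 𝕎 P)) = 0
      rw [map_mul, θ_xi, zero_mul]
    show (f0 (ξ • y) : Om ξ) ∈ JI hP ξ I ⊓ JI hP ξ I'
    rw [h1]
    exact zero_mem _
  · intro K hK
    refine hnull _ ?_ ?_ ?_
    · rintro ⟨_, x, hx, rfl⟩
      apply Subtype.ext
      show (p : 𝕎 P) ^ M • Submodule.Quotient.mk x = 0
      have hξx : ∀ y : QuotSMulTop ξ (XW hP I I'), ξ • y = 0 := by
        intro y
        obtain ⟨y, rfl⟩ := Submodule.Quotient.mk_surjective _ y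
        rw [← Submodule.Quotient.mk_smul, Submodule.Quotient.mk_eq_zero, mem_smul_top]
        exact ⟨y, rfl⟩
      have h3 := pow_mul_of_xi (c := τ π) (a := (p : 𝕎 P)) (u := u)
        (x := (Submodule.Quotient.mk x : QuotSMulTop ξ (XW hP I I')))
        (by rw [← he]; exact hξx _) M
      rw [neg_pow, mul_smul, ← Submodule.Quotient.mk_smul _ _ (r := τ π ^ M), hnilX,
        Submodule.Quotient.mk_zero, smul_zero, mul_pow, mul_comm, mul_smul] at h3
      exact (hu.pow M).smul_eq_zero.1 h3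
    · rintro i ⟨_, x, hx, rfl⟩
      apply Subtype.ext
      show τ (t i) ^ M • Submodule.Quotient.mk x = 0
      rw [← Submodule.Quotient.mk_smul, ← map_pow, teich_smul_XW hP hI hI' (ht i),
        Submodule.Quotient.mk_zero]
    · rintro k ⟨_, x, hx, rfl⟩
      apply Subtype.ext
      show τ (hP.rtn k c) • Submodule.Quotient.mk x = 0
      rw [← Submodule.Quotient.mk_smul, Submodule.Quotient.mk_eq_zero, mem_smul_top]
      have h0 := hK x hx
      obtain ⟨x, rfl⟩ := Submodule.Quotient.mk_surjective _ x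
      rw [hfmk, Submodule.Quotient.mk_eq_zero] at h0
      have h0' : θ ξ (x : 𝕎 P) ∈ JI hP ξ I ⊓ JI hP ξ I' := h0
      obtain ⟨y, hy, hxy⟩ := ker_null hP hξ hI hI' hI0 h1 h2 hπ hc k x.2 h0'.2
      refine ⟨Submodule.Quotient.mk ⟨y, hy⟩, ?_⟩
      rw [← Submodule.Quotient.mk_smul, ← Submodule.Quotient.mk_smul, ← sub_eq_zero,
        ← Submodule.Quotient.mk_sub, Submodule.Quotient.mk_eq_zero]
      exact hxy

end transfer

end Crest.Agent.R188.FinA
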