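import Crest.Agent.R188.FinA2
import Crest.Agent.R188.LenW1

/-!
# R188, block FINA (helper414), part 3: Frobenius, null limits and the theorem FIN
-/

set_option autoImplicit false
set_option linter.unusedSectionVars false
set_option linter.style.haveILetI false

namespace Crest.Agent.R188.FinA

open scoped ENNReal Pointwise
open WittVector Function Crest.Agent.R188.Prf Crest.Agent.R188.Wit Crest.Agent.R183

universe u

section frob

variable {p : ℕ} [hp : Fact p.Prime] {P : Type u} [CommRing P] (Λ : AddLen.{u, u} P)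

/-- Frobenius scaling. -/
def Frob (Λ : AddLen.{u, u} P) (p D : ℕ) : Prop :=
  ∀ (Y Y' : Type u) [AddCommGroup Y] [Module P Y] [AddCommGroup Y'] [Module P Y'] (e : Y ≃+ Y'),
    (∀ (a : P) (y : Y), e (a • y) = a ^ p • e y) → Λ.L Y' = (p : ℝ≥0∞) ^ D * Λ.L Y

variable {Λ}

theorem Frob.iter (hP : IsPerf p P) {D : ℕ} (h : Frob Λ p D) (n : ℕ) :
    ∀ (Y Y' : Type u) [AddCommGroup Y] [Module P Y] [AddCommGroup Y'] [Module P Y'] (e : Y ≃+ Y'),
    (∀ (a : P) (y : Y), e (a • y) = a ^ p ^ n • e y) →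
      Λ.L Y' = (p : ℝ≥0∞) ^ (D * n) * Λ.L Y := by
  induction n with
  | zero =>
    intro Y Y' _ _ _ _ e he
    rw [mul_zero, pow_zero, one_mul]
    refine (Λ.L_congr (LinearEquiv.mk ⟨⟨e, e.map_add⟩, fun a y => ?_⟩ e.symm e.left_inv
      e.right_inv)).symm
    have := he a y
    rw [pow_zero, pow_one] at this
    exact this
  | succ n ih =>
    intro Y Y' _ _ _ i2 e he
    let φ : P →+* P :=
      { toFun := fun a => a ^ p
        map_one' := one_pow _
        map_mul' := fun a b => mul_pow a b p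
        map_zero' := zero_pow hp.out.ne_zero
        map_add' := fun a b => add_pow_p hP.p_zero a b }
    let i1 : Module P Y' := Module.compHom Y' φ
    have e1 := @h Y' Y' _ i1 _ i2 (AddEquiv.refl Y') (fun a y => rfl)
    have e2 := @ih Y Y' _ _ _ i1 e (fun a y => by
      have h2 : a ^ p ^ (n + 1) = (a ^ p ^ n) ^ p := by rw [← pow_mul, ← pow_succ]
      have h3 := he a y
      rw [h2] at h3
      exact h3)
    rw [e1, e2, ← mul_assoc, ← pow_add]
    congr 2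
    ring

end frob

section lim

variable {A : Type u} [CommRing A] (Λ : AddLen.{u, u} A)
variable {X : Type u} [AddCommGroup X] [Module A X]

theorem range_mulL_mono {a b : A} (h : b ∣ a) :
    LinearMap.range (mulL X a) ≤ LinearMap.range (mulL X b) := by
  obtain ⟨c, rfl⟩ := h
  rintro _ ⟨x, rfl⟩
  refine ⟨c • x, ?_⟩
  show b • c • x = (b * c) • x
  rw [mul_smul]

theorem exists_small (hc : Cont Λ) (hfin : Λ.L X ≠ ⊤) (h : ℕ → A) (hd : ∀ n, h (n + 1) ∣ h n)
    (hnull : Λ.L (X ⧸ (⨆ n, LinearMap.range (mulL X (h n)))) = 0) (ε : ℝ≥0∞) (hε : 0 < ε) :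
    ∃ n, Λ.L (X ⧸ LinearMap.range (mulL X (h n))) ≤ ε := by
  by_contra hcon
  push Not at hcon
  let R : ℕ → Submodule A X := fun n => LinearMap.range (mulL X (h n))
  have hmono : Monotone R := monotone_nat_of_le_succ fun n => range_mulL_mono (hd n)
  have h1 : ∀ n, Λ.L (R n) + ε ≤ Λ.L X := by
    intro n
    rw [Λ.L_eq_add_quotient (R n)]
    exact add_le_add le_rfl (hcon n).le
  have hεX : ε ≤ Λ.L X := le_trans le_add_self (h1 0)
  have hεt : ε ≠ ⊤ := ne_top_of_le_ne_top hfin hεX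
  have h2 : Λ.L (⨆ n, R n : Submodule A X) ≤ Λ.L X - ε := by
    refine hc _ _ fun E hE => ?_
    have hE' : (E.map (⨆ n, R n : Submodule A X).subtype).FG := hE.map _
    have hle : E.map (⨆ n, R n : Submodule A X).subtype ≤ ⨆ n, R n := by
      rintro _ ⟨x, -, rfl⟩
      exact x.2
    obtain ⟨n, hn⟩ : ∃ n, E.map (⨆ n, R n : Submodule A X).subtype ≤ R n := by
      have hcomp := (Submodule.fg_iff_compact _).1 hE'
      rw [CompleteLattice.isCompactElement_iff_le_of_directed_sSup_le] at hcomp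
      obtain ⟨_, ⟨n, rfl⟩, hn⟩ := hcomp (Set.range R) (Set.range_nonempty _)
        (hmono.directed_le.directedOn_range) (by rwa [sSup_range])
      exact ⟨n, hn⟩
    refine le_trans ?_ (ENNReal.le_sub_of_add_le_right hεt (h1 n))
    refine Λ.L_le_of_injective (LinearMap.codRestrict (R n)
      ((⨆ n, R n : Submodule A X).subtype ∘ₗ E.subtype) (fun x => hn ⟨x, x.2, rfl⟩)) ?_
    intro x y hxy
    have hxy' : ((x : ↥(⨆ n, R n : Submodule A X)) : X) = ((y : ↥(⨆ n, R n : Submodule A X)) : X) :=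
      congrArg (fun z : R n => (z : X)) hxy
    exact Subtype.ext (Subtype.ext hxy')
  have h3 : Λ.L X = Λ.L (⨆ n, R n : Submodule A X) := by
    rw [Λ.L_eq_add_quotient (⨆ n, R n : Submodule A X), hnull, add_zero]
  rw [← h3] at h2
  have h4 : Λ.L X - ε < Λ.L X :=
    ENNReal.sub_lt_self hfin (ne_of_gt (lt_of_lt_of_le hε hεX)) hε.ne'
  exact absurd h2 (not_le.2 h4)

end lim

open Crest.Agent.R183.Digit (Convex)

/-- a two-parameter family of closed ideals. -/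
structure Fam (p : ℕ) (P : Type u) [CommRing P] where
  /-- the ideals -/
  I : ℕ → ℕ → Ideal P
  convex : ∀ t m, Convex p (I t m)
  top : I 0 0 = ⊤
  anti : ∀ {t t' m m' : ℕ}, t ≤ t' → m ≤ m' → I t' m' ≤ I t m
  mul : ∀ {a b c d : ℕ} {x y : P}, x ∈ I a b → y ∈ I c d → x * y ∈ I (a + c) (b + d)
  root : ∀ {t m : ℕ} {x : P}, x ^ p ∈ I (p * t) (p * m) → x ∈ I t m

namespace Fam

variable {p : ℕ} [hp : Fact p.Prime] {P : Type u} [CommRing P] (F : Fam p P)

lemma pow {t m : ℕ} {x : P} (hx : x ∈ F.I t m) (n : ℕ) : x ^ n ∈ F.I (n * t) (n * m) := by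
  induction n with
  | zero => rw [pow_zero, zero_mul, zero_mul, F.top]; trivial
  | succ n ih =>
    rw [pow_succ, add_mul, add_mul, one_mul, one_mul]
    exact F.mul ih hx

lemma root_pow (e : ℕ) : ∀ {t m : ℕ} {x : P}, x ^ p ^ e ∈ F.I (p ^ e * t) (p ^ e * m) →
    x ∈ F.I t m := by
  induction e with
  | zero => intro t m x hx; simpa using hx
  | succ e ih =>
    intro t m x hx
    apply F.root
    apply ih
    rw [← pow_mul, ← pow_succ', ← mul_assoc, ← mul_assoc, ← pow_succ]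
    exact hx

lemma smul_mem {a b c : ℕ} {x y : P} (hx : x ∈ F.I 0 b) (hy : y ∈ F.I a c) :
    x * y ∈ F.I a (b + c) := by
  have := F.mul hx hy
  rwa [zero_add] at this

/-- `{x ∈ I(t,0) : x^q ∈ I(qt - s, qm)}`, `q = p^e`. -/
def Kq (hP : IsPerf p P) (s e t m : ℕ) : Submodule P ↥(F.I t 0) where
  carrier := {x | (x : P) ^ p ^ e ∈ F.I (p ^ e * t - s) (p ^ e * m)}
  zero_mem' := by
    rw [Set.mem_ofPred_eq, Submodule.coe_zero, zero_pow (pow_ne_zero _ hp.out.ne_zero)]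
    exact zero_mem _
  add_mem' := by
    intro x y hx hy
    rw [Set.mem_ofPred_eq] at *
    rw [Submodule.coe_add, add_pow_pn hP.p_zero]
    exact add_mem hx hy
  smul_mem' := by
    intro a x hx
    rw [Set.mem_ofPred_eq] at *
    rw [Submodule.coe_smul, smul_eq_mul, mul_pow]
    exact Ideal.mul_mem_left _ _ hx

lemma mem_Kq {hP : IsPerf p P} {s e t m : ℕ} {x : ↥(F.I t 0)} :
    x ∈ F.Kq hP s e t m ↔ (x : P) ^ p ^ e ∈ F.I (p ^ e * t - s) (p ^ e * m) := Iff.rfl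

/-- `L(I(qt,0)/(I(qt,0) ⊓ I(qt-s,qm))) = q^D L(I(t,0)/K_q)`. -/
theorem L_Kq (hP : IsPerf p P) {Λ : AddLen.{u, u} P} {D : ℕ} (h : Frob Λ p D) (s e t m : ℕ) :
    Λ.L (↥(F.I (p ^ e * t) 0) ⧸ (F.I (p ^ e * t) 0 ⊓
      F.I (p ^ e * t - s) (p ^ e * m)).submoduleOf (F.I (p ^ e * t) 0)) =
    (p : ℝ≥0∞) ^ (D * e) * Λ.L (↥(F.I t 0) ⧸ F.Kq hP s e t m) := by
  have hpow : ∀ x : ↥(F.I t 0), (x : P) ^ p ^ e ∈ F.I (p ^ e * t) 0 := by
    intro x
    have := F.pow x.2 (p ^ e)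
    rwa [mul_zero] at this
  let f0 : ↥(F.I t 0) →+ ↥(F.I (p ^ e * t) 0) :=
    { toFun := fun x => ⟨(x : P) ^ p ^ e, hpow x⟩
      map_zero' := Subtype.ext (zero_pow (pow_ne_zero _ hp.out.ne_zero))
      map_add' := fun x y => Subtype.ext (add_pow_pn hP.p_zero e (x : P) (y : P)) }
  let f : (↥(F.I t 0) ⧸ F.Kq hP s e t m) →+ (↥(F.I (p ^ e * t) 0) ⧸ (F.I (p ^ e * t) 0 ⊓
      F.I (p ^ e * t - s) (p ^ e * m)).submoduleOf (F.I (p ^ e * t) 0)) :=
    QuotientAddGroup.map _ _ f0 (by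
      intro x hx
      exact ⟨hpow x, hx⟩)
  have hfmk : ∀ x, f (Submodule.Quotient.mk x) = Submodule.Quotient.mk (f0 x) := fun x => rfl
  have hbij : Bijective f := by
    constructor
    · rw [injective_iff_map_eq_zero]
      intro x hx
      obtain ⟨x, rfl⟩ := Submodule.Quotient.mk_surjective _ x
      rw [hfmk, Submodule.Quotient.mk_eq_zero] at hx
      rw [Submodule.Quotient.mk_eq_zero]
      exact hx.2
    · intro y
      obtain ⟨y, rfl⟩ := Submodule.Quotient.mk_surjective _ y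
      refine ⟨Submodule.Quotient.mk ⟨hP.rtn e (y : P), ?_⟩, ?_⟩
      · apply F.root_pow e
        rw [hP.rtn_pow, mul_zero]
        exact y.2
      · rw [hfmk]
        exact congrArg _ (Subtype.ext (hP.rtn_pow e (y : P)))
  refine h.iter hP e _ _ (AddEquiv.ofBijective f hbij) ?_
  intro a x
  obtain ⟨x, rfl⟩ := Submodule.Quotient.mk_surjective _ x
  rw [AddEquiv.ofBijective_apply, AddEquiv.ofBijective_apply, ← Submodule.Quotient.mk_smul, hfmk,
    hfmk, ← Submodule.Quotient.mk_smul]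
  exact congrArg _ (Subtype.ext (mul_pow a (x : P) (p ^ e)))

end Fam

section finpow

variable {p : ℕ} [hp : Fact p.Prime] {P : Type u} [CommRing P]

/-- `P/(y_j^q) ≅ P/(y_j)` up to Frobenius. -/
theorem L_quot_pow_q (hP : IsPerf p P) {Λ : AddLen.{u, u} P} {D : ℕ} (h : Frob Λ p D)
    {κ : Type*} [Fintype κ] (y : κ → P) (e : ℕ) :
    Λ.L (P ⧸ Ideal.span (Set.range fun j => y j ^ p ^ e)) =
      (p : ℝ≥0∞) ^ (D * e) * Λ.L (P ⧸ Ideal.span (Set.range y)) := by
  let f0 : P →+ P :=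
    { toFun := fun x => x ^ p ^ e
      map_zero' := zero_pow (pow_ne_zero _ hp.out.ne_zero)
      map_add' := fun x y => add_pow_pn hP.p_zero e x y }
  have hmem : ∀ x, x ∈ Ideal.span (Set.range y) ↔
      x ^ p ^ e ∈ Ideal.span (Set.range fun j => y j ^ p ^ e) := by
    intro x
    rw [Ideal.mem_span_range_iff_exists_fun, Ideal.mem_span_range_iff_exists_fun]
    constructor
    · rintro ⟨c, rfl⟩
      refine ⟨fun j => c j ^ p ^ e, ?_⟩
      rw [sum_pow_pn hP.p_zero]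
      exact Finset.sum_congr rfl fun j _ => (mul_pow _ _ _).symm
    · rintro ⟨c, hc⟩
      refine ⟨fun j => hP.rtn e (c j), ?_⟩
      apply hP.pow_pn_inj (n := e)
      rw [sum_pow_pn hP.p_zero, ← hc]
      exact Finset.sum_congr rfl fun j _ => by rw [mul_pow, hP.rtn_pow]
  let f : (P ⧸ Ideal.span (Set.range y)) →+ (P ⧸ Ideal.span (Set.range fun j => y j ^ p ^ e)) :=
    QuotientAddGroup.map _ _ f0 (fun x hx => (hmem x).1 hx)
  have hfmk : ∀ x, f (Submodule.Quotient.mk x) = Submodule.Quotient.mk (f0 x) := fun x => rfl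
  have hbij : Bijective f := by
    constructor
    · rw [injective_iff_map_eq_zero]
      intro x hx
      obtain ⟨x, rfl⟩ := Submodule.Quotient.mk_surjective _ x
      rw [hfmk, Submodule.Quotient.mk_eq_zero] at hx
      rw [Submodule.Quotient.mk_eq_zero]
      exact (hmem x).2 hx
    · intro z
      obtain ⟨z, rfl⟩ := Submodule.Quotient.mk_surjective _ z
      refine ⟨Submodule.Quotient.mk (hP.rtn e z), ?_⟩
      rw [hfmk]
      exact congrArg _ (hP.rtn_pow e z)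
  refine h.iter hP e _ _ (AddEquiv.ofBijective f hbij) ?_
  intro a x
  obtain ⟨x, rfl⟩ := Submodule.Quotient.mk_surjective _ x
  rw [AddEquiv.ofBijective_apply, AddEquiv.ofBijective_apply, ← Submodule.Quotient.mk_smul, hfmk,
    hfmk, ← Submodule.Quotient.mk_smul]
  exact congrArg _ (mul_pow a x (p ^ e))

theorem L_quot_pow_ne_top (hP : IsPerf p P) {Λ : AddLen.{u, u} P} {D : ℕ} (h : Frob Λ p D)
    {κ : Type*} [Fintype κ] (y : κ → P) (hy : Λ.L (P ⧸ Ideal.span (Set.range y)) ≠ ⊤) (m : ℕ) :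
    Λ.L (P ⧸ Ideal.span (Set.range fun j => y j ^ m)) ≠ ⊤ := by
  have h1 := L_quot_pow_q hP h y m
  have h2 : Ideal.span (Set.range fun j => y j ^ p ^ m) ≤
      Ideal.span (Set.range fun j => y j ^ m) := by
    rw [Ideal.span_le]
    rintro _ ⟨j, rfl⟩
    have h3 : m ≤ p ^ m := (Nat.lt_pow_self hp.out.one_lt).le
    obtain ⟨c, hc⟩ := pow_dvd_pow (y j) h3
    show y j ^ p ^ m ∈ _
    rw [hc]
    exact Ideal.mul_mem_right _ _ (Ideal.subset_span ⟨j, rfl⟩)
  refine ne_top_of_le_ne_top ?_ (Λ.L_le_of_surjective (Submodule.factor h2)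
    (Submodule.factor_surjective h2))
  rw [h1]
  exact ENNReal.mul_ne_top (ENNReal.pow_ne_top (ENNReal.natCast_ne_top p)) hy

end finpow

section main

variable {p : ℕ} [hp : Fact p.Prime] {P : Type u} [CommRing P] (hP : IsPerf p P)

local notation "𝕎" => WittVector p
local notation "τ" => WittVector.teichmuller p

/-- the null criterion for the roots of `h`. -/
def NullAt (Λ : AddLen.{u, u} (𝕎 P)) {κ : Type*} (y : κ → P) (h : P) : Prop :=
  ∀ (X : Type u) [AddCommGroup X] [Module (𝕎 P) X],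
    (∀ x : X, ∃ N : ℕ, (p : 𝕎 P) ^ N • x = 0 ∧ ∀ i, τ (y i) ^ N • x = 0) →
    (∀ (n : ℕ) (x : X), τ (hP.rtn n h) • x = 0) → Λ.L X = 0

variable {hP}

/-- the criterion for `P`-modules -/
theorem NullAt.forP {Λ : AddLen.{u, u} (𝕎 P)} {κ : Type*} {y : κ → P} {h : P}
    (hn : NullAt hP Λ y h) (X : Type u) [AddCommGroup X] [Module P X]
    (h1 : ∀ x : X, ∃ N : ℕ, ∀ i, y i ^ N • x = 0)
    (h2 : ∀ (n : ℕ) (x : X), hP.rtn n h • x = 0) :
    (Λ.restrict (constantCoeff : 𝕎 P →+* P)).L X = 0 := by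
  let _ : Module (𝕎 P) X := Module.compHom X (constantCoeff : 𝕎 P →+* P)
  have hsm : ∀ (a : 𝕎 P) (x : X), a • x = (constantCoeff a : P) • x := fun _ _ => rfl
  have hτ : ∀ a : P, (constantCoeff (τ a) : P) = a := fun a => teichmuller_coeff_zero p a
  rw [Λ.restrict_L _ X hsm]
  refine hn X (fun x => ?_) (fun n x => ?_)
  · obtain ⟨N, hN⟩ := h1 x
    refine ⟨N + 1, ?_, fun i => ?_⟩
    · rw [hsm, map_pow, map_natCast, hP.p_zero, zero_pow (Nat.succ_ne_zero N), zero_smul]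
    · rw [hsm, map_pow, hτ, pow_succ', mul_smul, hN, smul_zero]
  · rw [hsm, hτ]
    exact h2 n x

theorem NullAt.mul_right {Λ : AddLen.{u, u} (𝕎 P)} {κ : Type*} {y : κ → P} {h : P}
    (hn : NullAt hP Λ y h) {X : Type u} [AddCommGroup X] [Module (𝕎 P) X]
    (h1 : ∀ x : X, ∃ N : ℕ, (p : 𝕎 P) ^ N • x = 0 ∧ ∀ i, τ (y i) ^ N • x = 0) (k : ℕ)
    (h2 : ∀ (n : ℕ) (x : X), τ (hP.rtn n (h ^ k)) • x = 0) : Λ.L X = 0 := by
  refine hn X h1 fun n x => ?_
  have h3 : hP.rtn n h = hP.rtn (n + k) h ^ (p ^ k - k) * hP.rtn (n + k) (h ^ k) := by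
    rw [hP.rtn_pow_comm, ← pow_add, Nat.sub_add_cancel (Nat.lt_pow_self hp.out.one_lt).le,
      hP.rtn_add_pow]
  rw [h3, map_mul, mul_smul, h2, smul_zero]

theorem exists_small_P {Λ : AddLen.{u, u} (𝕎 P)} (hcont : Cont Λ) {κ : Type*}
    {y : κ → P} {h : P} (hn : NullAt hP Λ y h) {m : ℕ}
    (hfin : (Λ.restrict (constantCoeff : 𝕎 P →+* P)).L
      (P ⧸ Ideal.span (Set.range fun j => y j ^ m)) ≠ ⊤) (e0 : ℕ) (ε : ℝ≥0∞) (hε : 0 < ε) :
    ∃ n, (Λ.restrict (constantCoeff : 𝕎 P →+* P)).L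
      (P ⧸ (Ideal.span (Set.range fun j => y j ^ m) ⊔ Ideal.span {hP.rtn (n + e0) h})) ≤ ε := by
  set 𝔶 : Ideal P := Ideal.span (Set.range fun j => y j ^ m) with h𝔶
  set L := Λ.restrict (constantCoeff : 𝕎 P →+* P) with hL
  have hcL : Cont L := LenW.cont_restrict Λ hcont _
  have hd : ∀ n, hP.rtn (n + 1 + e0) h ∣ hP.rtn (n + e0) h := by
    intro n
    have : n + 1 + e0 = (n + e0) + 1 := by ring
    rw [this, ← hP.rtn_succ_pow (n + e0)]
    exact dvd_pow_self _ hp.out.ne_zero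
  have hnul : L.L ((P ⧸ 𝔶) ⧸ (⨆ n, LinearMap.range (mulL (P ⧸ 𝔶) (hP.rtn (n + e0) h)))) = 0 := by
    refine hn.forP _ (fun x => ⟨m, fun i => ?_⟩) (fun n x => ?_)
    · obtain ⟨x, rfl⟩ := Submodule.Quotient.mk_surjective _ x
      obtain ⟨x, rfl⟩ := Submodule.Quotient.mk_surjective _ x
      rw [← Submodule.Quotient.mk_smul, ← Submodule.Quotient.mk_smul]
      have : (Submodule.Quotient.mk (y i ^ m • x) : P ⧸ 𝔶) = 0 := by
        rw [Submodule.Quotient.mk_eq_zero, smul_eq_mul]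
        exact Ideal.mul_mem_right _ _ (Ideal.subset_span ⟨i, rfl⟩)
      rw [this, Submodule.Quotient.mk_zero]
    · obtain ⟨x, rfl⟩ := Submodule.Quotient.mk_surjective _ x
      rw [← Submodule.Quotient.mk_smul, Submodule.Quotient.mk_eq_zero]
      refine Submodule.mem_iSup_of_mem n ?_
      have h3 : hP.rtn n h = hP.rtn (n + e0) h ^ p ^ e0 := (hP.rtn_add_pow n e0 h).symm
      obtain ⟨c, hc⟩ : hP.rtn (n + e0) h ∣ hP.rtn n h := by
        rw [h3]; exact dvd_pow_self _ (pow_ne_zero _ hp.out.ne_zero)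
      refine ⟨c • x, ?_⟩
      show hP.rtn (n + e0) h • c • x = hP.rtn n h • x
      rw [smul_smul, ← hc]
  obtain ⟨n, hn'⟩ := exists_small L (X := P ⧸ 𝔶) hcL hfin (fun n => hP.rtn (n + e0) h) hd hnul ε hε
  set G : Ideal P := Ideal.span {hP.rtn (n + e0) h} with hG
  let fac : (P ⧸ 𝔶) →ₗ[P] (P ⧸ (𝔶 ⊔ G)) := Submodule.factor le_sup_left
  have hfac : ∀ x : P, fac (Submodule.Quotient.mk x) = Submodule.Quotient.mk x := fun _ => rfl
  have hker : LinearMap.range (mulL (P ⧸ 𝔶) (hP.rtn (n + e0) h)) ≤ LinearMap.ker fac := by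
    rintro _ ⟨x, rfl⟩
    obtain ⟨x, rfl⟩ := Submodule.Quotient.mk_surjective _ x
    rw [LinearMap.mem_ker]
    have h3 : mulL (P ⧸ 𝔶) (hP.rtn (n + e0) h) (Submodule.Quotient.mk x) =
        Submodule.Quotient.mk (hP.rtn (n + e0) h * x) := rfl
    rw [h3, hfac, Submodule.Quotient.mk_eq_zero]
    exact Submodule.mem_sup_right
      (Ideal.mul_mem_right _ _ (Ideal.mem_span_singleton_self _))
  refine ⟨n, le_trans (L.L_le_of_surjective (Submodule.liftQ _ fac hker) ?_) hn'⟩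
  intro z
  obtain ⟨z, rfl⟩ := Submodule.Quotient.mk_surjective _ z
  exact ⟨Submodule.Quotient.mk (Submodule.Quotient.mk z), rfl⟩

/-- **FIN**. -/
theorem fin_bound {Λ : AddLen.{u, u} (𝕎 P)} (hcont : Cont Λ) {ξ : 𝕎 P} {π : P}
    (hξ : IsDist ξ π) (F : Fam p P) {D : ℕ}
    (hfrob : Frob (Λ.restrict (constantCoeff : 𝕎 P →+* P)) p D) {κ : Type*} [Fintype κ]
    (y : κ → P) (hy : ∀ j, y j ∈ F.I 0 1) (hπ : π ∈ F.I 0 1)
    (hfin : (Λ.restrict (constantCoeff : 𝕎 P →+* P)).L (P ⧸ Ideal.span (Set.range y)) ≠ ⊤)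
    {s : ℕ} (hs : 1 ≤ s) {h : P} (hh : h ∈ F.I s 0) (hnull : NullAt hP Λ y h) (C : ℝ≥0∞)
    (hcount : ∀ t M : ℕ, s ≤ t → (Λ.restrict (θ ξ)).L (↥(JI hP ξ (F.I t 0)) ⧸
      (JI hP ξ (F.I t 0) ⊓ JI hP ξ (F.I (t - s) M)).submoduleOf (JI hP ξ (F.I t 0))) ≤
      C * ((t + M + 1 : ℕ) : ℝ≥0∞) ^ D) {t : ℕ} (ht : 1 ≤ t) (m : ℕ) :
    (Λ.restrict (constantCoeff : 𝕎 P →+* P)).L
      (↥(F.I t 0) ⧸ (F.I t m).submoduleOf (F.I t 0)) ≤ C * ((t + m + 1 : ℕ) : ℝ≥0∞) ^ D := by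
  set L := Λ.restrict (constantCoeff : 𝕎 P →+* P) with hL
  have hcL : Cont L := LenW.cont_restrict Λ hcont _
  have hym : ∀ (M a : ℕ) (j : κ), ∀ x ∈ F.I a 0, y j ^ M * x ∈ F.I a M := by
    intro M a j x hx
    have h1 := F.smul_mem (F.pow (hy j) M |> fun h => by rwa [mul_zero, mul_one] at h) hx
    rwa [add_zero] at h1
  have hπm : ∀ (M a : ℕ), ∀ x ∈ F.I a 0, π ^ M * x ∈ F.I a M := by
    intro M a x hx
    have h1 := F.smul_mem (F.pow hπ M |> fun h => by rwa [mul_zero, mul_one] at h) hx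
    rwa [add_zero] at h1
  have hqs : ∀ e : ℕ, s ≤ p ^ (e + s) * t := by
    intro e
    calc s ≤ p ^ s := (Nat.lt_pow_self hp.out.one_lt).le
      _ ≤ p ^ (e + s) := Nat.pow_le_pow_right hp.out.pos (by omega)
      _ ≤ p ^ (e + s) * t := Nat.le_mul_of_pos_right _ ht
  set X := ↥(F.I t 0) ⧸ (F.I t m).submoduleOf (F.I t 0) with hX
  have hle : ∀ e, (F.I t m).submoduleOf (F.I t 0) ≤ F.Kq hP s (e + s) t m := by
    intro e x hx
    rw [Fam.mem_Kq]
    exact F.anti (Nat.sub_le _ _) le_rfl (F.pow (show (x : P) ∈ F.I t m from hx) (p ^ (e + s)))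
  refine L_le_of_almost L hcL (Ideal.span (Set.range fun j => y j ^ m)) ?_
    (L_quot_pow_ne_top hP hfrob y hfin m) (fun e : ℕ => hP.rtn (e + s) h)
    (fun e => (F.Kq hP s (e + s) t m).map ((F.I t m).submoduleOf (F.I t 0)).mkQ) ?_ _ ?_
    (exists_small_P hcont hnull (L_quot_pow_ne_top hP hfrob y hfin m) s)
  · -- `X` is killed by `(y_j^m)`
    intro a ha x
    obtain ⟨x, rfl⟩ := Submodule.Quotient.mk_surjective _ x
    rw [← Submodule.Quotient.mk_smul, Submodule.Quotient.mk_eq_zero]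
    show a * (x : P) ∈ F.I t m
    refine Submodule.span_induction (p := fun a _ => a * (x : P) ∈ F.I t m) ?_ ?_ ?_ ?_ ha
    · rintro _ ⟨j, rfl⟩
      exact hym m t j _ x.2
    · rw [zero_mul]; exact zero_mem _
    · intro a b _ _ ha hb
      rw [add_mul]; exact add_mem ha hb
    · intro a b _ hb
      rw [smul_eq_mul, mul_assoc]; exact Ideal.mul_mem_left _ _ hb
  · -- `K_q` is killed by `h_q`
    rintro e _ ⟨x, hx, rfl⟩
    rw [SetLike.mem_coe, Fam.mem_Kq] at hx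
    rw [Submodule.mkQ_apply, ← Submodule.Quotient.mk_smul, Submodule.Quotient.mk_eq_zero]
    show hP.rtn (e + s) h * (x : P) ∈ F.I t m
    apply F.root_pow (e + s)
    rw [mul_pow, hP.rtn_pow]
    have h1 := F.mul hh hx
    rwa [Nat.add_sub_cancel' (hqs e), zero_add] at h1
  · -- the count
    intro e
    have h1 : L.L (X ⧸ (F.Kq hP s (e + s) t m).map ((F.I t m).submoduleOf (F.I t 0)).mkQ) =
        L.L (↥(F.I t 0) ⧸ F.Kq hP s (e + s) t m) :=
      L.L_congr (Submodule.quotientQuotientEquivQuotient _ _ (hle e))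
    rw [h1]
    have h2 := F.L_Kq hP hfrob s (e + s) t m
    set q := p ^ (e + s) with hq
    have h3 : L.L (↥(F.I (q * t) 0) ⧸ (F.I (q * t) 0 ⊓
        F.I (q * t - s) (q * m)).submoduleOf (F.I (q * t) 0)) ≤
        C * ((q * t + q * m + 1 : ℕ) : ℝ≥0∞) ^ D := by
      have hmem : h ^ (q * t) ∈ F.I (q * t - s) 0 := by
        have := F.pow hh (q * t)
        rw [mul_zero] at this
        refine F.anti ?_ le_rfl this
        exact (Nat.sub_le _ _).trans (Nat.le_mul_of_pos_right _ hs)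
      rw [transfer hP Λ hξ (M := q * m) (F.convex _ _) (F.convex _ _) (F.convex (q * t - s) 0)
        (F.anti (Nat.sub_le _ _) le_rfl) (F.anti le_rfl (Nat.zero_le _))
        (fun x hx => hπm _ _ x hx) hmem y
        (fun j x hx => F.anti (Nat.sub_le _ _) le_rfl (hym (q * m) (q * t) j x hx))
        (fun X _ _ h4 h5 h6 => hnull.mul_right (fun x => ⟨q * m, h4 x, fun i => h5 i x⟩) (q * t)
          h6)]
      exact hcount _ _ (hqs e)
    have hq0 : (p : ℝ≥0∞) ^ (D * (e + s)) ≠ 0 :=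
      pow_ne_zero _ (by exact_mod_cast hp.out.ne_zero)
    have hqt : (p : ℝ≥0∞) ^ (D * (e + s)) ≠ ⊤ := ENNReal.pow_ne_top (ENNReal.natCast_ne_top p)
    rw [← ENNReal.mul_le_mul_iff_right hq0 hqt, ← h2]
    refine h3.trans ?_
    have h4 : ((q * t + q * m + 1 : ℕ) : ℝ≥0∞) ^ D ≤
        (p : ℝ≥0∞) ^ (D * (e + s)) * ((t + m + 1 : ℕ) : ℝ≥0∞) ^ D := by
      have hq1 : 1 ≤ q := Nat.one_le_pow _ _ hp.out.pos
      have h5 : q * t + q * m + 1 ≤ q * (t + m + 1) := by nlinarith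
      calc ((q * t + q * m + 1 : ℕ) : ℝ≥0∞) ^ D ≤ ((q * (t + m + 1) : ℕ) : ℝ≥0∞) ^ D := by
            gcongr
        _ = _ := by
            rw [Nat.cast_mul, mul_pow, hq]
            push_cast
            rw [← pow_mul, mul_comm (e + s) D]
    calc C * ((q * t + q * m + 1 : ℕ) : ℝ≥0∞) ^ D
        ≤ C * ((p : ℝ≥0∞) ^ (D * (e + s)) * ((t + m + 1 : ℕ) : ℝ≥0∞) ^ D) := by gcongr
      _ = _ := by ring

end main

end Crest.Agent.R188.FinA
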