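import Crest.Agent.R188.FinA3

/-!
# R188, block FINA (helper414), part 4: Skoda for `W~` and `J`; the count from the Hilbert bound
-/

set_option autoImplicit false
set_option linter.unusedSectionVars false
set_option linter.style.haveILetI false

namespace Crest.Agent.R188.FinA

open scoped ENNReal Pointwise
open WittVector Function Crest.Agent.R188.Prf Crest.Agent.R188.Wit Crest.Agent.R183
open Crest.Agent.R183.Digit (Convex)

universe u

variable {p : ℕ} [hp : Fact p.Prime] {P : Type u} [CommRing P] (hP : IsPerf p P)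

local notation "𝕎" => WittVector p
local notation "τ" => WittVector.teichmuller p

section WImul

include hP

theorem WI_mul {I I' I'' : Ideal P} (hI : Convex p I)
    (h : ∀ x ∈ I, ∀ y ∈ I', x * y ∈ I'') {x y : 𝕎 P} (hx : x ∈ WI hP.p_zero I)
    (hy : y ∈ WI hP.p_zero I') : x * y ∈ WI hP.p_zero I'' := by
  apply WI_closed hP
  intro n
  induction n generalizing x with
  | zero => exact ⟨0, zero_mem _, by simp⟩
  | succ n ih =>
    obtain ⟨x', hx', hxe⟩ := WI_exists_eq_teich_add hP hI hx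
    obtain ⟨z', hz', w, hw⟩ := ih hx'
    refine ⟨τ (x.coeff 0) * y + (p : 𝕎 P) * z', add_mem
      (teich_mul_mem_WI (fun y' hy' => h _ (coeff_zero_mem_of_WI hx) y' hy') hy)
      (Ideal.mul_mem_left _ _ hz'), w, ?_⟩
    nth_rewrite 1 [hxe]
    rw [pow_succ']
    linear_combination (p : 𝕎 P) * hw

lemma cpl_W : Cpl (p : 𝕎 P) (𝕎 P) := by
  haveI := isAdicComplete hP
  exact cpl_of_isPrecomplete

lemma sep_W : Sep (p : 𝕎 P) (𝕎 P) := by
  intro x hx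
  apply eq_zero_of_forall_dvd hP
  intro n
  obtain ⟨y, hy⟩ := hx n
  exact ⟨y, hy⟩

lemma cpl_WI {I : Ideal P} (hI : Convex p I) : Cpl (p : 𝕎 P) ↥(WI hP.p_zero I) := by
  apply Cpl.submodule (cpl_W hP)
  · intro x hx
    apply WI_closed hP
    intro n
    obtain ⟨y, hy, z, hz⟩ := hx n
    exact ⟨y, hy, z, by rw [hz, smul_eq_mul]; ring⟩
  · intro k z hz
    exact ⟨z, WI_of_p_pow_mul_mem hP hI hz, rfl⟩

lemma sep_WI (I : Ideal P) : Sep (p : 𝕎 P) ↥(WI hP.p_zero I) :=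
  Sep.sub (f := (WI hP.p_zero I).subtype) (Submodule.injective_subtype _) (sep_W hP)

/-- Skoda for `W~`. -/
theorem WI_skoda {ι : Type} [Fintype ι] (c : ι → P) {I I' : Ideal P} (hI : Convex p I)
    (hI' : Convex p I') (hmul : ∀ i, ∀ x ∈ I', c i * x ∈ I)
    (h : ∀ x ∈ I, ∃ a : ι → P, (∀ i, a i ∈ I') ∧ x = ∑ i, c i * a i) {x : 𝕎 P}
    (hx : x ∈ WI hP.p_zero I) :
    ∃ b : ι → 𝕎 P, (∀ i, b i ∈ WI hP.p_zero I') ∧ x = ∑ i, τ (c i) * b i := by
  let f : (ι → ↥(WI hP.p_zero I')) →ₗ[𝕎 P] ↥(WI hP.p_zero I) :=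
    LinearMap.codRestrict _ (∑ i, (LinearMap.mulLeft (𝕎 P) (τ (c i))) ∘ₗ
      (WI hP.p_zero I').subtype ∘ₗ LinearMap.proj i) (by
        intro b
        rw [LinearMap.sum_apply]
        refine sum_mem fun i _ => ?_
        exact teich_mul_mem_WI (hmul i) (b i).2)
  have hf : ∀ b, (f b : 𝕎 P) = ∑ i, τ (c i) * (b i : 𝕎 P) := by
    intro b
    show (∑ i, (LinearMap.mulLeft (𝕎 P) (τ (c i))) ∘ₗ
      (WI hP.p_zero I').subtype ∘ₗ LinearMap.proj i) b = _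
    rw [LinearMap.sum_apply]
    rfl
  have hsurj : Surjective f := by
    refine surjective_of_mod (a := (p : 𝕎 P)) (Cpl.pi (cpl_WI hP hI')) (sep_WI hP I) ?_
    rintro ⟨x, hx⟩
    obtain ⟨a, ha, hxa⟩ := h _ (coeff_zero_mem_of_WI hx)
    have h1 : x - (f fun i => ⟨τ (a i), teich_mem_WI (ha i)⟩ : 𝕎 P) ∈ WI hP.p_zero I :=
      sub_mem hx (f _).2
    have h2 : (p : 𝕎 P) ∣ x - (f fun i => ⟨τ (a i), teich_mem_WI (ha i)⟩ : 𝕎 P) := by
      rw [p_dvd_iff hP, hf]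
      have h3 : constantCoeff (x - ∑ i, τ (c i) * τ (a i)) = 0 := by
        rw [map_sub, map_sum]
        have h4 : ∀ i, constantCoeff (τ (c i) * τ (a i)) = c i * a i := by
          intro i
          rw [← map_mul]
          exact teichmuller_coeff_zero p _
        rw [Finset.sum_congr rfl fun i _ => h4 i, ← hxa]
        exact sub_self _
      exact h3
    obtain ⟨n', hn'⟩ := h2
    refine ⟨fun i => ⟨τ (a i), teich_mem_WI (ha i)⟩, ⟨n', ?_⟩, Subtype.ext ?_⟩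
    · apply WI_of_p_mul_mem hP hI
      rw [← hn']
      exact h1
    · show x = (f _ : 𝕎 P) + (p : 𝕎 P) * n'
      rw [← hn']; ring
  obtain ⟨b, hb⟩ := hsurj ⟨x, hx⟩
  refine ⟨fun i => b i, fun i => (b i).2, ?_⟩
  rw [← hf, hb]

end WImul

section JI

variable {hP}
variable {ξ : WittVector p P}

lemma sh_mem_JI {I : Ideal P} {a : P} (ha : a ∈ I) : sh ξ a ∈ JI hP ξ I :=
  Ideal.mem_map_of_mem _ (teich_mem_WI ha)

lemma JI_mono {I I' : Ideal P} (h : I ≤ I') : JI hP ξ I ≤ JI hP ξ I' :=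
  Ideal.map_mono (WI_mono h)

lemma JI_mul {I I' I'' : Ideal P} (hI : Convex p I) (h : ∀ x ∈ I, ∀ y ∈ I', x * y ∈ I'')
    {a b : Om ξ} (ha : a ∈ JI hP ξ I) (hb : b ∈ JI hP ξ I') : a * b ∈ JI hP ξ I'' := by
  obtain ⟨x, hx, rfl⟩ := mem_JI.1 ha
  obtain ⟨y, hy, rfl⟩ := mem_JI.1 hb
  exact mem_JI.2 ⟨x * y, WI_mul hP hI h hx hy, map_mul _ _ _⟩

theorem JI_skoda {ι : Type} [Fintype ι] (c : ι → P) {I I' : Ideal P} (hI : Convex p I)
    (hI' : Convex p I') (hmul : ∀ i, ∀ x ∈ I', c i * x ∈ I)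
    (h : ∀ x ∈ I, ∃ a : ι → P, (∀ i, a i ∈ I') ∧ x = ∑ i, c i * a i) :
    JI hP ξ I ≤ Ideal.span (Set.range fun i => sh ξ (c i)) * JI hP ξ I' := by
  intro x hx
  obtain ⟨w, hw, rfl⟩ := mem_JI.1 hx
  obtain ⟨b, hb, rfl⟩ := WI_skoda hP c hI hI' hmul h hw
  rw [map_sum]
  refine sum_mem fun i _ => ?_
  rw [map_mul]
  exact Ideal.mul_mem_mul (Ideal.subset_span ⟨i, rfl⟩) (Ideal.mem_map_of_mem _ (hb i))

variable (F : Fam p P)

lemma Fam.JI_pow (a b n : ℕ) : JI hP ξ (F.I a b) ^ n ≤ JI hP ξ (F.I (n * a) (n * b)) := by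
  induction n with
  | zero =>
    rw [zero_mul, zero_mul, F.top]
    have : JI hP ξ (⊤ : Ideal P) = ⊤ := by
      have h1 : (1 : 𝕎 P) ∈ WI hP.p_zero (⊤ : Ideal P) := by rw [WI_top]; trivial
      have h2 := Ideal.mem_map_of_mem (θ ξ) h1
      rw [map_one] at h2
      exact (Ideal.eq_top_iff_one _).2 h2
    rw [this]
    exact le_top
  | succ n ih =>
    rw [pow_succ, add_mul, add_mul, one_mul, one_mul]
    refine (Ideal.mul_mono ih le_rfl).trans ?_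
    rw [Ideal.mul_le]
    intro x hx y hy
    exact JI_mul (F.convex _ _) (fun x hx y hy => F.mul hx hy) hx hy

/-- the Skoda property of the first index. -/
def Fam.Skoda {ι : Type} [Fintype ι] (c : ι → P) (s : ℕ) : Prop :=
  ∀ n, s ≤ n → ∀ x ∈ F.I (n + 1) 0, ∃ a : ι → P, (∀ i, a i ∈ F.I n 0) ∧ x = ∑ i, c i * a i

theorem Fam.JI_le_pow {ι : Type} [Fintype ι] {c : ι → P} {s : ℕ} (hS : F.Skoda c s)
    (hc : ∀ i, c i ∈ F.I 1 0) (n : ℕ) :
    JI hP ξ (F.I (s + n) 0) ≤ Ideal.span (Set.range fun i => sh ξ (c i)) ^ n := by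
  induction n with
  | zero => rw [pow_zero, Ideal.one_eq_top]; exact le_top
  | succ n ih =>
    rw [← add_assoc, pow_succ']
    refine (JI_skoda c (F.convex _ _) (F.convex _ _) ?_ (hS (s + n) (Nat.le_add_right s n))).trans
      (Ideal.mul_mono le_rfl ih)
    intro i x hx
    have := F.mul (hc i) hx
    rwa [add_zero, add_comm 1] at this

/-- **the count** from the Hilbert bound. -/
theorem Fam.count {Λ : AddLen.{u, u} (𝕎 P)} {ι : Type} [Fintype ι] {c : ι → P} {s : ℕ}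
    (hS : F.Skoda c s) (hc : ∀ i, c i ∈ F.I 1 0)
    {B : Type*} [CommRing B] [IsLocalRing B] {N : Type u} [CommRing N] [Algebra B N]
    (ψ : N →+* Om ξ) (𝔠 𝔶 : Ideal N) (h1 : ∀ i, sh ξ (c i) ∈ 𝔠.map ψ)
    (h2 : ∀ x ∈ 𝔠, ψ x ∈ JI hP ξ (F.I 1 0)) (h3 : ∀ x ∈ 𝔶, ψ x ∈ JI hP ξ (F.I 0 1)) {C D : ℕ}
    (hHB : ∀ n M : ℕ, Module.length B (↥(𝔠 ^ n) ⧸ (𝔶 ^ M • ⊤ : Submodule N ↥(𝔠 ^ n))) ≤
      C * ((n + M + 1 : ℕ) : ℕ∞) ^ D) (t M : ℕ) (ht : s ≤ t) :
    (Λ.restrict (θ ξ)).L (↥(JI hP ξ (F.I t 0)) ⧸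
      (JI hP ξ (F.I t 0) ⊓ JI hP ξ (F.I (t - s) M)).submoduleOf (JI hP ξ (F.I t 0))) ≤
      (C * (Λ.restrict (θ ξ)).L (Om ξ ⧸ (IsLocalRing.maximalIdeal B).map
        (ψ.comp (algebraMap B N)))) * ((t + M + 1 : ℕ) : ℝ≥0∞) ^ D := by
  obtain ⟨n, rfl⟩ := Nat.exists_eq_add_of_le ht
  rw [Nat.add_sub_cancel_left]
  set J := JI hP ξ (F.I (s + n) 0) with hJ
  set J' := JI hP ξ (F.I n M) with hJ'
  set Q : Ideal (Om ξ) := (𝔠 ^ n).map ψ with hQ
  have hJQ : J ≤ Q := by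
    rw [hQ, Ideal.map_pow]
    refine (F.JI_le_pow hS hc n).trans (Ideal.pow_right_mono ?_ n)
    rw [Ideal.span_le]
    rintro _ ⟨i, rfl⟩
    exact h1 i
  have hyM : ∀ r ∈ 𝔶 ^ M, ψ r ∈ JI hP ξ (F.I 0 M) := by
    intro r hr
    have e1 : ψ r ∈ (𝔶.map ψ) ^ M := by
      rw [← Ideal.map_pow]; exact Ideal.mem_map_of_mem _ hr
    have e2 : 𝔶.map ψ ≤ JI hP ξ (F.I 0 1) := by
      rw [Ideal.map_le_iff_le_comap]; exact h3
    have e3 := F.JI_pow (hP := hP) (ξ := ξ) 0 1 M (Ideal.pow_right_mono e2 M e1)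
    rwa [mul_zero, mul_one] at e3
  have hcn : ∀ z ∈ 𝔠 ^ n, ψ z ∈ JI hP ξ (F.I n 0) := by
    intro z hz
    have e1 : ψ z ∈ (𝔠.map ψ) ^ n := by
      rw [← Ideal.map_pow]; exact Ideal.mem_map_of_mem _ hz
    have e2 : 𝔠.map ψ ≤ JI hP ξ (F.I 1 0) := by
      rw [Ideal.map_le_iff_le_comap]; exact h2
    have e3 := F.JI_pow (hP := hP) (ξ := ξ) 1 0 n (Ideal.pow_right_mono e2 n e1)
    rwa [mul_zero, mul_one] at e3
  -- the additive map
  let f0 : ↥(𝔠 ^ n) →+ ↥Q :=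
    { toFun := fun z => ⟨ψ z, Ideal.mem_map_of_mem _ z.2⟩
      map_zero' := Subtype.ext (map_zero _)
      map_add' := fun a b => Subtype.ext (map_add _ _ _) }
  have hf0 : ∀ z ∈ (𝔶 ^ M • ⊤ : Submodule N ↥(𝔠 ^ n)), f0 z ∈ J'.submoduleOf Q := by
    intro z hz
    refine Submodule.smul_induction_on (p := fun z => f0 z ∈ J'.submoduleOf Q) hz ?_ ?_
    · intro r hr z _
      show ψ (r * (z : N)) ∈ J'
      rw [map_mul]
      refine JI_mul (F.convex 0 M) (fun x hx y hy => ?_) (hyM r hr) (hcn z z.2)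
      have := F.mul hx hy
      rwa [zero_add, add_zero] at this
    · intro x y hx hy
      rw [map_add]; exact add_mem hx hy
  let f : (↥(𝔠 ^ n) ⧸ (𝔶 ^ M • ⊤ : Submodule N ↥(𝔠 ^ n))) →+ (↥Q ⧸ J'.submoduleOf Q) :=
    QuotientAddGroup.map _ _ f0 hf0
  have hfmk : ∀ x, f (Submodule.Quotient.mk x) = Submodule.Quotient.mk (f0 x) := fun x => rfl
  have hlen : (Λ.restrict (θ ξ)).L (↥Q ⧸ J'.submoduleOf Q) ≤
      ((C * (n + M + 1) ^ D : ℕ) : ℝ≥0∞) * (Λ.restrict (θ ξ)).L (Om ξ ⧸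
        (IsLocalRing.maximalIdeal B).map (ψ.comp (algebraMap B N))) := by
    refine L_le_length_mul (Λ.restrict (θ ξ)) (ψ.comp (algebraMap B N)) f ?_ ?_ ?_
    · intro r z
      obtain ⟨z, rfl⟩ := Submodule.Quotient.mk_surjective _ z
      rw [← Submodule.Quotient.mk_smul, hfmk, hfmk, ← Submodule.Quotient.mk_smul]
      refine congrArg _ (Subtype.ext ?_)
      show ψ ((r • z : ↥(𝔠 ^ n)) : N) = ψ (algebraMap B N r) * ψ z
      rw [← map_mul, ← Algebra.smul_def]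
      rfl
    · rw [eq_top_iff]
      rintro w _
      obtain ⟨⟨w, hw⟩, rfl⟩ := Submodule.Quotient.mk_surjective _ w
      let T : Ideal (Om ξ) := ((Submodule.span (Om ξ) (Set.range f)).comap
        (J'.submoduleOf Q).mkQ).map Q.subtype
      have hQT : Q ≤ T := by
        refine Ideal.span_le.2 ?_
        rintro _ ⟨z, hz, rfl⟩
        exact ⟨⟨ψ z, Ideal.mem_map_of_mem _ hz⟩,
          Submodule.subset_span ⟨Submodule.Quotient.mk ⟨z, hz⟩, rfl⟩, rfl⟩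
      obtain ⟨⟨w', hw'⟩, h5, h6⟩ := hQT hw
      have h7 : w' = w := h6
      subst h7
      exact h5
    · refine (hHB n M).trans ?_
      push_cast
      exact le_rfl
  have hinj : (Λ.restrict (θ ξ)).L (↥J ⧸ (J ⊓ J').submoduleOf J) ≤
      (Λ.restrict (θ ξ)).L (↥Q ⧸ J'.submoduleOf Q) := by
    have hcond : (J ⊓ J').submoduleOf J ≤
        (J'.submoduleOf Q).comap (Submodule.inclusion hJQ) := by
      intro x hx
      have hx' : (x : Om ξ) ∈ J ⊓ J' := hx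
      exact hx'.2
    refine (Λ.restrict (θ ξ)).L_le_of_injective
      (Submodule.mapQ _ _ (Submodule.inclusion hJQ) hcond) ?_
    rw [injective_iff_map_eq_zero]
    intro x hx
    obtain ⟨x, rfl⟩ := Submodule.Quotient.mk_surjective _ x
    rw [Submodule.mapQ_apply, Submodule.Quotient.mk_eq_zero] at hx
    rw [Submodule.Quotient.mk_eq_zero]
    exact ⟨x.2, hx⟩
  refine hinj.trans (hlen.trans ?_)
  have h4 : ((C * (n + M + 1) ^ D : ℕ) : ℝ≥0∞) ≤ C * ((s + n + M + 1 : ℕ) : ℝ≥0∞) ^ D := by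
    rw [Nat.cast_mul, Nat.cast_pow]
    gcongr
    omega
  refine (mul_le_mul_left h4 _).trans_eq ?_
  ring

end JI

end Crest.Agent.R188.FinA
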