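/-
R188, block (I): perfect complexes over a local ring with finite length homology.
Part 1: shifts of matrix complexes, maps `K[m] → F` lifting a socle element of `H_m(F)`, cones.
helper111
-/
import Crest.Agent.R188.ChiReg

set_option autoImplicit false
set_option linter.unusedSectionVars false

namespace Crest.Agent.R188.PerfB

open scoped ENNReal
open IsLocalRing
open Crest.Agent.R183 Crest.Agent.R183.Res Crest.Agent.R188.Chi

universe u v w v'

section shift

variable {R : Type w} [CommRing R]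

/-- index types of the shift -/
def shι (ι : ℕ → Type) : ℕ → Type
  | 0 => Empty
  | (n + 1) => ι n

instance shFin (ι : ℕ → Type) [h : ∀ n, Fintype (ι n)] : ∀ n, Fintype (shι ι n)
  | 0 => inferInstanceAs (Fintype Empty)
  | (n + 1) => h n

instance shDec (ι : ℕ → Type) [h : ∀ n, DecidableEq (ι n)] : ∀ n, DecidableEq (shι ι n)
  | 0 => inferInstanceAs (DecidableEq Empty)
  | (n + 1) => h n

/-- differentials of the shift -/
def shd (K : MCx R) : ∀ n, Matrix (shι K.ι n) (shι K.ι (n + 1)) R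
  | 0 => 0
  | (n + 1) => K.d n

/-- the shift (no sign): `(sh K)_{n+1} = K_n`, `(sh K)_0 = 0` -/
def sh (K : MCx R) : MCx R where
  ι := shι K.ι
  fin := fun n => shFin K.ι n
  dec := fun n => shDec K.ι n
  d := shd K
  dd := by
    intro n
    cases n with
    | zero => ext a b; exact a.elim
    | succ k => exact K.dd k

lemma Len.sh {K : MCx R} {D : ℕ} (h : K.Len D) : (sh K).Len (D + 1) := by
  intro n hn
  cases n with
  | zero => omega
  | succ k => exact h k (by omega)

/-- drop degree zero -/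
def drop (F : MCx R) : MCx R where
  ι n := F.ι (n + 1)
  fin n := F.fin (n + 1)
  dec n := F.dec (n + 1)
  d n := F.d (n + 1)
  dd n := F.dd (n + 1)

lemma isEmpty_sh_zero (K : MCx R) : IsEmpty ((sh K).ι 0) := inferInstanceAs (IsEmpty Empty)

lemma isEmpty_iter (K : MCx R) : ∀ (m j : ℕ), j < m → IsEmpty ((sh^[m] K).ι j)
  | 0, j, h => by omega
  | (m + 1), 0, _ => by
    rw [Function.iterate_succ_apply']
    exact isEmpty_sh_zero _
  | (m + 1), (j + 1), h => by
    rw [Function.iterate_succ_apply']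
    exact isEmpty_iter K m j (by omega)

lemma len_iter {K : MCx R} {D : ℕ} (h : K.Len D) : ∀ m : ℕ, (sh^[m] K).Len (D + m)
  | 0 => h
  | (m + 1) => by
    rw [Function.iterate_succ_apply']
    exact Len.sh (len_iter h m)

section homology

variable {A : Type u} [CommRing A] (Λ : AddLen.{u, v} A)

/-- length of `Z / B` -/
noncomputable def LZB {M : Type v} [AddCommGroup M] [Module A M] (Z B : Submodule A M) : ℝ≥0∞ :=
  Λ.L (↥Z ⧸ B.comap Z.subtype)

variable (X : Type v) [AddCommGroup X] [Module A X] [Module R X] [SMulCommClass R A X]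

lemma hX_eq_LZB (F : MCx R) (i : ℕ) : hX Λ F X i =
    LZB Λ (Z (C := fun n => F.ι n → X) (F.dA A X) i) (B (C := fun n => F.ι n → X) (F.dA A X) i) :=
  rfl

lemma hX_sh_zero (K : MCx R) : hX Λ (sh K) X 0 = 0 :=
  hX_eq_zero_of_isEmpty Λ _ X 0 (isEmpty_sh_zero K)

lemma Z_sh_succ (K : MCx R) (i : ℕ) :
    (Z (C := fun n => (sh K).ι n → X) ((sh K).dA A X) (i + 1) : Submodule A (K.ι i → X)) =
      Z (C := fun n => K.ι n → X) (K.dA A X) i := by
  cases i with
  | zero =>
    refine le_antisymm le_top ?_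
    intro x _
    show (sh K).dA A X 0 x = 0
    funext a
    exact a.elim
  | succ k => rfl

lemma B_sh_succ (K : MCx R) (i : ℕ) :
    (B (C := fun n => (sh K).ι n → X) ((sh K).dA A X) (i + 1) : Submodule A (K.ι i → X)) =
      B (C := fun n => K.ι n → X) (K.dA A X) i := rfl

lemma hX_sh_succ (K : MCx R) (i : ℕ) : hX Λ (sh K) X (i + 1) = hX Λ K X i := by
  rw [hX_eq_LZB, hX_eq_LZB, ← Z_sh_succ (A := A) X K i]
  rfl

lemma hX_sh_ne_top (K : MCx R) (h : ∀ i, hX Λ K X i ≠ ⊤) (i : ℕ) : hX Λ (sh K) X i ≠ ⊤ := by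
  cases i with
  | zero => rw [hX_sh_zero]; exact ENNReal.zero_ne_top
  | succ k => rw [hX_sh_succ]; exact h k

lemma chiX_sh_succ (K : MCx R) (N : ℕ) : chiX Λ (sh K) X (N + 1) = - chiX Λ K X N := by
  rw [chiX_eq, chiX_eq, Finset.sum_range_succ', hX_sh_zero]
  simp only [hX_sh_succ, pow_succ]
  simp [Finset.sum_neg_distrib]

lemma hX_iter_ne_top (K : MCx R) (h : ∀ i, hX Λ K X i ≠ ⊤) : ∀ (m i : ℕ),
    hX Λ (sh^[m] K) X i ≠ ⊤
  | 0, i => h i
  | (m + 1), i => by
    rw [Function.iterate_succ_apply']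
    exact hX_sh_ne_top Λ X _ (hX_iter_ne_top K h m) i

lemma chiX_iter (K : MCx R) {D : ℕ} (hK : K.Len D) : ∀ (m N : ℕ), D + m < N →
    chiX Λ (sh^[m] K) X N = (-1) ^ m * chiX Λ K X (D + 1)
  | 0, N, h => by
    rw [pow_zero, one_mul]
    exact chiX_eq_of_len Λ K X hK h
  | (m + 1), N, h => by
    obtain ⟨N', rfl⟩ : ∃ N', N = N' + 1 := ⟨N - 1, by omega⟩
    rw [Function.iterate_succ_apply', chiX_sh_succ, chiX_iter K hK m N' (by omega), pow_succ]
    ring

end homology

end shift

end Crest.Agent.R188.PerfB
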