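/-
R188, block (I): perfect complexes over a local ring with finite length homology.
Part 2: the map `K[m] → F` lifting a socle element of the top homology `H_m(F)`, its cone.
helper111
-/
import Crest.Agent.R188.PerfB1

set_option autoImplicit false
set_option linter.unusedSectionVars false

namespace Crest.Agent.R188.PerfB

open scoped ENNReal
open IsLocalRing
open Crest.Agent.R183 Crest.Agent.R183.Res Crest.Agent.R188.Chi

universe u v w v'

section lift

variable {R : Type w} [CommRing R] [IsLocalRing R]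

/-- exactness of `F` in degrees `≥ m + 1` -/
def ExGe (F : MCx R) (m : ℕ) : Prop :=
  ∀ i, m ≤ i → LinearMap.ker (F.dM R i) ≤ LinearMap.range (F.dM R (i + 1))

/-- the properties of the map `Φ_m : K[m]_m → F_m`, with image `R z` -/
structure Top (K' F : MCx R) (m : ℕ) (Φ : Matrix (F.ι m) (K'.ι m) R) (z : F.ι m → R) : Prop where
  mul : ∀ y : K'.ι m → R, ∃ c : R, act R Φ y = c • z ∧
    (c ∈ maximalIdeal R → y ∈ K'.bdyM R m)
  one : ∃ (y : K'.ι m → R) (c : R), IsUnit c ∧ act R Φ y = c • z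

/-- extend a map `K' → drop F` to `sh K' → F` -/
def extendMap {K' F : MCx R} (Φ : MMap K' (drop F)) (h : F.d 0 * (show Matrix (F.ι 1) (K'.ι 0) R from Φ.Φ 0) = 0) :
    MMap (sh K') F where
  Φ n := match n with
    | 0 => (0 : Matrix (F.ι 0) Empty R)
    | (n + 1) => Φ.Φ n
  comm n := by
    cases n with
    | zero =>
      show (0 : Matrix (F.ι 0) Empty R) * (0 : Matrix Empty (K'.ι 0) R) =
        F.d 0 * (show Matrix (F.ι 1) (K'.ι 0) R from Φ.Φ 0)
      rw [h, Matrix.zero_mul]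
    | succ k => exact Φ.comm k

variable {K : MCx R} {ε : (K.ι 0 → R) →ₗ[R] (R ⧸ maximalIdeal R)}

lemma exists_top_zero (hK : IsRes K ε) (F : MCx R) (z : F.ι 0 → R)
    (hmz : ∀ a ∈ maximalIdeal R, a • z ∈ F.bdyM R 0) (hex : ExGe F 0) :
    ∃ Φ : MMap K F, Top K F 0 (Φ.Φ 0) z := by
  have : ∀ b : K.ι 0, ∃ c : R, Ideal.Quotient.mk (maximalIdeal R) c = ε (Pi.single b 1) :=
    fun b => Ideal.Quotient.mk_surjective _
  choose c hc using this
  let T0 : Matrix (F.ι 0) (K.ι 0) R := Matrix.of fun a b => c b * z a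
  have hT0 : ∀ y : K.ι 0 → R, act R T0 y = (∑ b, y b * c b) • z := by
    intro y
    funext a
    rw [act_apply, Pi.smul_apply, smul_eq_mul, Finset.sum_mul]
    refine Finset.sum_congr rfl fun b _ => ?_
    show c b * z a * y b = _
    ring
  have hε : ∀ y : K.ι 0 → R, ε y = Ideal.Quotient.mk (maximalIdeal R) (∑ b, y b * c b) := by
    intro y
    have e2 : y = ∑ b, y b • (Pi.single b 1 : K.ι 0 → R) := by
      funext a
      rw [Finset.sum_apply]
      simp [Pi.single_apply]
    conv_lhs => rw [e2, map_sum]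
    rw [map_sum]
    refine Finset.sum_congr rfl fun b _ => ?_
    rw [map_smul, ← hc, map_mul]
    rfl
  have hex' : ∀ i, LinearMap.ker (F.dM R i) = LinearMap.range (F.dM R (i + 1)) := by
    intro i
    refine le_antisymm (hex i (Nat.zero_le _)) ?_
    rintro _ ⟨v, rfl⟩
    exact F.dM_dM i v
  have h0 : LiftP K F 0 T0 := by
    intro v
    rw [hT0]
    refine hmz _ ?_
    have h1 := hε (K.dM R 0 v)
    rw [hK.ε_d] at h1
    exact Ideal.Quotient.eq_zero_iff_mem.1 h1.symm
  refine ⟨⟨fun n => (lifts hex' T0 h0 n).1, fun n => lifts_spec hex' T0 h0 n⟩, ?_, ?_⟩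
  · intro y
    refine ⟨∑ b, y b * c b, hT0 y, fun h => ?_⟩
    have h1 : ε y = 0 := by
      rw [hε]
      exact Ideal.Quotient.eq_zero_iff_mem.2 h
    have : y ∈ LinearMap.ker ε := h1
    rw [hK.ex0] at this
    exact this
  · obtain ⟨y, hy⟩ := hK.surj 1
    refine ⟨y, ∑ b, y b * c b, ?_, hT0 y⟩
    by_contra hu
    have h1 : (∑ b, y b * c b) ∈ maximalIdeal R := (mem_maximalIdeal _).2 hu
    have h2 := hε y
    rw [Ideal.Quotient.eq_zero_iff_mem.2 h1, hy] at h2
    exact one_ne_zero h2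

theorem exists_top (hK : IsRes K ε) : ∀ (m : ℕ) (F : MCx R) (z : F.ι m → R),
    z ∈ F.cycM R m → (∀ a ∈ maximalIdeal R, a • z ∈ F.bdyM R m) → ExGe F m →
    ∃ Φ : MMap (sh^[m] K) F, Top (sh^[m] K) F m (Φ.Φ m) z
  | 0, F, z, _, hmz, hex => exists_top_zero hK F z hmz hex
  | (m + 1), F, z, hz, hmz, hex => by
    have hz' : (z : (drop F).ι m → R) ∈ (drop F).cycM R m := by
      cases m with
      | zero => trivial
      | succ k => exact hz
    obtain ⟨Φ, hΦ⟩ := exists_top hK m (drop F) z hz' hmz (fun i hi => hex (i + 1) (by omega))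
    have h0 : F.d 0 * (show Matrix (F.ι 1) ((sh^[m] K).ι 0) R from Φ.Φ 0) = 0 := by
      cases m with
      | zero =>
        apply mat_ext
        intro y
        obtain ⟨c, hc, -⟩ := hΦ.mul y
        rw [act_mul, act_zero]
        have h1 : act R (F.d 0) (show F.ι 1 → R from z) = 0 := hz
        have h2 : act R (F.d 0) (c • (show F.ι 1 → R from z)) = 0 := by
          rw [map_smul, h1, smul_zero]
        exact (congrArg (fun t : F.ι 1 → R => act R (F.d 0) t) hc).trans h2
      | succ k =>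
        ext a b
        exact ((isEmpty_iter K (k + 1) 0 (by omega)).false b).elim
    rw [Function.iterate_succ_apply']
    refine ⟨extendMap Φ h0, ?_, ?_⟩
    · intro y
      obtain ⟨c, hc, hc'⟩ := hΦ.mul y
      exact ⟨c, hc, fun h => hc' h⟩
    · obtain ⟨y, c, hc, hy⟩ := hΦ.one
      exact ⟨y, c, hc, hy⟩

end lift

section cone

variable {R : Type w} [CommRing R]

/-- the off-diagonal block -/
def coneθ {K' F : MCx R} (Φ : MMap K' F) (n : ℕ) : Matrix (F.ι n) ((sh K').ι (n + 1)) R :=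
  show Matrix (F.ι n) (K'.ι n) R from ((-1 : R) ^ n) • Φ.Φ n

lemma coneθ_spec {K' F : MCx R} (Φ : MMap K' F) (n : ℕ) :
    F.d n * coneθ Φ (n + 1) + coneθ Φ n * (sh K').d (n + 1) = 0 := by
  have h := Φ.comm n
  show F.d n * ((-1 : R) ^ (n + 1) • Φ.Φ (n + 1)) + ((-1 : R) ^ n • Φ.Φ n) * K'.d n = 0
  rw [Matrix.mul_smul, Matrix.smul_mul, h, pow_succ, mul_neg_one, neg_smul]
  exact neg_add_cancel _

/-- the cone of a map -/
noncomputable def coneM {K' F : MCx R} (Φ : MMap K' F) : MCx R :=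
  ext F (sh K') (coneθ Φ) (coneθ_spec Φ)

lemma coneM_len {K' F : MCx R} (Φ : MMap K' F) {D : ℕ} (hF : F.Len D) (hK : (sh K').Len D) :
    (coneM Φ).Len D := by
  intro n hn
  show IsEmpty (F.ι n ⊕ (sh K').ι n)
  exact isEmpty_sum.2 ⟨hF n hn, hK n hn⟩

variable {A : Type u} [CommRing A]

lemma sesCone (X : Type v) [AddCommGroup X] [Module A X] [Module R X] [SMulCommClass R A X]
    {K' F : MCx R} (Φ : MMap K' F) :
    SES (C' := fun n => F.ι n → X) (C := fun n => (coneM Φ).ι n → X)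
      (C'' := fun n => (sh K').ι n → X)
      (F.dA A X) ((coneM Φ).dA A X) ((sh K').dA A X) (fun n => inlA A X (F.ι n) ((sh K').ι n))
        (fun n => sndA A X (F.ι n) ((sh K').ι n)) := sesExt A X F (sh K') (coneθ Φ) (coneθ_spec Φ)

lemma act_smul_mat {ι κ : Type} [Fintype κ] (r : R) (D : Matrix ι κ R) (y : κ → R) :
    act R (r • D) y = r • act R D y := by
  funext a
  rw [Pi.smul_apply, act_apply, act_apply, Finset.smul_sum]
  refine Finset.sum_congr rfl fun b _ => ?_
  rw [Matrix.smul_apply, smul_assoc]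

lemma coneM_d {K' F : MCx R} (Φ : MMap K' F) (n : ℕ) (u : F.ι (n + 1) → R)
    (y : K'.ι n → R) :
    (coneM Φ).dM R n (Sum.elim u y : F.ι (n + 1) ⊕ (sh K').ι (n + 1) → R) =
      (Sum.elim (F.dM R n u + (-1 : R) ^ n • act R (Φ.Φ n) y) ((sh K').dM R n y) :
        F.ι n ⊕ (sh K').ι n → R) := by
  have h := act_fromBlocks' R (F.d n) (coneθ Φ n) ((sh K').d n)
    (Sum.elim u y : F.ι (n + 1) ⊕ (sh K').ι (n + 1) → R)
  refine h.trans ?_
  have e : act R (coneθ Φ n) y = (-1 : R) ^ n • act R (Φ.Φ n) y := by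
    exact act_smul_mat _ _ _
  rw [← e]
  rfl

end cone

end Crest.Agent.R188.PerfB
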