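/-
R188, block (I): perfect complexes over a local ring with finite length homology.
Part 3: exactness of the cone above degree `m`, decrease of the length of `H_m`.
helper111
-/
import Crest.Agent.R188.PerfB2
import Crest.Agent.R183.AddLenInst

set_option autoImplicit false
set_option linter.unusedSectionVars false

namespace Crest.Agent.R188.PerfB

open scoped ENNReal
open IsLocalRing
open Crest.Agent.R183 Crest.Agent.R183.Res Crest.Agent.R188.Chi

universe u v w v'

section exactness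

variable {R : Type w} [CommRing R]

lemma mem_cycM_of_sh (K' : MCx R) (i : ℕ) (y : K'.ι i → R)
    (h : (sh K').dM R i (show (sh K').ι (i + 1) → R from y) = 0) : y ∈ K'.cycM R i := by
  cases i with
  | zero => trivial
  | succ k => exact h

/-- exactness in degrees `> m` -/
def ExGt (K' : MCx R) (m : ℕ) : Prop :=
  ∀ i, m < i → ∀ y : K'.ι i → R, y ∈ K'.cycM R i → y ∈ K'.bdyM R i

lemma ExGt.sh {K' : MCx R} {m : ℕ} (h : ExGt K' m) : ExGt (sh K') (m + 1) := by
  intro i hi y hy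
  obtain ⟨j, rfl⟩ : ∃ j, i = j + 2 := ⟨i - 2, by omega⟩
  exact h (j + 1) (by omega) y hy

variable [IsLocalRing R] {K : MCx R} {ε : (K.ι 0 → R) →ₗ[R] (R ⧸ maximalIdeal R)}

lemma exGt_of_isRes (hK : IsRes K ε) : ExGt K 0 := by
  intro i hi y hy
  obtain ⟨j, rfl⟩ : ∃ j, i = j + 1 := ⟨i - 1, by omega⟩
  have : y ∈ LinearMap.ker (K.dM R j) := hy
  rw [hK.ex j] at this
  exact this

lemma exGt_iter (hK : IsRes K ε) : ∀ m : ℕ, ExGt (sh^[m] K) m
  | 0 => exGt_of_isRes hK
  | (m + 1) => by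
    rw [Function.iterate_succ_apply']
    exact (exGt_iter hK m).sh

variable {m : ℕ} {K' F : MCx R} {z : F.ι m → R} {Φ : MMap K' F}

/-- exactness of the cone in degrees `≥ m + 1` -/
lemma coneM_exGe (hK : ExGt K' m) (hex : ExGe F m) (hz : z ∉ F.bdyM R m)
    (hΦ : Top K' F m (Φ.Φ m) z) : ExGe (coneM Φ) m := by
  intro i hi x hx
  let u : F.ι (i + 1) → R := fun a => x (Sum.inl a)
  let y : K'.ι i → R := fun b => x (Sum.inr b)
  have hx' : x = (Sum.elim u y : F.ι (i + 1) ⊕ (sh K').ι (i + 1) → R) := by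
    funext a
    rcases a with a | a <;> rfl
  have hd : (coneM Φ).dM R i x = 0 := hx
  rw [hx', coneM_d] at hd
  have h1 : F.dM R i u + (-1 : R) ^ i • act R (Φ.Φ i) y = 0 := by
    funext a
    exact congrFun hd (Sum.inl a)
  have h2 : (sh K').dM R i (show (sh K').ι (i + 1) → R from y) = 0 := by
    funext a
    exact congrFun hd (Sum.inr a)
  have hcyc : y ∈ K'.cycM R i := mem_cycM_of_sh K' i y h2
  have hbdy : y ∈ K'.bdyM R i := by
    rcases Nat.lt_or_ge m i with h | h
    · exact hK i h y hcyc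
    · obtain rfl : i = m := le_antisymm h hi
      obtain ⟨c, hc, hc'⟩ := hΦ.mul y
      apply hc'
      by_contra hu
      have hcu : IsUnit c := by
        by_contra h
        exact hu ((mem_maximalIdeal _).2 h)
      apply hz
      have h3 : c • z ∈ F.bdyM R i := by
        refine ⟨-((-1 : R) ^ i • u), ?_⟩
        show F.dM R i _ = _
        rw [hc] at h1
        have h4 : F.dM R i u = - ((-1 : R) ^ i • c • z) := eq_neg_of_add_eq_zero_left h1
        rw [map_neg, map_smul, h4, smul_neg, neg_neg, smul_smul, ← mul_pow]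
        simp
      obtain ⟨c', rfl⟩ := hcu
      have := (F.bdyM R i).smul_mem (↑c'⁻¹ : R) h3
      rwa [smul_smul, Units.inv_mul, one_smul] at this
  obtain ⟨w, hw⟩ := hbdy
  have hw' : act R (K'.d i) w = y := hw
  have h5 : F.dM R i (u - (-1 : R) ^ (i + 1) • act R (Φ.Φ (i + 1)) w) = 0 := by
    rw [map_sub, map_smul]
    have h6 : F.dM R i (act R (Φ.Φ (i + 1)) w) = act R (Φ.Φ i) y := by
      show act R (F.d i) (act R (Φ.Φ (i + 1)) w) = _
      rw [← act_mul, ← Φ.comm i, act_mul, hw']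
    rw [h6, pow_succ, mul_neg_one, neg_smul, sub_neg_eq_add]
    exact h1
  obtain ⟨u'', hu''⟩ := hex i hi h5
  refine ⟨(Sum.elim u'' w : F.ι (i + 2) ⊕ (sh K').ι (i + 2) → R), ?_⟩
  refine (coneM_d Φ (i + 1) u'' w).trans ?_
  rw [hx', hu'']
  have e1 : u - (-1 : R) ^ (i + 1) • act R (Φ.Φ (i + 1)) w +
      (-1 : R) ^ (i + 1) • act R (Φ.Φ (i + 1)) w = u := sub_add_cancel _ _
  rw [e1]
  have e2 : (sh K').dM R (i + 1) w = y := hw'
  rw [e2]

lemma mem_Z_iff (F : MCx R) (i : ℕ) (x : F.ι i → R) :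
    x ∈ Z (C := fun n => F.ι n → R) (F.dA R R) i ↔ x ∈ F.cycM R i := by
  cases i with
  | zero => exact ⟨fun _ => trivial, fun _ => trivial⟩
  | succ k => exact Iff.rfl

lemma mem_B_iff (F : MCx R) (i : ℕ) (x : F.ι i → R) :
    x ∈ B (C := fun n => F.ι n → R) (F.dA R R) i ↔ x ∈ F.bdyM R i := Iff.rfl

/-- the length of `H_m` decreases -/
lemma coneM_lt (hempty : IsEmpty ((sh K').ι m)) (hzc : z ∈ F.cycM R m) (hz : z ∉ F.bdyM R m)
    (hΦ : Top K' F m (Φ.Φ m) z) (hfin : hX (AddLen.ofLength R) F R m ≠ ⊤) :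
    hX (AddLen.ofLength.{w, w} R) (coneM Φ) R m < hX (AddLen.ofLength.{w, w} R) F R m := by
  have S := sesCone (A := R) R Φ
  set f := Hmap S.cf m with hf
  have hsurj : Function.Surjective f := by
    intro ξ
    obtain ⟨⟨x, hx⟩, rfl⟩ := cls_surjective m ξ
    let u : F.ι m → R := fun a => x (Sum.inl a)
    have hxu : inlA R R (F.ι m) ((sh K').ι m) u = x := by
      funext a
      rcases a with a | a
      · rfl
      · exact (hempty.false a).elim
    have hu : u ∈ Z (C := fun n => F.ι n → R) (F.dA R R) m := by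
      cases m with
      | zero => trivial
      | succ k =>
        show F.dA R R k u = 0
        apply S.inj k
        rw [S.cf k u]
        show (coneM Φ).dA R R k (inlA R R (F.ι (k + 1)) ((sh K').ι (k + 1)) u) = _
        rw [hxu, map_zero]
        exact hx
    refine ⟨cls _ m ⟨u, hu⟩, ?_⟩
    rw [hf, Hmap_cls]
    congr 1
    exact Subtype.ext hxu
  have hzZ : z ∈ Z (C := fun n => F.ι n → R) (F.dA R R) m := (mem_Z_iff F m z).2 hzc
  have hker : f (cls _ m ⟨z, hzZ⟩) = 0 := by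
    rw [hf, Hmap_cls, cls_eq_zero_iff]
    obtain ⟨y, c, hc, hy⟩ := hΦ.one
    have h1 : inlA R R (F.ι m) ((sh K').ι m) ((-1 : R) ^ m • c • z) ∈
        B (C := fun n => (coneM Φ).ι n → R) ((coneM Φ).dA R R) m := by
      refine ⟨(Sum.elim 0 y : F.ι (m + 1) ⊕ (sh K').ι (m + 1) → R), ?_⟩
      refine (coneM_d Φ m 0 y).trans ?_
      funext a
      rcases a with a | a
      · show (F.dM R m 0 + (-1 : R) ^ m • act R (Φ.Φ m) y) a = _
        rw [map_zero, zero_add, hy]
        rfl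
      · exact (hempty.false a).elim
    obtain ⟨c', rfl⟩ := hc
    have h2 := (B (C := fun n => (coneM Φ).ι n → R) ((coneM Φ).dA R R) m).smul_mem
      ((↑c'⁻¹ : R) * (-1 : R) ^ m) h1
    have e : (↑c'⁻¹ * (-1 : R) ^ m) * ((-1 : R) ^ m * ↑c') = 1 := by
      have h3 : (-1 : R) ^ m * (-1 : R) ^ m = 1 := by rw [← mul_pow]; simp
      calc (↑c'⁻¹ * (-1 : R) ^ m) * ((-1 : R) ^ m * ↑c') =
          (↑c'⁻¹ * ↑c') * ((-1 : R) ^ m * (-1 : R) ^ m) := by ring
        _ = 1 := by rw [h3, Units.inv_mul, one_mul]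
    have e3 : (↑c'⁻¹ * (-1 : R) ^ m) • ((-1 : R) ^ m • (↑c' : R) • z) = z := by
      rw [smul_smul, smul_smul, mul_assoc (↑c'⁻¹ * (-1 : R) ^ m), e, one_smul]
    have e4 := congrArg (inlA R R (F.ι m) ((sh K').ι m)) e3
    rw [LinearMap.map_smul] at e4
    show inlA R R (F.ι m) ((sh K').ι m) z ∈ _
    rw [← e4]
    exact h2
  have hne : cls (d := F.dA R R) (C := fun n => F.ι n → R) m ⟨z, hzZ⟩ ≠ 0 := by
    intro h
    rw [cls_eq_zero_iff] at h
    exact hz h
  have hL := (AddLen.ofLength.{w, w} R).L_ker_add_range f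
  rw [LinearMap.range_eq_top.2 hsurj] at hL
  have e1 : (AddLen.ofLength.{w, w} R).L ↥(⊤ : Submodule R (HX R (coneM Φ) R m)) =
      hX (AddLen.ofLength.{w, w} R) (coneM Φ) R m :=
    (AddLen.ofLength.{w, w} R).L_congr Submodule.topEquiv
  rw [e1] at hL
  have e2 : hX (AddLen.ofLength.{w, w} R) F R m =
    (AddLen.ofLength.{w, w} R).L ↥(LinearMap.ker f) +
      hX (AddLen.ofLength.{w, w} R) (coneM Φ) R m := hL
  have h3 : (AddLen.ofLength.{w, w} R).L ↥(LinearMap.ker f) ≠ 0 := by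
    rw [AddLen.ofLength_L]
    intro h
    have h4 : Module.length R ↥(LinearMap.ker f) = 0 := by exact_mod_cast h
    rw [Module.length_eq_zero_iff] at h4
    apply hne
    have := h4.elim ⟨_, hker⟩ 0
    exact congrArg Subtype.val this
  rw [e2] at hfin ⊢
  have h5 := ENNReal.add_ne_top.1 hfin
  rw [add_comm]
  exact ENNReal.lt_add_right h5.2 h3

end exactness

end Crest.Agent.R188.PerfB
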