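/-
R188, block (I): perfect complexes over a local ring with finite length homology.
Part 4: `χ(F; X) = χ_length(F) · χ(K; X)` for `K` a finite free resolution of the residue field.
helper111
-/
import Crest.Agent.R188.PerfB3

set_option autoImplicit false
set_option linter.unusedSectionVars false

namespace Crest.Agent.R188.PerfB

open scoped ENNReal
open IsLocalRing
open Crest.Agent.R183 Crest.Agent.R183.Res Crest.Agent.R188.Chi

universe u v w v'

section socle

variable {R : Type w} [CommRing R] [IsLocalRing R]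

/-- a nonzero module of finite length has a socle element -/
lemma exists_socle (H : Type v) [AddCommGroup H] [Module R H] (hfin : IsFiniteLength R H)
    (hne : Nontrivial H) : ∃ x : H, x ≠ 0 ∧ ∀ a ∈ maximalIdeal R, a • x = 0 := by
  have h := isFiniteLength_iff_isNoetherian_isArtinian.1 hfin
  have := h.1
  have := h.2
  obtain ⟨S, hS⟩ := IsAtomic.exists_atom (Submodule R H)
  have hsimple : IsSimpleModule R S := isSimpleModule_iff_isAtom.2 hS
  obtain ⟨I, hI, ⟨e⟩⟩ := isSimpleModule_iff_quot_maximal.1 hsimple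
  have hI' : I = maximalIdeal R := IsLocalRing.eq_maximalIdeal hI
  subst hI'
  refine ⟨(e.symm 1 : S), ?_, ?_⟩
  · intro h
    have h1 : e.symm 1 = 0 := Subtype.ext h
    have h2 : (1 : R ⧸ maximalIdeal R) = 0 := by
      rw [← e.apply_symm_apply 1, h1, map_zero]
    exact one_ne_zero h2
  · intro a ha
    have h1 : a • e.symm 1 = 0 := by
      rw [← map_smul]
      have : a • (1 : R ⧸ maximalIdeal R) = 0 := by
        have h3 : a • (1 : R ⧸ maximalIdeal R) = Ideal.Quotient.mk _ a := by
          rw [Algebra.smul_def, mul_one]; rfl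
        rw [h3]
        exact Ideal.Quotient.eq_zero_iff_mem.2 ha
      rw [this, map_zero]
    have := congrArg Subtype.val h1
    exact this

lemma ofLength_ne_top_iff (H : Type v) [AddCommGroup H] [Module R H] :
    (AddLen.ofLength.{w, v} R).L H ≠ ⊤ ↔ IsFiniteLength R H := by
  rw [AddLen.ofLength_L, ← Module.length_ne_top_iff]
  constructor
  · intro h h'
    apply h
    rw [h']
    rfl
  · intro h h'
    apply h
    exact ENat.toENNReal_eq_top.1 h'

lemma ofLength_eq_zero_iff (H : Type v) [AddCommGroup H] [Module R H] :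
    (AddLen.ofLength.{w, v} R).L H = 0 ↔ Subsingleton H := by
  rw [AddLen.ofLength_L, ← Module.length_eq_zero_iff (R := R)]
  constructor
  · intro h
    exact_mod_cast h
  · intro h
    rw [h]
    simp

end socle

section main

variable {R : Type w} [CommRing R] [IsLocalRing R]

lemma cyc_le_bdy_of_hX_eq_zero (F : MCx R) (i : ℕ)
    (h : hX (AddLen.ofLength.{w, w} R) F R i = 0) (y : F.ι i → R) (hy : y ∈ F.cycM R i) :
    y ∈ F.bdyM R i := by
  have h1 : Subsingleton (HX R F R i) := (ofLength_eq_zero_iff _).1 h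
  have h2 : cls (d := F.dA R R) (C := fun n => F.ι n → R) i ⟨y, (mem_Z_iff F i y).2 hy⟩ = 0 :=
    h1.elim _ _
  rw [cls_eq_zero_iff] at h2
  exact h2

lemma exGe_of_hX (F : MCx R) (m : ℕ)
    (h : ∀ i, m < i → hX (AddLen.ofLength.{w, w} R) F R i = 0) : ExGe F m := by
  intro i hi y hy
  exact cyc_le_bdy_of_hX_eq_zero F (i + 1) (h (i + 1) (by omega)) y hy

lemma hX_eq_zero_of_exact (F : MCx R) (i : ℕ)
    (h : ∀ y : F.ι i → R, y ∈ F.cycM R i → y ∈ F.bdyM R i) :
    hX (AddLen.ofLength.{w, w} R) F R i = 0 := by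
  refine (ofLength_eq_zero_iff (R := R) (HX R F R i)).2 ⟨fun a b => ?_⟩
  have : ∀ a : HX R F R i, a = 0 := by
    intro a
    obtain ⟨⟨x, hx⟩, rfl⟩ := cls_surjective i a
    rw [cls_eq_zero_iff]
    exact h x ((mem_Z_iff F i x).1 hx)
  rw [this a, this b]

/-- a complex with vanishing homology over `R` has vanishing homology with any coefficients -/
lemma hX_eq_zero_of_acyclic {A : Type u} [CommRing A] (Λ : AddLen.{u, v} A)
    (X : Type v) [AddCommGroup X] [Module A X] [Module R X] [SMulCommClass R A X]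
    (F : MCx R) (h : ∀ i, hX (AddLen.ofLength.{w, w} R) F R i = 0) (i : ℕ) :
    hX Λ F X i = 0 := by
  have hres : IsRes F (0 : (F.ι 0 → R) →ₗ[R] PUnit.{w + 1}) := by
    refine ⟨fun x => ⟨0, Subsingleton.elim _ _⟩, ?_, ?_⟩
    · rw [LinearMap.ker_zero]
      refine le_antisymm ?_ le_top
      intro y _
      exact cyc_le_bdy_of_hX_eq_zero F 0 (h 0) y trivial
    · intro i
      refine le_antisymm (exGe_of_hX F 0 (fun i _ => h i) i (Nat.zero_le _)) ?_
      rintro _ ⟨v, rfl⟩
      exact F.dM_dM i v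
  have h1 : ∀ x : HX A F X i, (1 : A) • x = 0 :=
    hres.smul_eq_zero (a := 1) (fun m => Subsingleton.elim _ _) X (b := 1)
      (fun x => by rw [one_smul, one_smul]) i
  rw [hX_eq]
  have : Subsingleton (HX A F X i) := ⟨fun a b => by
    rw [← one_smul A a, ← one_smul A b, h1, h1]⟩
  exact Λ.L_subsingleton

variable {K : MCx R} {ε : (K.ι 0 → R) →ₗ[R] (R ⧸ maximalIdeal R)}

/-- length of homology of a resolution of `k` over `R` itself -/
lemma hX_res_succ (hK : IsRes K ε) (i : ℕ) :
    hX (AddLen.ofLength.{w, w} R) K R (i + 1) = 0 :=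
  hX_eq_zero_of_exact K (i + 1) (exGt_of_isRes hK (i + 1) (Nat.succ_pos i))

/-- `H_0` of a resolution -/
noncomputable def H0equiv {M : Type v'} [AddCommGroup M] [Module R M] {F : MCx R}
    {η : (F.ι 0 → R) →ₗ[R] M} (hF : IsRes F η) : HX R F R 0 ≃ₗ[R] M := by
  let g : HX R F R 0 →ₗ[R] M := Submodule.liftQ _ (η ∘ₗ Submodule.subtype _) (by
    rintro ⟨x, hx⟩ ⟨y, hy⟩
    show η x = 0
    have : x = F.dM R 0 y := hy.symm
    rw [this, hF.ε_d])
  refine LinearEquiv.ofBijective g ⟨?_, ?_⟩
  · rw [injective_iff_map_eq_zero]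
    intro ξ hξ
    obtain ⟨⟨x, hx⟩, rfl⟩ := cls_surjective 0 ξ
    have h1 : η x = 0 := hξ
    rw [cls_eq_zero_iff]
    have : x ∈ LinearMap.ker η := h1
    rw [hF.ex0] at this
    exact this
  · intro y
    obtain ⟨x, rfl⟩ := hF.surj y
    exact ⟨cls _ 0 ⟨x, trivial⟩, rfl⟩

lemma hX_res_zero (hK : IsRes K ε) : hX (AddLen.ofLength.{w, w} R) K R 0 = 1 := by
  rw [hX_eq, (AddLen.ofLength.{w, w} R).L_congr (H0equiv hK), AddLen.ofLength_L]
  have : Module.length R (R ⧸ maximalIdeal R) = 1 := by
    rw [Module.length_eq_one_iff]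
    exact isSimpleModule_iff_quot_maximal.2 ⟨maximalIdeal R, inferInstance,
      ⟨LinearEquiv.refl R _⟩⟩
  rw [this]
  simp

lemma hX_res_ne_top (hK : IsRes K ε) (i : ℕ) : hX (AddLen.ofLength.{w, w} R) K R i ≠ ⊤ := by
  cases i with
  | zero => rw [hX_res_zero hK]; exact ENNReal.one_ne_top
  | succ i => rw [hX_res_succ hK]; exact ENNReal.zero_ne_top

lemma chiX_res (hK : IsRes K ε) (N : ℕ) : chiX (AddLen.ofLength.{w, w} R) K R (N + 1) = 1 := by
  rw [chiX_eq, Finset.sum_range_succ']
  simp [hX_res_succ hK, hX_res_zero hK]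

end main

section induction

variable {R : Type w} [CommRing R] [IsLocalRing R]
variable {K : MCx R} {ε : (K.ι 0 → R) →ₗ[R] (R ⧸ maximalIdeal R)}
variable {A : Type u} [CommRing A] (Λ : AddLen.{u, v} A)
variable (X : Type v) [AddCommGroup X] [Module A X] [Module R X] [SMulCommClass R A X]

/-- the effect of the cone on lengths and Euler characteristics -/
lemma cone_effect {DK : ℕ} (hKl : K.Len DK) {m D : ℕ} {F : MCx R} (Φ : MMap (sh^[m] K) F)
    (hF : F.Len D) (hKX : ∀ i, hX Λ K X i ≠ ⊤) :
    ((∀ i, hX Λ (coneM Φ) X i ≠ ⊤) → ∀ i, hX Λ F X i ≠ ⊤) ∧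
    ((∀ i, hX Λ F X i ≠ ⊤) → ∀ i, hX Λ (coneM Φ) X i ≠ ⊤) ∧
    ((∀ i, hX Λ F X i ≠ ⊤) → chiX Λ (coneM Φ) X (D + DK + m + 1 + 1) =
      chiX Λ F X (D + 1) + (-1) ^ (m + 1) * chiX Λ K X (DK + 1)) := by
  have S := sesCone (A := A) X Φ
  have hsh : ∀ i, hX Λ (sh (sh^[m] K)) X i ≠ ⊤ :=
    hX_sh_ne_top Λ X _ (hX_iter_ne_top Λ X K hKX m)
  have hd := isCx_dA A (coneM Φ) X
  refine ⟨fun h i => S.h_left_ne_top Λ hd (h i) (hsh (i + 1)),
    fun h i => S.h_mid_ne_top Λ hd (h i) (hsh i), fun h => ?_⟩
  have hlen : (sh (sh^[m] K)).Len (DK + m + 1) := Len.sh (len_iter hKl m)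
  have e1 := S.chi_add Λ hd (D + DK + m + 1 + 1) (fun i _ => h i) (fun i _ => hsh i)
    (hX_eq_zero_of_len Λ (sh (sh^[m] K)) X hlen (by omega))
  have e2 : chiX Λ (coneM Φ) X (D + DK + m + 1 + 1) = chiX Λ F X (D + DK + m + 1 + 1) +
    chiX Λ (sh (sh^[m] K)) X (D + DK + m + 1 + 1) := e1
  have e3 : chiX Λ (sh (sh^[m] K)) X (D + DK + m + 1 + 1) =
      (-1) ^ (m + 1) * chiX Λ K X (DK + 1) := by
    have := chiX_iter Λ X K hKl (m + 1) (D + DK + m + 1 + 1) (by omega)
    rwa [Function.iterate_succ_apply'] at this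
  rw [e2, e3, chiX_eq_of_len Λ F X hF (by omega : D < D + DK + m + 1 + 1)]

/-- the induction -/
theorem chiX_mul_aux (hK : IsRes K ε) {DK : ℕ} (hKl : K.Len DK) (hKX : ∀ i, hX Λ K X i ≠ ⊤) :
    ∀ (m : ℕ) (n : ℕ) (F : MCx R) (D : ℕ), F.Len D →
      (∀ i, hX (AddLen.ofLength.{w, w} R) F R i ≠ ⊤) →
      (∀ i, m ≤ i → hX (AddLen.ofLength.{w, w} R) F R i = 0) →
      (∀ j, m = j + 1 → hX (AddLen.ofLength.{w, w} R) F R j < n) →
      (∀ i, hX Λ F X i ≠ ⊤) ∧ chiX Λ F X (D + 1) =
        chiX (AddLen.ofLength.{w, w} R) F R (D + 1) * chiX Λ K X (DK + 1) := by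
  intro m
  induction m with
  | zero =>
    intro n F D hF _ h0 _
    have h1 : ∀ i, hX Λ F X i = 0 :=
      hX_eq_zero_of_acyclic Λ X F (fun i => h0 i (Nat.zero_le _))
    refine ⟨fun i => by rw [h1]; exact ENNReal.zero_ne_top, ?_⟩
    have e1 : chiX Λ F X (D + 1) = 0 := by
      rw [chiX_eq]
      exact Finset.sum_eq_zero fun i _ => by rw [h1]; simp
    have e2 : chiX (AddLen.ofLength.{w, w} R) F R (D + 1) = 0 := by
      rw [chiX_eq]
      exact Finset.sum_eq_zero fun i _ => by rw [h0 i (Nat.zero_le _)]; simp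
    rw [e1, e2, zero_mul]
  | succ m ihm =>
    intro n
    induction n with
    | zero =>
      intro F D _ _ _ hlt
      have := hlt m rfl
      simp at this
    | succ n ihn =>
      intro F D hF hfin h0 hlt
      by_cases hm : hX (AddLen.ofLength.{w, w} R) F R m = 0
      · -- homology vanishes from degree `m` on
        have hfinj : ∀ j, m = j + 1 → ∃ n' : ℕ,
            hX (AddLen.ofLength.{w, w} R) F R j < n' := fun j _ =>
          ENNReal.exists_nat_gt (hfin j)
        have h0' : ∀ i, m ≤ i → hX (AddLen.ofLength.{w, w} R) F R i = 0 := by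
          intro i hi
          rcases Nat.lt_or_ge m i with h | h
          · exact h0 i h
          · obtain rfl : i = m := le_antisymm h hi
            exact hm
        cases m with
        | zero => exact ihm 0 F D hF hfin h0' (fun j hj => by omega)
        | succ m' =>
          obtain ⟨n', hn'⟩ := hfinj m' rfl
          refine ihm n' F D hF hfin h0' (fun j hj => ?_)
          obtain rfl : m' = j := by omega
          exact hn'
      · -- socle element
        have hfl : IsFiniteLength R (HX R F R m) := (ofLength_ne_top_iff _).1 (hfin m)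
        have hnt : Nontrivial (HX R F R m) := by
          rw [← not_subsingleton_iff_nontrivial]
          intro h
          exact hm ((ofLength_eq_zero_iff _).2 h)
        obtain ⟨ξ, hξ, hξm⟩ := exists_socle (HX R F R m) hfl hnt
        obtain ⟨⟨z, hz⟩, rfl⟩ := cls_surjective m ξ
        have hzc : z ∈ F.cycM R m := (mem_Z_iff F m z).1 hz
        have hzb : z ∉ F.bdyM R m := fun h => hξ ((cls_eq_zero_iff _).2 h)
        have hmz : ∀ a ∈ maximalIdeal R, a • z ∈ F.bdyM R m := by
          intro a ha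
          have h1 := hξm a ha
          rw [← map_smul, cls_eq_zero_iff] at h1
          exact h1
        have hex : ExGe F m := exGe_of_hX F m (fun i hi => h0 i hi)
        obtain ⟨Φ, hΦ⟩ := exists_top hK m F z hzc hmz hex
        have hempty : IsEmpty ((sh (sh^[m] K)).ι m) := by
          have := isEmpty_iter K (m + 1) m (Nat.lt_succ_self m)
          rwa [Function.iterate_succ_apply'] at this
        have hCex : ExGe (coneM Φ) m := coneM_exGe (exGt_iter hK m) hex hzb hΦ
        have hClt := coneM_lt hempty hzc hzb hΦ (hfin m)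
        have hR := cone_effect (AddLen.ofLength.{w, w} R) R hKl Φ hF (hX_res_ne_top hK)
        have hX' := cone_effect Λ X hKl Φ hF hKX
        have hClen : (coneM Φ).Len (D + DK + m + 1) :=
          coneM_len Φ (fun i hi => hF i (by omega))
            (fun i hi => (Len.sh (len_iter hKl m)) i (by omega))
        have hC := ihn (coneM Φ) (D + DK + m + 1) hClen (hR.2.1 hfin)
          (fun i hi => by
            obtain ⟨i', rfl⟩ : ∃ i', i = i' + 1 := ⟨i - 1, by omega⟩
            exact hX_eq_zero_of_exact (coneM Φ) (i' + 1)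
              (fun y hy => hCex i' (by omega) hy))
          (fun j hj => by
            obtain rfl : m = j := by omega
            -- lengths are natural numbers
            have h1 := hlt m rfl
            have hL : ∃ l : ℕ, hX (AddLen.ofLength.{w, w} R) F R m = l := by
              have := hfin m
              rw [hX_eq, AddLen.ofLength_L] at this ⊢
              obtain ⟨l, hl⟩ := ENat.ne_top_iff_exists.1
                (fun h => this (by rw [h]; rfl) : Module.length R (HX R F R m) ≠ ⊤)
              exact ⟨l, by rw [← hl]; simp⟩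
            have hL' : ∃ l : ℕ, hX (AddLen.ofLength.{w, w} R) (coneM Φ) R m = l := by
              have := hR.2.1 hfin m
              rw [hX_eq, AddLen.ofLength_L] at this ⊢
              obtain ⟨l, hl⟩ := ENat.ne_top_iff_exists.1
                (fun h => this (by rw [h]; rfl) :
                  Module.length R (HX R (coneM Φ) R m) ≠ ⊤)
              exact ⟨l, by rw [← hl]; simp⟩
            obtain ⟨l, hl⟩ := hL
            obtain ⟨l', hl'⟩ := hL'
            rw [hl, hl'] at hClt
            rw [hl] at h1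
            rw [hl']
            have h2 : l' < l := by exact_mod_cast hClt
            have h3 : l < n + 1 := by exact_mod_cast h1
            exact_mod_cast (by omega : l' < n))
        refine ⟨hX'.1 hC.1, ?_⟩
        have e1 := hX'.2.2 (hX'.1 hC.1)
        have e2 := hR.2.2 hfin
        rw [chiX_res hK] at e2
        have e3 := hC.2
        rw [e1, e2] at e3
        linear_combination e3

/-- **(I.1)** `χ(F; X) = χ_length(F) χ(K; X)` for every bounded complex `F` of finite free modules
over a local ring `R` with homology of finite length, `K` a finite free resolution of the residue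
field with `L(H_i(K ⊗ X)) < ∞`. -/
theorem chiX_mul (hK : IsRes K ε) {DK : ℕ} (hKl : K.Len DK) (hKX : ∀ i, hX Λ K X i ≠ ⊤)
    (F : MCx R) {D : ℕ} (hF : F.Len D)
    (hfin : ∀ i, hX (AddLen.ofLength.{w, w} R) F R i ≠ ⊤) :
    (∀ i, hX Λ F X i ≠ ⊤) ∧ chiX Λ F X (D + 1) =
        chiX (AddLen.ofLength.{w, w} R) F R (D + 1) * chiX Λ K X (DK + 1) := by
  obtain ⟨n, hn⟩ := ENNReal.exists_nat_gt (hfin D)
  refine chiX_mul_aux Λ X hK hKl hKX (D + 1) n F D hF hfin (fun i hi => ?_) (fun j hj => ?_)
  · exact hX_eq_zero_of_len _ F R hF (by omega)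
  · obtain rfl : D = j := by omega
    exact hn

end induction

end Crest.Agent.R188.PerfB
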