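/-
R188, block (I): perfect complexes over a regular local ring with finite length homology.
Part 5: `χ(F; X) = 0` if `X` is killed by a nonzero element of `R`.
helper111
-/
import Crest.Agent.R188.PerfB4
import Crest.Agent.R188.Noe6

set_option autoImplicit false
set_option linter.unusedSectionVars false

namespace Crest.Agent.R188.PerfB

open scoped ENNReal
open IsLocalRing Pointwise
open Crest.Agent.R183 Crest.Agent.R183.Res Crest.Agent.R188.Chi

universe u v w v'

section general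

variable {R : Type w} [CommRing R]

/-- exactness of the cone in degrees `≥ m + 1`, general form -/
lemma coneM_exGe' {m : ℕ} {K' F : MCx R} {Φ : MMap K' F}
    (hK : ∀ i, m ≤ i → ∀ y : K'.ι i → R, y ∈ K'.cycM R i → act R (Φ.Φ i) y ∈ F.bdyM R i →
      y ∈ K'.bdyM R i) (hex : ExGe F m) : ExGe (coneM Φ) m := by
  intro i hi x hx
  let u : F.ι (i + 1) → R := fun a => x (Sum.inl a)
  let y : K'.ι i → R := fun b => x (Sum.inr b)
  have hx' : x = (Sum.elim u y : F.ι (i + 1) ⊕ (sh K').ι (i + 1) → R) := by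
    funext a
    rcases a with a | a <;> rfl
  have hd : (coneM Φ).dM R i x = 0 := hx
  rw [hx', coneM_d] at hd
  have h1 : F.dM R i u + (-1 : R) ^ i • act R (Φ.Φ i) y = 0 := by
    funext a
    exact congrFun hd (Sum.inl a)
  have h2 : (sh K').dM R i (show (sh K').ι (i + 1) → R from y) = 0 := by
    funext a
    exact congrFun hd (Sum.inr a)
  have hbdy : y ∈ K'.bdyM R i := by
    refine hK i hi y (mem_cycM_of_sh K' i y h2) ?_
    refine ⟨-((-1 : R) ^ i • u), ?_⟩
    show F.dM R i _ = _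
    have h4 : F.dM R i u = - ((-1 : R) ^ i • act R (Φ.Φ i) y) := eq_neg_of_add_eq_zero_left h1
    rw [map_neg, map_smul, h4, smul_neg, neg_neg, smul_smul, ← mul_pow]
    simp
  obtain ⟨w, hw⟩ := hbdy
  have hw' : act R (K'.d i) w = y := hw
  have h5 : F.dM R i (u - (-1 : R) ^ (i + 1) • act R (Φ.Φ (i + 1)) w) = 0 := by
    rw [map_sub, map_smul]
    have h6 : F.dM R i (act R (Φ.Φ (i + 1)) w) = act R (Φ.Φ i) y := by
      show act R (F.d i) (act R (Φ.Φ (i + 1)) w) = _
      rw [← act_mul, ← Φ.comm i, act_mul, hw']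
    rw [h6, pow_succ, mul_neg_one, neg_smul, sub_neg_eq_add]
    exact h1
  obtain ⟨u'', hu''⟩ := hex i hi h5
  refine ⟨(Sum.elim u'' w : F.ι (i + 2) ⊕ (sh K').ι (i + 2) → R), ?_⟩
  refine (coneM_d Φ (i + 1) u'' w).trans ?_
  rw [hx', hu'']
  have e1 : u - (-1 : R) ^ (i + 1) • act R (Φ.Φ (i + 1)) w +
      (-1 : R) ^ (i + 1) • act R (Φ.Φ (i + 1)) w = u := sub_add_cancel _ _
  rw [e1]
  have e2 : (sh K').dM R (i + 1) w = y := hw'
  rw [e2]

variable {A : Type u} [CommRing A] (Λ : AddLen.{u, v} A)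
variable (X : Type v) [AddCommGroup X] [Module A X] [Module R X] [SMulCommClass R A X]

/-- if `b` kills `X` the cone of `b` on `F ⊗ X` splits -/
lemma k_eq_zero_of_smul (F : MCx R) {b : R} (hb : ∀ x : X, b • x = 0) (i : ℕ) :
    (sesCone (A := A) X (MMap.smul F b)).k Λ i = 0 := by
  have S := sesCone (A := A) X (MMap.smul F b)
  rw [S.k_eq Λ (isCx_dA A (coneM (MMap.smul F b)) X)]
  have hsurj : Function.Surjective (Hmap S.cg (i + 1)) := by
    intro ξ
    obtain ⟨⟨y, hy⟩, rfl⟩ := cls_surjective (i + 1) ξ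
    have hy' : (sh F).dA A X i y = 0 := hy
    let x : (coneM (MMap.smul F b)).ι (i + 1) → X :=
      (Sum.elim 0 y : F.ι (i + 1) ⊕ (sh F).ι (i + 1) → X)
    have hx : (coneM (MMap.smul F b)).dA A X i x = 0 := by
      have h := act_fromBlocks' X (F.d i) (coneθ (MMap.smul F b) i) ((sh F).d i)
        (Sum.elim 0 y : F.ι (i + 1) ⊕ (sh F).ι (i + 1) → X)
      refine Eq.trans h ?_
      funext a
      rcases a with a | a
      · show (act X (F.d i) 0 + act X (coneθ (MMap.smul F b) i) y) a = 0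
        rw [map_zero, zero_add, act_apply]
        refine Finset.sum_eq_zero fun c _ => ?_
        show ((-1 : R) ^ i * (b * (1 : Matrix (F.ι i) (F.ι i) R) a c)) • y c = 0
        rw [mul_left_comm, mul_smul, hb]
      · exact congrFun hy' a
    refine ⟨cls _ (i + 1) ⟨x, hx⟩, ?_⟩
    rw [Hmap_cls]
    rfl
  have : Subsingleton (H (C := fun n => (sh F).ι n → X) ((sh F).dA A X) (i + 1) ⧸
      LinearMap.range (Hmap S.cg (i + 1))) := by
    rw [LinearMap.range_eq_top.2 hsurj]
    infer_instance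
  exact Λ.L_subsingleton

lemma hX_le_coneM_smul (F : MCx R) {b : R} (hb : ∀ x : X, b • x = 0) (i : ℕ) :
    hX Λ F X i ≤ hX Λ (coneM (MMap.smul F b)) X (i + 1) := by
  have S := sesCone (A := A) X (MMap.smul F b)
  have h := S.key_succ Λ (isCx_dA A (coneM (MMap.smul F b)) X) i
  have k1 : S.k Λ i = 0 := k_eq_zero_of_smul Λ X F hb i
  have k2 : S.k Λ (i + 1) = 0 := k_eq_zero_of_smul Λ X F hb (i + 1)
  rw [k1, k2, add_zero, add_zero] at h
  have e : hX Λ (sh F) X (i + 1) = hX Λ F X i := hX_sh_succ Λ X F i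
  have h' : hX Λ F X (i + 1) + hX Λ (sh F) X (i + 1) =
    hX Λ (coneM (MMap.smul F b)) X (i + 1) := h
  rw [← h', e]
  exact le_add_self

lemma chiX_coneM_smul (F : MCx R) {D : ℕ} (hF : F.Len D) (b : R) (hfin : ∀ i, hX Λ F X i ≠ ⊤) :
    chiX Λ (coneM (MMap.smul F b)) X (D + 1 + 1) = 0 := by
  have S := sesCone (A := A) X (MMap.smul F b)
  have e1 := S.chi_add Λ (isCx_dA A (coneM (MMap.smul F b)) X) (D + 1 + 1) (fun i _ => hfin i)
    (fun i _ => hX_sh_ne_top Λ X F hfin i)
    (hX_eq_zero_of_len Λ (sh F) X (Len.sh hF) (by omega))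
  have e2 : chiX Λ (coneM (MMap.smul F b)) X (D + 1 + 1) = chiX Λ F X (D + 1 + 1) +
    chiX Λ (sh F) X (D + 1 + 1) := e1
  rw [e2, chiX_sh_succ, chiX_eq_of_len Λ F X hF (by omega : D < D + 1 + 1)]
  ring

end general

section residue

variable {R : Type w} [CommRing R] [IsRegularLocalRing R]
variable {K : MCx R} {ε : (K.ι 0 → R) →ₗ[R] (R ⧸ maximalIdeal R)}
variable {A : Type u} [CommRing A] (Λ : AddLen.{u, v} A)
variable (X : Type v) [AddCommGroup X] [Module A X] [Module R X] [SMulCommClass R A X]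

/-- data: a complex with finite length homology, `c ≠ 0`, killed by the twist -/
lemma exists_good {d : ℕ} (hd : ringKrullDim R = d) {b : R} (hb : b ≠ 0)
    (hbm : b ∈ maximalIdeal R) : ∃ (F : MCx R), F.Len d ∧
      (∀ i, hX (AddLen.ofLength.{w, w} R) (coneM (MMap.smul F b)) R i ≠ ⊤) ∧
      chiX (AddLen.ofLength.{w, w} R) (coneM (MMap.smul F b)) R (d + 1 + 1) ≠ 0 := by
  have hdom : IsDomain R := Noe.isDomain_of_regular R
  have hCM : Noe.CM R d R := Noe.CM.of_regular R hd
  -- dim R/b < d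
  have hdim : ringKrullDim (R ⧸ Ideal.span {b}) + 1 ≤ d := by
    have h := Noe.ringKrullDim_quotient_add_one_le (P := (⊥ : Ideal R)) (Q := Ideal.span {b})
      bot_le (x := b) (Ideal.mem_span_singleton_self b) (by simpa using hb)
    refine h.trans ?_
    rw [← hd]
    exact ringKrullDim_quotient_le _
  have hspan : Ideal.span {b} ≤ maximalIdeal R := by
    rw [Ideal.span_le]
    simpa using hbm
  have hnt : Nontrivial (R ⧸ Ideal.span {b}) :=
    Ideal.Quotient.nontrivial_iff.2 (fun h => (maximalIdeal.isMaximal R).ne_top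
      (top_le_iff.1 (h ▸ hspan)))
  obtain ⟨a, rfl⟩ : ∃ a, d = 1 + a := by
    have h0 : (0 : WithBot ℕ∞) ≤ ringKrullDim (R ⧸ Ideal.span {b}) :=
      ringKrullDim_nonneg_of_nontrivial
    have h1 : (1 : WithBot ℕ∞) ≤ d := by
      refine le_trans ?_ hdim
      calc (1 : WithBot ℕ∞) = 0 + 1 := (zero_add _).symm
        _ ≤ _ := by gcongr
    have h2 : 1 ≤ d := by exact_mod_cast h1
    exact ⟨d - 1, by omega⟩
  have hA : ringKrullDim (R ⧸ Ideal.span {b}) ≤ (a : ℕ) := by
    have h3 : ringKrullDim (R ⧸ Ideal.span {b}) + 1 ≤ ((a + 1 : ℕ) : WithBot ℕ∞) := by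
      rw [add_comm a 1]; exact hdim
    have h4 : ∀ e : WithBot ℕ∞, e + 1 ≤ ((a + 1 : ℕ) : WithBot ℕ∞) → e ≤ (a : ℕ) := by
      intro e he
      induction e with
      | bot => exact bot_le
      | coe e =>
        induction e with
        | top =>
          exfalso
          have h6 : ((⊤ : ℕ∞) : WithBot ℕ∞) + 1 = ((⊤ : ℕ∞) : WithBot ℕ∞) := rfl
          rw [h6] at he
          have h7 : (⊤ : ℕ∞) ≤ ((a + 1 : ℕ) : ℕ∞) := by exact_mod_cast he
          exact absurd (top_le_iff.1 h7) (ENat.natCast_ne_top _)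
        | coe e =>
          have h5 : e + 1 ≤ a + 1 := by exact_mod_cast he
          exact_mod_cast (by omega : e ≤ a)
    exact h4 _ h3
  have hm0 : ringKrullDim (R ⧸ maximalIdeal R) ≤ 0 :=
    Noe.ringKrullDim_le_zero_of_pow_le (c := 1) (by rw [pow_one])
  obtain ⟨G, -, hGm, -, hGCM, hGdim⟩ := Noe.exists_G (a := a) (b := 1) hCM
    (I := maximalIdeal R) (A := Ideal.span {b}) le_rfl (hm0.trans (by exact_mod_cast zero_le_one))
    hA (by rw [sup_eq_right.2 hspan]; exact hm0)
  -- Q' = R/(G), Q = Q'/b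
  let Q' := R ⧸ Ideal.ofList G
  have hann : Module.annihilator R Q' = Ideal.ofList G := Ideal.annihilator_quotient
  have hQdim : Module.supportDim R (QuotSMulTop b Q') ≤ 0 := by
    have h := Noe.supportDim_quotient_smul_top (Ideal.span {b}) Q'
    rw [Submodule.ideal_span_singleton_smul] at h
    show Module.supportDim R (Q' ⧸ b • (⊤ : Submodule R Q')) ≤ 0
    rw [h, hann, sup_comm]
    exact hGdim
  have hreg : IsSMulRegular Q' b := by
    refine hGCM.isSMulRegular (hQdim.trans_lt ?_)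
    exact_mod_cast zero_lt_one
  have hQCM : Noe.CM R 0 (QuotSMulTop b Q') := Noe.CM.quotSMulTop hGCM hbm hreg
  have hQnt : Nontrivial (QuotSMulTop b Q') := hQCM.nontrivial
  have hQfl : IsFiniteLength R (QuotSMulTop b Q') := by
    have h : IsFiniteLength R (TensorProduct R (R ⧸ Ideal.span {b}) Q') := by
      refine Noe.isFiniteLength_tensorProduct ?_
      rw [hann, Ideal.annihilator_quotient]
      exact hGdim
    exact (QuotSMulTop.equivQuotTensor b Q').symm.isFiniteLength h
  obtain ⟨F, η, hF, -, hFl⟩ := exists_res_len hd Q'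
  refine ⟨F, hFl, ?_⟩
  set C := coneM (MMap.smul F b) with hC
  have hsmul : ∀ (i : ℕ) (y : F.ι i → R), act R ((MMap.smul F b).Φ i) y = b • y := fun i y =>
    act_smul_one b y
  -- exactness in positive degrees
  have hreg' : ∀ q : Q', b • q = 0 → q = 0 := fun q hq =>
    hreg (show b • q = b • (0 : Q') by rw [hq, smul_zero])
  have hCex : ExGe C 0 := by
    refine coneM_exGe' (fun i _ y hy hby => ?_) ?_
    · rw [hsmul] at hby
      cases i with
      | zero =>
        have h1 : η (b • y) = 0 := by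
          obtain ⟨w, hw⟩ := hby
          rw [← hw]
          exact hF.ε_d w
        rw [map_smul] at h1
        have h2 : y ∈ LinearMap.ker η := hreg' _ h1
        rw [hF.ex0] at h2
        exact h2
      | succ k =>
        have h2 : y ∈ LinearMap.ker (F.dM R k) := hy
        rw [hF.ex k] at h2
        exact h2
    · intro i _
      exact (hF.ex i).le
  -- H_0
  let q : Q' →ₗ[R] QuotSMulTop b Q' := Submodule.mkQ _
  let η' : (C.ι 0 → R) →ₗ[R] QuotSMulTop b Q' :=
    q ∘ₗ η ∘ₗ (LinearMap.funLeft R R (Sum.inl : F.ι 0 → F.ι 0 ⊕ (sh F).ι 0))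
  have hη' : ∀ u : F.ι 0 → R, ∀ y, η' (Sum.elim u y : F.ι 0 ⊕ (sh F).ι 0 → R) = q (η u) :=
    fun u y => rfl
  have hres : IsRes C η' := by
    refine ⟨?_, ?_, ?_⟩
    · intro x
      obtain ⟨x', rfl⟩ := Submodule.mkQ_surjective _ x
      obtain ⟨u, rfl⟩ := hF.surj x'
      exact ⟨(Sum.elim u 0 : F.ι 0 ⊕ (sh F).ι 0 → R), hη' u 0⟩
    · apply le_antisymm
      · intro x hx
        let u : F.ι 0 → R := fun a => x (Sum.inl a)
        have h1 : q (η u) = 0 := hx
        have h2 : η u ∈ (b • (⊤ : Submodule R Q')) := (Submodule.Quotient.mk_eq_zero _).1 h1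
        obtain ⟨q', -, hq'⟩ := (Submodule.mem_smul_pointwise_iff_exists _ _ _).1 h2
        obtain ⟨y, rfl⟩ := hF.surj q'
        have h3 : u - b • y ∈ LinearMap.ker η := by
          rw [LinearMap.mem_ker, map_sub, map_smul, hq', sub_self]
        rw [hF.ex0] at h3
        obtain ⟨w, hw⟩ := h3
        refine ⟨(Sum.elim w y : F.ι 1 ⊕ (sh F).ι 1 → R), ?_⟩
        refine (coneM_d (MMap.smul F b) 0 w y).trans ?_
        funext a
        rcases a with a | a
        · show (F.dM R 0 w + (-1 : R) ^ 0 • act R ((MMap.smul F b).Φ 0) y) a = x (Sum.inl a)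
          rw [hw, hsmul, pow_zero, one_smul, sub_add_cancel]
        · exact a.elim
      · rintro _ ⟨x, rfl⟩
        let u : F.ι 1 → R := fun a => x (Sum.inl a)
        let y : F.ι 0 → R := fun a => x (Sum.inr a)
        have hx' : x = (Sum.elim u y : F.ι 1 ⊕ (sh F).ι 1 → R) := by
          funext a
          rcases a with a | a <;> rfl
        rw [LinearMap.mem_ker, hx']
        have h1 := coneM_d (MMap.smul F b) 0 u y
        have h2 : η' (C.dM R 0 (Sum.elim u y : F.ι 1 ⊕ (sh F).ι 1 → R)) =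
            q (η (F.dM R 0 u + (-1 : R) ^ 0 • act R ((MMap.smul F b).Φ 0) y)) := by
          rw [h1]
          exact hη' _ _
        rw [h2, hsmul, map_add, hF.ε_d, zero_add, pow_zero, one_smul, map_smul, map_smul]
        refine (Submodule.Quotient.mk_eq_zero _).2 ?_
        exact Submodule.smul_mem_pointwise_smul _ _ _ trivial
    · intro i
      apply le_antisymm (hCex i (Nat.zero_le _))
      rintro _ ⟨v, rfl⟩
      exact C.dM_dM i v
  have h0 : hX (AddLen.ofLength.{w, w} R) C R 0 =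
      (AddLen.ofLength.{w, w} R).L (QuotSMulTop b Q') :=
    (AddLen.ofLength.{w, w} R).L_congr (H0equiv hres)
  have hpos : ∀ i, hX (AddLen.ofLength.{w, w} R) C R (i + 1) = 0 := fun i =>
    hX_eq_zero_of_exact C (i + 1) (fun y hy => hCex i (Nat.zero_le _) hy)
  have hfin0 : hX (AddLen.ofLength.{w, w} R) C R 0 ≠ ⊤ := by
    rw [h0, ofLength_ne_top_iff]; exact hQfl
  have hne0 : hX (AddLen.ofLength.{w, w} R) C R 0 ≠ 0 := by
    rw [h0, Ne, ofLength_eq_zero_iff, not_subsingleton_iff_nontrivial]; exact hQnt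
  refine ⟨fun i => ?_, ?_⟩
  · cases i with
    | zero => exact hfin0
    | succ i => rw [hpos]; exact ENNReal.zero_ne_top
  · rw [chiX_eq, Finset.sum_range_succ']
    simp only [hpos, ENNReal.toReal_zero, mul_zero, Finset.sum_const_zero, pow_zero, one_mul,
      zero_add]
    exact ENNReal.toReal_ne_zero.2 ⟨hne0, hfin0⟩

/-- **(I.2)** If a nonzero element `b` of the regular local ring `R` kills `X` (and the Koszul
lengths are finite) then `χ(K; X) = 0`. -/
theorem chiX_residue_eq_zero {d : ℕ} (hd : ringKrullDim R = d) (hK : IsRes K ε) {DK : ℕ} (hKl : K.Len DK)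
    (hKX : ∀ i, hX Λ K X i ≠ ⊤) {b : R} (hb : b ≠ 0) (hbX : ∀ x : X, b • x = 0) :
    chiX Λ K X (DK + 1) = 0 := by
  by_cases hbm : b ∈ maximalIdeal R
  · obtain ⟨F, hF, hfin, hne⟩ := exists_good hd hb hbm
    have hClen : (coneM (MMap.smul F b)).Len (d + 1) :=
      coneM_len _ (fun i hi => hF i (by omega)) (Len.sh hF)
    obtain ⟨h1, h2⟩ := chiX_mul Λ X hK hKl hKX (coneM (MMap.smul F b)) hClen hfin
    have h3 : ∀ i, hX Λ F X i ≠ ⊤ := fun i =>
      ne_top_of_le_ne_top (h1 (i + 1)) (hX_le_coneM_smul Λ X F hbX i)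
    rw [chiX_coneM_smul Λ X F hF b h3] at h2
    rcases mul_eq_zero.1 h2.symm with h | h
    · exact absurd h hne
    · exact h
  · have hu : IsUnit b := by
      by_contra h
      exact hbm ((mem_maximalIdeal _).2 h)
    have : Subsingleton X := ⟨fun x y => by
      obtain ⟨c, rfl⟩ := hu
      have : ∀ x : X, x = 0 := fun x => by
        rw [← one_smul R x, ← Units.inv_mul c, mul_smul, hbX, smul_zero]
      rw [this x, this y]⟩
    rw [chiX_eq]
    exact Finset.sum_eq_zero fun i _ => by rw [hX_subsingleton]; simp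

/-- **block (I)**: `R` regular local, `F` a bounded complex of finite free modules with homology of
finite length, `X` killed by some `b ≠ 0`, finite Koszul lengths: `χ(F; X) = 0`. -/
theorem chiX_eq_zero {d : ℕ} (hd : ringKrullDim R = d) (hK : IsRes K ε) {DK : ℕ} (hKl : K.Len DK)
    (hKX : ∀ i, hX Λ K X i ≠ ⊤) {b : R} (hb : b ≠ 0) (hbX : ∀ x : X, b • x = 0)
    (F : MCx R) {D : ℕ} (hF : F.Len D)
    (hfin : ∀ i, hX (AddLen.ofLength.{w, w} R) F R i ≠ ⊤) {N : ℕ} (hN : D < N) :
    (∀ i, hX Λ F X i ≠ ⊤) ∧ chiX Λ F X N = 0 := by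
  obtain ⟨h1, h2⟩ := chiX_mul Λ X hK hKl hKX F hF hfin
  refine ⟨h1, ?_⟩
  rw [chiX_eq_of_len Λ F X hF hN, h2, chiX_residue_eq_zero Λ X hd hK hKl hKX hb hbX, mul_zero]

end residue

end Crest.Agent.R188.PerfB
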