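/-
R188, block (I): perfect complexes over a local ring with finite length homology.
Part 6: push-forward of a complex of free `R`-modules along `ρ : R →+* Matrix (Fin n) (Fin n) B`,
comparison of lengths, `χ(F; N ⊗_B X) = χ_R(F; N) · χ(K; X)`.
helper111
-/
import Crest.Agent.R188.PerfB5
import Crest.Agent.R188.Eq5
import Crest.Agent.R183.BInf3

set_option autoImplicit false
set_option linter.unusedSectionVars false

namespace Crest.Agent.R188.PerfB

open scoped ENNReal
open IsLocalRing
open Crest.Agent.R183 Crest.Agent.R183.Res Crest.Agent.R188.Chi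

universe u v w v' w'

section push

variable {R : Type w'} [CommRing R] {B : Type w} [CommRing B] {n : ℕ}

/-- the push-forward `F ⊗_R B^n` of `F` along `ρ : R → Mat_n(B)`, a complex of free `B`-modules -/
def push (F : MCx R) (ρ : R →+* Matrix (Fin n) (Fin n) B) : MCx B where
  ι i := F.ι i × Fin n
  fin _ := inferInstance
  dec _ := inferInstance
  d i := Matrix.of fun x y => ρ (F.d i x.1 y.1) x.2 y.2
  dd i := by
    ext ⟨a, s⟩ ⟨c, u⟩
    have h := congrFun (congrFun (F.dd i) a) c
    rw [Matrix.mul_apply, Matrix.zero_apply] at h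
    have h' := congrFun (congrFun (congrArg ρ h) s) u
    rw [map_sum, map_zero, Matrix.zero_apply, Matrix.sum_apply] at h'
    rw [Matrix.mul_apply, Fintype.sum_prod_type, Matrix.zero_apply, ← h']
    refine Finset.sum_congr rfl fun b _ => ?_
    rw [map_mul, Matrix.mul_apply]
    rfl

lemma len_push {F : MCx R} {D : ℕ} (hF : F.Len D) (ρ : R →+* Matrix (Fin n) (Fin n) B) :
    (push F ρ).Len D := by
  intro i hi
  have := hF i hi
  exact ⟨fun x => this.false x.1⟩

variable {A : Type u} [CommRing A]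
variable (X : Type v) [AddCommGroup X] [Module A X] [Module B X] [SMulCommClass B A X]
variable (V : Type v) [AddCommGroup V] [Module A V] [Module R V] [SMulCommClass R A V]

/-- terms of the comparison -/
def pushTerm (F : MCx R) (ρ : R →+* Matrix (Fin n) (Fin n) B) {X V : Type v} [AddCommGroup X]
    [Module A X] [AddCommGroup V] [Module A V] (e : V ≃ₗ[A] (Fin n → X)) (i : ℕ) :
    (F.ι i → V) ≃ₗ[A] ((push F ρ).ι i → X) :=
  (LinearEquiv.piCongrRight fun _ : F.ι i => e) ≪≫ₗ
    (LinearEquiv.curry A X (F.ι i) (Fin n)).symm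

lemma pushTerm_apply (F : MCx R) (ρ : R →+* Matrix (Fin n) (Fin n) B) {X V : Type v}
    [AddCommGroup X] [Module A X] [AddCommGroup V] [Module A V] (e : V ≃ₗ[A] (Fin n → X)) (i : ℕ)
    (x : F.ι i → V) (a : F.ι i) (s : Fin n) : pushTerm F ρ e i x (a, s) = e (x a) s := rfl

variable {X V}

/-- **the homology of the push-forward** -/
noncomputable def HXpush (F : MCx R) (ρ : R →+* Matrix (Fin n) (Fin n) B) (e : V ≃ₗ[A] (Fin n → X))
    (he : ∀ r x s, e (r • x) s = ∑ t, ρ r s t • e x t) (i : ℕ) :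
    HX A F V i ≃ₗ[A] HX A (push F ρ) X i :=
  Hiso (C := fun m => F.ι m → V) (C' := fun m => (push F ρ).ι m → X)
    (d := F.dA A V) (d' := (push F ρ).dA A X) (fun m => pushTerm F ρ e m) (by
      intro m x
      funext ⟨a, s⟩
      show e (∑ b, F.d m a b • x b) s =
        ∑ y : F.ι (m + 1) × Fin n, (ρ (F.d m a y.1) s y.2) • e (x y.1) y.2
      rw [Fintype.sum_prod_type, map_sum, Finset.sum_apply]
      exact Finset.sum_congr rfl fun b _ => he _ _ _) i

variable (Λ : AddLen.{u, v} A)

lemma hX_push (F : MCx R) (ρ : R →+* Matrix (Fin n) (Fin n) B) (e : V ≃ₗ[A] (Fin n → X))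
    (he : ∀ r x s, e (r • x) s = ∑ t, ρ r s t • e x t) (i : ℕ) :
    hX Λ F V i = hX Λ (push F ρ) X i := Λ.L_congr (HXpush F ρ e he i)

lemma chiX_push (F : MCx R) (ρ : R →+* Matrix (Fin n) (Fin n) B) (e : V ≃ₗ[A] (Fin n → X))
    (he : ∀ r x s, e (r • x) s = ∑ t, ρ r s t • e x t) (N : ℕ) :
    chiX Λ F V N = chiX Λ (push F ρ) X N := by
  rw [chiX_eq, chiX_eq]
  exact Finset.sum_congr rfl fun i _ => by rw [hX_push Λ F ρ e he]

end push

/-! ### comparison of lengths -/

section restr0

variable {R : Type w'} [CommRing R] {A₀ : Type w} {A : Type u} [CommRing A₀] [CommRing A]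
  (φ : A₀ →+* A)
variable {V : Type v} [AddCommGroup V] [Module A₀ V] [Module A V] [Module R V]
  [SMulCommClass R A₀ V] [SMulCommClass R A V]

lemma Hadd_smul_of_map' (F : MCx R) (hφ : ∀ (a : A₀) (x : V), a • x = φ a • x) (i : ℕ) (a : A₀)
    (y : HX A F V i) :
    Eq.Hadd (C := fun n => F.ι n → V) (F.dA A V) (F.dA A₀ V) (fun _ _ => rfl) i (φ a • y) =
      a • Eq.Hadd (C := fun n => F.ι n → V) (F.dA A V) (F.dA A₀ V) (fun _ _ => rfl) i y := by
  obtain ⟨z, rfl⟩ := cls_surjective (C := fun n => F.ι n → V) (d := F.dA A V) i y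
  rw [← map_smul, Eq.Hadd_cls, Eq.Hadd_cls, ← map_smul]
  congr 1
  exact Subtype.ext (funext fun j => (hφ a _).symm)

end restr0

section restr

variable {R : Type w'} [CommRing R] {A₀ A : Type u} [CommRing A₀] [CommRing A] (φ : A₀ →+* A)
variable {V : Type v} [AddCommGroup V] [Module A₀ V] [Module A V] [Module R V]
  [SMulCommClass R A₀ V] [SMulCommClass R A V]

/-- restriction of the length along `A₀ → A` -/
lemma hX_restrict (Λ : AddLen.{u, v} A₀) (F : MCx R) (hφ : ∀ (a : A₀) (x : V), a • x = φ a • x)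
    (i : ℕ) : hX (Λ.restrict φ) F V i = hX Λ F V i := by
  let _ : Module A₀ (HX A F V i) := Module.compHom _ φ
  have h1 : (Λ.restrict φ).L (HX A F V i) = Λ.L (HX A F V i) :=
    Λ.restrict_L φ (HX A F V i) fun _ _ => rfl
  rw [hX_eq, h1, hX_eq]
  refine Λ.L_congr
    { Eq.Hadd (C := fun n => F.ι n → V) (F.dA A V) (F.dA A₀ V) (fun _ _ => rfl) i with
      map_smul' := fun a y => Hadd_smul_of_map' φ F hφ i a y }

lemma chiX_restrict (Λ : AddLen.{u, v} A₀) (F : MCx R) (hφ : ∀ (a : A₀) (x : V), a • x = φ a • x)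
    (N : ℕ) : chiX (Λ.restrict φ) F V N = chiX Λ F V N := by
  rw [chiX_eq, chiX_eq]
  exact Finset.sum_congr rfl fun i _ => by rw [hX_restrict φ Λ F hφ]

end restr

section mapring

variable {R : Type w'} [CommRing R] {S : Type w} [CommRing S] {A : Type u} [CommRing A]
variable {V : Type v} [AddCommGroup V] [Module A V] [Module R V] [Module S V]
  [SMulCommClass R A V] [SMulCommClass S A V]

/-- `F.map ψ` with coefficients in `V` is `F` with coefficients in `V` -/
lemma hX_map' (Λ : AddLen.{u, v} A) (F : MCx R) (ψ : R →+* S)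
    (hψ : ∀ (r : R) (x : V), r • x = ψ r • x) (i : ℕ) : hX Λ (F.map ψ) V i = hX Λ F V i := by
  refine Λ.L_congr (Hiso (C := fun m => (F.map ψ).ι m → V) (C' := fun m => F.ι m → V)
    (d := (F.map ψ).dA A V) (d' := F.dA A V) (fun m => LinearEquiv.refl A (F.ι m → V)) (by
      intro m x
      funext a
      show ∑ b, (ψ (F.d m a b)) • x b = ∑ b, F.d m a b • x b
      exact Finset.sum_congr rfl fun b _ => (hψ _ _).symm) i)

lemma chiX_map' (Λ : AddLen.{u, v} A) (F : MCx R) (ψ : R →+* S)
    (hψ : ∀ (r : R) (x : V), r • x = ψ r • x) (N : ℕ) : chiX Λ (F.map ψ) V N = chiX Λ F V N := by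
  rw [chiX_eq, chiX_eq]
  exact Finset.sum_congr rfl fun i _ => by rw [hX_map' Λ F ψ hψ]

end mapring

section lengthcmp

variable {R : Type w'} [CommRing R] {B : Type w} [CommRing B] {T : Type u} [CommRing T]
  [IsLocalRing T]
variable {N : Type v} [AddCommGroup N] [Module R N] [Module B N] [Module T N]
  [SMulCommClass R B N] [SMulCommClass R T N] [SMulCommClass R R N]

lemma Hadd_smul_tower [Algebra B T] [IsScalarTower B T N] (F : MCx R) (i : ℕ) (a : B)
    (y : HX T F N i) :
    Eq.Hadd (C := fun n => F.ι n → N) (F.dA T N) (F.dA B N) (fun _ _ => rfl) i (a • y) =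
      a • Eq.Hadd (C := fun n => F.ι n → N) (F.dA T N) (F.dA B N) (fun _ _ => rfl) i y := by
  have h0 : a • y = algebraMap B T a • y := (algebraMap_smul T a y).symm
  rw [h0]
  exact Hadd_smul_of_map' (algebraMap B T) F (fun a x => (algebraMap_smul T a x).symm) i a y

/-- `B → T` with `T` local and `B → T/𝔪` onto: the lengths of `H_i(F ⊗ N)` over `B` and `T` agree. -/
theorem length_HX_local [Algebra B T] [IsScalarTower B T N]
    (h : ∀ x : T, ∃ a : B, x - algebraMap B T a ∈ maximalIdeal T) (F : MCx R) (i : ℕ) :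
    Module.length B (HX B F N i) = Module.length T (HX T F N i) := by
  have h1 := Lam.length_eq_of_isLocalRing (R := B) h (HX T F N i)
  rw [← h1]
  exact (LinearEquiv.length_eq (R := B) (M := HX T F N i) (N := HX B F N i)
    { Eq.Hadd (C := fun n => F.ι n → N) (F.dA T N) (F.dA B N) (fun _ _ => rfl) i with
      map_smul' := fun a y => Hadd_smul_tower F i a y }).symm

/-- lengths over `B` and over `R`, both acting through the local ring `T` -/
theorem length_HX_local' [Algebra B T] [IsScalarTower B T N] [Algebra R T] [IsScalarTower R T N]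
    (hR : Function.Surjective (algebraMap R T))
    (h : ∀ x : T, ∃ a : B, x - algebraMap B T a ∈ maximalIdeal T) (F : MCx R) (i : ℕ) :
    Module.length B (HX B F N i) = Module.length R (HX R F N i) := by
  rw [length_HX_local (T := T) h F i]
  refine Eq.length_H_eq (C := fun n => F.ι n → N) (F.dA T N) (F.dA R N) (fun _ _ => rfl)
    (fun t => ?_) (fun r => ?_) i
  · obtain ⟨r, rfl⟩ := hR t
    exact ⟨r, fun _ x => funext fun j => algebraMap_smul T r _⟩
  · exact ⟨algebraMap R T r, fun _ x => funext fun j => algebraMap_smul T r _⟩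

end lengthcmp

/-! ### the main theorems -/

section main

variable {R : Type w'} [CommRing R] {B : Type w} [CommRing B] [IsLocalRing B] {n : ℕ}
variable {K : MCx B} {ε : (K.ι 0 → B) →ₗ[B] (B ⧸ maximalIdeal B)}
variable {N : Type w} [AddCommGroup N] [Module R N] [Module B N] [SMulCommClass R B N]
variable {A : Type u} [CommRing A] (Λ : AddLen.{u, v} A)
variable {X : Type v} [AddCommGroup X] [Module A X] [Module B X] [SMulCommClass B A X]
variable {V : Type v} [AddCommGroup V] [Module A V] [Module R V] [SMulCommClass R A V]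

/-- **block (I)**: `N ≅ B^n` with `R` acting through `ρ`, `V ≅ X^n` with `R` acting through `ρ`
(so `V = N ⊗_B X`): `χ(F; V) = χ_B(F; N) · χ(K; X)`, `K` a finite resolution of the residue field
of `B` with finite lengths on `X`. -/
theorem chiX_mul_push (F : MCx R) {D : ℕ} (hF : F.Len D) (ρ : R →+* Matrix (Fin n) (Fin n) B)
    (hK : IsRes K ε) {DK : ℕ} (hKl : K.Len DK) (eN : N ≃ₗ[B] (Fin n → B))
    (heN : ∀ r x s, eN (r • x) s = ∑ t, ρ r s t • eN x t)
    (hN : ∀ i, hX (AddLen.ofLength.{w, w} B) F N i ≠ ⊤)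
    (e : V ≃ₗ[A] (Fin n → X)) (he : ∀ r x s, e (r • x) s = ∑ t, ρ r s t • e x t)
    (hKX : ∀ i, hX Λ K X i ≠ ⊤) :
    (∀ i, hX Λ F V i ≠ ⊤) ∧ chiX Λ F V (D + 1) =
      chiX (AddLen.ofLength.{w, w} B) F N (D + 1) * chiX Λ K X (DK + 1) := by
  have h1 : ∀ i, hX (AddLen.ofLength.{w, w} B) (push F ρ) B i ≠ ⊤ := fun i => by
    rw [← hX_push _ F ρ eN heN]; exact hN i
  obtain ⟨h2, h3⟩ := chiX_mul Λ X hK hKl hKX (push F ρ) (len_push hF ρ) h1
  refine ⟨fun i => ?_, ?_⟩
  · rw [hX_push Λ F ρ e he]; exact h2 i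
  · rw [chiX_push Λ F ρ e he, h3, chiX_push _ F ρ eN heN]

end main

end Crest.Agent.R188.PerfB
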