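import Crest.Agent.R188.SX1

/-!
# R188, S-level (helper546), part 2: the growth bound for `K(t^m) ⊗ F_M ⊗ X`
-/

set_option autoImplicit false

namespace Crest.Agent.R188.SX

open scoped ENNReal Pointwise
open IsLocalRing
open Crest.Agent.R183 Crest.Agent.R183.Res
open Crest.Agent.R188.Kos Crest.Agent.R188.Chi Crest.Agent.R188.KosG

universe u v w v₁ v₂ v₃

section res

variable {S : Type w} [CommRing S]
variable {M : Type v₁} [AddCommGroup M] [Module S M] {M'' : Type v₂} [AddCommGroup M'']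
  [Module S M'']

/-- (B3) the cone of a regular element resolves `M / t M`. -/
theorem isRes_cone {F : MCx S} {ε : (F.ι 0 → S) →ₗ[S] M} (hF : IsRes F ε) {t : S}
    (ht : ∀ m : M, t • m = 0 → m = 0) {β : M →ₗ[S] M''} (hβ : Function.Surjective β)
    (hk : ∀ m, β m = 0 ↔ ∃ y, t • y = m) :
    IsRes (F.cone t) (show ((F.cone t).ι 0 → S) →ₗ[S] M'' from β ∘ₗ ε) := by
  let C : Cx.{w, w} S := FT F S S
  let φ : (FT (F.cone t) S S).Iso (C.cone t) := FTcone F t t fun _ => rfl
  have hC : ∀ n, ∀ x : C.X (n + 1), C.d n x = 0 → ∃ z, C.d (n + 1) z = x := by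
    intro n x hx
    have : x ∈ LinearMap.ker (F.dM S n) := hx
    rw [hF.ex] at this
    exact this
  let η : C.X 0 →ₗ[S] M := ε
  have hC0 : ∀ x : C.X 0, η x = 0 ↔ ∃ z, C.d 0 z = x := by
    intro x
    have : x ∈ LinearMap.ker ε ↔ x ∈ LinearMap.range (F.dM S 0) := by rw [hF.ex0]
    exact this
  refine ⟨fun m => ?_, ?_, ?_⟩
  · obtain ⟨y, rfl⟩ := hβ m
    obtain ⟨x, rfl⟩ := hF.surj y
    exact ⟨x, rfl⟩
  · ext x
    have h1 : x ∈ LinearMap.range ((F.cone t).dM S 0) ↔ x ∈ (C.cone t).bdy 0 := by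
      constructor
      · rintro ⟨y, rfl⟩
        exact ⟨φ.e 1 y, (φ.comm 0 y).symm⟩
      · rintro ⟨y, rfl⟩
        obtain ⟨y, rfl⟩ := (φ.e 1).surjective y
        exact ⟨y, φ.comm 0 y⟩
    rw [h1]
    refine Iff.trans ?_ (Cx.mem_cone_bdy_zero C t x).symm
    obtain ⟨x', hx'⟩ : ∃ x' : C.X 0, x' = x := ⟨x, rfl⟩
    rw [← hx']
    show β (η x') = 0 ↔ _
    rw [hk]
    constructor
    · rintro ⟨y, hy⟩
      obtain ⟨y, rfl⟩ := hF.surj y
      obtain ⟨y', hy'⟩ : ∃ y' : C.X 0, y' = y := ⟨y, rfl⟩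
      have hy2 : t • η y' = η x' := by rw [← hy, hy']; rfl
      obtain ⟨u, hu⟩ := (hC0 (x' - t • y')).1 (by rw [map_sub, map_smul, hy2, sub_self])
      exact ⟨u, y', by rw [hu]; simp⟩
    · rintro ⟨u, w, h⟩
      refine ⟨η w, ?_⟩
      rw [← h, map_add, (hC0 _).2 ⟨u, rfl⟩, zero_add, map_smul]
  · intro n
    apply le_antisymm
    · intro x hx
      have h1 : φ.e (n + 1) x ∈ (C.cone t).cyc (n + 1) := by
        have h2 : (FT (F.cone t) S S).d n x = 0 := hx
        rw [Cx.mem_cyc_succ, ← φ.comm, h2, map_zero]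
      obtain ⟨⟨a, b⟩, hab⟩ : ∃ p : C.X (n + 1) × C.X n, p = φ.e (n + 1) x := ⟨_, rfl⟩
      rw [← hab] at h1
      have h1' := (Cx.mem_cone_cyc_succ C t n a b).1 h1
      have hb : ∃ b', C.d n b' = b := by
        cases n with
        | zero =>
          refine (hC0 b).1 (ht _ ?_)
          have := congrArg η h1'.1
          rw [map_add, (hC0 _).2 ⟨a, rfl⟩, zero_add, map_smul, map_zero] at this
          exact this
        | succ k => exact hC k b h1'.2
      obtain ⟨b', rfl⟩ := hb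
      obtain ⟨z, hz⟩ := hC n (a + t • b') (by rw [map_add, map_smul]; exact h1'.1)
      have h3 : (C.cone t).d (n + 1) ((z, -b') : C.X (n + 2) × C.X (n + 1)) =
          φ.e (n + 1) x := by
        rw [← hab, Cx.cone_d_succ, hz]
        refine Prod.ext ?_ ?_
        · show a + t • b' + t • (-b') = a
          simp
        · show -(C.d n (-b')) = C.d n b'
          simp
      obtain ⟨y, hy⟩ := (φ.e (n + 2)).surjective ((z, -b') : C.X (n + 2) × C.X (n + 1))
      refine ⟨y, ?_⟩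
      apply (φ.e (n + 1)).injective
      rw [← h3, ← hy]
      exact φ.comm (n + 1) y
    · rintro _ ⟨x, rfl⟩
      exact (F.cone t).dM_dM n x

end res

section one

variable {S : Type w} [CommRing S]

/-- `S` resolves itself -/
theorem isRes_one : IsRes (MCx.one S) (M := S)
    (show ((MCx.one S).ι 0 → S) →ₗ[S] S from LinearMap.proj (R := S) (φ := fun _ : Unit => S) ()) := by
  refine ⟨fun m => ⟨fun _ => m, rfl⟩, ?_, ?_⟩
  · ext x
    constructor
    · intro h
      have h' : (show Unit → S from x) () = 0 := h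
      have : x = 0 := by
        funext a
        exact h'
      rw [this]
      exact Submodule.zero_mem _
    · rintro ⟨y, rfl⟩
      have : (MCx.one S).dM S 0 y = 0 := act_zero y
      rw [this]
      exact Submodule.zero_mem _
  · intro i
    ext x
    have : x = 0 := by
      funext a
      exact Empty.elim a
    rw [this]
    exact ⟨fun _ => Submodule.zero_mem _, fun _ => Submodule.zero_mem _⟩

end one

section main

variable {S : Type w} [CommRing S]

section seq

variable {A : Type u} [CommRing A] (φ : S →+* A) (Λ : AddLen.{u, v} A)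
variable {X : Type v} [AddCommGroup X] [Module A X] [Module S X] [SMulCommClass S A X]

theorem hK_weaklyRegular (hφ : ∀ (s : S) (x : X), s • x = φ s • x) (s : List S) :
    ∀ (M : Type v₁) [AddCommGroup M] [Module S M] (F : MCx S) (ε : (F.ι 0 → S) →ₗ[S] M)
      (_ : IsRes F ε) (_ : RingTheory.Sequence.IsWeaklyRegular M s) (M'' : Type v₁)
      [AddCommGroup M''] [Module S M''] (β : M →ₗ[S] M'') (_ : Function.Surjective β)
      (_ : LinearMap.ker β = Ideal.ofList s • (⊤ : Submodule S M)) (F'' : MCx S)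
      (ε'' : (F''.ι 0 → S) →ₗ[S] M'') (_ : IsRes F'' ε'') (l : List A) (i : ℕ),
      hK Λ l F'' X i = hK Λ (s.map φ ++ l) F X i := by
  induction s with
  | nil =>
    intro M _ _ F ε hF _ M'' _ _ β hβ hk F'' ε'' hF'' l i
    rw [Ideal.ofList_nil, Submodule.bot_smul] at hk
    exact hK_eq_of_isRes Λ hF'' hF
      (LinearEquiv.ofBijective β ⟨LinearMap.ker_eq_bot.1 hk, hβ⟩).symm l i
  | cons b s ih =>
    intro M _ _ F ε hF hs M'' _ _ β hβ hk F'' ε'' hF'' l i
    rw [RingTheory.Sequence.isWeaklyRegular_cons_iff] at hs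
    let M1 := QuotSMulTop b M
    have h1 : ∀ x : M, (Submodule.mkQ (b • (⊤ : Submodule S M))) x = 0 ↔ ∃ y, b • y = x := by
      intro x
      rw [Submodule.mkQ_apply, Submodule.Quotient.mk_eq_zero, Submodule.mem_smul_pointwise_iff_exists]
      exact ⟨fun ⟨y, _, hy⟩ => ⟨y, hy⟩, fun ⟨y, hy⟩ => ⟨y, trivial, hy⟩⟩
    have hF1 := isRes_cone hF (t := b) (fun x hx => hs.1 (by simpa using hx))
      (Submodule.mkQ_surjective (b • (⊤ : Submodule S M))) h1
    have h2 : b • (⊤ : Submodule S M) ≤ LinearMap.ker β := by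
      rw [hk, Ideal.ofList_cons_smul]
      exact le_sup_left
    rw [ih M1 (F.cone b) _ hF1 hs.2 M'' ((b • (⊤ : Submodule S M)).liftQ β h2)
      (by
        intro y
        obtain ⟨x, rfl⟩ := hβ y
        exact ⟨Submodule.Quotient.mk x, rfl⟩)
      (by
        rw [Submodule.ker_liftQ, hk, Ideal.ofList_cons_smul, Submodule.map_sup]
        have h3 : Submodule.map (b • (⊤ : Submodule S M)).mkQ (b • (⊤ : Submodule S M)) = ⊥ := by
          rw [eq_bot_iff]
          rintro _ ⟨x, hx, rfl⟩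
          exact (Submodule.Quotient.mk_eq_zero _).2 hx
        rw [h3, bot_sup_eq, Submodule.map_smul'', Submodule.map_top, Submodule.range_mkQ])
      F'' ε'' hF'' l i]
    rw [hK_cone Λ F b (φ b) (hφ b), List.map_cons]
    refine hK_perm Λ ?_ F i
    exact List.perm_append_singleton _ _

end seq

/-- the reference numbers `b_j = L H_j(K(l, φ(s)) ⊗ X)` -/
noncomputable def bn {A : Type u} [CommRing A] (φ : S →+* A) (Λ : AddLen.{u, v} A) (s : List S)
    (l : List A) (X : Type v) [AddCommGroup X] [Module A X] [Module S X] [SMulCommClass S A X]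
    (j : ℕ) : ℝ≥0∞ := hK Λ (s.map φ ++ l) (MCx.one S) X j

/-- the growth bound -/
def Bd (s t : List S) (M : Type v₁) [AddCommGroup M] [Module S M] : Prop :=
  ∃ C m₀ : ℕ, ∀ m, m₀ ≤ m → ∀ (A : Type u) [CommRing A] (φ : S →+* A) (Λ : AddLen.{u, v} A)
    (X : Type v) [AddCommGroup X] [Module A X] [Module S X] [SMulCommClass S A X]
    (_ : ∀ (a : S) (x : X), a • x = φ a • x) (l : List A) (F : MCx S)
    (ε : (F.ι 0 → S) →ₗ[S] M) (_ : IsRes F ε) (i : ℕ),
    (m : ℝ≥0∞) * hK Λ (t.map (fun x => φ x ^ m) ++ l) F X i ≤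
      C * ((m : ℝ≥0∞) ^ (t.length + 1) * bn φ Λ s l X i +
        (m : ℝ≥0∞) ^ t.length * ∑ j ∈ Finset.range i, bn φ Λ s l X j)

theorem Bd.congr {s t : List S} {M : Type v₁} [AddCommGroup M] [Module S M] {M' : Type v₂}
    [AddCommGroup M'] [Module S M'] (e : M ≃ₗ[S] M') (h : Bd.{u, v} s t M) :
    Bd.{u, v} s t M' := by
  obtain ⟨C, m₀, H⟩ := h
  refine ⟨C, m₀, fun m hm A _ φ Λ X _ _ _ _ hφ l F ε hF i => ?_⟩
  refine H m hm A φ Λ X hφ l F ((e.symm : M' →ₗ[S] M) ∘ₗ ε) ⟨?_, ?_, hF.ex⟩ i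
  · exact e.symm.surjective.comp hF.surj
  · rw [← hF.ex0, LinearMap.ker_comp]
    ext x
    simp

theorem Bd.ext [IsNoetherianRing S] [IsLocalRing S] {s t : List S} {M' : Type v₁}
    [AddCommGroup M'] [Module S M'] [Module.Finite S M']
    {M : Type v₁} [AddCommGroup M] [Module S M] {M'' : Type v₁} [AddCommGroup M'']
    [Module S M''] [Module.Finite S M''] {α : M' →ₗ[S] M} {β : M →ₗ[S] M''}
    (hα : Function.Injective α) (hβ : Function.Surjective β) (hex : Function.Exact α β)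
    (h' : Bd.{u, v} s t M') (h'' : Bd.{u, v} s t M'') : Bd.{u, v} s t M := by
  obtain ⟨C, m₀, H⟩ := h'
  obtain ⟨C₂, m₂, H₂⟩ := h''
  refine ⟨C + C₂, max m₀ m₂, fun m hm A _ φ Λ X _ _ _ _ hφ l F ε hF i => ?_⟩
  obtain ⟨F', ε', hF'⟩ := exists_res (T := S) M'
  obtain ⟨F'', ε'', hF''⟩ := exists_res (T := S) M''
  have h1 := H m (le_trans (le_max_left _ _) hm) A φ Λ X hφ l F' ε' hF' i
  have h2 := H₂ m (le_trans (le_max_right _ _) hm) A φ Λ X hφ l F'' ε'' hF'' i
  have h3 := hK_left_mid_le Λ (X := X) hF' hF hF'' hα hβ hex (t.map (fun x => φ x ^ m) ++ l) i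
  calc (m : ℝ≥0∞) * hK Λ (t.map (fun x => φ x ^ m) ++ l) F X i
      ≤ (m : ℝ≥0∞) * (hK Λ (t.map (fun x => φ x ^ m) ++ l) F' X i +
        hK Λ (t.map (fun x => φ x ^ m) ++ l) F'' X i) := by gcongr
    _ = _ := mul_add _ _ _
    _ ≤ _ := add_le_add h1 h2
    _ = _ := by rw [← add_mul, ← Nat.cast_add]

/-- the residue field -/
theorem bd_residue [IsLocalRing S] {s : List S} (hs : RingTheory.Sequence.IsWeaklyRegular S s)
    (hsm : Ideal.ofList s = maximalIdeal S) : Bd.{u, v} s [] (S ⧸ maximalIdeal S) := by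
  refine ⟨1, 0, fun m _ A _ φ Λ X _ _ _ _ hφ l F ε hF i => ?_⟩
  have h := hK_weaklyRegular φ Λ hφ s S (MCx.one S) _ isRes_one hs (S ⧸ maximalIdeal S)
    (Submodule.mkQ (maximalIdeal S)) (Submodule.mkQ_surjective _)
    (by
      rw [Submodule.ker_mkQ, hsm]
      simp) F ε hF l i
  rw [List.map_nil, List.nil_append, h, List.length_nil, Nat.cast_one, one_mul, zero_add, pow_one]
  exact le_self_add

theorem le_annihilator_left {M' : Type v₁} [AddCommGroup M'] [Module S M'] {M : Type v₂}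
    [AddCommGroup M] [Module S M] {α : M' →ₗ[S] M} (hα : Function.Injective α) :
    Module.annihilator S M ≤ Module.annihilator S M' := by
  intro a ha
  rw [Module.mem_annihilator] at ha ⊢
  intro x
  apply hα
  rw [map_smul, ha, map_zero]

theorem le_annihilator_right {M' : Type v₁} [AddCommGroup M'] [Module S M'] {M : Type v₂}
    [AddCommGroup M] [Module S M] {α : M →ₗ[S] M'} (hα : Function.Surjective α) :
    Module.annihilator S M ≤ Module.annihilator S M' := by
  intro a ha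
  rw [Module.mem_annihilator] at ha ⊢
  intro x
  obtain ⟨x, rfl⟩ := hα x
  rw [← map_smul, ha, map_zero]

/-- finite length modules -/
theorem bd_finiteLength [IsNoetherianRing S] [IsLocalRing S] {s : List S}
    (hs : RingTheory.Sequence.IsWeaklyRegular S s) (hsm : Ideal.ofList s = maximalIdeal S)
    (M : Type v₁) [AddCommGroup M] [Module S M] [Module.Finite S M]
    (hM : ∃ N : ℕ, maximalIdeal S ^ N ≤ Module.annihilator S M) : Bd.{u, v} s [] M := by
  revert hM
  refine IsNoetherianRing.induction_on_isQuotientEquivQuotientPrime S (M := M) ‹_›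
    (motive := fun N _ _ _ => (∃ n : ℕ, maximalIdeal S ^ n ≤ Module.annihilator S N) →
      Bd.{u, v} s [] N) ?_ ?_ ?_
  · intro N _ _ _ _ _
    refine ⟨0, 0, fun m _ A _ φ Λ X _ _ _ _ hφ l F ε hF i => ?_⟩
    have h1 : F.NHom 1 := hF.nhom fun m => Subsingleton.elim _ _
    have h2 : (1 : A) ∈ (FT F A X).Nh := mem_Nh_FT h1 (b := 1) fun x => by rw [one_smul, one_smul]
    have h3 : (1 : A) ∈ (Kos.kos (([] : List S).map (fun x => φ x ^ m) ++ l) (FT F A X)).Nh :=
      Nh_le_kos _ _ h2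
    have h4 : hK Λ (([] : List S).map (fun x => φ x ^ m) ++ l) F X i = 0 := by
      have h5 := Cx.l_cone_one Λ (Kos.kos (([] : List S).map (fun x => φ x ^ m) ++ l) (FT F A X)) i
      rw [l_cone_eq_sh Λ h3] at h5
      exact le_antisymm ((le_sh _ _).trans h5.le) zero_le
    rw [h4]
    simp
  · intro N _ _ _ p e hn
    obtain ⟨n, hn⟩ := hn
    have h1 : maximalIdeal S ^ n ≤ p.1 := by
      refine hn.trans ((le_annihilator_right e.surjective).trans ?_)
      rw [Ideal.annihilator_quotient]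
    have h2 : maximalIdeal S ≤ p.1 := p.2.le_of_pow_le h1
    have h3 : p.1 = maximalIdeal S :=
      ((maximalIdeal.isMaximal S).eq_of_le p.2.ne_top h2).symm
    have h4 := bd_residue (S := S) hs hsm
    rw [← h3] at h4
    exact h4.congr e.symm
  · intro N₁ _ _ _ N₂ _ _ _ N₃ _ _ _ f g hf hg hfg h1 h3 hn
    obtain ⟨n, hn⟩ := hn
    exact Bd.ext hf hg hfg (h1 ⟨n, hn.trans (le_annihilator_left hf)⟩)
      (h3 ⟨n, hn.trans (le_annihilator_right hg)⟩)

theorem exists_torsion_exponent [IsNoetherianRing S] (M : Type v₁) [AddCommGroup M] [Module S M]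
    [Module.Finite S M] (t : S) : ∃ c : ℕ, ∀ (x : M) (n : ℕ), t ^ n • x = 0 → t ^ c • x = 0 := by
  have hN : IsNoetherian S M := isNoetherian_of_isNoetherianRing_of_finite S M
  let f : ℕ →o Submodule S M :=
    { toFun := fun n => LinearMap.ker (LinearMap.lsmul S M (t ^ n))
      monotone' := by
        intro a b hab x hx
        rw [LinearMap.mem_ker, LinearMap.lsmul_apply] at hx ⊢
        obtain ⟨k, rfl⟩ := Nat.exists_eq_add_of_le hab
        rw [pow_add, mul_comm, mul_smul, hx, smul_zero] }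
  obtain ⟨c, hc⟩ := monotone_stabilizes_iff_noetherian.2 hN f
  refine ⟨c, fun x n hx => ?_⟩
  have h1 : x ∈ f n := by
    show x ∈ LinearMap.ker _
    rw [LinearMap.mem_ker, LinearMap.lsmul_apply, hx]
  have h2 : x ∈ f c := by
    rcases le_total n c with h | h
    · exact f.monotone h h1
    · rw [hc n h]; exact h1
  have h3 : x ∈ LinearMap.ker (LinearMap.lsmul S M (t ^ c)) := h2
  rwa [LinearMap.mem_ker, LinearMap.lsmul_apply] at h3

/-- one more parameter, torsion case -/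
theorem Bd.cons_of_torsion {s t : List S} {M : Type v₁} [AddCommGroup M] [Module S M] {x : S}
    {c : ℕ} (hx : ∀ y : M, x ^ c • y = 0) (h : Bd.{u, v} s t M) : Bd.{u, v} s (x :: t) M := by
  obtain ⟨C, m₀, H⟩ := h
  refine ⟨3 * C, max (max m₀ c) 1, fun m hm A _ φ Λ X _ _ _ _ hφ l F ε hF i => ?_⟩
  have hm0 : m₀ ≤ m := le_trans (le_trans (le_max_left _ _) (le_max_left _ _)) hm
  have hmc : c ≤ m := le_trans (le_trans (le_max_right _ _) (le_max_left _ _)) hm
  have hm1 : (1 : ℝ≥0∞) ≤ m := by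
    exact_mod_cast le_trans (le_max_right _ _) hm
  have h1 : F.NHom (x ^ m) := hF.nhom fun y => by
    obtain ⟨k, rfl⟩ := Nat.exists_eq_add_of_le hmc
    rw [pow_add, mul_comm, mul_smul, hx, smul_zero]
  have h2 : φ x ^ m ∈ (FT F A X).Nh := mem_Nh_FT h1 fun y => by rw [hφ, map_pow]
  have h3 : φ x ^ m ∈ (Kos.kos (t.map (fun x => φ x ^ m) ++ l) (FT F A X)).Nh := Nh_le_kos _ _ h2
  have h4 : hK Λ ((x :: t).map (fun x => φ x ^ m) ++ l) F X i =
      sh (hK Λ (t.map (fun x => φ x ^ m) ++ l) F X) i := l_cone_eq_sh Λ h3 i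
  rw [h4, List.length_cons]
  have key : ∀ j, (m : ℝ≥0∞) * hK Λ (t.map (fun x => φ x ^ m) ++ l) F X j ≤
      C * ((m : ℝ≥0∞) ^ (t.length + 1) * bn φ Λ s l X j +
        (m : ℝ≥0∞) ^ t.length * ∑ k ∈ Finset.range j, bn φ Λ s l X k) :=
    fun j => H m hm0 A φ Λ X hφ l F ε hF j
  have hp1 : (m : ℝ≥0∞) ^ (t.length + 1) ≤ (m : ℝ≥0∞) ^ (t.length + 1 + 1) := by
    rw [pow_succ _ (t.length + 1)]
    exact le_mul_of_one_le_right zero_le hm1
  have hp2 : (m : ℝ≥0∞) ^ t.length ≤ (m : ℝ≥0∞) ^ (t.length + 1) := by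
    rw [pow_succ]
    exact le_mul_of_one_le_right zero_le hm1
  cases i with
  | zero =>
    show (m : ℝ≥0∞) * hK Λ (t.map (fun x => φ x ^ m) ++ l) F X 0 ≤ _
    refine (key 0).trans ?_
    push_cast
    calc (C : ℝ≥0∞) * ((m : ℝ≥0∞) ^ (t.length + 1) * bn φ Λ s l X 0 +
        (m : ℝ≥0∞) ^ t.length * ∑ k ∈ Finset.range 0, bn φ Λ s l X k)
        ≤ (C : ℝ≥0∞) * ((m : ℝ≥0∞) ^ (t.length + 1 + 1) * bn φ Λ s l X 0 +
        (m : ℝ≥0∞) ^ (t.length + 1) * ∑ k ∈ Finset.range 0, bn φ Λ s l X k) := by gcongr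
      _ ≤ (3 * C : ℝ≥0∞) * ((m : ℝ≥0∞) ^ (t.length + 1 + 1) * bn φ Λ s l X 0 +
        (m : ℝ≥0∞) ^ (t.length + 1) * ∑ k ∈ Finset.range 0, bn φ Λ s l X k) := by
        gcongr
        exact le_mul_of_one_le_left zero_le (by exact_mod_cast (by norm_num : (1 : ℕ) ≤ 3))
  | succ j =>
    show (m : ℝ≥0∞) * (hK Λ (t.map (fun x => φ x ^ m) ++ l) F X (j + 1) +
      hK Λ (t.map (fun x => φ x ^ m) ++ l) F X j) ≤ _
    rw [mul_add]
    refine (add_le_add (key (j + 1)) (key j)).trans ?_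
    push_cast
    rw [← mul_add, mul_comm (3 : ℝ≥0∞), mul_assoc]
    gcongr
    rw [Finset.sum_range_succ]
    generalize bn φ Λ s l X (j + 1) = b1
    generalize bn φ Λ s l X j = b0
    generalize ∑ k ∈ Finset.range j, bn φ Λ s l X k = σ
    calc (m : ℝ≥0∞) ^ (t.length + 1) * b1 + (m : ℝ≥0∞) ^ t.length * (σ + b0) +
        ((m : ℝ≥0∞) ^ (t.length + 1) * b0 + (m : ℝ≥0∞) ^ t.length * σ)
        ≤ (m : ℝ≥0∞) ^ (t.length + 1 + 1) * b1 + (m : ℝ≥0∞) ^ (t.length + 1) * (σ + b0) +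
        ((m : ℝ≥0∞) ^ (t.length + 1) * b0 + (m : ℝ≥0∞) ^ (t.length + 1) * σ) := by gcongr
      _ = (m : ℝ≥0∞) ^ (t.length + 1 + 1) * b1 + 2 * ((m : ℝ≥0∞) ^ (t.length + 1) * (σ + b0)) := by
        ring
      _ ≤ 3 * ((m : ℝ≥0∞) ^ (t.length + 1 + 1) * b1) +
          3 * ((m : ℝ≥0∞) ^ (t.length + 1) * (σ + b0)) := by
        have h13 : (1 : ℝ≥0∞) ≤ 3 := by exact_mod_cast (by norm_num : (1 : ℕ) ≤ 3)
        have h23 : (2 : ℝ≥0∞) ≤ 3 := by exact_mod_cast (by norm_num : (2 : ℕ) ≤ 3)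
        exact add_le_add (le_mul_of_one_le_left zero_le h13) (mul_le_mul' h23 le_rfl)
      _ = _ := (mul_add _ _ _).symm

/-- one more parameter, regular case -/
theorem Bd.cons_of_regular {s t : List S} {M : Type v₁} [AddCommGroup M] [Module S M] {x : S}
    (hx : ∀ y : M, x • y = 0 → y = 0) {M'' : Type v₂} [AddCommGroup M''] [Module S M'']
    {β : M →ₗ[S] M''} (hβ : Function.Surjective β) (hk : ∀ m, β m = 0 ↔ ∃ y, x • y = m)
    (h : Bd.{u, v} s t M'') : Bd.{u, v} s (x :: t) M := by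
  obtain ⟨C, m₀, H⟩ := h
  refine ⟨C, m₀, fun m hm A _ φ Λ X _ _ _ _ hφ l F ε hF i => ?_⟩
  have hF1 := isRes_cone hF hx hβ hk
  have h1 := H m hm A φ Λ X hφ l (F.cone x) _ hF1 i
  have h2 : hK Λ (t.map (fun x => φ x ^ m) ++ l) (F.cone x) X i =
      hK Λ (φ x :: (t.map (fun x => φ x ^ m) ++ l)) F X i := by
    rw [hK_cone Λ F x (φ x) (hφ x)]
    exact hK_perm Λ (List.perm_append_singleton _ _) F i
  have h3 : hK Λ ((x :: t).map (fun x => φ x ^ m) ++ l) F X i ≤
      m * hK Λ (φ x :: (t.map (fun x => φ x ^ m) ++ l)) F X i :=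
    Cx.l_cone_pow_le Λ (Kos.kos (t.map (fun x => φ x ^ m) ++ l) (FT F A X)) (φ x) m i
  rw [h2] at h1
  calc (m : ℝ≥0∞) * hK Λ ((x :: t).map (fun x => φ x ^ m) ++ l) F X i
      ≤ (m : ℝ≥0∞) * (m * hK Λ (φ x :: (t.map (fun x => φ x ^ m) ++ l)) F X i) := by gcongr
    _ ≤ (m : ℝ≥0∞) * (C * ((m : ℝ≥0∞) ^ (t.length + 1) * bn φ Λ s l X i +
        (m : ℝ≥0∞) ^ t.length * ∑ j ∈ Finset.range i, bn φ Λ s l X j)) := by gcongr
    _ = _ := by
      rw [List.length_cons]
      ring

/-- **THE GROWTH BOUND** -/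
theorem bd_main [IsNoetherianRing S] [IsLocalRing S] {s : List S}
    (hs : RingTheory.Sequence.IsWeaklyRegular S s) (hsm : Ideal.ofList s = maximalIdeal S)
    (t : List S) : ∀ (M : Type v₁) [AddCommGroup M] [Module S M] [Module.Finite S M]
    (_ : ∃ N : ℕ, maximalIdeal S ^ N ≤ Module.annihilator S M ⊔ Ideal.ofList t),
    Bd.{u, v} s t M := by
  induction t with
  | nil =>
    intro M _ _ _ hM
    rw [Ideal.ofList_nil, sup_bot_eq] at hM
    exact bd_finiteLength hs hsm M hM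
  | cons x t ih =>
    intro M _ _ _ hM
    obtain ⟨N, hN⟩ := hM
    obtain ⟨c, hc⟩ := exists_torsion_exponent M x
    let K : Submodule S M := LinearMap.ker (LinearMap.lsmul S M (x ^ c))
    have hKmem : ∀ y, y ∈ K ↔ x ^ c • y = 0 := fun y => by
      rw [LinearMap.mem_ker, LinearMap.lsmul_apply]
    have hNK : IsNoetherian S M := isNoetherian_of_isNoetherianRing_of_finite S M
    have hfin : Module.Finite S K := inferInstance
    refine Bd.ext (M' := K) (M'' := M ⧸ K) (α := K.subtype) (β := K.mkQ)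
      (Submodule.subtype_injective _) (Submodule.mkQ_surjective _)
      (LinearMap.exact_subtype_mkQ K) ?_ ?_
    · -- torsion part
      refine Bd.cons_of_torsion (c := c) (fun y => Subtype.ext ((hKmem _).1 y.2)) (ih K ?_)
      refine ⟨N * (1 + c), ?_⟩
      rw [pow_mul]
      have h1 : maximalIdeal S ^ N ≤ (Module.annihilator S K ⊔ Ideal.ofList t) ⊔ Ideal.span {x} := by
        refine hN.trans ?_
        rw [Ideal.ofList_cons, sup_comm (Ideal.span {x}), ← sup_assoc]
        gcongr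
        exact le_annihilator_left (Submodule.subtype_injective K)
      refine (Ideal.pow_right_mono h1 _).trans (Ideal.sup_pow_add_le_pow_sup_pow.trans ?_)
      rw [pow_one, Ideal.span_singleton_pow]
      refine sup_le le_rfl ?_
      rw [Ideal.span_singleton_le_iff_mem]
      refine Ideal.mem_sup_left ?_
      rw [Module.mem_annihilator]
      intro y
      exact Subtype.ext ((hKmem _).1 y.2)
    · -- regular part
      have hreg : ∀ y : M ⧸ K, x • y = 0 → y = 0 := by
        intro y hy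
        obtain ⟨y, rfl⟩ := Submodule.mkQ_surjective K y
        rw [← map_smul, Submodule.mkQ_apply, Submodule.Quotient.mk_eq_zero, hKmem] at hy
        rw [Submodule.mkQ_apply, Submodule.Quotient.mk_eq_zero, hKmem]
        refine hc y (c + 1) ?_
        rw [pow_succ, mul_smul, hy]
      have h1 : ∀ y : M ⧸ K, (Submodule.mkQ (x • (⊤ : Submodule S (M ⧸ K)))) y = 0 ↔
          ∃ z, x • z = y := by
        intro y
        rw [Submodule.mkQ_apply, Submodule.Quotient.mk_eq_zero,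
          Submodule.mem_smul_pointwise_iff_exists]
        exact ⟨fun ⟨y, _, hy⟩ => ⟨y, hy⟩, fun ⟨y, hy⟩ => ⟨y, trivial, hy⟩⟩
      refine Bd.cons_of_regular hreg (Submodule.mkQ_surjective (x • (⊤ : Submodule S (M ⧸ K)))) h1
        (ih ((M ⧸ K) ⧸ (x • (⊤ : Submodule S (M ⧸ K)))) ⟨N, ?_⟩)
      refine hN.trans ?_
      rw [Ideal.ofList_cons]
      refine sup_le ?_ (sup_le ?_ le_sup_right)
      · refine le_trans ?_ le_sup_left
        refine (le_annihilator_right (α := K.mkQ) (Submodule.mkQ_surjective K)).trans ?_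
        exact le_annihilator_right
          (Submodule.mkQ_surjective (x • (⊤ : Submodule S (M ⧸ K))))
      · rw [Ideal.span_singleton_le_iff_mem]
        refine Ideal.mem_sup_left ?_
        rw [Module.mem_annihilator]
        intro y
        obtain ⟨y, rfl⟩ := Submodule.mkQ_surjective _ y
        rw [← map_smul]
        exact (h1 _).2 ⟨y, rfl⟩

end main

end Crest.Agent.R188.SX
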