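/-
R188, block (I): perfect complexes over a local ring with finite length homology.
Part 7: the residue field resolution and Koszul homology `kh`; independence of the twist `J`.
helper111
-/
import Crest.Agent.R188.PerfB6
import Crest.Agent.R188.SX2

set_option autoImplicit false
set_option linter.unusedSectionVars false

namespace Crest.Agent.R188.PerfB

open scoped ENNReal
open IsLocalRing
open Crest.Agent.R183 Crest.Agent.R183.Res Crest.Agent.R188.Chi Crest.Agent.R188.KosG

universe u v w v' w'

section kos

variable {B : Type w} [CommRing B] {A : Type u} [CommRing A] (Λ : AddLen.{u, v} A)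
variable {X Y : Type v} [AddCommGroup X] [Module A X] [Module B X] [SMulCommClass B A X]
  [AddCommGroup Y] [Module A Y]

/-- isomorphic modules in degree zero -/
def oneIso (e : X ≃ₗ[A] Y) : GCx.Iso (KosG.one A X) (KosG.one A Y) where
  e := e
  gr := by
    intro i (x : X)
    change e x ∈ (if i = 0 then (⊤ : Submodule A Y) else ⊥) ↔
      x ∈ (if i = 0 then (⊤ : Submodule A X) else ⊥)
    split_ifs with h0
    · exact ⟨fun _ => trivial, fun _ => trivial⟩
    · rw [Submodule.mem_bot, Submodule.mem_bot, LinearEquiv.map_eq_zero_iff]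
  comm := fun x => map_zero e

theorem kh_congr (e : X ≃ₗ[A] Y) (l : List A) (i : ℤ) : kh Λ l X i = kh Λ l Y i := by
  obtain ⟨φ⟩ := cones_iso (oneIso e) l
  exact φ.h_eq Λ i

variable (A B X) in
/-- `toG (1 ⊗ X) = X` in degree zero -/
def oneFT : GCx.Iso (toG (FT (MCx.one B) A X)) (KosG.one A X) where
  e :=
    { toFun := fun f => (show ∀ n, (MCx.one B).ι n → X from f) 0 ()
      map_add' := fun _ _ => rfl
      map_smul' := fun _ _ => rfl
      invFun := fun x => (fun n => match n with
        | 0 => (fun _ => x : Unit → X)
        | (_ + 1) => (fun a => Empty.elim a : Empty → X))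
      left_inv := by
        intro f
        funext n
        cases n with
        | zero => rfl
        | succ n => funext a; exact Empty.elim a
      right_inv := fun _ => rfl }
  gr := by
    intro i f
    change (show ∀ n, (MCx.one B).ι n → X from f) 0 () ∈
      (if i = 0 then (⊤ : Submodule A X) else ⊥) ↔
        ∀ n : ℕ, (n : ℤ) ≠ i → (show ∀ n, (MCx.one B).ι n → X from f) n = 0
    split_ifs with h0
    · refine ⟨fun _ n hn => ?_, fun _ => trivial⟩
      cases n with
      | zero => exact absurd h0.symm (by simpa using hn)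
      | succ n => funext a; exact Empty.elim a
    · rw [Submodule.mem_bot]
      refine ⟨fun h n _ => ?_, fun h => ?_⟩
      · cases n with
        | zero => funext a; exact h
        | succ n => funext a; exact Empty.elim a
      · exact congrFun (h 0 (fun h' => h0 (by simpa using h'.symm))) ()
  comm := by
    intro f
    change (MCx.one B).dM X 0 ((show ∀ n, (MCx.one B).ι n → X from f) 1) () = 0
    exact congrFun (act_zero _) ()

theorem hK_one (l : List A) (i : ℕ) : SX.hK Λ l (MCx.one B) X i = kh Λ l X i := by
  unfold SX.hK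
  rw [l_kos]
  obtain ⟨φ⟩ := cones_iso (oneFT B A X) l
  exact φ.h_eq Λ i

section residue

variable [IsLocalRing B] {K : MCx B} {ε : (K.ι 0 → B) →ₗ[B] (B ⧸ maximalIdeal B)}
variable (X)

/-- **the residue field resolution computes Koszul homology**: `s` a regular sequence generating
the maximal ideal, acting on `X` through `φ : B → A`. -/
theorem hX_residue_eq_kh {s : List B} (hs : RingTheory.Sequence.IsWeaklyRegular B s)
    (hsm : Ideal.ofList s = maximalIdeal B) (hK : IsRes K ε) (φ : B →+* A)
    (hφ : ∀ (b : B) (x : X), b • x = φ b • x) (i : ℕ) :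
    hX Λ K X i = kh Λ (s.map φ) X i := by
  have h := SX.hK_weaklyRegular φ Λ hφ s B (MCx.one B) _ SX.isRes_one hs (B ⧸ maximalIdeal B)
    (Submodule.mkQ (maximalIdeal B)) (Submodule.mkQ_surjective _)
    (by
      rw [Submodule.ker_mkQ, hsm]
      simp) K ε hK [] i
  rw [SX.hK_nil, List.append_nil] at h
  rw [h, hK_one]

theorem chiX_residue_eq_chi {s : List B} (hs : RingTheory.Sequence.IsWeaklyRegular B s)
    (hsm : Ideal.ofList s = maximalIdeal B) (hK : IsRes K ε) {DK : ℕ} (hKl : K.Len DK)
    (φ : B →+* A) (hφ : ∀ (b : B) (x : X), b • x = φ b • x) {N : ℕ} (hN : DK < N) :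
    chiX Λ K X N = KosG.chi Λ X (s.map φ) := by
  have h1 := hX_residue_eq_kh Λ X hs hsm hK φ hφ
  rw [chiX_eq_of_len Λ K X hKl hN, ← chiX_eq_of_len Λ K X hKl
    (N := max DK s.length + 1) (by omega), chiX_eq, KosG.chi]
  have h2 : Finset.range ((s.map φ).length + 1) ⊆ Finset.range (max DK s.length + 1) := by
    rw [List.length_map]
    exact Finset.range_mono (by omega)
  rw [← Finset.sum_subset h2]
  · exact Finset.sum_congr rfl fun i _ => by rw [h1]
  · intro i _ hi
    rw [Finset.mem_range, not_lt] at hi
    rw [h1, kh_eq_zero Λ _ _ i (Or.inr (by exact_mod_cast hi))]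
    simp

end residue

end kos

end Crest.Agent.R188.PerfB
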