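/-
R188, block (I): perfect complexes over a local ring with finite length homology.
Part 8: independence of the twist `J`, in the form of `Flg.flag_formula_of_twist`.
helper111
-/
import Crest.Agent.R188.PerfB7
import Crest.Agent.R188.FlgFilt

set_option autoImplicit false
set_option linter.unusedSectionVars false

namespace Crest.Agent.R188.PerfB

open scoped ENNReal
open IsLocalRing
open Crest.Agent.R183 Crest.Agent.R183.Res Crest.Agent.R188.Chi Crest.Agent.R188.KosG

universe u v w v' w'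

section regseq

variable {B : Type w} [CommRing B] [IsRegularLocalRing B]

lemma span_getD_image (s : List B) {i : ℕ} (hi : i ≤ s.length) :
    Ideal.span ((fun j => s.getD j 0) '' Set.Iio i) = Ideal.ofList (s.take i) := by
  unfold Ideal.ofList
  congr 1
  ext y
  simp only [Set.mem_image, Set.mem_Iio, Set.mem_ofPred_eq]
  rw [List.mem_take_iff_getElem]
  constructor
  · rintro ⟨j, hj, rfl⟩
    exact ⟨j, by omega, by rw [List.getD_eq_getElem s 0 (by omega)]⟩
  · rintro ⟨j, hj, rfl⟩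
    exact ⟨j, by omega, by rw [List.getD_eq_getElem s 0 (by omega)]⟩

/-- a regular system of parameters is a regular sequence (list form) -/
theorem isWeaklyRegular_of_ofList {s : List B} (hd : ringKrullDim B = s.length)
    (hsm : Ideal.ofList s = maximalIdeal B) : RingTheory.Sequence.IsWeaklyRegular B s := by
  rw [RingTheory.Sequence.isWeaklyRegular_iff]
  intro i hi
  have h0 : Ideal.span ((fun j => s.getD j 0) '' Set.Iio s.length) = maximalIdeal B := by
    rw [span_getD_image s le_rfl, List.take_length, hsm]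
  have h1 := regular_sequence hd (fun j => s.getD j 0) h0 i hi
  rw [span_getD_image s hi.le, List.getD_eq_getElem s 0 hi] at h1
  rw [isSMulRegular_iff_right_eq_zero_of_smul]
  intro x hx
  obtain ⟨a, rfl⟩ := Submodule.Quotient.mk_surjective _ x
  rw [← Submodule.Quotient.mk_smul, Submodule.Quotient.mk_eq_zero] at hx
  rw [Submodule.Quotient.mk_eq_zero]
  have e : Ideal.ofList (s.take i) • (⊤ : Submodule B B) = Ideal.ofList (s.take i) := by
    rw [smul_eq_mul]; exact Ideal.mul_top _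
  rw [e] at hx ⊢
  exact h1 a hx

end regseq

section twist

variable {B : Type w} [CommRing B] [IsRegularLocalRing B]
variable {K : MCx B} {ε : (K.ι 0 → B) →ₗ[B] (B ⧸ maximalIdeal B)}
variable {A : Type u} [CommRing A] (Λ : AddLen.{u, v} A)
variable {X' X X'' : Type v} [AddCommGroup X'] [Module A X'] [Module B X'] [SMulCommClass B A X']
  [AddCommGroup X] [Module A X] [Module B X] [SMulCommClass B A X]
  [AddCommGroup X''] [Module A X''] [Module B X''] [SMulCommClass B A X'']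

/-- `0 → X' → X → X'' → 0` with `X''` killed by `b ≠ 0`: `χ(K; X) = χ(K; X')` -/
theorem chiX_residue_twist {d : ℕ} (hd : ringKrullDim B = d) (hK : IsRes K ε) {DK : ℕ}
    (hKl : K.Len DK) {f : X' →ₗ[A] X} {g : X →ₗ[A] X''} (hf : RLin B f) (hg : RLin B g)
    (inj : Function.Injective f) (surj : Function.Surjective g) (ex : Function.Exact f g)
    (h' : ∀ i, hX Λ K X' i ≠ ⊤) (h : ∀ i, hX Λ K X i ≠ ⊤) {b : B} (hb : b ≠ 0)
    (hbX : ∀ x : X'', b • x = 0) :
    (∀ i, hX Λ K X'' i ≠ ⊤) ∧ chiX Λ K X (DK + 1) = chiX Λ K X' (DK + 1) := by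
  have h'' : ∀ i, hX Λ K X'' i ≠ ⊤ := by
    intro i
    cases i with
    | zero => exact ne_top_of_le_ne_top (h 0) (hX_right_le_zero Λ K hf hg inj surj ex)
    | succ i =>
      exact ne_top_of_le_ne_top (ENNReal.add_ne_top.2 ⟨h (i + 1), h' i⟩)
        (hX_right_le_succ Λ K hf hg inj surj ex i)
  refine ⟨h'', ?_⟩
  rw [chiX_add_of_len Λ K hKl hf hg inj surj ex (Nat.lt_succ_self DK) (fun i _ => h' i)
    (fun i _ => h'' i), chiX_residue_eq_zero Λ X'' hd hK hKl h'' hb hbX, add_zero]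

end twist

/-! ### the form used by `Flg.flag_formula_of_twist` -/

section flg

variable {Ω A : Type u} [CommRing Ω] [CommRing A] [Algebra Ω A]
variable {V : Type u} [AddCommGroup V] [Module Ω V] [Module A V] [IsScalarTower Ω A V] {r : ℕ}

/-- `J V ≃ J^r` -/
def JVequiv (b : V ≃ₗ[Ω] (Fin r → Ω)) (I : Ideal Ω) :
    Flg.JV A b I ≃ₗ[Ω] (Fin r → I) where
  toFun x c := ⟨b x.1 c, x.2 c⟩
  map_add' x y := by
    funext c
    exact Subtype.ext (by show b (x.1 + y.1) c = _; rw [map_add]; rfl)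
  map_smul' a x := by
    funext c
    exact Subtype.ext (by show b (a • x.1) c = _; rw [map_smul]; rfl)
  invFun y := ⟨b.symm fun c => (y c : Ω), fun c => by
    rw [LinearEquiv.apply_symm_apply]; exact (y c).2⟩
  left_inv x := Subtype.ext (by simp)
  right_inv y := by
    funext c
    exact Subtype.ext (by simp)

@[simp] lemma JVequiv_apply (b : V ≃ₗ[Ω] (Fin r → Ω)) (I : Ideal Ω) (x : Flg.JV A b I)
    (c : Fin r) : (JVequiv b I x c : Ω) = b x.1 c := rfl

variable {R : Type w'} [CommRing R] {B : Type w} [CommRing B] [IsRegularLocalRing B] [Algebra B Ω]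
variable {N : Type w} [AddCommGroup N] [Module R N] [Module B N] [SMulCommClass R B N]
variable (Λ : AddLen.{u, u} Ω)

/-- **block (I), first form**: `W ≅ X^r`, `R` acting through `ρ`:
`χ(F ⊗ W) = χ_B(F ⊗ N) · χ(s; X)`, `s` a regular system of parameters of `B`. -/
theorem val_push {s : List B} (hd : ringKrullDim B = s.length)
    (hsm : Ideal.ofList s = maximalIdeal B) (F : MCx R) {D : ℕ} (hF : F.Len D) (φ : R →+* A)
    (ρ : R →+* Matrix (Fin r) (Fin r) B) (eN : N ≃ₗ[B] (Fin r → B))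
    (heN : ∀ a x c, eN (a • x) c = ∑ t, ρ a c t • eN x t)
    (hN : ∀ i, hX (AddLen.ofLength.{w, w} B) F N i ≠ ⊤)
    {W : Type u} [AddCommGroup W] [Module Ω W] [Module A W] [IsScalarTower Ω A W]
    {X : Type u} [AddCommGroup X] [Module Ω X] [Module B X] [IsScalarTower B Ω X]
    (e : W ≃ₗ[Ω] (Fin r → X)) (he : ∀ a x c, e (φ a • x) c = ∑ t, ρ a c t • e x t)
    (hXf : KFin Λ X (s.map (algebraMap B Ω))) :
    (∀ i, hX (Λ.restrict (algebraMap Ω A)) (F.map φ) W i ≠ ⊤) ∧
      chiX (Λ.restrict (algebraMap Ω A)) (F.map φ) W (D + 1) =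
        chiX (AddLen.ofLength.{w, w} B) F N (D + 1) *
          KosG.chi Λ X (s.map (algebraMap B Ω)) := by
  let _ : Module R W := Module.compHom W φ
  have hRA : ∀ (a : R) (x : W), a • x = φ a • x := fun _ _ => rfl
  have hΩA : ∀ (a : Ω) (x : W), a • x = algebraMap Ω A a • x := fun a x =>
    (algebraMap_smul A a x).symm
  have c1 : SMulCommClass R A W := ⟨fun a x y => by
    rw [hRA, hRA, smul_smul, smul_smul, mul_comm]⟩
  have c2 : SMulCommClass R Ω W := ⟨fun a x y => by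
    rw [hRA, hRA, hΩA, hΩA, smul_smul, smul_smul, mul_comm]⟩
  have hB : ∀ (b : B) (x : X), b • x = algebraMap B Ω b • x := fun b x =>
    (algebraMap_smul Ω b x).symm
  have c3 : SMulCommClass B Ω X := ⟨fun a x y => by
    rw [hB, hB, smul_smul, smul_smul, mul_comm]⟩
  obtain ⟨K, ε, hK, -, hKl⟩ := exists_res_len hd (B ⧸ maximalIdeal B)
  have hs := isWeaklyRegular_of_ofList hd hsm
  have hkh := hX_residue_eq_kh Λ X hs hsm hK (algebraMap B Ω) hB
  obtain ⟨h1, h2⟩ := chiX_mul_push Λ (V := W) F hF ρ hK hKl eN heN hN e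
    (fun a x c => he a x c) (fun i => by rw [hkh]; exact hXf i)
  refine ⟨fun i => ?_, ?_⟩
  · rw [hX_map' _ F φ hRA, hX_restrict (algebraMap Ω A) Λ F hΩA]
    exact h1 i
  · rw [chiX_map' _ F φ hRA, chiX_restrict (algebraMap Ω A) Λ F hΩA, h2,
      chiX_residue_eq_chi Λ X hs hsm hK hKl (algebraMap B Ω) hB (Nat.lt_succ_self _)]

/-- `χ(s; I) = χ(s; Ω)` for an ideal `I` of `Ω` which contains (the image of) some `b ≠ 0` of `B` -/
theorem chi_ideal_eq {s : List B} (hd : ringKrullDim B = s.length)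
    (hsm : Ideal.ofList s = maximalIdeal B) (I : Ideal Ω) {b₀ : B} (hb₀ : b₀ ≠ 0)
    (hbI : algebraMap B Ω b₀ ∈ I) (hΩ : KFin Λ Ω (s.map (algebraMap B Ω)))
    (hI : KFin Λ I (s.map (algebraMap B Ω))) :
    KosG.chi Λ Ω (s.map (algebraMap B Ω)) = KosG.chi Λ I (s.map (algebraMap B Ω)) := by
  obtain ⟨K, ε, hK, -, hKl⟩ := exists_res_len hd (B ⧸ maximalIdeal B)
  have hs := isWeaklyRegular_of_ofList hd hsm
  have h1 := hX_residue_eq_kh Λ Ω hs hsm hK (algebraMap B Ω)
    (fun b x => (algebraMap_smul Ω b x).symm)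
  have h2 := hX_residue_eq_kh Λ I hs hsm hK (algebraMap B Ω)
    (fun b x => (algebraMap_smul Ω b x).symm)
  rw [← chiX_residue_eq_chi Λ Ω hs hsm hK hKl (algebraMap B Ω)
      (fun b x => (algebraMap_smul Ω b x).symm) (Nat.lt_succ_self _),
    ← chiX_residue_eq_chi Λ I hs hsm hK hKl (algebraMap B Ω)
      (fun b x => (algebraMap_smul Ω b x).symm) (Nat.lt_succ_self _)]
  refine (chiX_residue_twist Λ hd hK hKl (f := I.subtype) (g := I.mkQ)
    (fun b x => rfl) (fun b x => rfl) I.injective_subtype (Submodule.mkQ_surjective _)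
    (LinearMap.exact_subtype_mkQ _) (fun i => by rw [h2]; exact hI i)
    (fun i => by rw [h1]; exact hΩ i) hb₀ (fun x => ?_)).2
  obtain ⟨y, rfl⟩ := Submodule.Quotient.mk_surjective _ x
  rw [← algebraMap_smul Ω b₀, ← Submodule.Quotient.mk_smul, Submodule.Quotient.mk_eq_zero,
    smul_eq_mul]
  exact I.mul_mem_right _ hbI

/-- **block (I), the twist is harmless**: for `V ≅ Ω^r` (i.e. `V = Ω ⊗_B N`) and an ideal
`I` of `Ω` containing some `b₀ ≠ 0` of `B`: `val V = val (I V)` and `= χ_B(F ⊗ N) χ(s; Ω)`. -/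
theorem val_twist {s : List B} (hd : ringKrullDim B = s.length)
    (hsm : Ideal.ofList s = maximalIdeal B) (F : MCx R) {D : ℕ} (hF : F.Len D) (φ : R →+* A)
    (ρ : R →+* Matrix (Fin r) (Fin r) B) (eN : N ≃ₗ[B] (Fin r → B))
    (heN : ∀ a x c, eN (a • x) c = ∑ t, ρ a c t • eN x t)
    (hN : ∀ i, hX (AddLen.ofLength.{w, w} B) F N i ≠ ⊤)
    (b : V ≃ₗ[Ω] (Fin r → Ω))
    (hb : ∀ a x c, b (φ a • x) c = ∑ t, algebraMap B Ω (ρ a c t) * b x t)
    (I : Ideal Ω) {b₀ : B} (hb₀ : b₀ ≠ 0) (hbI : algebraMap B Ω b₀ ∈ I)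
    (hΩ : KFin Λ Ω (s.map (algebraMap B Ω))) (hI : KFin Λ I (s.map (algebraMap B Ω))) :
    (∀ i, hX (Λ.restrict (algebraMap Ω A)) (F.map φ) V i ≠ ⊤) ∧
    (∀ i, hX (Λ.restrict (algebraMap Ω A)) (F.map φ) (Flg.JV A b I) i ≠ ⊤) ∧
    chiX (Λ.restrict (algebraMap Ω A)) (F.map φ) V (D + 1) =
      chiX (Λ.restrict (algebraMap Ω A)) (F.map φ) (Flg.JV A b I) (D + 1) ∧
    chiX (Λ.restrict (algebraMap Ω A)) (F.map φ) V (D + 1) =
      chiX (AddLen.ofLength.{w, w} B) F N (D + 1) * KosG.chi Λ Ω (s.map (algebraMap B Ω)) := by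
  obtain ⟨h1, h2⟩ := val_push (A := A) Λ hd hsm F hF φ ρ eN heN hN (W := V) (X := Ω) b
    (fun a x c => by
      rw [hb]
      exact Finset.sum_congr rfl fun t _ => (Algebra.smul_def _ _).symm) hΩ
  obtain ⟨h3, h4⟩ := val_push (A := A) Λ hd hsm F hF φ ρ eN heN hN (W := Flg.JV A b I) (X := I)
    (JVequiv b I) (fun a x c => by
      apply Subtype.ext
      rw [JVequiv_apply]
      show b (φ a • x.1) c = _
      rw [hb, AddSubmonoidClass.coe_finsetSum]
      refine Finset.sum_congr rfl fun t _ => ?_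
      exact (Algebra.smul_def (ρ a c t) (b x.1 t)).symm) hI
  exact ⟨h1, h3, by rw [h2, h4, chi_ideal_eq Λ hd hsm I hb₀ hbI hΩ hI], h2⟩

end flg

end Crest.Agent.R188.PerfB
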