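import Crest.Agent.R188.SX2
import Crest.Agent.R183.AddLenInst

/-!
# R188, S-level (helper546), part 3: change of rings; modules in degree zero; polynomial modules
-/

set_option autoImplicit false

namespace Crest.Agent.R188.SX

open scoped ENNReal Pointwise Polynomial
open Crest.Agent.R183 Crest.Agent.R183.Res
open Crest.Agent.R188.Kos Crest.Agent.R188.Chi

universe u v w v₁ v₂ v₃

section restr

variable {A' : Type u} [CommRing A'] {A : Type u} [CommRing A] (f : A' →+* A)

/-- isomorphism of complexes, semilinear along `f : A' → A` -/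
structure RIso (C' : Cx.{u, v} A') (C : Cx.{u, v} A) where
  e : ∀ n, C'.X n ≃+ C.X n
  sl : ∀ n (a : A') x, e n (a • x) = f a • e n x
  comm : ∀ n x, e n (C'.d n x) = C.d n (e (n + 1) x)

variable {f} {C' : Cx.{u, v} A'} {C : Cx.{u, v} A}

namespace RIso

theorem mem_cyc (φ : RIso f C' C) {n : ℕ} {x : C'.X n} : φ.e n x ∈ C.cyc n ↔ x ∈ C'.cyc n := by
  cases n with
  | zero => exact ⟨fun _ => trivial, fun _ => trivial⟩
  | succ n =>
    rw [Cx.mem_cyc_succ, Cx.mem_cyc_succ, ← φ.comm]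
    constructor
    · intro h
      exact (φ.e n).map_eq_zero_iff.1 h
    · intro h
      rw [h, map_zero]

theorem mem_bdy (φ : RIso f C' C) {n : ℕ} {x : C'.X n} : φ.e n x ∈ C.bdy n ↔ x ∈ C'.bdy n := by
  constructor
  · rintro ⟨y, hy⟩
    obtain ⟨y, rfl⟩ := (φ.e (n + 1)).surjective y
    rw [← φ.comm] at hy
    exact ⟨y, (φ.e n).injective hy⟩
  · rintro ⟨y, rfl⟩
    exact ⟨φ.e (n + 1) y, (φ.comm n y).symm⟩

theorem l_eq (φ : RIso f C' C) (Λ : AddLen.{u, v} A') (n : ℕ) :
    C'.l Λ n = C.l (Λ.restrict f) n := by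
  letI : Module A' (C.H n) := Module.compHom (C.H n) f
  show Λ.L (C'.H n) = (Λ.restrict f).L (C.H n)
  rw [AddLen.restrict_L Λ f (C.H n) (fun _ _ => rfl)]
  let g : C'.cyc n →ₗ[A'] C.H n :=
    { toFun := fun z => C.toH n ⟨φ.e n z, φ.mem_cyc.2 z.2⟩
      map_add' := fun z z' => by
        rw [← map_add]
        congr 1
        exact Subtype.ext (map_add (φ.e n) _ _)
      map_smul' := fun a z => by
        show _ = f a • (C.toH n _)
        rw [← map_smul]
        congr 1
        exact Subtype.ext (φ.sl n a z) }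
  have hg : Function.Surjective g := by
    intro y
    obtain ⟨z, rfl⟩ := C.toH_surjective n y
    obtain ⟨z, hz⟩ := z
    obtain ⟨x, rfl⟩ := (φ.e n).surjective z
    exact ⟨⟨x, φ.mem_cyc.1 hz⟩, rfl⟩
  have hk : LinearMap.ker g = (C'.bdy n).comap (C'.cyc n).subtype := by
    ext z
    rw [LinearMap.mem_ker, Submodule.mem_comap]
    show C.toH n ⟨φ.e n z, φ.mem_cyc.2 z.2⟩ = 0 ↔ _
    rw [C.toH_eq_zero]
    exact φ.mem_bdy
  exact Λ.L_congr ((Submodule.quotEquivOfEq _ _ hk.symm).trans (g.quotKerEquivOfSurjective hg))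

/-- cones -/
def cone (φ : RIso f C' C) (b : A') : RIso f (C'.cone b) (C.cone (f b)) where
  e n := match n with
    | 0 => φ.e 0
    | (n + 1) => (AddEquiv.prodCongr (φ.e (n + 1)) (φ.e n) :
        (C'.X (n + 1) × C'.X n) ≃+ (C.X (n + 1) × C.X n))
  sl n a := by
    cases n with
    | zero => exact φ.sl 0 a
    | succ n =>
      rintro ⟨x, y⟩
      exact Prod.ext (φ.sl _ a x) (φ.sl _ a y)
  comm n := by
    cases n with
    | zero =>
      rintro ⟨x, y⟩
      show φ.e 0 (C'.d 0 x + b • y) = C.d 0 (φ.e 1 x) + f b • φ.e 0 y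
      rw [map_add, φ.comm, φ.sl]
    | succ n =>
      rintro ⟨x, y⟩
      refine Prod.ext ?_ ?_
      · show φ.e (n + 1) (C'.d (n + 1) x + b • y) =
          C.d (n + 1) (φ.e (n + 2) x) + f b • φ.e (n + 1) y
        rw [map_add, φ.comm, φ.sl]
      · show φ.e n (-(C'.d n y)) = -(C.d n (φ.e (n + 1) y))
        rw [map_neg, φ.comm]

/-- Koszul complexes -/
def kos (φ : RIso f C' C) : ∀ l : List A', RIso f (Kos.kos l C') (Kos.kos (l.map f) C)
  | [] => φ
  | (b :: l) => (φ.kos l).cone b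

theorem l_kos_eq (φ : RIso f C' C) (Λ : AddLen.{u, v} A') (l : List A') (n : ℕ) :
    (Kos.kos l C').l Λ n = (Kos.kos (l.map f) C).l (Λ.restrict f) n :=
  (φ.kos l).l_eq Λ n

end RIso

variable {S : Type w} [CommRing S] {X : Type v} [AddCommGroup X] [Module A X] [Module A' X]
  [Module S X] [SMulCommClass S A X] [SMulCommClass S A' X]

/-- `F ⊗ X` over two rings -/
def FTr (F : MCx S) (h : ∀ (a : A') (x : X), a • x = f a • x) :
    RIso f (KosG.FT F A' X) (KosG.FT F A X) where
  e n := AddEquiv.refl _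
  sl n a x := by
    funext i
    exact h a _
  comm n x := rfl

theorem hK_restrict (F : MCx S) (h : ∀ (a : A') (x : X), a • x = f a • x) (Λ : AddLen.{u, v} A')
    (l : List A') (i : ℕ) : hK Λ l F X i = hK (Λ.restrict f) (l.map f) F X i :=
  (FTr F h).l_kos_eq Λ l i

theorem hX_restrict (F : MCx S) (h : ∀ (a : A') (x : X), a • x = f a • x) (Λ : AddLen.{u, v} A')
    (i : ℕ) : hX Λ F X i = hX (Λ.restrict f) F X i :=
  (FTr F h).l_eq Λ i

theorem chiX_restrict (F : MCx S) (h : ∀ (a : A') (x : X), a • x = f a • x)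
    (Λ : AddLen.{u, v} A') (N : ℕ) : chiX Λ F X N = chiX (Λ.restrict f) F X N := by
  rw [chiX_eq, chiX_eq]
  exact Finset.sum_congr rfl fun i _ => by rw [hX_restrict F h]

end restr

section deg0

variable {A : Type u} [CommRing A]

/-- `X` in degree zero -/
abbrev deg0 (A : Type u) [CommRing A] (X : Type v) [AddCommGroup X] [Module A X] : Cx.{u, v} A :=
  KosG.FT (MCx.one A) A X

variable {X : Type v} [AddCommGroup X] [Module A X]

/-- lengths of Koszul homology of a module -/
noncomputable def h0 (Λ : AddLen.{u, v} A) (l : List A) (X : Type v) [AddCommGroup X] [Module A X]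
    (i : ℕ) : ℝ≥0∞ := (Kos.kos l (deg0 A X)).l Λ i

variable (Λ : AddLen.{u, v} A)

theorem h0_perm {l l' : List A} (h : l.Perm l') (i : ℕ) : h0 Λ l X i = h0 Λ l' X i :=
  (kos_perm h (deg0 A X)).some.l_eq Λ i

/-- `MCx.one S` versus `deg0` -/
def oneIso (S : Type w) [CommRing S] [Module S X] [SMulCommClass S A X] :
    (KosG.FT (MCx.one S) A X).Iso (deg0 A X) where
  e n := match n with
    | 0 => LinearEquiv.refl A (Unit → X)
    | (n + 1) => LinearEquiv.refl A (Empty → X)
  comm n x := by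
    cases n with
    | zero =>
      have h1 : (KosG.FT (MCx.one S) A X).d 0 x = 0 := act_zero x
      rw [h1, map_zero]
      exact (act_zero (A := A) (M := X) _).symm
    | succ n =>
      funext a
      exact Empty.elim a

theorem hK_one (S : Type w) [CommRing S] [Module S X] [SMulCommClass S A X] (l : List A) (i : ℕ) :
    hK Λ l (MCx.one S) X i = h0 Λ l X i :=
  ((oneIso S).kos l).l_eq Λ i

theorem bn_eq {S : Type w} [CommRing S] [Module S X] [SMulCommClass S A X] (φ : S →+* A)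
    (s : List S) (l : List A) (i : ℕ) : bn φ Λ s l X i = h0 Λ (s.map φ ++ l) X i :=
  hK_one Λ S _ i

/-- one regular element -/
theorem hK_cons_regular {S : Type w} [CommRing S] [Module S X] [SMulCommClass S A X]
    {Y : Type v} [AddCommGroup Y] [Module A Y] [Module S Y] [SMulCommClass S A Y]
    (F : MCx S) (b : A) (l : List A) (g : X →ₗ[A] Y)
    (hg : RLin S g) (inj : ∀ x : X, b • x = 0 → x = 0) (surj : Function.Surjective g)
    (ker : ∀ x, g x = 0 ↔ ∃ y, b • y = x) (i : ℕ) :
    hK Λ (b :: l) F X i = hK Λ l F Y i := by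
  unfold hK
  rw [KosG.l_kos, KosG.l_kos]
  exact KosG.h_cones_FT_cons F Λ b l g hg inj surj ker i

theorem h0_cons_regular {Y : Type v} [AddCommGroup Y] [Module A Y] (b : A) (l : List A)
    (g : X →ₗ[A] Y) (inj : ∀ x : X, b • x = 0 → x = 0) (surj : Function.Surjective g)
    (ker : ∀ x, g x = 0 ↔ ∃ y, b • y = x) (i : ℕ) :
    h0 Λ (b :: l) X i = h0 Λ l Y i :=
  hK_cons_regular Λ (MCx.one A) b l g (fun a x => map_smul g a x) inj surj ker i

theorem h0_restrict {A' : Type u} [CommRing A'] (f : A' →+* A) [Module A' X]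
    (h : ∀ (a : A') (x : X), a • x = f a • x) (Λ : AddLen.{u, v} A') (l : List A') (i : ℕ) :
    h0 Λ l X i = h0 (Λ.restrict f) (l.map f) X i := by
  have hc : SMulCommClass A' A X := ⟨fun a b x => by rw [h, h, smul_comm]⟩
  have hc' : SMulCommClass A' A' X := inferInstance
  rw [← hK_one (Λ.restrict f) A' (X := X), ← hK_one Λ A' (X := X)]
  exact hK_restrict (MCx.one A') h Λ l i

theorem h0_le_sh (l l' : List A) (i : ℕ) :
    h0 Λ (l ++ l') X i ≤ sh^[l.length] (h0 Λ l' X) i := by
  unfold h0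
  rw [kos_append]
  exact l_kos_le_sh Λ l _ i

/-- units do not matter -/
def coneUnit (C : Cx.{u, v} A) (r : Aˣ) (b : A) : (C.cone ((r : A) * b)).Iso (C.cone b) where
  e n := match n with
    | 0 => LinearEquiv.refl A (C.X 0)
    | (n + 1) => (LinearEquiv.prodCongr (LinearEquiv.refl A (C.X (n + 1)))
        (LinearEquiv.smulOfUnit r) : (C.X (n + 1) × C.X n) ≃ₗ[A] (C.X (n + 1) × C.X n))
  comm n := by
    cases n with
    | zero =>
      rintro ⟨x, y⟩
      show C.d 0 x + ((r : A) * b) • y = C.d 0 x + b • (r : A) • y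
      rw [mul_comm, mul_smul]
    | succ n =>
      rintro ⟨x, y⟩
      refine Prod.ext ?_ ?_
      · show C.d (n + 1) x + ((r : A) * b) • y = C.d (n + 1) x + b • (r : A) • y
        rw [mul_comm, mul_smul]
      · show (r : A) • (-(C.d n y)) = -(C.d n ((r : A) • y))
        rw [map_smul, smul_neg]

theorem h0_cons_unit (r : Aˣ) (b : A) (l : List A) (i : ℕ) :
    h0 Λ (((r : A) * b) :: l) X i = h0 Λ (b :: l) X i :=
  (coneUnit (Kos.kos l (deg0 A X)) r b).l_eq Λ i

theorem h0_congr {Y : Type v} [AddCommGroup Y] [Module A Y] (e : X ≃ₗ[A] Y) (l : List A) (i : ℕ) :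
    h0 Λ l X i = h0 Λ l Y i :=
  ((KosG.FTiso (MCx.one A) e fun a x => map_smul e a x).kos l).l_eq Λ i

theorem h0_ne_top {l : List A} (h : Λ.L X ≠ ⊤) (i : ℕ) : h0 Λ l X i ≠ ⊤ := by
  refine l_kos_ne_top Λ l (fun n => ?_) i
  exact hX_ne_top Λ (MCx.one A) X h n

end deg0

end Crest.Agent.R188.SX
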