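/-
R188, block (CMPK): Koszul homology over `P` and over `Ω = W(P)/ξ`.
Part 1: generalities on `SX.h0` / `kh`, exchange of `p` and `[π]`.
helper111
-/
import Crest.Agent.R188.PerfB8
import Crest.Agent.R188.SX3
import Crest.Agent.R188.Wit5

set_option autoImplicit false
set_option linter.unusedSectionVars false

namespace Crest.Agent.R188.PerfC

open scoped ENNReal
open Crest.Agent.R183 Crest.Agent.R188.Chi Crest.Agent.R188.KosG

universe u v w

section h0

variable {A : Type u} [CommRing A] (Λ : AddLen.{u, v} A)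
variable {X X' X'' : Type v} [AddCommGroup X] [Module A X] [AddCommGroup X'] [Module A X']
  [AddCommGroup X''] [Module A X'']

theorem h0_eq_kh (l : List A) (X : Type v) [AddCommGroup X] [Module A X] (i : ℕ) :
    SX.h0 Λ l X i = kh Λ l X i := by
  rw [← SX.hK_one Λ A (X := X) l i, PerfB.hK_one]

/-- restriction of the length -/
theorem kh_restrict {A' : Type u} [CommRing A'] (f : A' →+* A) [Module A' X]
    (h : ∀ (a : A') (x : X), a • x = f a • x) (Λ' : AddLen.{u, v} A') (l : List A') (i : ℤ) :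
    kh (Λ'.restrict f) (l.map f) X i = kh Λ' l X i := by
  rcases lt_or_ge i 0 with hi | hi
  · rw [kh_eq_zero _ _ _ i (Or.inl hi), kh_eq_zero _ _ _ i (Or.inl hi)]
  · obtain ⟨n, rfl⟩ := Int.eq_ofNat_of_zero_le hi
    have := SX.h0_restrict f h Λ' l n
    rw [h0_eq_kh, h0_eq_kh] at this
    exact this.symm

/-- finiteness of all lengths, `h0` form -/
theorem kfin_iff (l : List A) (X : Type v) [AddCommGroup X] [Module A X] :
    KFin Λ X l ↔ ∀ i, SX.h0 Λ l X i ≠ ⊤ := by
  constructor
  · intro h i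
    rw [h0_eq_kh]; exact h i
  · intro h i
    rcases lt_or_ge i 0 with hi | hi
    · rw [kh_eq_zero Λ X l i (Or.inl hi)]; exact ENNReal.zero_ne_top
    · obtain ⟨n, rfl⟩ := Int.eq_ofNat_of_zero_le hi
      rw [← h0_eq_kh]; exact h n

theorem h0_cons_congr {a a' : A} {l : List A}
    (h : a - a' ∈ Ideal.ofList l ⊔ Module.annihilator A X) (i : ℕ) :
    SX.h0 Λ (a :: l) X i = SX.h0 Λ (a' :: l) X i := by
  have h1 : a - a' ∈ (Kos.kos l (SX.deg0 A X)).Nh := by
    refine (sup_le (Kos.ofList_le_Nh_kos l _) ?_) h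
    refine le_trans ?_ (Kos.Nh_le_kos l _)
    intro c hc
    rw [Module.mem_annihilator] at hc
    exact Kos.Cx.mem_Nh_of_smul_eq_zero _ fun n x => funext fun j => hc _
  obtain ⟨φ⟩ := Kos.Cx.Iso.cone_add_of_mem_Nh h1 a'
  rw [add_sub_cancel] at φ
  exact φ.l_eq Λ i

/-- vanishing if the homology is null for a null-homotopic reason -/
theorem kh_eq_zero_of_null (l : List A) (X : Type v) [AddCommGroup X] [Module A X]
    (hnull : ∀ (Y : Type v) [AddCommGroup Y] [Module A Y],
      (∀ a ∈ Ideal.ofList l ⊔ Module.annihilator A X, ∀ y : Y, a • y = 0) → Λ.L Y = 0) (i : ℤ) :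
    kh Λ l X i = 0 := by
  refine hnull _ fun a ha y => ?_
  have h1 : (kos l X).NH a := KosG.span_le_NHI X l ha
  exact h1.smul_H i y

/-- null kernel: `kh` does not change -/
theorem kh_eq_of_ker_null {f : X →ₗ[A] X''} (surj : Function.Surjective f) (l : List A)
    (hk : ∀ i, kh Λ l (LinearMap.ker f) i = 0) (i : ℤ) : kh Λ l X i = kh Λ l X'' i := by
  have h1 := kh_mid_le Λ (LinearMap.ker f).subtype f (Submodule.injective_subtype _) surj
    (LinearMap.exact_subtype_ker_map f) l i
  have h2 := kh_right_le Λ (LinearMap.ker f).subtype f (Submodule.injective_subtype _) surj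
    (LinearMap.exact_subtype_ker_map f) l i
  rw [hk, zero_add] at h1
  rw [hk, add_zero] at h2
  exact le_antisymm h1 h2

/-- null cokernel: `kh` does not change -/
theorem kh_eq_of_coker_null {f : X' →ₗ[A] X} (inj : Function.Injective f) (l : List A)
    (hk : ∀ i, kh Λ l (X ⧸ LinearMap.range f) i = 0) (i : ℤ) : kh Λ l X' i = kh Λ l X i := by
  have h1 := kh_mid_le Λ f (LinearMap.range f).mkQ inj (Submodule.mkQ_surjective _)
    (LinearMap.exact_map_mkQ_range f) l i
  have h2 := kh_left_le Λ f (LinearMap.range f).mkQ inj (Submodule.mkQ_surjective _)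
    (LinearMap.exact_map_mkQ_range f) l i
  rw [hk, add_zero] at h1
  rw [hk, add_zero] at h2
  exact le_antisymm h2 h1

/-- **exchange of the generators**: `ξ = π + p u`, `Y = X/ξ`, `Z = X/p`:
`K(p, l; Y) = K(ξ, p, l; X) = K(π, p, l; X) = K(π, l; Z)` in lengths. -/
theorem h0_exchange {p π u ξ : A} (hξ : ξ = π + p * u) {g : X →ₗ[A] X'} {g' : X →ₗ[A] X''}
    (ξreg : ∀ x : X, ξ • x = 0 → x = 0) (preg : ∀ x : X, p • x = 0 → x = 0)
    (hg : Function.Surjective g) (hgk : ∀ x, g x = 0 ↔ ∃ y, ξ • y = x)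
    (hg' : Function.Surjective g') (hgk' : ∀ x, g' x = 0 ↔ ∃ y, p • y = x) (l : List A) (i : ℕ) :
    SX.h0 Λ (p :: l) X' i = SX.h0 Λ (π :: l) X'' i := by
  rw [← SX.h0_cons_regular Λ ξ (p :: l) g ξreg hg hgk i,
    ← SX.h0_cons_regular Λ p (π :: l) g' preg hg' hgk' i,
    h0_cons_congr Λ (a := ξ) (a' := π) (l := p :: l) (X := X) (by
      rw [hξ, add_sub_cancel_left]
      exact Ideal.mem_sup_left (Ideal.mul_mem_right _ _
        (Ideal.subset_span (by simp)))) i]
  exact SX.h0_perm Λ (List.Perm.swap p π l) i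

end h0

end Crest.Agent.R188.PerfC
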