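import Crest.Agent.R188.KosF
import Crest.Agent.R183.AddLenInst

/-!
# R188 (Serre positivity), S-level (e), `Λ`-side: powers of regular sequences, restriction of
scalars, `ϖ` regular on `C/(v^m)C`.
helper415
-/

set_option autoImplicit false

namespace Crest.Agent.R188.KosG

open Crest.Agent.R183
open scoped ENNReal

universe u v w

section powers

variable {A : Type u} [CommRing A] (Λ : AddLen.{u, v} A)

theorem co_mul_le (a b : A) (X : Type v) [AddCommGroup X] [Module A X] :
    co Λ (a * b) X ≤ co Λ a X + co Λ b X := by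
  obtain ⟨s, t, w, -, -, h3, h4⟩ := herbrand_aux Λ X a b
  rw [h3, h4]
  exact add_le_add_left le_add_self _

theorem an_mul_le (a b : A) (X : Type v) [AddCommGroup X] [Module A X] :
    an Λ (a * b) X ≤ an Λ a X + an Λ b X := by
  obtain ⟨s, t, w, h1, h2, -, -⟩ := herbrand_aux Λ X a b
  rw [h1, h2]
  exact add_le_add_right le_self_add _

theorem co_pow_le (a : A) (X : Type v) [AddCommGroup X] [Module A X] (m : ℕ) :
    co Λ (a ^ m) X ≤ m * co Λ a X := by
  induction m with
  | zero =>
    have h1 : co Λ (1 : A) X = 0 := by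
      unfold co
      have : LinearMap.range (LinearMap.lsmul A X (1 : A)) = ⊤ := by
        rw [LinearMap.range_eq_top]
        intro x
        exact ⟨x, one_smul A x⟩
      rw [this]
      have : Subsingleton (X ⧸ (⊤ : Submodule A X)) := Submodule.Quotient.subsingleton_iff.2 rfl
      exact Λ.L_subsingleton
    rw [pow_zero, h1]
    exact zero_le
  | succ m ih =>
    rw [pow_succ]
    refine (co_mul_le Λ _ _ X).trans ?_
    push_cast
    rw [add_mul, one_mul]
    exact add_le_add_left ih _

theorem an_pow_le (a : A) (X : Type v) [AddCommGroup X] [Module A X] (m : ℕ) :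
    an Λ (a ^ m) X ≤ m * an Λ a X := by
  induction m with
  | zero =>
    have h1 : an Λ (1 : A) X = 0 := by
      unfold an
      have : LinearMap.ker (LinearMap.lsmul A X (1 : A)) = ⊥ := by
        rw [LinearMap.ker_eq_bot']
        intro x hx
        rwa [LinearMap.lsmul_apply, one_smul] at hx
      rw [this]
      exact Λ.L_subsingleton
    rw [pow_zero, h1]
    exact zero_le
  | succ m ih =>
    rw [pow_succ]
    refine (an_mul_le Λ _ _ X).trans ?_
    push_cast
    rw [add_mul, one_mul]
    exact add_le_add_left ih _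

theorem h_cone_pow_le (K : GCx.{u, v} A) (a : A) (m : ℕ) (i : ℤ) :
    (GCx.cone (a ^ m) K).h Λ i ≤ m * (GCx.cone a K).h Λ i := by
  rw [GCx.h_cone, GCx.h_cone, mul_add]
  exact add_le_add (co_pow_le Λ a _ m) (an_pow_le Λ a _ m)

theorem h_cones_map_pow_le (K : GCx.{u, v} A) (m : ℕ) (l' l'' : List A) (i : ℤ) :
    (cones (l'.map (· ^ m) ++ l'') K).h Λ i ≤ (m : ℝ≥0∞) ^ l'.length * (cones (l' ++ l'') K).h Λ i := by
  induction l' generalizing l'' with
  | nil => simp
  | cons a l ih =>
    rw [List.map_cons, List.cons_append, cones]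
    refine (h_cone_pow_le Λ _ a m i).trans ?_
    have h1 : (GCx.cone a (cones (l.map (· ^ m) ++ l'') K)).h Λ i =
        (cones (l.map (· ^ m) ++ (a :: l'')) K).h Λ i := by
      obtain ⟨φ⟩ := cones_perm (List.perm_middle (a := a) (l₁ := l.map (· ^ m)) (l₂ := l'')) K
      rw [φ.h_eq]
      rfl
    have h2 : (cones (l ++ (a :: l'')) K).h Λ i = (cones (a :: l ++ l'') K).h Λ i := by
      obtain ⟨φ⟩ := cones_perm (List.perm_middle (a := a) (l₁ := l) (l₂ := l'')) K
      rw [φ.h_eq]
      rfl
    rw [h1]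
    refine (mul_le_mul_right (ih (a :: l'')) _).trans ?_
    rw [h2, List.length_cons, pow_succ', mul_assoc]

theorem kh_map_pow_le (C : Type v) [AddCommGroup C] [Module A C] (m : ℕ) (l : List A) (i : ℤ) :
    kh Λ (l.map (· ^ m)) C i ≤ (m : ℝ≥0∞) ^ l.length * kh Λ l C i := by
  have := h_cones_map_pow_le Λ (one A C) m l [] i
  rwa [List.append_nil, List.append_nil] at this

theorem kh_map_pow_eq_zero (C : Type v) [AddCommGroup C] [Module A C] (m : ℕ) (l : List A) {i : ℤ}
    (h : kh Λ l C i = 0) : kh Λ (l.map (· ^ m)) C i = 0 := by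
  refine le_antisymm ((kh_map_pow_le Λ C m l i).trans ?_) zero_le
  rw [h, mul_zero]

theorem KFin_of_regular (C : Type v) [AddCommGroup C] [Module A C] (l : List A)
    (h : ∀ i : ℤ, 1 ≤ i → kh Λ l C i = 0) (h0 : kh Λ l C 0 ≠ ⊤) : KFin Λ C l := by
  intro i
  rcases lt_trichotomy i 0 with hi | rfl | hi
  · rw [kh_eq_zero Λ C l i (Or.inl hi)]
    exact ENNReal.zero_ne_top
  · exact h0
  · rw [h i (by omega)]
    exact ENNReal.zero_ne_top

theorem chi_of_regular (C : Type v) [AddCommGroup C] [Module A C] (l : List A)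
    (h : ∀ i : ℤ, 1 ≤ i → kh Λ l C i = 0) : chi Λ C l = (kh Λ l C 0).toReal := by
  unfold chi
  rw [Finset.sum_range_succ', Finset.sum_eq_zero]
  · simp
  · intro i _
    rw [h _ (by push_cast; omega)]
    simp

/-- **Powers of a regular sequence.** -/
theorem kh_zero_map_pow (C : Type v) [AddCommGroup C] [Module A C] (l : List A)
    (h : ∀ i : ℤ, 1 ≤ i → kh Λ l C i = 0) (h0 : kh Λ l C 0 ≠ ⊤) (m : ℕ) :
    kh Λ (l.map (· ^ m)) C 0 = (m : ℝ≥0∞) ^ l.length * kh Λ l C 0 := by
  obtain ⟨h1, h2⟩ := chi_map_pow Λ C l (KFin_of_regular Λ C l h h0) m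
  rw [chi_of_regular Λ C _ (fun i hi => kh_map_pow_eq_zero Λ C m l (h i hi)),
    chi_of_regular Λ C l h] at h2
  rw [← ENNReal.toReal_eq_toReal_iff' (h1 0) (ENNReal.mul_ne_top (by simp) h0), h2,
    ENNReal.toReal_mul, ENNReal.toReal_pow, ENNReal.toReal_natCast]

/-- The same in terms of quotients. -/
theorem L_quot_map_pow (C : Type v) [AddCommGroup C] [Module A C] (l : List A)
    (h : ∀ i : ℤ, 1 ≤ i → kh Λ l C i = 0)
    (h0 : Λ.L (C ⧸ (Ideal.ofList l • (⊤ : Submodule A C))) ≠ ⊤) (m : ℕ) :
    Λ.L (C ⧸ (Ideal.ofList (l.map (· ^ m)) • (⊤ : Submodule A C))) =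
      (m : ℝ≥0∞) ^ l.length * Λ.L (C ⧸ (Ideal.ofList l • (⊤ : Submodule A C))) := by
  have h1 := kh_zero_map_pow Λ C l h (by rw [kh_zero]; exact h0) m
  rwa [kh_zero, kh_zero] at h1

end powers

section regular

variable {A : Type u} [CommRing A] (Λ : AddLen.{u, v} A) {C C'' : Type v} [AddCommGroup C]
  [Module A C] [AddCommGroup C''] [Module A C'']

/-- `b` regular on `C`, `C'' = C / bC` -/
def regQuotOne (b : A) (g : C →ₗ[A] C'') (inj : ∀ x : C, b • x = 0 → x = 0)
    (surj : Function.Surjective g) (ker : ∀ x, g x = 0 ↔ ∃ y, b • y = x) :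
    GCx.RegQuot b (one A C) (one A C'') where
  p :=
    { f := g
      gr := by
        intro i (x : C) hx
        change x ∈ (if i = 0 then (⊤ : Submodule A C) else ⊥) at hx
        change g x ∈ (if i = 0 then (⊤ : Submodule A C'') else ⊥)
        split_ifs at hx ⊢ with h
        · trivial
        · rw [Submodule.mem_bot] at hx ⊢
          rw [hx, map_zero]
      comm := fun x => by
        change g 0 = 0
        exact map_zero g }
  inj := inj
  zero := fun x => (ker _).2 ⟨x, rfl⟩
  surj := by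
    intro n (x : C'') hx
    change x ∈ (if n = 0 then (⊤ : Submodule A C'') else ⊥) at hx
    change ∃ y ∈ (if n = 0 then (⊤ : Submodule A C) else ⊥), g y = x
    split_ifs at hx ⊢ with h
    · obtain ⟨y, hy⟩ := surj x
      exact ⟨y, trivial, hy⟩
    · exact ⟨0, Submodule.zero_mem _, by rw [map_zero, (Submodule.mem_bot A).1 hx]⟩
  exact := by
    intro n (x : C) hx hx'
    change x ∈ (if n = 0 then (⊤ : Submodule A C) else ⊥) at hx
    change ∃ y ∈ (if n = 0 then (⊤ : Submodule A C) else ⊥), b • y = x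
    split_ifs at hx ⊢ with h
    · obtain ⟨y, hy⟩ := (ker x).1 hx'
      exact ⟨y, trivial, hy⟩
    · exact ⟨0, Submodule.zero_mem _, by rw [smul_zero, (Submodule.mem_bot A).1 hx]⟩

theorem kh_cons_regular (b : A) (g : C →ₗ[A] C'') (inj : ∀ x : C, b • x = 0 → x = 0)
    (surj : Function.Surjective g) (ker : ∀ x, g x = 0 ↔ ∃ y, b • y = x) (l : List A) (n : ℤ) :
    kh Λ (b :: l) C n = kh Λ l C'' n :=
  (regQuotOne b g inj surj ker).h_cones_cons Λ l n

/-- `b` is almost regular on `C/(v)C`. -/
theorem an_quot_eq_zero (b : A) (g : C →ₗ[A] C'') (inj : ∀ x : C, b • x = 0 → x = 0)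
    (surj : Function.Surjective g) (ker : ∀ x, g x = 0 ↔ ∃ y, b • y = x) (l : List A)
    (h : kh Λ l C'' 1 = 0) : an Λ b (C ⧸ (Ideal.ofList l • (⊤ : Submodule A C))) = 0 := by
  have h1 := kh_cons_regular Λ b g inj surj ker l 1
  rw [h, kh_cons, add_eq_zero, sub_self] at h1
  obtain ⟨φ, hφ, hk⟩ := exists_H0 C l
  rw [← h1.2]
  exact an_congr Λ b ((Submodule.quotEquivOfEq _ _ hk.symm).trans (φ.quotKerEquivOfSurjective hφ))

end regular

section restrict

variable {A : Type u} [CommRing A] {B : Type w} [CommRing B] (f : A →+* B)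

namespace GCx

/-- restriction of scalars -/
def res (K : GCx.{w, v} B) : GCx.{u, v} A :=
  letI : Module A K.T := Module.compHom K.T f
  { T := K.T
    gr := fun i =>
      { carrier := K.gr i
        add_mem' := (K.gr i).add_mem
        zero_mem' := (K.gr i).zero_mem
        smul_mem' := fun a _ hx => (K.gr i).smul_mem (f a) hx }
    D :=
      { toFun := K.D
        map_add' := K.D.map_add
        map_smul' := fun a x => K.D.map_smul (f a) x }
    D_gr := fun i x hx => K.D_gr i x hx
    DD := fun x => K.DD x }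

theorem mem_res_Z (K : GCx.{w, v} B) {i : ℤ} {x : K.T} :
    (show (res f K).T from x) ∈ (res f K).Z i ↔ x ∈ K.Z i := Iff.rfl

theorem mem_res_B (K : GCx.{w, v} B) {i : ℤ} {x : K.T} :
    (show (res f K).T from x) ∈ (res f K).B i ↔ x ∈ K.B i := Iff.rfl

theorem h_res (Λ : AddLen.{u, v} A) (K : GCx.{w, v} B) (i : ℤ) :
    (res f K).h Λ i = K.h (Λ.restrict f) i := by
  let _ : Module A (K.H i) := Module.compHom (K.H i) f
  let φ : (res f K).Z i →ₗ[A] K.H i :=
    { toFun := fun x => K.cls i ⟨x.1, x.2⟩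
      map_add' := fun x y => (K.cls i).map_add ⟨x.1, x.2⟩ ⟨y.1, y.2⟩
      map_smul' := fun a x => (K.cls i).map_smul (f a) ⟨x.1, x.2⟩ }
  have hφ : Function.Surjective φ := by
    intro x
    obtain ⟨z, rfl⟩ := K.cls_surj i x
    exact ⟨⟨z.1, z.2⟩, rfl⟩
  have hk : LinearMap.ker φ = LinearMap.ker ((res f K).cls i) := by
    ext ⟨x, hx⟩
    rw [LinearMap.mem_ker, LinearMap.mem_ker, cls_eq_zero]
    exact K.cls_eq_zero
  have h1 := L_of_surj Λ φ hφ _ hk
  have h2 := L_of_surj Λ ((res f K).cls i) ((res f K).cls_surj i) _ rfl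
  unfold h
  rw [← h2, h1]
  rfl

/-- restriction of scalars and cones -/
def resCone (K : GCx.{w, v} B) (a : A) : Iso (res f (cone (f a) K)) (cone a (res f K)) where
  e :=
    { toFun := fun x => x
      map_add' := fun _ _ => rfl
      map_smul' := fun _ _ => rfl
      invFun := fun x => x
      left_inv := fun _ => rfl
      right_inv := fun _ => rfl }
  gr := fun _ _ => Iff.rfl
  comm := fun _ => rfl

end GCx

theorem resCones (K : GCx.{w, v} B) (l : List A) :
    Nonempty (GCx.Iso (GCx.res f (cones (l.map f) K)) (cones l (GCx.res f K))) := by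
  induction l with
  | nil => exact ⟨GCx.Iso.refl _⟩
  | cons a l ih =>
    obtain ⟨φ⟩ := ih
    exact ⟨(GCx.resCone f (cones (l.map f) K) a).trans (φ.cone a)⟩

theorem h_cones_res (Λ : AddLen.{u, v} A) (K : GCx.{w, v} B) (l : List A) (i : ℤ) :
    (cones (l.map f) K).h (Λ.restrict f) i = (cones l (GCx.res f K)).h Λ i := by
  obtain ⟨φ⟩ := resCones f K l
  rw [← GCx.h_res, φ.h_eq]

/-- **restriction of scalars** -/
theorem kh_restrict (Λ : AddLen.{u, v} A) (l : List A) (C : Type v) [AddCommGroup C] [Module B C]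
    [Module A C] (h : ∀ (a : A) (x : C), a • x = f a • x) (i : ℤ) :
    kh (Λ.restrict f) (l.map f) C i = kh Λ l C i := by
  have e : GCx.Iso (GCx.res f (one B C)) (one A C) :=
    { e :=
        { toFun := fun x => x
          map_add' := fun _ _ => rfl
          map_smul' := fun a x => (h a x).symm
          invFun := fun x => x
          left_inv := fun _ => rfl
          right_inv := fun _ => rfl }
      gr := by
        intro i (x : C)
        change x ∈ (if i = 0 then (⊤ : Submodule A C) else ⊥) ↔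
          x ∈ (if i = 0 then (⊤ : Submodule B C) else ⊥)
        split_ifs with hi
        · exact ⟨fun _ => trivial, fun _ => trivial⟩
        · rw [Submodule.mem_bot, Submodule.mem_bot]
      comm := fun _ => rfl }
  obtain ⟨φ⟩ := cones_iso e l
  unfold kh kos
  rw [h_cones_res, φ.h_eq]

end restrict

end Crest.Agent.R188.KosG
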