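import Crest.Agent.R188.FinA4
import Crest.Agent.R188.PerfC2
import Crest.Agent.R188.Asm3
import Crest.Agent.R188.AsmG2
import Crest.Agent.R188.Tay5

/-!
# R188, block FINA (helper414), part 5: the radical lemma, growth and finiteness over `Ω`
-/

set_option autoImplicit false
set_option linter.unusedSectionVars false
set_option linter.style.haveILetI false

namespace Crest.Agent.R188.FinA

open scoped ENNReal Pointwise
open WittVector Function Crest.Agent.R188.Prf Crest.Agent.R188.Wit Crest.Agent.R183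
open Crest.Agent.R183.Digit (Convex)

universe u

local notation "𝕎" => WittVector
local notation "τ" => WittVector.teichmuller _

section radical

variable {p : ℕ} [hp : Fact p.Prime] {P : Type u} [CommRing P] (hP : IsPerf p P)

/-- `Σ_j (g_j^{1/p^∞})` -/
noncomputable def sId {κ : Type*} (g : κ → P) : Ideal P :=
  ⨆ n, Ideal.span (Set.range fun j => hP.rtn n (g j))

variable {κ : Type*} [Fintype κ] {g : κ → P}

lemma mem_sId {x : P} : x ∈ sId hP g ↔ ∃ (n : ℕ) (b : κ → P), ∑ j, b j * hP.rtn n (g j) = x := by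
  have hmono : Monotone fun n => Ideal.span (Set.range fun j => hP.rtn n (g j)) := by
    refine monotone_nat_of_le_succ fun n => Ideal.span_le.2 ?_
    rintro _ ⟨j, rfl⟩
    have h1 : hP.rtn (n + 1) (g j) ∈ Ideal.span (Set.range fun j => hP.rtn (n + 1) (g j)) :=
      Ideal.subset_span ⟨j, rfl⟩
    have h2 := Ideal.pow_mem_of_mem _ h1 p hp.out.pos
    rw [hP.rtn_succ_pow] at h2
    exact h2
  unfold sId
  rw [Submodule.mem_iSup_of_directed _ hmono.directed_le]
  exact exists_congr fun n => Ideal.mem_span_range_iff_exists_fun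

lemma rtn_mem_sId (n : ℕ) (j : κ) : hP.rtn n (g j) ∈ sId hP g := by
  have h1 : hP.rtn n (g j) ∈ Ideal.span (Set.range fun j => hP.rtn n (g j)) :=
    Ideal.subset_span ⟨j, rfl⟩
  exact le_iSup (fun n => Ideal.span (Set.range fun j => hP.rtn n (g j))) n h1

lemma sId_radical {x : P} (hx : x ^ p ∈ sId hP g) : x ∈ sId hP g := by
  obtain ⟨n, b, hb⟩ := (mem_sId hP).1 hx
  refine (mem_sId hP).2 ⟨n + 1, fun j => hP.rt (b j), hP.pow_inj ?_⟩
  rw [sum_pow_p hP.p_zero, ← hb]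
  exact Finset.sum_congr rfl fun j _ => by rw [mul_pow, hP.rt_pow, hP.rtn_succ_pow]

lemma exists_pow_mem_of_sId {x : P} (hx : x ∈ sId hP g) (m : ℕ) :
    ∃ N : ℕ, x ^ N ∈ Ideal.span (Set.range fun j => g j ^ m) := by
  obtain ⟨n, b, rfl⟩ := (mem_sId hP).1 hx
  refine ⟨p ^ (n + m), ?_⟩
  rw [sum_pow_pn hP.p_zero]
  refine sum_mem fun j _ => ?_
  rw [mul_pow, pow_add, pow_mul, pow_mul, hP.rtn_pow]
  refine Ideal.mul_mem_left _ _ ?_
  obtain ⟨c, hc⟩ := pow_dvd_pow (g j) (Nat.lt_pow_self hp.out.one_lt (n := m)).le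
  rw [hc]
  exact Ideal.mul_mem_right _ _ (Ideal.subset_span ⟨j, rfl⟩)

/-- **RADICAL LEMMA** -/
theorem radical_lemma {ξ : WittVector p P} {π : P} (hξ : IsDist ξ π)
    (hπ : π ∈ Ideal.jacobson (⊥ : Ideal P)) (g : κ → P) {c : ℕ}
    (hpc : (p : Om ξ) ^ c ∈ Ideal.span (Set.range fun j => sh ξ (g j))) {x : P} {c' : ℕ}
    (hx : sh ξ x ^ c' ∈ Ideal.span (Set.range fun j => sh ξ (g j))) :
    π ∈ sId hP g ∧ x ∈ sId hP g := by
  let R := sId hP g
  let Q := P ⧸ R
  have hQ : IsPerf p Q := hP.quot R fun _ hx => sId_radical hP hx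
  let φ : P →+* Q := Ideal.Quotient.mk R
  have hφ : Surjective φ := Ideal.Quotient.mk_surjective
  set ξQ : WittVector p Q := WittVector.map φ ξ with hξQ0
  have hξQ : IsDist ξQ (φ π) := hξ.map φ
  haveI := Om_isReduced hQ hξQ
  let Θ : Om ξ →+* Om ξQ := Ideal.Quotient.lift (Ideal.span {ξ}) ((θ ξQ).comp (WittVector.map φ)) (by
    intro a ha
    obtain ⟨b, rfl⟩ := Ideal.mem_span_singleton'.1 ha
    rw [RingHom.comp_apply, map_mul, map_mul]
    have : θ ξQ (WittVector.map φ ξ) = 0 := θ_xi ξQ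
    rw [this, mul_zero])
  have hΘ : ∀ w, Θ (θ ξ w) = θ ξQ (WittVector.map φ w) := fun w => rfl
  have hΘsh : ∀ a : P, Θ (sh ξ a) = sh ξQ (φ a) := by
    intro a
    unfold sh
    rw [hΘ, map_teichmuller]
  have hspan : ∀ a ∈ Ideal.span (Set.range fun j => sh ξ (g j)), Θ a = 0 := by
    intro a ha
    have h1 : Ideal.span (Set.range fun j => sh ξ (g j)) ≤ RingHom.ker Θ := by
      rw [Ideal.span_le]
      rintro _ ⟨j, rfl⟩
      show Θ (sh ξ (g j)) = 0
      rw [hΘsh]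
      have : φ (g j) = 0 := Ideal.Quotient.eq_zero_iff_mem.2 (by
        simpa using rtn_mem_sId hP (g := g) 0 j)
      rw [this, sh_zero]
    exact h1 ha
  -- `p = 0` in `Om ξQ`
  have hp0 : (p : Om ξQ) = 0 := by
    have h1 := hspan _ hpc
    rw [map_pow, map_natCast] at h1
    exact eq_zero_of_pow_eq_zero h1
  have hp1 : θ ξQ (p : WittVector p Q) = 0 := by rw [map_natCast]; exact hp0
  obtain ⟨z, hz⟩ := θ_eq_zero_iff.1 hp1
  obtain ⟨u, hu, he⟩ := hξQ.ex
  obtain ⟨z', hz'⟩ := exists_eq_teich_add hQ z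
  have hcc : ∀ a : Q, constantCoeff (teichmuller p a) = a := fun a => teichmuller_coeff_zero p a
  have e1 : φ π * z.coeff 0 = 0 := by
    have h1 := congrArg (constantCoeff (p := p) (R := Q)) hz
    rw [map_natCast, hQ.p_zero, map_mul, he, map_add, hcc, map_mul, map_natCast, hQ.p_zero,
      zero_mul, add_zero] at h1
    exact h1.symm
  have e2 : (1 : WittVector p Q) = teichmuller p (φ π) * z' + u * z := by
    apply eq_of_p_mul hQ
    have h1 : teichmuller p (φ π) * teichmuller p (z.coeff 0) = 0 := by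
      rw [← map_mul, e1, teichmuller_zero]
    have h2 : (p : WittVector p Q) * 1 = (teichmuller p (φ π) + (p : WittVector p Q) * u) * z := by
      rw [mul_one, ← he, ← hz]
    rw [h2, add_mul]
    nth_rewrite 1 [hz']
    linear_combination h1
  have e3 : (1 : Q) = φ π * z'.coeff 0 + u.coeff 0 * z.coeff 0 := by
    have h1 := congrArg (constantCoeff (p := p) (R := Q)) e2
    rw [map_one, map_add, map_mul, map_mul, hcc] at h1
    exact h1
  have e4 : φ π * (1 - φ π * z'.coeff 0) = 0 := by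
    linear_combination (φ π) * e3 + (u.coeff 0) * e1
  obtain ⟨w, hw⟩ := hφ (z'.coeff 0)
  have e5 : IsUnit (1 - φ π * z'.coeff 0) := by
    have h1 := (Ideal.mem_jacobson_bot.1 hπ (-w)).map φ
    rw [map_add, map_mul, map_neg, map_one, hw] at h1
    have h2 : 1 - φ π * z'.coeff 0 = φ π * -z'.coeff 0 + 1 := by ring
    rw [h2]
    exact h1
  have e6 : φ π = 0 := (IsUnit.mul_left_eq_zero e5).1 e4
  refine ⟨Ideal.Quotient.eq_zero_iff_mem.1 e6, ?_⟩
  have h2 := hspan _ hx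
  rw [map_pow, hΘsh] at h2
  have h3 : sh ξQ (φ x) = 0 := eq_zero_of_pow_eq_zero h2
  obtain ⟨y, hy⟩ := θ_eq_zero_iff.1 h3
  rw [he, e6, teichmuller_zero, zero_add] at hy
  have h4 := congrArg (constantCoeff (p := p) (R := Q)) hy
  rw [hcc, map_mul, map_mul, map_natCast, hQ.p_zero, zero_mul, zero_mul] at h4
  exact Ideal.Quotient.eq_zero_iff_mem.1 h4

end radical

/-! ### Koszul lengths -/

section kos

open Crest.Agent.R188.KosG

variable {A : Type u} [CommRing A] (Λ : AddLen.{u, u} A) (C : Type u) [AddCommGroup C] [Module A C]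

lemma pas_ne_top {g : ℤ → ℝ≥0∞} (hg : ∀ i, g i ≠ ⊤) (n : ℕ) (i : ℤ) : pas g n i ≠ ⊤ := by
  unfold pas
  exact ENNReal.sum_ne_top.2 fun j _ => ENNReal.mul_ne_top (ENNReal.natCast_ne_top _) (hg _)

/-- finiteness for `l` from finiteness for `a` if powers of the entries of `a` are
null-homotopic on `K(l; C)`. -/
theorem kh_ne_top_of_pow {l a : List A} (M : ℕ)
    (ha : ∀ x ∈ a, x ^ M ∈ Ideal.span {x | x ∈ l} ⊔ Module.annihilator A C)
    (hfin : ∀ j : ℤ, kh Λ a C j ≠ ⊤) (i : ℤ) : kh Λ l C i ≠ ⊤ := by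
  have h1 : ∀ x ∈ a.map (· ^ M), x ∈ (kos l C).NHI := by
    intro x hx
    obtain ⟨y, hy, rfl⟩ := List.mem_map.1 hx
    exact span_le_NHI C l (ha y hy)
  refine ne_top_of_le_ne_top (pas_ne_top (fun j => ?_) _ _) (kh_le_pas Λ C h1 i)
  exact ne_top_of_le_ne_top (ENNReal.mul_ne_top (ENNReal.pow_ne_top (ENNReal.natCast_ne_top M))
    (hfin j)) (kh_map_pow_le Λ C M a j)

end kos

/-! ### the world -/

section world

open Crest.Agent.R188.Asm Crest.Agent.R188.KosG

variable {p : ℕ} [hp : Fact p.Prime] {k : Type} [Field k] [CharP k p] {b : ℕ} (W : World p k b)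

theorem kh_P_ne_top (j : ℤ) : kh (LP W.Λ) (List.ofFn W.t) W.P j ≠ ⊤ := by
  rcases lt_trichotomy j 0 with hj | rfl | hj
  · rw [kh_eq_zero _ _ _ j (Or.inl hj)]; exact ENNReal.zero_ne_top
  · rw [kh_zero]
    have h1 : {x | x ∈ List.ofFn W.t} = Set.range W.t := Set.ext fun x => List.mem_ofFn
    have h2 : (Ideal.span (Set.range W.t) • (⊤ : Submodule W.P W.P)) =
        Ideal.span (Set.range W.t) := by
      rw [Ideal.smul_eq_mul, Ideal.mul_top]
    rw [h1, h2]
    exact W.L_ne_top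
  · rw [W.L_reg j (by omega)]; exact ENNReal.zero_ne_top

/-- `I → P → P/I` -/
theorem kh_quot_ne_top {I : Ideal W.P}
    (hI : ∀ j : ℤ, kh (LP W.Λ) (List.ofFn W.t) ↥I j ≠ ⊤) (j : ℤ) :
    kh (LP W.Λ) (List.ofFn W.t) (W.P ⧸ I) j ≠ ⊤ := by
  refine ne_top_of_le_ne_top (ENNReal.add_ne_top.2 ⟨kh_P_ne_top W j, hI (j - 1)⟩)
    (kh_right_le (LP W.Λ) (I.subtype) (Submodule.mkQ I) I.injective_subtype
      (Submodule.mkQ_surjective _) (LinearMap.exact_subtype_mkQ I) _ j)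

/-- parameters for `B/β` -/
def ParamB (p : ℕ) [Fact p.Prime] (k : Type) [Field k] (b : ℕ) : Prop :=
  ∀ β : BB p k b, β ≠ 0 → ∃ z : Fin b → BB p k b, (∀ i, z i ∈ mB p k b) ∧
    ∃ N, mB p k b ^ N ≤ Ideal.span {β} ⊔ Ideal.span (Set.range z)

lemma tB_mem_mB (i : Fin (b + 1)) : tB p k b i ∈ mB p k b := Ideal.subset_span ⟨i, rfl⟩

lemma sh_t (i : Fin (b + 1)) :
    sh W.ξ (W.t i) = algebraMap (BB p k b) (Om W.ξ) (tB p k b i) := by
  rw [AsmG.SharpPair.sh_eq (W.t_sharp i), W.tr_zero]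
  rfl

/-- **growth** -/
theorem growth_of (hz : ParamB p k b) {h : W.P} {hr : ℕ → BPlus p k b}
    (hS : SharpPair W.perf W.ι h hr) (h0 : hr 0 ≠ 0) {I : Ideal W.P} {m : ℕ} (hm : h ^ m ∈ I)
    (hfin : ∀ j : ℤ, kh (LP W.Λ) (List.ofFn W.t) (W.P ⧸ I) j ≠ ⊤) :
    ∃ (z : Fin b → BB p k b) (v : Fin b → W.P) (zr : Fin b → ℕ → BPlus p k b),
    (∀ i, z i ∈ mB p k b) ∧
    (∀ i, SharpPair W.perf W.ι (v i) (zr i)) ∧
    (∀ i, zr i 0 = algebraMap (BB p k b) (BPlus p k b) (z i)) ∧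
    ∀ j : ℤ, kh (LP W.Λ) (List.ofFn v) (W.P ⧸ I) j ≠ ⊤ := by
  obtain ⟨c', β, hβ, hcβ⟩ := Tri.bPlus_exists_mul h0
  obtain ⟨z, hzm, N, hN⟩ := hz β hβ
  choose v zr hv hzr using fun i => AsmG.exists_sharpPair W (algebraMap (BB p k b) (BPlus p k b) (z i))
  refine ⟨z, v, zr, hzm, hv, hzr, ?_⟩
  let g : Option (Fin b) → W.P := fun o => o.elim h v
  -- powers of `m_B` lie in `(g^♯)`
  have hgspan : ∀ y ∈ mB p k b ^ N,
      algebraMap (BB p k b) (Om W.ξ) y ∈ Ideal.span (Set.range fun o => sh W.ξ (g o)) := by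
    intro y hy
    have h1 : Ideal.span {β} ⊔ Ideal.span (Set.range z) ≤
        (Ideal.span (Set.range fun o => sh W.ξ (g o))).comap
          (algebraMap (BB p k b) (Om W.ξ)) := by
      refine sup_le (Ideal.span_le.2 (Set.singleton_subset_iff.2 ?_)) (Ideal.span_le.2 ?_)
      · rw [SetLike.mem_coe, Ideal.mem_comap, World.algebraMap_BB, ← hcβ, map_mul,
          ← AsmG.SharpPair.sh_eq hS]
        exact Ideal.mul_mem_right _ _ (Ideal.subset_span ⟨none, rfl⟩)
      · rintro _ ⟨i, rfl⟩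
        rw [SetLike.mem_coe, Ideal.mem_comap, World.algebraMap_BB, ← hzr i,
          ← AsmG.SharpPair.sh_eq (hv i)]
        exact Ideal.subset_span ⟨some i, rfl⟩
    exact h1 (hN hy)
  have hpc : (p : Om W.ξ) ^ N ∈ Ideal.span (Set.range fun o => sh W.ξ (g o)) := by
    have h1 := hgspan _ (Ideal.pow_mem_pow (tB_mem_mB (p := p) (k := k) (b := b) 0) N)
    rw [map_pow] at h1
    have h2 : algebraMap (BB p k b) (Om W.ξ) (tB p k b 0) = (p : Om W.ξ) := by
      show algebraMap (BB p k b) (Om W.ξ) ((p : BB p k b)) = _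
      rw [map_natCast]
    rwa [h2] at h1
  have ht : ∀ i, W.t i ∈ sId W.perf g := by
    intro i
    have h1 := hgspan _ (Ideal.pow_mem_pow (tB_mem_mB (p := p) (k := k) (b := b) i) N)
    rw [map_pow, ← sh_t] at h1
    have hπ : W.π ∈ Ideal.jacobson (⊥ : Ideal W.P) := by
      obtain ⟨u, hu⟩ := W.t_zero
      rw [← hu]
      exact Ideal.mul_mem_right _ _ (W.t_jac 0)
    exact (radical_lemma W.perf W.dist hπ g hpc h1).2
  choose M hM using fun i => exists_pow_mem_of_sId W.perf (ht i) (m + 1)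
  refine kh_ne_top_of_pow (LP W.Λ) (W.P ⧸ I) (∑ i, M i) ?_ hfin
  intro x hx
  obtain ⟨i, rfl⟩ := List.mem_ofFn.1 hx
  have hle : M i ≤ ∑ i, M i := Finset.single_le_sum (fun _ _ => Nat.zero_le _) (Finset.mem_univ i)
  have h1 : W.t i ^ (∑ i, M i) ∈ Ideal.span (Set.range fun o => g o ^ (m + 1)) := by
    obtain ⟨c, hc⟩ := pow_dvd_pow (W.t i) hle
    rw [hc]
    exact Ideal.mul_mem_right _ _ (hM i)
  have h2 : Ideal.span (Set.range fun o => g o ^ (m + 1)) ≤
      Ideal.span {x | x ∈ List.ofFn v} ⊔ Module.annihilator W.P (W.P ⧸ I) := by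
    rw [Ideal.span_le]
    rintro _ ⟨o, rfl⟩
    cases o with
    | none =>
      refine Submodule.mem_sup_right ?_
      rw [Ideal.annihilator_quotient]
      show h ^ (m + 1) ∈ I
      rw [pow_succ]
      exact Ideal.mul_mem_right _ _ hm
    | some i =>
      refine Submodule.mem_sup_left ?_
      show v i ^ (m + 1) ∈ _
      rw [pow_succ]
      exact Ideal.mul_mem_left _ _ (Ideal.subset_span (List.mem_ofFn.2 ⟨i, rfl⟩))
  exact h2 h1

/-- **finiteness over `Ω`** -/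
theorem fin_of {h : W.P} {hr : ℕ → BPlus p k b}
    (hS : SharpPair W.perf W.ι h hr) (h0 : hr 0 ≠ 0) {I : Ideal W.P} (hI : Convex p I) {m : ℕ}
    (hm : h ^ m ∈ I) (hfin : ∀ j : ℤ, kh (LP W.Λ) (List.ofFn W.t) ↥I j ≠ ⊤) (j : ℤ) :
    kh (LOm W.ξ W.Λ) (List.ofFn fun i => algebraMap (BB p k b) (Om W.ξ) (tB p k b i))
      (Om W.ξ ⧸ Asm.JI W I) j ≠ ⊤ := by
  obtain ⟨u, hu⟩ := W.t_zero
  let l : List W.P := List.ofFn fun i : Fin b => W.t i.succ
  have ht : List.ofFn W.t = W.t 0 :: l := List.ofFn_succ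
  have hlist : (List.ofFn fun i => algebraMap (BB p k b) (Om W.ξ) (tB p k b i)) =
      (p : Om W.ξ) :: l.map (sh W.ξ) := by
    rw [List.ofFn_succ, List.map_ofFn]
    congr 1
    · show algebraMap (BB p k b) (Om W.ξ) ((p : BB p k b)) = _
      rw [map_natCast]
    · congr 1
      funext i
      exact (sh_t W i.succ).symm
  -- the list `π :: l`
  have hπl : ∀ (X : Type) [AddCommGroup X] [Module W.P X],
      (∀ j : ℤ, kh (LP W.Λ) (List.ofFn W.t) X j ≠ ⊤) →
        ∀ j : ℤ, kh (LP W.Λ) (W.π :: l) X j ≠ ⊤ := by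
    intro X _ _ hX j
    refine kh_ne_top_of_pow (LP W.Λ) X 1 ?_ hX j
    intro x hx
    rw [pow_one]
    refine Submodule.mem_sup_left ?_
    rw [ht] at hx
    rcases List.mem_cons.1 hx with rfl | hx
    · have h1 : W.t 0 = W.π * ((u⁻¹ : (W.P)ˣ) : W.P) := by
        rw [← hu, mul_assoc, Units.mul_inv, mul_one]
      rw [h1]
      exact Ideal.mul_mem_right _ _ (Ideal.subset_span (by simp))
    · exact Ideal.subset_span (List.mem_cons_of_mem _ hx)
  rw [hlist]
  have hO : ∀ j : ℤ, kh (LOm W.ξ W.Λ) ((p : Om W.ξ) :: l.map (sh W.ξ)) (Om W.ξ) j ≠ ⊤ := by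
    intro j
    rw [PerfC.kh_Om W.perf W.dist W.Λ l j]
    exact hπl _ (kh_P_ne_top W) j
  have hJ : ∀ j : ℤ, kh (LOm W.ξ W.Λ) ((p : Om W.ξ) :: l.map (sh W.ξ)) ↥(Asm.JI W I) j ≠ ⊤ := by
    intro j
    have := PerfC.kh_J W.perf W.dist W.Λ hI hm l (fun Y _ _ h1 h2 h3 h4 =>
      W.null h hr hS h0 Y (fun y => ⟨1, by rw [pow_one]; exact h1 y, fun i => ?_⟩) h4) j
    · unfold Asm.JI
      rw [this]
      exact hπl _ hfin j
    · rw [pow_one]
      refine Fin.cases ?_ (fun i => ?_) i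
      · have h5 : W.t 0 = W.π * ((u⁻¹ : (W.P)ˣ) : W.P) := by
          rw [← hu, mul_assoc, Units.mul_inv, mul_one]
        rw [h5, mul_comm, map_mul, mul_smul, h2, smul_zero]
      · exact h3 _ (List.mem_ofFn.2 ⟨i, rfl⟩) y
  exact ne_top_of_le_ne_top (ENNReal.add_ne_top.2 ⟨hO j, hJ (j - 1)⟩)
    (kh_right_le (LOm W.ξ W.Λ) (Asm.JI W I).subtype (Submodule.mkQ (Asm.JI W I))
      (Asm.JI W I).injective_subtype (Submodule.mkQ_surjective _)
      (LinearMap.exact_subtype_mkQ _) _ j)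

/-- **`Good`** from the finiteness of the Koszul homology of `I` over `P`. -/
theorem good_of (hz : ParamB p k b) {h : W.P} {hr : ℕ → BPlus p k b}
    (hS : SharpPair W.perf W.ι h hr) (h0 : hr 0 ≠ 0) {I : Ideal W.P} (hI : Convex p I)
    (hm : ∃ m, h ^ m ∈ I) (hfin : ∀ j : ℤ, kh (LP W.Λ) (List.ofFn W.t) ↥I j ≠ ⊤) :
    Good W h I where
  convex := hI
  mem := hm
  growth := by
    obtain ⟨m, hm⟩ := hm
    exact growth_of W hz hS h0 hm (kh_quot_ne_top W hfin)
  fin := by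
    obtain ⟨m, hm⟩ := hm
    exact fin_of W hS h0 hI hm hfin

end world

end Crest.Agent.R188.FinA
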