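import Crest.Agent.R188.Wit1
import Crest.Agent.R188.PrfPerf
import Mathlib.RingTheory.MvPowerSeries.Basic

/-!
# R188 (helper645): `φ(E) = unit · ξ` without assuming `P` local
-/

set_option autoImplicit false

namespace Crest.Agent.R188.Lft

open WittVector Crest.Agent.R188.Prf Crest.Agent.R188.Wit

universe u v

variable {p : ℕ} [hp : Fact p.Prime] {P : Type u} [CommRing P]

local notation "𝕎" => WittVector p
local notation "τ" => WittVector.teichmuller p

/-- units of `W(P)`, `P` perfect, are detected by the zeroth coefficient -/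
theorem isUnit_of_coeff_zero (h : IsPerf p P) {z : 𝕎 P} (hz : IsUnit (z.coeff 0)) : IsUnit z := by
  obtain ⟨v, hv⟩ := hz.exists_right_inv
  have h1 : (z * τ v - 1).coeff 0 = 0 := by
    have e : constantCoeff (z * τ v - 1) = z.coeff 0 * v - 1 := by
      rw [map_sub, map_mul, map_one]
      congr 2
    exact e.trans (by rw [hv, sub_self])
  have h2 : (z * τ v - 1) ∈ Ideal.span {(p : 𝕎 P)} :=
    Ideal.mem_span_singleton.2 ((p_dvd_iff h).2 h1)
  have := Wit.isAdicComplete h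
  have h3 : (z * τ v - 1) ∈ Ideal.jacobson (⊥ : Ideal (𝕎 P)) :=
    IsAdicComplete.le_jacobson_bot (Ideal.span {(p : 𝕎 P)}) h2
  have h4 := (Ideal.mem_jacobson_bot.1 h3) 1
  rw [mul_one, sub_add_cancel] at h4
  exact isUnit_of_mul_isUnit_left h4

/-- If `p`-adic first digit of `ξ z` is a unit modulo every maximal ideal containing `π`, then `z`
is a unit: main lemma. -/
theorem isUnit_of_forall_maximal (h : IsPerf p P) {ξ : 𝕎 P} {π : P} (hξ : IsDist ξ π)
    (hπ : π ∈ Ideal.jacobson (⊥ : Ideal P)) {e z : 𝕎 P} (he : e = ξ * z)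
    (hE : ∀ 𝔪 : Ideal P, 𝔪.IsMaximal →
      WittVector.map (Ideal.Quotient.mk 𝔪) e = (p : WittVector p (P ⧸ 𝔪))) : IsUnit z := by
  apply isUnit_of_coeff_zero h
  by_contra hz
  obtain ⟨𝔪, h𝔪, hz𝔪⟩ := exists_max_ideal_of_mem_nonunits hz
  have h1 := hE 𝔪 h𝔪
  have hπ𝔪 : π ∈ 𝔪 := by
    rw [Ideal.mem_jacobson_bot] at hπ
    by_contra hcon
    have h2 : 𝔪 ⊔ Ideal.span {π} = ⊤ := by
      apply h𝔪.1.2
      rw [lt_iff_le_and_ne]
      refine ⟨le_sup_left, fun heq => hcon ?_⟩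
      rw [heq]
      exact Ideal.mem_sup_right (Ideal.mem_span_singleton_self _)
    obtain ⟨x, hx, y, hy, hxy⟩ := Submodule.mem_sup.1 ((Ideal.eq_top_iff_one _).1 h2)
    obtain ⟨c, rfl⟩ := Ideal.mem_span_singleton'.1 hy
    have h3 := hπ (-c)
    have h4 : π * -c + 1 = x := by rw [← hxy]; ring
    rw [h4] at h3
    exact h𝔪.ne_top (Ideal.eq_top_of_isUnit_mem _ hx h3)
  have hnt : Nontrivial (P ⧸ 𝔪) := Ideal.Quotient.nontrivial_iff.2 h𝔪.ne_top
  have hp0 : (p : P ⧸ 𝔪) = 0 := by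
    have := congrArg (Ideal.Quotient.mk 𝔪) h.p_zero
    rwa [map_natCast, map_zero] at this
  obtain ⟨u, hu, rfl⟩ := hξ.ex
  rw [he, map_mul, map_add, map_mul, map_natCast, map_teichmuller,
    Ideal.Quotient.eq_zero_iff_mem.2 hπ𝔪, WittVector.teichmuller_zero, zero_add] at h1
  have h5 : ((p : WittVector p (P ⧸ 𝔪)) * WittVector.map (Ideal.Quotient.mk 𝔪) u *
      WittVector.map (Ideal.Quotient.mk 𝔪) z).coeff 1 =
      (p : WittVector p (P ⧸ 𝔪)).coeff 1 :=
    congrArg (fun t : WittVector p (P ⧸ 𝔪) => t.coeff 1) h1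
  have h6 : ((p : WittVector p (P ⧸ 𝔪)) * WittVector.map (Ideal.Quotient.mk 𝔪) u *
      WittVector.map (Ideal.Quotient.mk 𝔪) z).coeff 1 = 0 := by
    rw [mul_assoc, mul_comm (p : WittVector p (P ⧸ 𝔪))]
    rw [show (1 : ℕ) = 0 + 1 from rfl, mul_p_coeff_succ hp0]
    have e : (WittVector.map (Ideal.Quotient.mk 𝔪) u *
        WittVector.map (Ideal.Quotient.mk 𝔪) z).coeff 0 = 0 := by
      rw [WittVector.mul_coeff_zero, WittVector.map_coeff, WittVector.map_coeff,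
        Ideal.Quotient.eq_zero_iff_mem.2 hz𝔪, mul_zero]
    rw [e, zero_pow hp.out.ne_zero]
  rw [h6] at h5
  have h7 : ((p : WittVector p (P ⧸ 𝔪))).coeff 1 = 1 := by
    have e : (p : WittVector p (P ⧸ 𝔪)) = 1 * (p : WittVector p (P ⧸ 𝔪)) := (one_mul _).symm
    rw [e, show (1 : ℕ) = 0 + 1 from rfl, mul_p_coeff_succ hp0, WittVector.one_coeff_zero, one_pow]
  rw [h7] at h5
  exact zero_ne_one h5

/-- **`φ(E) = unit · ξ`**: `E = p - f`, `f ∈ (x)`, `φ(x_i) = [a_i]`, `a_i` and `π` in the Jacobson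
radical, `φ(E) ∈ (ξ)`. -/
theorem associated_of_dvd (h : IsPerf p P) {ξ : 𝕎 P} {π : P} (hξ : IsDist ξ π)
    (hπ : π ∈ Ideal.jacobson (⊥ : Ideal P)) {σ : Type*} {W₀ : Type v} [CommRing W₀]
    (φ : MvPowerSeries σ W₀ →+* 𝕎 P) (a : σ → P)
    (ha : ∀ i, a i ∈ Ideal.jacobson (⊥ : Ideal P)) (hφ : ∀ i, φ (MvPowerSeries.X i) = τ (a i))
    (f : MvPowerSeries σ W₀)
    (hf : f ∈ Ideal.span (Set.range (MvPowerSeries.X : σ → MvPowerSeries σ W₀)))
    (hE : ξ ∣ φ (MvPowerSeries.C (p : W₀) - f)) :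
    Associated ξ (φ (MvPowerSeries.C (p : W₀) - f)) := by
  obtain ⟨z, hz⟩ := hE
  have hu : IsUnit z := by
    refine isUnit_of_forall_maximal h hξ hπ hz fun 𝔪 h𝔪 => ?_
    have hjac : ∀ x ∈ Ideal.jacobson (⊥ : Ideal P), x ∈ 𝔪 := by
      intro x hx
      have h1 : Ideal.jacobson (⊥ : Ideal P) ≤ 𝔪 := sInf_le ⟨bot_le, h𝔪⟩
      exact h1 hx
    let ψ : MvPowerSeries σ W₀ →+* WittVector p (P ⧸ 𝔪) :=
      (WittVector.map (Ideal.Quotient.mk 𝔪)).comp φ
    have hψX : ∀ i, ψ (MvPowerSeries.X i) = 0 := by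
      intro i
      change WittVector.map (Ideal.Quotient.mk 𝔪) (φ (MvPowerSeries.X i)) = 0
      rw [hφ, map_teichmuller, Ideal.Quotient.eq_zero_iff_mem.2 (hjac _ (ha i)),
        WittVector.teichmuller_zero]
    have hψf : ψ f = 0 := by
      have h1 : Ideal.span (Set.range (MvPowerSeries.X : σ → MvPowerSeries σ W₀)) ≤
          RingHom.ker ψ := by
        rw [Ideal.span_le]
        rintro _ ⟨i, rfl⟩
        exact hψX i
      exact h1 hf
    change ψ (MvPowerSeries.C (p : W₀) - f) = _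
    rw [map_sub, hψf, sub_zero, map_natCast, map_natCast]
  exact ⟨hu.unit, hz.symm⟩

end Crest.Agent.R188.Lft
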