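import Crest.Agent.R188.Lft4
import Crest.Agent.R188.LftE
import Crest.Agent.R188.Asm1
import Crest.Agent.R227.LTComplete

/-!
# R188 / Lft5 (helper46) : the lift of a character `S → A → B^+ → Ω` to `S → W(P)`
-/

set_option autoImplicit false
set_option linter.style.haveILetI false
set_option linter.unusedSectionVars false

namespace Crest.Agent.R188.Lft

open WittVector Crest.Agent.R188.Prf Crest.Agent.R188.Wit Crest.Agent.R188.Asm
open IsLocalRing

section roots

/-- `p`-power root systems in `B^+` -/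
theorem exists_root_system {B : Type} [CommRing B] [IsDomain B] {p : ℕ} (hp : 0 < p)
    (x : Tri.BPlus B) : ∃ r : ℕ → Tri.BPlus B, r 0 = x ∧ ∀ n, r (n + 1) ^ p = r n := by
  have h : ∀ y : Tri.BPlus B, ∃ z : Tri.BPlus B, z ^ p = y := by
    intro y
    obtain ⟨z, hz⟩ := IsAlgClosed.exists_pow_nat_eq (y : Tri.FB B) hp
    have hint : IsIntegral B z := by
      apply IsIntegral.of_pow hp
      rw [hz]
      exact y.2
    exact ⟨⟨z, hint⟩, Subtype.ext hz⟩
  choose g hg using h
  refine ⟨fun n => g^[n] x, rfl, fun n => ?_⟩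
  show (g^[n + 1] x) ^ p = g^[n] x
  rw [Function.iterate_succ_apply', hg]

end roots

section radical

/-- `A` local, integral over the local ring `B`: `m_A ⊆ rad (m_B A)` -/
theorem maximalIdeal_le_radical (B A : Type*) [CommRing B] [IsLocalRing B] [CommRing A]
    [IsLocalRing A] [Algebra B A] [Algebra.IsIntegral B A] :
    maximalIdeal A ≤ ((maximalIdeal B).map (algebraMap B A)).radical := by
  intro x hx
  rw [Ideal.radical_eq_sInf, Ideal.mem_sInf]
  rintro q ⟨hq, hqp⟩
  have h1 : maximalIdeal B ≤ q.comap (algebraMap B A) := Ideal.map_le_iff_le_comap.1 hq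
  have h2 : q.comap (algebraMap B A) = maximalIdeal B :=
    ((maximalIdeal.isMaximal B).eq_of_le (Ideal.comap_isPrime _ q).ne_top h1).symm
  have h3 : (q.comap (algebraMap B A)).IsMaximal := h2 ▸ maximalIdeal.isMaximal B
  have h4 : q.IsMaximal := Ideal.isMaximal_of_isIntegral_of_isMaximal_comap q h3
  rwa [IsLocalRing.eq_maximalIdeal h4]

end radical

variable {p : ℕ} [hp : Fact p.Prime] {k : Type} [Field k] [CharP k p] {b : ℕ}

attribute [instance] World.ringP

/-- the lift of `g : S → B^+` to `W(P)`, `S = W(k)[[x_1..x_d]]`, `g (E) = 0`. -/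
structure Lift (W : World p k b) {d : ℕ} (g : MvPowerSeries (Fin d) (WittVector p k) →+* BPlus p k b)
    (E : MvPowerSeries (Fin d) (WittVector p k)) where
  φ : MvPowerSeries (Fin d) (WittVector p k) →+* WittVector p W.P
  θ_φ : ∀ s, θ W.ξ (φ s) = W.ι (g s)
  a : Fin d → W.P
  φ_X : ∀ i, φ (MvPowerSeries.X i) = teichmuller p (a i)
  r : Fin d → ℕ → BPlus p k b
  r_zero : ∀ i, r i 0 = g (MvPowerSeries.X i)
  a_sharp : ∀ i, SharpPair W.perf W.ι (a i) (r i)
  a_rad : ∀ i, a i ∈ (Ideal.span (Set.range W.t)).radical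
  a_jac : ∀ i, a i ∈ Ideal.jacobson (⊥ : Ideal W.P)
  assoc : Associated W.ξ (φ E)

section max

/-- the maximal ideal of `B` is generated by `(p, X_1, …, X_b)` -/
theorem maximalIdeal_BB_le [PerfectRing k p] :
    maximalIdeal (BB p k b) ≤ Ideal.span (Set.range (tB p k b)) := by
  rw [Crest.Agent.R227.maximalIdeal_mv, Crest.Agent.R183.Cohen.maximalIdeal_witt,
    Crest.Agent.R227.idIX, Ideal.map_span, Set.image_singleton, sup_le_iff]
  constructor
  · rw [Ideal.span_le, Set.singleton_subset_iff, map_natCast]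
    exact Ideal.subset_span ⟨0, rfl⟩
  · rw [Crest.Agent.R227.idX, Ideal.span_le]
    rintro _ ⟨i, rfl⟩
    exact Ideal.subset_span ⟨i.succ, rfl⟩

end max

section W

variable (W : World p k b)

lemma W_pi_mem : W.π ∈ Ideal.span (Set.range W.t) := by
  obtain ⟨u, hu⟩ := W.t_zero
  rw [← hu]
  exact Ideal.mul_mem_right _ _ (Ideal.subset_span ⟨0, rfl⟩)

lemma W_xi_coeff_zero : W.ξ.coeff 0 = W.π := by
  obtain ⟨u, _, he⟩ := W.dist.ex
  have h1 := (constantCoeff : WittVector p W.P →+* W.P).map_add (teichmuller p W.π)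
    ((p : WittVector p W.P) * u)
  have h3 : ∀ z : WittVector p W.P, (constantCoeff : WittVector p W.P →+* W.P) z = z.coeff 0 :=
    fun z => rfl
  have h4 : ((p : WittVector p W.P) * u).coeff 0 = 0 := by
    rw [mul_comm, mul_p_coeff_zero W.perf.p_zero]
  rw [h3, h3, h3, teichmuller_coeff_zero, h4, add_zero] at h1
  rw [he, h1]

/-- from `Ω` down to `P` -/
lemma coeff_zero_mem {w : WittVector p W.P}
    (h : θ W.ξ w ∈ Ideal.span (Set.range fun i => sh W.ξ (W.t i))) :
    w.coeff 0 ∈ Ideal.span (Set.range W.t) := by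
  have h1 : Ideal.span (Set.range fun i => sh W.ξ (W.t i)) =
      (Ideal.span (Set.range fun i => teichmuller p (W.t i))).map (θ W.ξ) := by
    rw [Ideal.map_span, ← Set.range_comp]
    rfl
  rw [h1, Ideal.mem_map_iff_of_surjective _ (θ_surjective W.ξ)] at h
  obtain ⟨v, hv, hvw⟩ := h
  have h2 : θ W.ξ (w - v) = 0 := by rw [map_sub, hvw, sub_self]
  obtain ⟨y, hy⟩ := θ_eq_zero_iff.1 h2
  have h3 : ∀ z : WittVector p W.P, (constantCoeff : WittVector p W.P →+* W.P) z = z.coeff 0 :=
    fun z => rfl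
  have h4 : w = v + W.ξ * y := by rw [← hy]; ring
  have h5 : w.coeff 0 = v.coeff 0 + W.π * y.coeff 0 := by
    rw [← h3 w, h4, map_add, map_mul, h3, h3, h3, W_xi_coeff_zero]
  rw [h5]
  refine add_mem ?_ (Ideal.mul_mem_right _ _ (W_pi_mem W))
  have h6 := Ideal.mem_map_of_mem (constantCoeff : WittVector p W.P →+* W.P) hv
  rw [Ideal.map_span, ← Set.range_comp] at h6
  have h7 : (⇑(constantCoeff : WittVector p W.P →+* W.P) ∘ fun i => teichmuller p (W.t i)) =
      W.t := by
    funext i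
    exact teichmuller_coeff_zero p _
  rwa [h7] at h6

lemma t_span_le_jac : Ideal.span (Set.range W.t) ≤ Ideal.jacobson (⊥ : Ideal W.P) := by
  rw [Ideal.span_le]
  rintro _ ⟨i, rfl⟩
  exact W.t_jac i

lemma t_radical_le_jac :
    (Ideal.span (Set.range W.t)).radical ≤ Ideal.jacobson (⊥ : Ideal W.P) := by
  rw [← (Ideal.isRadical_jacobson (⊥ : Ideal W.P)).radical]
  exact Ideal.radical_mono (t_span_le_jac W)

/-- `(m_B Ω) = ((t_i)^♯)` -/
lemma map_maximalIdeal_le [PerfectRing k p] :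
    ((maximalIdeal (BB p k b)).map (algebraMap (BB p k b) (BPlus p k b))).map W.ι ≤
      Ideal.span (Set.range fun i => sh W.ξ (W.t i)) := by
  refine (Ideal.map_mono (Ideal.map_mono maximalIdeal_BB_le)).trans ?_
  rw [Ideal.map_span, Ideal.map_span, Ideal.span_le]
  rintro _ ⟨_, ⟨_, ⟨i, rfl⟩, rfl⟩, rfl⟩
  refine Ideal.subset_span ⟨i, ?_⟩
  have := (W.t_sharp i).2 0
  rw [W.tr_zero] at this
  exact this

/-- **sharp pairs over `rad (m_B B^+)` are in `rad (t)`** -/
theorem sharp_mem_radical [PerfectRing k p] {a : W.P} {r : ℕ → BPlus p k b}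
    (h : SharpPair W.perf W.ι a r)
    (hr : r 0 ∈ ((maximalIdeal (BB p k b)).map (algebraMap (BB p k b) (BPlus p k b))).radical) :
    a ∈ (Ideal.span (Set.range W.t)).radical := by
  obtain ⟨K, hK⟩ := hr
  refine ⟨K, ?_⟩
  have h1 := map_maximalIdeal_le W (Ideal.mem_map_of_mem W.ι hK)
  have h2 : W.ι (r 0 ^ K) = θ W.ξ (teichmuller p (a ^ K)) := by
    have := h.2 0
    rw [map_pow, ← this]
    show sh W.ξ a ^ K = sh W.ξ (a ^ K)
    rw [sh_pow]
  rw [h2] at h1
  have h3 := coeff_zero_mem W h1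
  rwa [teichmuller_coeff_zero] at h3

end W

section main

variable [PerfectRing k p] (W : World p k b) {A : Type} [CommRing A] [Nontrivial A]
  [Algebra (BB p k b) A] [Module.Finite (BB p k b) A] {d : ℕ}
  (σ : MvPowerSeries (Fin d) (WittVector p k) →+* A) (γ : A →ₐ[BB p k b] BPlus p k b)

/-- **LIFT**: every character `γ ∘ σ : S → A → B^+` lifts to `φ : S → W(P)`. -/
theorem nonempty_lift (hσ : Function.Surjective σ)
    (hC : ∀ w : WittVector p k,
      algebraMap (BB p k b) A (MvPowerSeries.C w) = σ (MvPowerSeries.C w))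
    (f : MvPowerSeries (Fin d) (WittVector p k))
    (hf : f ∈ Ideal.span (Set.range
      (MvPowerSeries.X : Fin d → MvPowerSeries (Fin d) (WittVector p k))))
    (hE : σ (MvPowerSeries.C (p : WittVector p k) - f) = 0) :
    Nonempty (Lift W ((γ : A →+* BPlus p k b).comp σ)
      (MvPowerSeries.C (p : WittVector p k) - f)) := by
  haveI := W.complete
  haveI : IsLocalRing A := IsLocalRing.of_surjective' σ hσ
  haveI hloc : IsLocalHom σ := IsLocalHom.of_surjective σ hσ
  haveI : IsNoetherianRing (WittVector p k) := (Crest.Agent.R183.Cohen.isCohen_witt p k).isNoetherianRing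
  haveI : IsAdicComplete (maximalIdeal (WittVector p k)) (WittVector p k) :=
    (Crest.Agent.R183.Cohen.isCohen_witt p k).complete
  haveI : IsNoetherianRing (BB p k b) := inferInstance
  haveI : IsAdicComplete (maximalIdeal (BB p k b)) (BB p k b) :=
    Crest.Agent.R227.isAdicComplete_maximalIdeal_mv
  have hXm : ∀ i : Fin d, (MvPowerSeries.X i : MvPowerSeries (Fin d) (WittVector p k)) ∈
      maximalIdeal (MvPowerSeries (Fin d) (WittVector p k)) := by
    intro i
    rw [Crest.Agent.R227.maximalIdeal_mv]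
    exact Ideal.mem_sup_right (Ideal.subset_span ⟨i, rfl⟩)
  have hX : ∀ i, σ (MvPowerSeries.X i) ∈
      ((maximalIdeal (BB p k b)).map (algebraMap (BB p k b) A)).radical := by
    intro i
    apply maximalIdeal_le_radical (BB p k b) A
    exact (IsLocalRing.mem_maximalIdeal _).2 fun h => (IsLocalRing.mem_maximalIdeal _).1 (hXm i)
      (isUnit_of_map_unit σ _ h)
  choose r h0 hr using fun i => exists_root_system hp.out.pos (γ (σ (MvPowerSeries.X i)))
  obtain ⟨c, hc0, hcF, hcX⟩ := exists_family (m := maximalIdeal (BB p k b))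
    (j := (MvPowerSeries.C : WittVector p k →+* BB p k b)) (γ := γ) (g := σ)
    (fun w => (hC w).symm) hX r h0 hr
  let β : ℕ → (MvPowerSeries (Fin d) (WittVector p k) →+* Om W.ξ) := fun n => W.ι.comp (c n)
  have hβ : ∀ n s, β (n + 1) (frobS p k (Fin d) s) = β n s := fun n s => by
    show W.ι (c (n + 1) _) = W.ι (c n s)
    rw [hcF]
  let φ := liftW W.perf W.dist (isFrobLift_S k (Fin d)) (pTf_S k (Fin d)) β hβ
  let a : Fin d → W.P := fun i => toP W.perf W.dist (isFrobLift_S k (Fin d)) β hβ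
    (MvPowerSeries.X i)
  have hθ : ∀ s, θ W.ξ (φ s) = W.ι (γ (σ s)) := by
    intro s
    rw [θ_liftW]
    show W.ι (c 0 s) = _
    rw [hc0]
  have hsharp : ∀ i, SharpPair W.perf W.ι (a i) (r i) := by
    intro i
    refine ⟨hr i, ?_⟩
    refine sh_rtn_eq W.perf W.dist (β := fun n => W.ι (r i n)) (fun n => ?_) fun n => ?_
    · rw [← map_pow, hr]
    · have h1 := toP_spec W.perf W.dist (isFrobLift_S k (Fin d)) β hβ (MvPowerSeries.X i) n
      have h2 : β n (MvPowerSeries.X i) = W.ι (r i n) := by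
        show W.ι (c n _) = _
        rw [hcX]
      rwa [h2] at h1
  have hφX : ∀ i, φ (MvPowerSeries.X i) = teichmuller p (a i) := fun i =>
    liftW_of_pow W.perf W.dist (isFrobLift_S k (Fin d)) (pTf_S k (Fin d)) β hβ
      (frobS_X k (Fin d) i)
  have harad : ∀ i, a i ∈ (Ideal.span (Set.range W.t)).radical := by
    intro i
    refine sharp_mem_radical W (hsharp i) ?_
    obtain ⟨K, hK⟩ := hX i
    refine ⟨K, ?_⟩
    rw [h0, ← map_pow]
    have h1 := Ideal.mem_map_of_mem (γ : A →+* BPlus p k b) hK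
    rw [Ideal.map_map] at h1
    have h2 : (γ : A →+* BPlus p k b).comp (algebraMap (BB p k b) A) =
        algebraMap (BB p k b) (BPlus p k b) := RingHom.ext fun x => γ.commutes x
    rw [h2] at h1
    exact h1
  have hajac : ∀ i, a i ∈ Ideal.jacobson (⊥ : Ideal W.P) := fun i => t_radical_le_jac W (harad i)
  refine ⟨⟨φ, hθ, a, hφX, r, h0, hsharp, harad, hajac, ?_⟩⟩
  refine associated_of_dvd W.perf W.dist (t_span_le_jac W (W_pi_mem W)) φ a hajac hφX f hf ?_
  have h3 : θ W.ξ (φ (MvPowerSeries.C (p : WittVector p k) - f)) = 0 := by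
    rw [hθ, hE, map_zero, map_zero]
  obtain ⟨y, hy⟩ := θ_eq_zero_iff.1 h3
  exact ⟨y, hy⟩

end main

section use

variable {W : World p k b} {d : ℕ} {g : MvPowerSeries (Fin d) (WittVector p k) →+* BPlus p k b}
  {E : MvPowerSeries (Fin d) (WittVector p k)}

/-- membership in `φ(I) W(P)` may be checked in `Ω` if `E ∈ I` -/
theorem Lift.mem_map (Λ : Lift W g E) {I : Ideal (MvPowerSeries (Fin d) (WittVector p k))}
    (hE : E ∈ I) {w : WittVector p W.P} (hw : θ W.ξ w ∈ (I.map g).map W.ι) :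
    w ∈ I.map Λ.φ := by
  have h1 : (I.map g).map W.ι = (I.map Λ.φ).map (θ W.ξ) := by
    rw [Ideal.map_map, Ideal.map_map]
    congr 1
    exact RingHom.ext fun s => (Λ.θ_φ s).symm
  rw [h1, Ideal.mem_map_iff_of_surjective _ (θ_surjective W.ξ)] at hw
  obtain ⟨v, hv, hvw⟩ := hw
  have h2 : θ W.ξ (w - v) = 0 := by rw [map_sub, hvw, sub_self]
  obtain ⟨y, hy⟩ := θ_eq_zero_iff.1 h2
  have h4 : w = v + W.ξ * y := by rw [← hy]; ring
  rw [h4]
  refine add_mem hv (Ideal.mul_mem_right _ _ ?_)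
  obtain ⟨u, hu⟩ := Λ.assoc.symm
  rw [← hu]
  exact Ideal.mul_mem_right _ _ (Ideal.mem_map_of_mem _ hE)

/-- `[t_i]^K ∈ φ(I) W(P)` if `t_i^K ∈ g(I) B^+` -/
theorem Lift.teich_t_pow_mem (Λ : Lift W g E)
    {I : Ideal (MvPowerSeries (Fin d) (WittVector p k))} (hE : E ∈ I) {i : Fin (b + 1)} {K : ℕ}
    (h : algebraMap (BB p k b) (BPlus p k b) (tB p k b i) ^ K ∈ I.map g) :
    teichmuller p (W.t i) ^ K ∈ I.map Λ.φ := by
  apply Λ.mem_map hE
  have h1 : θ W.ξ (teichmuller p (W.t i) ^ K) =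
      W.ι (algebraMap (BB p k b) (BPlus p k b) (tB p k b i) ^ K) := by
    rw [map_pow, map_pow]
    have := (W.t_sharp i).2 0
    rw [W.tr_zero] at this
    rw [← this]
    rfl
  rw [h1]
  exact Ideal.mem_map_of_mem _ h

end use

end Crest.Agent.R188.Lft
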