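/-
R188, block (LEFT): the world.  Part 3: `B = W(k)[[X_1..X_b]]` and Koszul homology on `Ω`.
helper111
-/
import Crest.Agent.R188.PerfC2
import Crest.Agent.R188.Asm3
import Crest.Agent.R188.Lft5
import Crest.Agent.R183.CohenWitt
import Crest.Agent.R183.CohenDim

set_option autoImplicit false
set_option linter.unusedSectionVars false

namespace Crest.Agent.R188.PerfC

open scoped ENNReal Pointwise TensorProduct
open IsLocalRing
open WittVector Crest.Agent.R183 Crest.Agent.R188.Chi Crest.Agent.R188.KosG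
open Crest.Agent.R183.Res Crest.Agent.R183.Cohen
open Crest.Agent.R188.Wit Crest.Agent.R188.Prf Crest.Agent.R188.Asm

section BB

variable (p : ℕ) [hp : Fact p.Prime] (k : Type) [Field k] [CharP k p] [PerfectRing k p] (b : ℕ)

theorem regBB : IsRegularLocalRing (BB p k b) := by
  have := (isCohen_witt p k).isRegularLocalRing
  exact isRegularLocalRing_mvPowerSeries b

theorem dimBB : ringKrullDim (BB p k b) = (b + 1 : ℕ) := by
  have := (isCohen_witt p k).isRegularLocalRing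
  rw [ringKrullDim_mvPowerSeries, (isCohen_witt p k).ringKrullDim_eq]
  push_cast
  rw [add_comm]

theorem tB_mem_max (i : Fin (b + 1)) : tB p k b i ∈ maximalIdeal (BB p k b) := by
  rw [Crest.Agent.R227.maximalIdeal_mv, Crest.Agent.R183.Cohen.maximalIdeal_witt,
    Crest.Agent.R227.idIX, Ideal.map_span, Set.image_singleton]
  refine Fin.cases ?_ (fun j => ?_) i
  · refine Ideal.mem_sup_left ?_
    rw [map_natCast]
    exact Ideal.mem_span_singleton_self _
  · refine Ideal.mem_sup_right ?_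
    exact Ideal.subset_span ⟨j, rfl⟩

theorem maxBB : Ideal.ofList (List.ofFn (tB p k b)) = maximalIdeal (BB p k b) := by
  have h1 : Ideal.ofList (List.ofFn (tB p k b)) = Ideal.span (Set.range (tB p k b)) := by
    unfold Ideal.ofList
    congr 1
    ext x
    change x ∈ List.ofFn (tB p k b) ↔ x ∈ Set.range (tB p k b)
    rw [List.mem_ofFn, Set.mem_range]
  rw [h1]
  refine le_antisymm ?_ Lft.maximalIdeal_BB_le
  rw [Ideal.span_le]
  rintro _ ⟨i, rfl⟩
  exact tB_mem_max p k b i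

theorem dimBB' : ringKrullDim (BB p k b) = ((List.ofFn (tB p k b)).length : ℕ) := by
  rw [List.length_ofFn]
  exact dimBB p k b

end BB

section world

variable {p : ℕ} [hp : Fact p.Prime] {k : Type} [Field k] [CharP k p] {b : ℕ} (W : World p k b)

/-- the parameters of `Ω`: `(p, X_1, …, X_b)` -/
noncomputable abbrev tOm : List (Om W.ξ) :=
  List.ofFn fun i => algebraMap (BB p k b) (Om W.ξ) (tB p k b i)

lemma sh_t (i : Fin (b + 1)) :
    sh W.ξ (W.t i) = algebraMap (BB p k b) (Om W.ξ) (tB p k b i) := by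
  have h1 := (W.t_sharp i).2 0
  rw [IsPerf.rtn_zero', W.tr_zero i] at h1
  exact h1

lemma map_tB : (List.ofFn (tB p k b)).map (algebraMap (BB p k b) (Om W.ξ)) = tOm W := by
  rw [List.map_ofFn]
  rfl

lemma tOm_eq : tOm W = (p : Om W.ξ) :: (List.ofFn fun i : Fin b => W.t i.succ).map (sh W.ξ) := by
  rw [tOm, List.ofFn_succ, List.map_ofFn]
  congr 1
  · show algebraMap (BB p k b) (Om W.ξ) (p : BB p k b) = _
    rw [map_natCast]
  · congr 1
    funext i
    exact (sh_t W i.succ).symm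

/-- changing the first element of the list by a unit -/
theorem kh_cons_unit {A : Type} [CommRing A] (Λ : AddLen.{0, 0} A) {X : Type} [AddCommGroup X]
    [Module A X] {a a' : A} (h : Associated a a') (l : List A) (i : ℤ) :
    kh Λ (a :: l) X i = kh Λ (a' :: l) X i := by
  rcases lt_or_ge i 0 with hi | hi
  · rw [kh_eq_zero _ _ _ i (Or.inl hi), kh_eq_zero _ _ _ i (Or.inl hi)]
  · obtain ⟨n, rfl⟩ := Int.eq_ofNat_of_zero_le hi
    obtain ⟨u, rfl⟩ := h
    have := SX.h0_cons_unit Λ (X := X) u a l n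
    rw [h0_eq_kh, h0_eq_kh, mul_comm (u : A) a] at this
    exact this.symm

/-- the list of the parameters of `P` -/
lemma ofFn_t : List.ofFn W.t = W.t 0 :: List.ofFn fun i : Fin b => W.t i.succ :=
  List.ofFn_succ

/-- **Koszul homology of `Ω` is that of `P`** -/
theorem kh_tOm (i : ℤ) : kh (LOm W.ξ W.Λ) (tOm W) (Om W.ξ) i =
    kh (LP W.Λ) (List.ofFn W.t) W.P i := by
  rw [tOm_eq, kh_Om W.perf W.dist W.Λ, ofFn_t]
  exact (kh_cons_unit _ W.t_zero _ i).symm

/-- the ideal version: `J = θ(W~(I))` -/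
theorem kh_tOm_JI {I : Ideal W.P} (hI : Digit.Convex p I) {a : W.P} {r : ℕ → BPlus p k b}
    (ha : SharpPair W.perf W.ι a r) (hr : r 0 ≠ 0) {m : ℕ} (hm : a ^ m ∈ I) (i : ℤ) :
    kh (LOm W.ξ W.Λ) (tOm W) ↥(JI W I) i = kh (LP W.Λ) (List.ofFn W.t) ↥I i := by
  rw [tOm_eq, ofFn_t, kh_cons_unit _ W.t_zero]
  refine kh_J W.perf W.dist W.Λ hI hm _ (fun Y _ _ h1 h2 h3 h4 => ?_) i
  refine W.null a r ha hr Y (fun y => ⟨1, ?_, fun j => ?_⟩) h4
  · rw [pow_one]; exact h1 y
  · rw [pow_one]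
    refine Fin.cases ?_ (fun j => ?_) j
    · obtain ⟨u, hu⟩ := W.t_zero.symm
      rw [← hu, map_mul, mul_comm, mul_smul, h2, smul_zero]
    · exact h3 _ (by rw [List.mem_ofFn]; exact ⟨j, rfl⟩) y

/-- `D = W(P)/W~(I)` versus `P/I` -/
theorem kh_quot_WtI {I : Ideal W.P} (hI : Digit.Convex p I) (l : List W.P) (i : ℤ) :
    kh W.Λ ((p : WittVector p W.P) :: l.map (teichmuller p)) (WittVector p W.P ⧸ WtI W I) i =
      kh (LP W.Λ) l (W.P ⧸ I) i :=
  kh_quot W.perf W.Λ hI l i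

theorem kh_tOm_reg (i : ℤ) (hi : 1 ≤ i) : kh (LOm W.ξ W.Λ) (tOm W) (Om W.ξ) i = 0 := by
  rw [kh_tOm]
  exact W.L_reg i hi

theorem kh_tOm_zero : kh (LOm W.ξ W.Λ) (tOm W) (Om W.ξ) 0 =
    (LP W.Λ).L (W.P ⧸ Ideal.span (Set.range W.t)) := by
  rw [kh_tOm, kh_zero]
  have h1 : (Ideal.span {x | x ∈ List.ofFn W.t} • (⊤ : Submodule W.P W.P)) =
      Ideal.span (Set.range W.t) := by
    rw [smul_eq_mul]
    refine (Ideal.mul_top _).trans ?_
    congr 1
    ext x
    change x ∈ List.ofFn W.t ↔ x ∈ Set.range W.t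
    rw [List.mem_ofFn, Set.mem_range]
  exact (LP W.Λ).L_congr (Submodule.quotEquivOfEq _ _ h1)

theorem kfin_tOm : KFin (LOm W.ξ W.Λ) (Om W.ξ) (tOm W) := by
  intro i
  rcases lt_trichotomy i 0 with hi | hi | hi
  · rw [kh_eq_zero _ _ _ i (Or.inl hi)]; exact ENNReal.zero_ne_top
  · rw [hi, kh_tOm_zero]; exact W.L_ne_top
  · rw [kh_tOm_reg W i (by omega)]; exact ENNReal.zero_ne_top

theorem chi_tOm : KosG.chi (LOm W.ξ W.Λ) (Om W.ξ) (tOm W) = W.c := by
  rw [KosG.chi, Finset.sum_eq_single 0]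
  · rw [pow_zero, one_mul, Nat.cast_zero, kh_tOm_zero]
    rfl
  · intro i _ hi
    rw [kh_tOm_reg W i (by omega)]
    simp
  · intro h
    exact absurd (Finset.mem_range.2 (Nat.succ_pos _)) h

theorem c_pos : 0 < W.c := ENNReal.toReal_pos W.L_ne_zero W.L_ne_top

end world

end Crest.Agent.R188.PerfC
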