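import Crest.Agent.R188.Tay8
import Crest.Agent.R188.Lft5
import Crest.Agent.R188.Asm3

/-!
# R188 (Serre positivity), S-level (e), closed form: the lower bound under the hypotheses of
`Asm.SPositive`.   helper415
-/

set_option autoImplicit false
set_option linter.unusedSectionVars false

namespace Crest.Agent.R188.Tay

open WittVector Crest.Agent.R183 Crest.Agent.R183.Res IsLocalRing Crest.Agent.R188.Asm
open Crest.Agent.R188.KosG Crest.Agent.R188.Chi
open scoped ENNReal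

noncomputable section

section exps

variable {R Γ : Type} [CommRing R] [CommRing Γ] {ι : Type} [Fintype ι]

theorem exists_common_exp {J : Ideal Γ} (x : ι → Γ) (h : ∀ i, ∃ K : ℕ, x i ^ K ∈ J) :
    ∃ K : ℕ, ∀ i, x i ^ K ∈ J := by
  choose K hK using h
  exact ⟨∑ i, K i, fun i => J.pow_mem_of_pow_mem (hK i)
    (Finset.single_le_sum (fun _ _ => Nat.zero_le _) (Finset.mem_univ i))⟩

end exps

variable {p : ℕ} [hp : Fact p.Prime] {k : Type} [Field k] [CharP k p] [PerfectRing k p] {d : ℕ}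

theorem mB_eq_maximalIdeal : mB p k d = maximalIdeal (BB p k d) := by
  refine le_antisymm ?_ Lft.maximalIdeal_BB_le
  rw [mB, Ideal.span_le]
  rintro _ ⟨i, rfl⟩
  refine Fin.cases ?_ (fun i => ?_) i
  · change (p : BB p k d) ∈ maximalIdeal (BB p k d)
    rw [mem_maximalIdeal, mem_nonunits_iff, MvPowerSeries.isUnit_iff_constantCoeff, map_natCast,
      ← mem_nonunits_iff, ← mem_maximalIdeal, Cohen.maximalIdeal_witt]
    exact Ideal.mem_span_singleton_self _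
  · change (MvPowerSeries.X i : BB p k d) ∈ maximalIdeal (BB p k d)
    rw [mem_maximalIdeal, mem_nonunits_iff, MvPowerSeries.isUnit_iff_constantCoeff,
      MvPowerSeries.constantCoeff_X]
    exact not_isUnit_zero

instance isNoetherianRing_witt : IsNoetherianRing (WittVector p k) :=
  (Cohen.isCohen_witt p k).isNoetherianRing

/-- **(e)**, closed form, general `M`. -/
theorem lower_world (M : Type) [AddCommGroup M] [Module (BB p k d) M]
    [Module.Finite (BB p k d) M] {F : MCx (BB p k d)} {ε : (F.ι 0 → BB p k d) →ₗ[BB p k d] M}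
    (hF : IsRes F ε) {Γ : Type} [CommRing Γ] (φ : BB p k d →+* Γ)
    (Λ : AddLen.{0, 0} Γ) (t : List (BB p k d)) (v : List Γ)
    (hM : ∃ N, mB p k d ^ N ≤ Module.annihilator (BB p k d) M ⊔ Ideal.ofList t)
    (ht : ∀ x ∈ t, x ∈ mB p k d)
    (hv : ∀ s ∈ mB p k d, ∃ K : ℕ, φ s ^ K ∈ Ideal.ofList (v ++ [(p : Γ)]))
    (hdim : Module.supportDim (BB p k d) M = (t.length : ℕ)) (hd : t.length + v.length = d)
    (hreg : ∀ j : ℤ, 1 ≤ j → kh Λ (v ++ [(p : Γ)]) Γ j = 0)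
    (h0 : Λ.L (Γ ⧸ Ideal.ofList (v ++ [(p : Γ)])) ≠ 0)
    (htop : Λ.L (Γ ⧸ Ideal.ofList (v ++ [(p : Γ)])) ≠ ⊤) :
    ∃ c : ℝ, 0 < c ∧ ∃ n₀ : ℕ, ∀ n : ℕ, n₀ ≤ n →
      ENNReal.ofReal (c * (n : ℝ) ^ d) ≤
          hX (Λ.restrict (algebraMap Γ (Q d n Γ))) (F.map (tau n φ)) (Q d n Γ) 0 := by
  let _ : Algebra (WittVector p k) Γ := (φ.comp MvPowerSeries.C).toAlgebra
  have haC : ∀ w, φ (MvPowerSeries.C w) = algebraMap (WittVector p k) Γ w := fun _ => rfl
  have hap : algebraMap (WittVector p k) Γ (p : WittVector p k) = (p : Γ) := map_natCast _ p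
  have hperm : ∀ j : ℤ, kh Λ ((p : Γ) :: v) Γ j = kh Λ (v ++ [(p : Γ)]) Γ j := fun j =>
    kh_perm Λ Γ (List.perm_append_singleton _ v).symm j
  have hk0 : kh Λ (v ++ [(p : Γ)]) Γ 0 = Λ.L (Γ ⧸ Ideal.ofList (v ++ [(p : Γ)])) := by
    rw [kh_zero]
    have : (Ideal.ofList (v ++ [(p : Γ)]) • (⊤ : Submodule Γ Γ)) =
        Ideal.ofList (v ++ [(p : Γ)]) := by
      rw [smul_eq_mul, Ideal.mul_top]
    rw [← this]
  rw [← hk0] at h0 htop
  have hIX : ∀ i : Fin d, (MvPowerSeries.X i : BB p k d) ∈ mB p k d := fun i =>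
    Ideal.subset_span ⟨i.succ, rfl⟩
  obtain ⟨K, hK⟩ := exists_common_exp (J := Ideal.ofList (v ++ [(p : Γ)]))
    (fun i : Fin d => φ (MvPowerSeries.X i)) (fun i => hv _ (hIX i))
  have hof : Ideal.ofList (v ++ [(p : Γ)]) = Ideal.span {algebraMap (WittVector p k) Γ
      (p : WittVector p k)} ⊔ Ideal.ofList v := by
    rw [Ideal.ofList_append, Ideal.ofList_singleton, hap, sup_comm]
  rw [mB_eq_maximalIdeal] at hM ht
  refine lower_asymp_M' (W := WittVector p k) Λ (ϖ := (p : WittVector p k))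
    (Cohen.maximalIdeal_witt p k) haC M hF t ht hM hdim v ⟨K, fun i => ?_⟩ ?_ ?_ ?_ hd
  · have := hK i
    rwa [hof] at this
  · intro j hj
    rw [hap, hperm, hreg j hj]
  · rw [hap, hperm]
    exact htop
  · rw [hap, hperm]
    exact h0

/-- **(e)**, closed form for `M = S/I`. -/
theorem lower_world_quot (I : Ideal (BB p k d)) {Γ : Type} [CommRing Γ] (φ : BB p k d →+* Γ)
    (Λ : AddLen.{0, 0} Γ) (t : List (BB p k d)) (v : List Γ)
    (hM : ∃ N, mB p k d ^ N ≤ I ⊔ Ideal.ofList t)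
    (ht : ∀ x ∈ t, x ∈ mB p k d)
    (hv : ∀ s ∈ mB p k d, ∃ K : ℕ, φ s ^ K ∈ Ideal.ofList (v ++ [(p : Γ)]))
    (hdim : Module.supportDim (BB p k d) (BB p k d ⧸ I) = (t.length : ℕ))
    (hd : t.length + v.length = d)
    (hreg : ∀ j : ℤ, 1 ≤ j → kh Λ (v ++ [(p : Γ)]) Γ j = 0)
    (h0 : Λ.L (Γ ⧸ Ideal.ofList (v ++ [(p : Γ)])) ≠ 0)
    (htop : Λ.L (Γ ⧸ Ideal.ofList (v ++ [(p : Γ)])) ≠ ⊤) :
    ∃ c : ℝ, 0 < c ∧ ∃ n₀ : ℕ, ∀ n : ℕ, n₀ ≤ n →
      ENNReal.ofReal (c * (n : ℝ) ^ d) ≤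
          Λ.L (Q d n Γ ⧸ (I.map (tau n φ)).restrictScalars Γ) := by
  let _ : Algebra (WittVector p k) Γ := (φ.comp MvPowerSeries.C).toAlgebra
  have haC : ∀ w, φ (MvPowerSeries.C w) = algebraMap (WittVector p k) Γ w := fun _ => rfl
  have hap : algebraMap (WittVector p k) Γ (p : WittVector p k) = (p : Γ) := map_natCast _ p
  have hperm : ∀ j : ℤ, kh Λ ((p : Γ) :: v) Γ j = kh Λ (v ++ [(p : Γ)]) Γ j := fun j =>
    kh_perm Λ Γ (List.perm_append_singleton _ v).symm j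
  have hk0 : kh Λ (v ++ [(p : Γ)]) Γ 0 = Λ.L (Γ ⧸ Ideal.ofList (v ++ [(p : Γ)])) := by
    rw [kh_zero]
    have : (Ideal.ofList (v ++ [(p : Γ)]) • (⊤ : Submodule Γ Γ)) =
        Ideal.ofList (v ++ [(p : Γ)]) := by
      rw [smul_eq_mul, Ideal.mul_top]
    rw [← this]
  rw [← hk0] at h0 htop
  have hIX : ∀ i : Fin d, (MvPowerSeries.X i : BB p k d) ∈ mB p k d := fun i =>
    Ideal.subset_span ⟨i.succ, rfl⟩
  obtain ⟨K, hK⟩ := exists_common_exp (J := Ideal.ofList (v ++ [(p : Γ)]))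
    (fun i : Fin d => φ (MvPowerSeries.X i)) (fun i => hv _ (hIX i))
  have hof : Ideal.ofList (v ++ [(p : Γ)]) = Ideal.span {algebraMap (WittVector p k) Γ
      (p : WittVector p k)} ⊔ Ideal.ofList v := by
    rw [Ideal.ofList_append, Ideal.ofList_singleton, hap, sup_comm]
  rw [mB_eq_maximalIdeal] at hM ht
  obtain ⟨c, hc, n₀, h⟩ := lower_asymp' (W := WittVector p k) Λ (ϖ := (p : WittVector p k))
    (Cohen.maximalIdeal_witt p k) haC I t ht hM hdim v ⟨K, fun i => by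
      have := hK i
      rwa [hof] at this⟩ (by
      intro j hj
      rw [hap, hperm, hreg j hj]) (by
      rw [hap, hperm]
      exact htop) (by
      rw [hap, hperm]
      exact h0) hd
  refine ⟨c, hc, n₀, fun n hn => ?_⟩
  rw [ENNReal.ofReal_mul hc.le, ENNReal.ofReal_pow (Nat.cast_nonneg n), ENNReal.ofReal_natCast]
  exact h n hn

end

end Crest.Agent.R188.Tay
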