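import Crest.Agent.R188.FinA5
import Crest.Agent.R188.PerfC3
import Crest.Agent.R188.Tay9

/-!
# R188, block FINA (helper414), part 6: finiteness of `I(t,0)/I(t,m)` from the Hilbert bound
-/

set_option autoImplicit false
set_option linter.unusedSectionVars false
set_option linter.style.haveILetI false

namespace Crest.Agent.R188.FinA

open scoped ENNReal Pointwise
open WittVector Function Crest.Agent.R188.Prf Crest.Agent.R188.Wit Crest.Agent.R183
open Crest.Agent.R183.Digit (Convex)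
open Crest.Agent.R188.Asm

/-- the Hilbert bound over the finite subalgebras of `B⁺` (helper162, HB7). -/
def HBound (p : ℕ) [Fact p.Prime] (k : Type) [Field k] [CharP k p] (b : ℕ) : Prop :=
  ∀ s : Set (BPlus p k b), s.Finite → ∃ (N : Type) (_ : CommRing N) (_ : Algebra (BB p k b) N)
    (f : N →+* BPlus p k b), (∀ x, f (algebraMap (BB p k b) N x) =
      algebraMap (BB p k b) (BPlus p k b) x) ∧ s ⊆ Set.range f ∧
    ∀ 𝔠 : Ideal N, ∃ C : ℕ, ∀ t M : ℕ, Module.length (BB p k b)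
      (↥(𝔠 ^ t) ⧸ (((mB p k b).map (algebraMap (BB p k b) N)) ^ M • ⊤ : Submodule N ↥(𝔠 ^ t))) ≤
      C * ((t + M + 1 : ℕ) : ℕ∞) ^ (b + 1)

section world

variable {p : ℕ} [hp : Fact p.Prime] {k : Type} [Field k] [CharP k p] [IsAlgClosed k] {b : ℕ}
  (W : World p k b)

theorem fin_of_fam (hB : HBound p k b) (F : Fam p W.P) {ι : Type} [Fintype ι] (c : ι → W.P)
    (r : ι → ℕ → BPlus p k b) (hcr : ∀ i, SharpPair W.perf W.ι (c i) (r i))
    (hc : ∀ i, c i ∈ F.I 1 0) {s : ℕ} (hS : F.Skoda c s) (hs : 1 ≤ s)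
    (ht : ∀ i, W.t i ∈ F.I 0 1) {h : W.P} {hr : ℕ → BPlus p k b}
    (hh : SharpPair W.perf W.ι h hr) (h0 : hr 0 ≠ 0) (hI : h ∈ F.I s 0) {t : ℕ} (ht1 : 1 ≤ t)
    (m : ℕ) : (LP W.Λ).L (↥(F.I t 0) ⧸ (F.I t m).submoduleOf (F.I t 0)) ≠ ⊤ := by
  obtain ⟨N', _, _, f, hf, hsN, hN⟩ := hB (Set.range fun i => r i 0) (Set.finite_range _)
  let ψ : N' →+* Om W.ξ := W.ι.comp f
  have hex : ∀ i, ∃ x, f x = r i 0 := fun i => hsN ⟨i, rfl⟩
  choose c' hc' using hex
  let 𝔠 : Ideal N' := Ideal.span (Set.range c')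
  let 𝔶 : Ideal N' := (mB p k b).map (algebraMap (BB p k b) N')
  obtain ⟨C, hC⟩ := hN 𝔠
  have hψc : ∀ i, ψ (c' i) = sh W.ξ (c i) := fun i => by
    rw [AsmG.SharpPair.sh_eq (hcr i), ← hc']
    rfl
  have hψB : ∀ x : BB p k b, ψ (algebraMap (BB p k b) N' x) = algebraMap (BB p k b) (Om W.ξ) x :=
    fun x => congrArg W.ι (hf x)
  have hπ : W.π ∈ F.I 0 1 := by
    obtain ⟨u, hu⟩ := W.t_zero
    rw [← hu]
    exact Ideal.mul_mem_right _ _ (ht 0)
  have hmax : (IsLocalRing.maximalIdeal (BB p k b)).map (ψ.comp (algebraMap (BB p k b) N')) =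
      Ideal.ofList (PerfC.tOm W) := by
    rw [← PerfC.maxBB p k b]
    have h1 : ψ.comp (algebraMap (BB p k b) N') = algebraMap (BB p k b) (Om W.ξ) :=
      RingHom.ext hψB
    rw [h1, Ideal.map_ofList, PerfC.map_tB]
  have hLtop : (LOm W.ξ W.Λ).L (Om W.ξ ⧸ (IsLocalRing.maximalIdeal (BB p k b)).map
      (ψ.comp (algebraMap (BB p k b) N'))) ≠ ⊤ := by
    rw [hmax]
    have h1 := PerfC.kfin_tOm W 0
    rw [KosG.kh_zero] at h1
    have h2 : (Ideal.ofList (PerfC.tOm W) • (⊤ : Submodule (Om W.ξ) (Om W.ξ))) =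
        Ideal.ofList (PerfC.tOm W) := by
      rw [smul_eq_mul, Ideal.mul_top]
    rwa [h2] at h1
  have hcount := fun t M => F.count (hP := W.perf) (Λ := W.Λ) (ξ := W.ξ) hS hc ψ 𝔠 𝔶
    (fun i => by
      rw [← hψc]
      exact Ideal.mem_map_of_mem _ (Ideal.subset_span ⟨i, rfl⟩))
    (fun x hx => by
      have h1 : 𝔠 ≤ (JI W.perf W.ξ (F.I 1 0)).comap ψ := by
        rw [Ideal.span_le]
        rintro _ ⟨i, rfl⟩
        rw [SetLike.mem_coe, Ideal.mem_comap, hψc]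
        exact sh_mem_JI (hc i)
      exact h1 hx)
    (fun x hx => by
      have h1 : 𝔶 ≤ (JI W.perf W.ξ (F.I 0 1)).comap ψ := by
        rw [Ideal.map_le_iff_le_comap, mB, Ideal.span_le]
        rintro _ ⟨i, rfl⟩
        rw [SetLike.mem_coe, Ideal.mem_comap, Ideal.mem_comap, hψB, ← sh_t]
        exact sh_mem_JI (ht i)
      exact h1 hx) hC t M
  have key := fin_bound (Λ := W.Λ) W.cont W.dist F (D := b + 1) W.frob W.t ht hπ W.L_ne_top hs hI
    (W.null h hr hh h0) _ hcount ht1 m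
  refine ne_top_of_le_ne_top ?_ key
  exact ENNReal.mul_ne_top (ENNReal.mul_ne_top (ENNReal.natCast_ne_top _) hLtop)
    (ENNReal.pow_ne_top (ENNReal.natCast_ne_top _))

end world

end Crest.Agent.R188.FinA
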