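import Crest.Agent.R188.FinB1
import Crest.Agent.R188.Asm3

/-!
# R188, FinB2 (helper546): the strand lemma for submodules, and in a `World`.
-/

set_option autoImplicit false

namespace Crest.Agent.R188.FinB

open Crest.Agent.R183 Crest.Agent.R188.Flg Crest.Agent.R188.KosG Crest.Agent.R188.Asm
open Crest.Agent.R188.Prf Crest.Agent.R188.Wit WittVector
open scoped ENNReal

universe u v

section sub

variable {A : Type u} [CommRing A] {M : Type v} [AddCommGroup M] [Module A M] {s : ℕ}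

lemma kD_coe (g : Fin s → A) (X : Submodule A M) (f : Finset (Fin s) → X) (B : Finset (Fin s)) :
    ((kD g f B : X) : M) = kD g (fun C => (f C : M)) B := by
  rw [kD_apply, kD_apply]
  push_cast
  rfl

/-- restriction of an almost exact strand to a submodule that contains it -/
theorem kosNull_sub {𝔞 : Ideal A} {g : Fin s → A} {I : ℕ → Submodule A M}
    (hK : KosNull 𝔞 g I) (X : Submodule A M) (hI : ∀ q ≤ s, I q ≤ X) :
    KosNull 𝔞 g (fun q => (I q).submoduleOf X) := by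
  intro q f hf h0 a ha
  obtain ⟨f', hf', hD⟩ := hK q (fun B => (f B : M)) ⟨fun B => hf.1 B, fun B hB =>
    congrArg Subtype.val (hf.2 B hB)⟩ (by
      funext B
      rw [← kD_coe, h0]
      rfl) a ha
  have hX : ∀ B, f' B ∈ X := by
    intro B
    by_cases hB : B.card = q + 1
    · refine hI (q + 1) ?_ (hf'.1 B)
      have := Finset.card_le_univ B
      rw [Fintype.card_fin] at this
      omega
    · rw [hf'.2 B hB]; exact zero_mem _
  refine ⟨fun B => ⟨f' B, hX B⟩, ⟨fun B => hf'.1 B, fun B hB => Subtype.ext (hf'.2 B hB)⟩, ?_⟩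
  funext B
  apply Subtype.ext
  rw [kD_coe]
  exact congrFun hD B

/-- **STRAND LEMMA for submodules** -/
theorem kh_sub_ne_top (Λ : AddLen.{u, v} A) (𝔞 : Ideal A) (y : Fin s → A) (n : ℕ) (hn : 0 < n)
    (X : Submodule A M) (I : ℕ → Submodule A M) (hI : ∀ q ≤ s, I q ≤ X)
    (hK : KosNull 𝔞 (fun j => y j ^ n) I)
    (hnull : ∀ (V : Type v) [AddCommGroup V] [Module A V], (∀ a ∈ 𝔞, ∀ x : V, a • x = 0) →
      (∀ j, ∀ x : V, y j ^ n • x = 0) → Λ.L V = 0)
    (hfin : ∀ q ≤ s, Λ.L (X ⧸ (I q).submoduleOf X) ≠ ⊤) (i : ℤ) :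
    kh Λ (List.ofFn y) X i ≠ ⊤ :=
  kh_ne_top_of_pow Λ 𝔞 y n hn (fun q => (I q).submoduleOf X) (kosNull_sub hK X hI) hnull hfin i

end sub

section world

variable {p : ℕ} [hp : Fact p.Prime] {k : Type} [Field k] [CharP k p] {b : ℕ} (W : World p k b)

/-- the null criterion on `P`-modules -/
theorem null_P {h : W.P} {hr : ℕ → BPlus p k b} (hs : SharpPair W.perf W.ι h hr) (h0 : hr 0 ≠ 0)
    (V : Type) [AddCommGroup V] [Module W.P V]
    (hV : ∀ n, ∀ x : V, W.perf.rtn n h • x = 0)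
    (ht : ∀ x : V, ∃ N : ℕ, ∀ i, W.t i ^ N • x = 0) : (LP W.Λ).L V = 0 := by
  let _ : Module (WittVector p W.P) V := Module.compHom V (constantCoeff (p := p) (R := W.P))
  have hsm : ∀ (w : WittVector p W.P) (x : V), w • x = constantCoeff (p := p) (R := W.P) w • x :=
    fun _ _ => rfl
  have hpp : ∀ N : ℕ, 0 < N → constantCoeff (p := p) (R := W.P) ((p : WittVector p W.P) ^ N) = 0 := by
    intro N hN
    rw [map_pow, map_natCast, W.perf.p_zero, zero_pow hN.ne']
  refine W.null h hr hs h0 V (fun x => ?_) (fun n x => ?_)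
  · obtain ⟨N, hN⟩ := ht x
    refine ⟨N + 1, ?_, fun i => ?_⟩
    · rw [hsm, hpp _ (Nat.succ_pos N), zero_smul]
    · rw [hsm, map_pow]
      change W.t i ^ (N + 1) • x = 0
      rw [pow_succ', mul_smul, hN i, smul_zero]
  · rw [hsm]
    exact hV n x

/-- **FinB** (final form for helper414): an `h`-almost exact strand for `(t_j^n)` of submodules of
`X` of finite colength gives finite Koszul lengths `H_i(t; X)`. -/
theorem kh_world_ne_top {h : W.P} {hr : ℕ → BPlus p k b} (hs : SharpPair W.perf W.ι h hr)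
    (h0 : hr 0 ≠ 0) {M : Type} [AddCommGroup M] [Module W.P M] (n : ℕ) (hn : 0 < n)
    (X : Submodule W.P M) (I : ℕ → Submodule W.P M) (hI : ∀ q ≤ b + 1, I q ≤ X)
    (hK : KosNull (Ideal.span (Set.range fun n => W.perf.rtn n h)) (fun j => W.t j ^ n) I)
    (hfin : ∀ q ≤ b + 1, (LP W.Λ).L (X ⧸ (I q).submoduleOf X) ≠ ⊤) (i : ℤ) :
    kh (LP W.Λ) (List.ofFn W.t) X i ≠ ⊤ := by
  refine kh_sub_ne_top (LP W.Λ) _ W.t n hn X I hI hK (fun V _ _ hV ht => ?_) hfin i
  exact null_P W hs h0 V (fun n x => hV _ (Ideal.subset_span ⟨n, rfl⟩) x)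
    (fun x => ⟨n, fun j => ht j x⟩)

end world

end Crest.Agent.R188.FinB
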