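/-
R188, block A5 (helper46): transfer of `IsPerf`, additive monoid algebras, subrings.
-/
import Crest.Agent.R188.PrfPerf

set_option autoImplicit false
set_option linter.unusedSectionVars false
set_option linter.unusedVariables false

namespace Crest.Agent.R188.Prf

open Function

universe u v w

variable {p : ℕ} [hp : Fact p.Prime]

lemma IsPerf.of_ringEquiv {R : Type u} [CommRing R] {S : Type v} [CommRing S] (h : IsPerf p R)
    (e : R ≃+* S) : IsPerf p S :=
  h.of_surjective (e : R →+* S) e.surjective (fun x hx => by
    have h1 : e (x ^ p) = 0 := by rw [map_pow]; exact hx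
    have h2 : x ^ p = 0 := by
      apply e.injective
      rw [h1, map_zero]
    rw [h.red x h2, map_zero])

/-- the additive monoid algebra of a commutative monoid on which multiplication by `p` is
bijective. -/
theorem IsPerf.addMonoidAlgebra {A : Type u} [CommRing A] (hA : IsPerf p A) (G : Type v)
    [AddCommMonoid G] (hG : Bijective fun g : G => p • g) : IsPerf p (AddMonoidAlgebra A G) := by
  have h1 : Bijective fun g : Multiplicative G => g ^ p := hG
  exact (hA.monoidAlgebra (Multiplicative G) h1).of_ringEquiv
    (AddMonoidAlgebra.toMultiplicative A G).symm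

/-- a subring closed under `p`-th roots. -/
theorem IsPerf.subring {B : Type u} [CommRing B] (hB : IsPerf p B) (S : Subring B)
    (hS : ∀ x ∈ S, hB.rt x ∈ S) : IsPerf p S where
  p_zero := by
    apply Subtype.ext
    have := hB.p_zero
    simpa using this
  red := by
    rintro ⟨x, hx⟩ h
    exact Subtype.ext (hB.red x (congrArg Subtype.val h))
  surj := by
    rintro ⟨x, hx⟩
    exact ⟨⟨hB.rt x, hS x hx⟩, Subtype.ext (hB.rt_pow x)⟩

lemma IsPerf.zmod : IsPerf p (ZMod p) := by
  haveI : PerfectRing (ZMod p) p := inferInstance
  exact IsPerf.of_perfectRing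

end Crest.Agent.R188.Prf
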