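/-
R188, block A5 (helper46): Tor-vanishing without category theory.

For a commutative ring `A`, an `A`-module `M` (any universe) and an `A`-module `N`:
* `T1 A M N`    : `Tor_1^A(M,N) = 0`, as injectivity of `M ⊗ Syz N → M ⊗ (N →₀ A)`;
* `TIn A M n N` : `Tor_i^A(M,N) = 0` for `1 ≤ i ≤ n`;
* `TI A M N`    : `Tor_i^A(M,N) = 0` for all `i ≥ 1`.
-/
import Mathlib

set_option autoImplicit false
set_option linter.unusedSectionVars false
set_option linter.unusedVariables false

namespace Crest.Agent.R188.Prf

open TensorProduct Function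

universe u v v' v'' w w' w''

section Chase

variable {A : Type u} [CommRing A]
variable {M' : Type v'} {M : Type v} {M'' : Type v''}
variable [AddCommGroup M'] [Module A M'] [AddCommGroup M] [Module A M]
variable [AddCommGroup M''] [Module A M'']
variable {K : Type w'} {F : Type w} {N : Type w''}
variable [AddCommGroup K] [Module A K] [AddCommGroup F] [Module A F]
variable [AddCommGroup N] [Module A N]
variable {f : M' →ₗ[A] M} {g : M →ₗ[A] M''} {i : K →ₗ[A] F} {q : F →ₗ[A] N}

/-- `lTensor` and `rTensor` commute, elementwise. -/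
lemma comm_lr {X : Type v'} {Y : Type v} [AddCommGroup X] [Module A X] [AddCommGroup Y]
    [Module A Y] {Z : Type w'} {W : Type w} [AddCommGroup Z] [Module A Z]
    [AddCommGroup W] [Module A W] (a : X →ₗ[A] Y) (b : Z →ₗ[A] W) (t : X ⊗[A] Z) :
    a.rTensor W (b.lTensor X t) = b.lTensor Y (a.rTensor Z t) := by
  have := LinearMap.congr_fun (LinearMap.rTensor_comp_lTensor (f := a) (g := b)) t
  have h2 := LinearMap.congr_fun (LinearMap.lTensor_comp_rTensor (f := a) (g := b)) t
  simp only [LinearMap.comp_apply] at this h2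
  rw [this, h2]

/-- (a) extension: `Tor_1(M',N) = 0 = Tor_1(M'',N) ⟹ Tor_1(M,N) = 0`. -/
lemma chase_mid (hg : Surjective g) (hfg : Exact f g) (hf : Injective f) [Module.Flat A F]
    (h' : Injective (i.lTensor M')) (h'' : Injective (i.lTensor M'')) :
    Injective (i.lTensor M) := by
  rw [injective_iff_map_eq_zero] at h' h'' ⊢
  intro x hx
  have hx2 : g.rTensor K x = 0 := by
    apply h''
    rw [← comm_lr, hx, map_zero]
  obtain ⟨y, rfl⟩ := ((rTensor_exact K hfg hg) x).1 hx2
  rw [← comm_lr] at hx
  have hfF : Injective (f.rTensor F) := Module.Flat.rTensor_preserves_injective_linearMap f hf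
  rw [injective_iff_map_eq_zero] at hfF
  rw [h' y (hfF _ hx), map_zero]

/-- (b) `Tor_1(M,N) = 0` and `M' ⊗ N → M ⊗ N` injective `⟹ Tor_1(M'',N) = 0`. -/
lemma chase_quot (hg : Surjective g) (hfg : Exact f g) (hf : Injective f) [Module.Flat A F]
    (hq : Surjective q) (hiq : Exact i q)
    (h : Injective (i.lTensor M)) (hN : Injective (f.rTensor N)) :
    Injective (i.lTensor M'') := by
  rw [injective_iff_map_eq_zero] at h hN ⊢
  intro x'' hx''
  obtain ⟨x, rfl⟩ := LinearMap.rTensor_surjective K hg x''
  rw [← comm_lr] at hx''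
  obtain ⟨y', hy'⟩ := ((rTensor_exact F hfg hg) _).1 hx''
  have h1 : q.lTensor M' y' = 0 := by
    apply hN
    rw [comm_lr, hy']
    exact (lTensor_exact M hiq hq).apply_apply_eq_zero x
  obtain ⟨x', rfl⟩ := ((lTensor_exact M' hiq hq) y').1 h1
  rw [comm_lr] at hy'
  have h2 : f.rTensor K x' - x = 0 := by
    apply h
    rw [map_sub, hy', sub_self]
  rw [sub_eq_zero] at h2
  rw [← h2]
  exact (rTensor_exact K hfg hg).apply_apply_eq_zero x'

/-- (c) `Tor_1(M,N) = 0` and `M' ⊗ K → M ⊗ K` injective (e.g. `Tor_2(M'',N) = 0`)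
`⟹ Tor_1(M',N) = 0`. -/
lemma chase_sub (h : Injective (i.lTensor M)) (hK : Injective (f.rTensor K)) :
    Injective (i.lTensor M') := by
  rw [injective_iff_map_eq_zero] at h hK ⊢
  intro x hx
  apply hK
  apply h
  rw [← comm_lr, hx, map_zero]

/-- (d) `Tor_1(M'',N) = 0 ⟹ M' ⊗ N → M ⊗ N` injective. -/
lemma chase_inj (hg : Surjective g) (hfg : Exact f g) (hf : Injective f) [Module.Flat A F]
    (hq : Surjective q) (hiq : Exact i q)
    (h'' : Injective (i.lTensor M'')) :
    Injective (f.rTensor N) := by
  rw [injective_iff_map_eq_zero] at h'' ⊢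
  intro x' hx'
  obtain ⟨y', rfl⟩ := LinearMap.lTensor_surjective M' hq x'
  rw [comm_lr] at hx'
  obtain ⟨x, hx⟩ := ((lTensor_exact M hiq hq) _).1 hx'
  have h1 : g.rTensor K x = 0 := by
    apply h''
    rw [← comm_lr, hx]
    exact (rTensor_exact F hfg hg).apply_apply_eq_zero y'
  obtain ⟨x₁, rfl⟩ := ((rTensor_exact K hfg hg) x).1 h1
  rw [← comm_lr] at hx
  have hfF : Injective (f.rTensor F) := Module.Flat.rTensor_preserves_injective_linearMap f hf
  rw [← hfF hx]
  exact (lTensor_exact M' hiq hq).apply_apply_eq_zero x₁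

end Chase

section TI

variable (A : Type u) [CommRing A]

/-- the canonical free cover `N →₀ A` of `N` (a `def`, to keep instance problems away). -/
def Fr (N : Type u) : Type u := N →₀ A

noncomputable instance (N : Type u) : AddCommGroup (Fr A N) :=
  inferInstanceAs (AddCommGroup (N →₀ A))

noncomputable instance (N : Type u) : Module A (Fr A N) :=
  inferInstanceAs (Module A (N →₀ A))

instance (N : Type u) : Module.Free A (Fr A N) :=
  inferInstanceAs (Module.Free A (N →₀ A))

/-- the covering map. -/
noncomputable def frπ (N : Type u) [AddCommGroup N] [Module A N] : Fr A N →ₗ[A] N :=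
  Finsupp.linearCombination A (id : N → N)

lemma frπ_surjective (N : Type u) [AddCommGroup N] [Module A N] : Surjective (frπ A N) :=
  Finsupp.linearCombination_id_surjective A N

/-- the first syzygy of `N` for the canonical free cover. -/
def Syz (N : Type u) [AddCommGroup N] [Module A N] : Type u := LinearMap.ker (frπ A N)

noncomputable instance (N : Type u) [AddCommGroup N] [Module A N] : AddCommGroup (Syz A N) :=
  inferInstanceAs (AddCommGroup (LinearMap.ker (frπ A N)))

noncomputable instance (N : Type u) [AddCommGroup N] [Module A N] : Module A (Syz A N) :=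
  inferInstanceAs (Module A (LinearMap.ker (frπ A N)))

/-- the inclusion of the syzygy. -/
noncomputable def syzι (N : Type u) [AddCommGroup N] [Module A N] : Syz A N →ₗ[A] Fr A N :=
  (LinearMap.ker (frπ A N)).subtype

lemma syzι_injective (N : Type u) [AddCommGroup N] [Module A N] : Injective (syzι A N) :=
  (LinearMap.ker (frπ A N)).injective_subtype

lemma syz_exact (N : Type u) [AddCommGroup N] [Module A N] : Exact (syzι A N) (frπ A N) :=
  LinearMap.exact_subtype_ker_map _

/-- `Tor_1^A(M,N) = 0`. -/
def T1 (M : Type v) [AddCommGroup M] [Module A M] (N : Type u) [AddCommGroup N] [Module A N] :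
    Prop :=
  Injective ((syzι A N).lTensor M)

/-- `Tor_i^A(M,N) = 0` for `1 ≤ i ≤ n`. -/
def TIn (M : Type v) [AddCommGroup M] [Module A M] :
    ℕ → ∀ (N : Type u) [AddCommGroup N] [Module A N], Prop
  | 0, _, _, _ => True
  | (n + 1), N, _, _ => T1 A M N ∧ TIn M n (Syz A N)

/-- `Tor_i^A(M,N) = 0` for all `i ≥ 1`. -/
def TI (M : Type v) [AddCommGroup M] [Module A M] (N : Type u) [AddCommGroup N] [Module A N] :
    Prop :=
  ∀ n, TIn A M n N

variable {A}

section

variable {M' : Type v'} {M : Type v} {M'' : Type v''}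
variable [AddCommGroup M'] [Module A M'] [AddCommGroup M] [Module A M]
variable [AddCommGroup M''] [Module A M'']

lemma TIn_succ_iff (n : ℕ) (N : Type u) [AddCommGroup N] [Module A N] :
    TIn A M (n + 1) N ↔ T1 A M N ∧ TIn A M n (Syz A N) := Iff.rfl

lemma TI.t1 {N : Type u} [AddCommGroup N] [Module A N] (h : TI A M N) : T1 A M N := (h 1).1

lemma TI.syz {N : Type u} [AddCommGroup N] [Module A N] (h : TI A M N) : TI A M (Syz A N) :=
  fun n => (h (n + 1)).2

lemma TI_iff {N : Type u} [AddCommGroup N] [Module A N] :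
    TI A M N ↔ T1 A M N ∧ TI A M (Syz A N) := by
  refine ⟨fun h => ⟨h.t1, h.syz⟩, fun h n => ?_⟩
  cases n with
  | zero => trivial
  | succ n => exact ⟨h.1, h.2 n⟩

lemma TIn_mono {n : ℕ} : ∀ {N : Type u} [AddCommGroup N] [Module A N],
    TIn A M (n + 1) N → TIn A M n N := by
  induction n with
  | zero => intros; trivial
  | succ n ih =>
    intro N _ _ h
    exact ⟨h.1, ih h.2⟩

lemma TIn_of_le {n m : ℕ} (hmn : m ≤ n) {N : Type u} [AddCommGroup N] [Module A N]
    (h : TIn A M n N) : TIn A M m N := by
  induction hmn with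
  | refl => exact h
  | step _ ih => exact ih (TIn_mono h)

variable {f : M' →ₗ[A] M} {g : M →ₗ[A] M''}

/-- `Tor_1(M'',N) = 0` makes `M' ⊗ N → M ⊗ N` injective. -/
lemma T1.inj {N : Type u} [AddCommGroup N] [Module A N] (h : T1 A M'' N)
    (hg : Surjective g) (hfg : Exact f g) (hf : Injective f) : Injective (f.rTensor N) :=
  chase_inj hg hfg hf (frπ_surjective A N) (syz_exact A N) h

lemma T1.mid {N : Type u} [AddCommGroup N] [Module A N] (h' : T1 A M' N) (h'' : T1 A M'' N)
    (hg : Surjective g) (hfg : Exact f g) (hf : Injective f) : T1 A M N :=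
  chase_mid hg hfg hf h' h''

lemma T1.quot {N : Type u} [AddCommGroup N] [Module A N] (h : T1 A M N)
    (hg : Surjective g) (hfg : Exact f g) (hf : Injective f) (hN : Injective (f.rTensor N)) :
    T1 A M'' N :=
  chase_quot hg hfg hf (frπ_surjective A N) (syz_exact A N) h hN

lemma T1.sub {N : Type u} [AddCommGroup N] [Module A N] (h : T1 A M N)
    (hg : Surjective g) (hfg : Exact f g) (hf : Injective f) (h'' : T1 A M'' (Syz A N)) :
    T1 A M' N :=
  chase_sub h (h''.inj hg hfg hf)

/-- injectivity of `M' ⊗ N → M ⊗ N` passes to the syzygy. -/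
lemma inj_syz {N : Type u} [AddCommGroup N] [Module A N] (h' : T1 A M' N)
    (hf : Injective f) : Injective (f.rTensor (Syz A N)) := by
  have h1 : Injective ((syzι A N).lTensor M ∘ f.rTensor (Syz A N)) := by
    have h2 : ((syzι A N).lTensor M ∘ f.rTensor (Syz A N)) =
        (f.rTensor (Fr A N)) ∘ ((syzι A N).lTensor M') := by
      funext t
      simp only [Function.comp_apply]
      rw [comm_lr]
    rw [h2]
    exact (Module.Flat.rTensor_preserves_injective_linearMap f hf).comp h'
  exact h1.of_comp

theorem TIn.mid {n : ℕ} : ∀ {N : Type u} [AddCommGroup N] [Module A N]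
    (_ : TIn A M' n N) (_ : TIn A M'' n N)
    (_ : Surjective g) (_ : Exact f g) (_ : Injective f), TIn A M n N := by
  induction n with
  | zero => intros; trivial
  | succ n ih =>
    intro N _ _ h' h'' hg hfg hf
    exact ⟨h'.1.mid h''.1 hg hfg hf, ih h'.2 h''.2 hg hfg hf⟩

theorem TIn.quot {n : ℕ} : ∀ {N : Type u} [AddCommGroup N] [Module A N]
    (_ : TIn A M' n N) (_ : TIn A M (n + 1) N)
    (_ : Surjective g) (_ : Exact f g) (_ : Injective f) (_ : Injective (f.rTensor N)),
    TIn A M'' (n + 1) N := by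
  induction n with
  | zero =>
    intro N _ _ _ h hg hfg hf hN
    exact ⟨h.1.quot hg hfg hf hN, trivial⟩
  | succ n ih =>
    intro N _ _ h' h hg hfg hf hN
    exact ⟨h.1.quot hg hfg hf hN, ih h'.2 h.2 hg hfg hf (inj_syz h'.1 hf)⟩

theorem TIn.sub {n : ℕ} : ∀ {N : Type u} [AddCommGroup N] [Module A N]
    (_ : TIn A M n N) (_ : TIn A M'' (n + 1) N)
    (_ : Surjective g) (_ : Exact f g) (_ : Injective f), TIn A M' n N := by
  induction n with
  | zero => intros; trivial
  | succ n ih =>
    intro N _ _ h h'' hg hfg hf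
    exact ⟨h.1.sub hg hfg hf h''.2.1, ih h.2 h''.2 hg hfg hf⟩

theorem TI.mid {N : Type u} [AddCommGroup N] [Module A N] (h' : TI A M' N) (h'' : TI A M'' N)
    (hg : Surjective g) (hfg : Exact f g) (hf : Injective f) : TI A M N :=
  fun n => (h' n).mid (h'' n) hg hfg hf

theorem TI.quot {N : Type u} [AddCommGroup N] [Module A N] (h' : TI A M' N) (h : TI A M N)
    (hg : Surjective g) (hfg : Exact f g) (hf : Injective f) (hN : Injective (f.rTensor N)) :
    TI A M'' N
  | 0 => trivial
  | (n + 1) => (h' n).quot (h (n + 1)) hg hfg hf hN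

theorem TI.sub {N : Type u} [AddCommGroup N] [Module A N] (h : TI A M N) (h'' : TI A M'' N)
    (hg : Surjective g) (hfg : Exact f g) (hf : Injective f) : TI A M' N :=
  fun n => (h n).sub (h'' (n + 1)) hg hfg hf

theorem TI.inj {N : Type u} [AddCommGroup N] [Module A N] (h'' : TI A M'' N)
    (hg : Surjective g) (hfg : Exact f g) (hf : Injective f) : Injective (f.rTensor N) :=
  h''.t1.inj hg hfg hf

/-- flat modules are Tor-independent of everything. -/
lemma T1_of_flat [Module.Flat A M] (N : Type u) [AddCommGroup N] [Module A N] : T1 A M N :=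
  Module.Flat.lTensor_preserves_injective_linearMap _ (syzι_injective A N)

lemma TIn_of_flat [Module.Flat A M] (n : ℕ) : ∀ (N : Type u) [AddCommGroup N] [Module A N],
    TIn A M n N := by
  induction n with
  | zero => intros; trivial
  | succ n ih => intro N _ _; exact ⟨T1_of_flat N, ih _⟩

theorem TI_of_flat [Module.Flat A M] (N : Type u) [AddCommGroup N] [Module A N] : TI A M N :=
  fun n => TIn_of_flat n N

/-- invariance under isomorphism in the first variable. -/
lemma T1.congr (e : M ≃ₗ[A] M') {N : Type u} [AddCommGroup N] [Module A N] (h : T1 A M N) :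
    T1 A M' N := by
  unfold T1 at h ⊢
  have h2 : Injective ((e.symm.toLinearMap).rTensor (Syz A N)) :=
    (LinearEquiv.rTensor (Syz A N) e.symm).injective
  refine Injective.of_comp (f := (e.symm.toLinearMap).rTensor (Fr A N)) ?_
  have h3 : (e.symm.toLinearMap).rTensor (Fr A N) ∘ ((syzι A N).lTensor M') =
      ((syzι A N).lTensor M) ∘ ((e.symm.toLinearMap).rTensor (Syz A N)) := by
    funext t
    simp only [Function.comp_apply]
    rw [comm_lr]
  rw [h3]
  exact h.comp h2

lemma TIn.congr (e : M ≃ₗ[A] M') {n : ℕ} : ∀ {N : Type u} [AddCommGroup N] [Module A N]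
    (_ : TIn A M n N), TIn A M' n N := by
  induction n with
  | zero => intros; trivial
  | succ n ih => intro N _ _ h; exact ⟨h.1.congr e, ih h.2⟩

lemma TI.congr (e : M ≃ₗ[A] M') {N : Type u} [AddCommGroup N] [Module A N] (h : TI A M N) :
    TI A M' N := fun n => (h n).congr e

end

/-! ### symmetry -/

section Symm

variable {M : Type u} [AddCommGroup M] [Module A M] {N : Type u} [AddCommGroup N] [Module A N]

lemma T1.symm (h : T1 A M N) : T1 A N M := by
  have h1 : Injective ((syzι A M).rTensor N) :=
    h.inj (frπ_surjective A M) (syz_exact A M) (syzι_injective A M)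
  unfold T1
  have h3 : (syzι A M).lTensor N =
      (TensorProduct.comm A (Fr A M) N).toLinearMap ∘ₗ ((syzι A M).rTensor N) ∘ₗ
        (TensorProduct.comm A N (Syz A M)).toLinearMap := by
    ext; simp
  rw [h3]
  exact (TensorProduct.comm A (Fr A M) N).injective.comp
    (h1.comp (TensorProduct.comm A N (Syz A M)).injective)

lemma TIn.symm {n : ℕ} : ∀ {M : Type u} [AddCommGroup M] [Module A M]
    {N : Type u} [AddCommGroup N] [Module A N], TIn A M n N → TIn A N n M := by
  induction n with
  | zero => intros; trivial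
  | succ n ih =>
    intro M _ _ N _ _ h
    refine ⟨h.1.symm, ih ?_⟩
    exact TIn.sub (TIn_of_flat n N) h (frπ_surjective A M) (syz_exact A M)
      (syzι_injective A M)

theorem TI.symm (h : TI A M N) : TI A N M := fun n => (h n).symm

end Symm

end TI

end Crest.Agent.R188.Prf
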