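/-
R188, block A5 (helper46): Tor-vanishing: retracts, direct sums, exact complexes, second
variable, arbitrary flat presentations.
-/
import Crest.Agent.R188.PrfTI

set_option autoImplicit false
set_option linter.unusedSectionVars false
set_option linter.unusedVariables false

namespace Crest.Agent.R188.Prf

open TensorProduct Function

universe u v v' w

variable {A : Type u} [CommRing A]

/-! ### retracts and direct sums -/

section Retract

variable {M : Type v} [AddCommGroup M] [Module A M] {M' : Type v'} [AddCommGroup M'] [Module A M']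

lemma T1.retract {N : Type u} [AddCommGroup N] [Module A N] (h : T1 A M N)
    (s : M' →ₗ[A] M) (r : M →ₗ[A] M') (hrs : ∀ x, r (s x) = x) : T1 A M' N := by
  unfold T1 at h ⊢
  have h2 : Injective (s.rTensor (Syz A N)) := by
    refine Injective.of_comp (f := r.rTensor (Syz A N)) ?_
    have : (r.rTensor (Syz A N)) ∘ (s.rTensor (Syz A N)) = id := by
      funext t
      simp only [Function.comp_apply, id]
      rw [← LinearMap.rTensor_comp_apply]
      have : r ∘ₗ s = LinearMap.id := LinearMap.ext hrs
      rw [this, LinearMap.rTensor_id, LinearMap.id_apply]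
    rw [this]
    exact injective_id
  refine Injective.of_comp (f := s.rTensor (Fr A N)) ?_
  have h3 : s.rTensor (Fr A N) ∘ ((syzι A N).lTensor M') =
      ((syzι A N).lTensor M) ∘ (s.rTensor (Syz A N)) := by
    funext t
    simp only [Function.comp_apply]
    rw [comm_lr]
  rw [h3]
  exact h.comp h2

lemma TIn.retract {n : ℕ} (s : M' →ₗ[A] M) (r : M →ₗ[A] M') (hrs : ∀ x, r (s x) = x) :
    ∀ {N : Type u} [AddCommGroup N] [Module A N] (_ : TIn A M n N), TIn A M' n N := by
  induction n with
  | zero => intros; trivial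
  | succ n ih => intro N _ _ h; exact ⟨h.1.retract s r hrs, ih h.2⟩

/-- a direct summand (retract) of a Tor-independent module is Tor-independent. -/
theorem TI.retract {N : Type u} [AddCommGroup N] [Module A N] (h : TI A M N)
    (s : M' →ₗ[A] M) (r : M →ₗ[A] M') (hrs : ∀ x, r (s x) = x) : TI A M' N :=
  fun n => (h n).retract s r hrs

end Retract

section Prod

variable {M : Type v} [AddCommGroup M] [Module A M] {M' : Type v'} [AddCommGroup M'] [Module A M']

theorem TI.prod {N : Type u} [AddCommGroup N] [Module A N] (h : TI A M N) (h' : TI A M' N) :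
    TI A (M × M') N :=
  TI.mid (f := LinearMap.inl A M M') (g := LinearMap.snd A M M') h h'
    Prod.snd_surjective (LinearMap.exact_iff.2 (by
      rw [LinearMap.ker_snd])) LinearMap.inl_injective

lemma TI_subsingleton [Subsingleton M] (N : Type u) [AddCommGroup N] [Module A N] : TI A M N := by
  haveI : Module.Flat A M := Module.Flat.of_free
  exact TI_of_flat N

theorem TI.pi_fin {N : Type u} [AddCommGroup N] [Module A N] (h : TI A M N) (n : ℕ) :
    TI A (Fin n → M) N := by
  induction n with
  | zero => exact TI_subsingleton N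
  | succ n ih =>
    exact (h.prod ih).congr (Fin.consLinearEquiv A (fun _ : Fin (n + 1) => M))

theorem TI.pi {N : Type u} [AddCommGroup N] [Module A N] (h : TI A M N) (ι : Type w) [Finite ι] :
    TI A (ι → M) N := by
  obtain ⟨n, ⟨e⟩⟩ := Finite.exists_equiv_fin ι
  exact (h.pi_fin n).congr (LinearEquiv.funCongrLeft A M e)

end Prod

/-! ### exact complexes stay exact -/

section Cx

variable {C : ℕ → Type v} [∀ i, AddCommGroup (C i)] [∀ i, Module A (C i)]
  (d : ∀ i, C (i + 1) →ₗ[A] C i)

/-- the map `C (i+2) → ker (d i)`. -/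
def toKer (hd : ∀ i, Exact (d (i + 1)) (d i)) (i : ℕ) : C (i + 2) →ₗ[A] LinearMap.ker (d i) :=
  (d (i + 1)).codRestrict (LinearMap.ker (d i)) fun x => (hd i).apply_apply_eq_zero x

lemma toKer_surjective (hd : ∀ i, Exact (d (i + 1)) (d i)) (i : ℕ) :
    Surjective (toKer d hd i) := by
  rintro ⟨y, hy⟩
  obtain ⟨x, rfl⟩ := ((hd i) y).1 hy
  exact ⟨x, rfl⟩

lemma toKer_exact (hd : ∀ i, Exact (d (i + 1)) (d i)) (i : ℕ) :
    Exact (LinearMap.ker (d (i + 1))).subtype (toKer d hd i) := by
  intro x
  constructor
  · intro hx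
    exact ⟨⟨x, congrArg Subtype.val hx⟩, rfl⟩
  · rintro ⟨⟨y, hy⟩, rfl⟩
    exact Subtype.ext hy

/-- all the cycle modules are Tor-independent of `N`. -/
theorem TI_ker {N : Type u} [AddCommGroup N] [Module A N] (h : ∀ i, TI A (C i) N)
    (h0 : Surjective (d 0)) (hd : ∀ i, Exact (d (i + 1)) (d i)) (i : ℕ) :
    TI A (LinearMap.ker (d i)) N := by
  induction i with
  | zero =>
    exact (h 1).sub (f := (LinearMap.ker (d 0)).subtype) (g := d 0) (h 0) h0
      (LinearMap.exact_subtype_ker_map _) (Submodule.injective_subtype _)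
  | succ i ih =>
    exact (h (i + 2)).sub (f := (LinearMap.ker (d (i + 1))).subtype) (g := toKer d hd i) ih
      (toKer_surjective d hd i) (toKer_exact d hd i) (Submodule.injective_subtype _)

theorem ker_rTensor_injective {N : Type u} [AddCommGroup N] [Module A N]
    (h : ∀ i, TI A (C i) N) (h0 : Surjective (d 0)) (hd : ∀ i, Exact (d (i + 1)) (d i)) (i : ℕ) :
    Injective ((LinearMap.ker (d i)).subtype.rTensor N) := by
  cases i with
  | zero =>
    exact (h 0).inj h0 (LinearMap.exact_subtype_ker_map _) (Submodule.injective_subtype _)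
  | succ i =>
    exact (TI_ker d h h0 hd i).inj (toKer_surjective d hd i) (toKer_exact d hd i)
      (Submodule.injective_subtype _)

/-- **Consumer lemma.** An exact complex `… → C 2 → C 1 → C 0 → 0` of modules that are
Tor-independent of `N` stays exact after `⊗ N`. -/
theorem exact_rTensor {N : Type u} [AddCommGroup N] [Module A N] (h : ∀ i, TI A (C i) N)
    (h0 : Surjective (d 0)) (hd : ∀ i, Exact (d (i + 1)) (d i)) (i : ℕ) :
    Exact ((d (i + 1)).rTensor N) ((d i).rTensor N) := by
  have key : ∀ z : C (i + 1) ⊗[A] N, (d i).rTensor N z = 0 →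
      ∃ y, ((LinearMap.ker (d i)).subtype.rTensor N) y = z := by
    cases i with
    | zero =>
      intro z hz
      exact ((rTensor_exact N (LinearMap.exact_subtype_ker_map (d 0)) h0) z).1 hz
    | succ i =>
      intro z hz
      apply ((rTensor_exact N (toKer_exact d hd i) (toKer_surjective d hd i)) z).1
      apply ker_rTensor_injective d h h0 hd i
      rw [map_zero, ← hz, ← LinearMap.rTensor_comp_apply]
      rfl
  intro z
  constructor
  · intro hz
    obtain ⟨y, rfl⟩ := key z hz
    obtain ⟨x, rfl⟩ := LinearMap.rTensor_surjective N (toKer_surjective d hd i) y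
    refine ⟨x, ?_⟩
    rw [← LinearMap.rTensor_comp_apply]
    rfl
  · rintro ⟨x, rfl⟩
    rw [← LinearMap.rTensor_comp_apply]
    have : d i ∘ₗ d (i + 1) = 0 := LinearMap.ext fun y => (hd i).apply_apply_eq_zero y
    rw [this, LinearMap.rTensor_zero, LinearMap.zero_apply]

end Cx

/-! ### second variable, arbitrary flat presentations -/

section Second

variable {M : Type u} [AddCommGroup M] [Module A M]
variable {N' N N'' : Type u} [AddCommGroup N'] [Module A N'] [AddCommGroup N] [Module A N]
  [AddCommGroup N''] [Module A N''] {f : N' →ₗ[A] N} {g : N →ₗ[A] N''}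

lemma rTensor_inj_iff : Injective (f.rTensor M) ↔ Injective (f.lTensor M) := by
  have h : ((TensorProduct.comm A N M).toLinearMap ∘ₗ (f.rTensor M)) =
      (f.lTensor M) ∘ₗ (TensorProduct.comm A N' M).toLinearMap := by
    ext; simp
  have h' : (TensorProduct.comm A N M) ∘ (f.rTensor M) =
      (f.lTensor M) ∘ (TensorProduct.comm A N' M) := by
    funext x
    exact LinearMap.congr_fun h x
  constructor
  · intro hi
    have h1 : Injective ((TensorProduct.comm A N M) ∘ (f.rTensor M)) :=
      (TensorProduct.comm A N M).injective.comp hi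
    rw [h'] at h1
    exact Injective.of_comp_right h1 (TensorProduct.comm A N' M).surjective
  · intro hi
    have h1 : Injective ((f.lTensor M) ∘ (TensorProduct.comm A N' M)) :=
      hi.comp (TensorProduct.comm A N' M).injective
    rw [← h'] at h1
    exact h1.of_comp

theorem TIn.mid₂ {n : ℕ} (h' : TIn A M n N') (h'' : TIn A M n N'') (hg : Surjective g)
    (hfg : Exact f g) (hf : Injective f) : TIn A M n N :=
  (h'.symm.mid h''.symm hg hfg hf).symm

theorem TIn.quot₂ {n : ℕ} (h' : TIn A M n N') (h : TIn A M (n + 1) N) (hg : Surjective g)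
    (hfg : Exact f g) (hf : Injective f) (hM : Injective (f.lTensor M)) :
    TIn A M (n + 1) N'' :=
  (h'.symm.quot h.symm hg hfg hf (rTensor_inj_iff.2 hM)).symm

theorem TIn.sub₂ {n : ℕ} (h : TIn A M n N) (h'' : TIn A M (n + 1) N'') (hg : Surjective g)
    (hfg : Exact f g) (hf : Injective f) : TIn A M n N' :=
  (h.symm.sub h''.symm hg hfg hf).symm

theorem T1.inj₂ (h'' : T1 A M N'') (hg : Surjective g) (hfg : Exact f g) (hf : Injective f) :
    Injective (f.lTensor M) :=
  rTensor_inj_iff.1 (h''.symm.inj hg hfg hf)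

theorem TI.mid₂ (h' : TI A M N') (h'' : TI A M N'') (hg : Surjective g)
    (hfg : Exact f g) (hf : Injective f) : TI A M N :=
  (h'.symm.mid h''.symm hg hfg hf).symm

theorem TI.quot₂ (h' : TI A M N') (h : TI A M N) (hg : Surjective g)
    (hfg : Exact f g) (hf : Injective f) (hM : Injective (f.lTensor M)) : TI A M N'' :=
  (h'.symm.quot h.symm hg hfg hf (rTensor_inj_iff.2 hM)).symm

theorem TI.sub₂ (h : TI A M N) (h'' : TI A M N'') (hg : Surjective g)
    (hfg : Exact f g) (hf : Injective f) : TI A M N' :=
  (h.symm.sub h''.symm hg hfg hf).symm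

theorem TI.inj₂ (h'' : TI A M N'') (hg : Surjective g) (hfg : Exact f g) (hf : Injective f) :
    Injective (f.lTensor M) := h''.t1.inj₂ hg hfg hf

theorem TI_of_flat₂ [Module.Flat A N] : TI A M N := (TI_of_flat M).symm

/-- Tor-vanishing can be tested on any flat presentation of `N''`. -/
theorem TIn_succ_iff_pres {n : ℕ} [Module.Flat A N] (hg : Surjective g) (hfg : Exact f g)
    (hf : Injective f) :
    TIn A M (n + 1) N'' ↔ Injective (f.lTensor M) ∧ TIn A M n N' := by
  constructor
  · intro h
    exact ⟨h.1.inj₂ hg hfg hf, TIn.sub₂ (TI_of_flat₂ n) h hg hfg hf⟩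
  · rintro ⟨h1, h2⟩
    exact h2.quot₂ (TI_of_flat₂ (n + 1)) hg hfg hf h1

theorem TI_iff_pres [Module.Flat A N] (hg : Surjective g) (hfg : Exact f g)
    (hf : Injective f) : TI A M N'' ↔ Injective (f.lTensor M) ∧ TI A M N' := by
  constructor
  · intro h
    exact ⟨h.inj₂ hg hfg hf, TI.sub₂ TI_of_flat₂ h hg hfg hf⟩
  · rintro ⟨h1, h2⟩
    exact h2.quot₂ TI_of_flat₂ hg hfg hf h1

theorem T1_iff_pres [Module.Flat A N] (hg : Surjective g) (hfg : Exact f g)
    (hf : Injective f) : T1 A M N'' ↔ Injective (f.lTensor M) := by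
  have := TIn_succ_iff_pres (M := M) (n := 0) hg hfg hf
  constructor
  · intro h
    exact (this.1 ⟨h, trivial⟩).1
  · intro h
    exact (this.2 ⟨h, trivial⟩).1

end Second

end Crest.Agent.R188.Prf
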