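/-
R188, block A5 (helper46): Tor-vanishing and directed colimits.
-/
import Crest.Agent.R188.PrfTI

set_option autoImplicit false

namespace Crest.Agent.R188.Prf

open TensorProduct Function

universe u v v' w

variable {A : Type u} [CommRing A]

/-- `M` is the directed colimit of the `G i` (elementwise form, no functoriality of the
transition maps is needed). -/
structure DirColim (A : Type u) [CommRing A] {ι : Type w} [Preorder ι] (G : ι → Type v)
    [∀ i, AddCommGroup (G i)] [∀ i, Module A (G i)] (M : Type v') [AddCommGroup M] [Module A M]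
    where
  φ : ∀ i j, i ≤ j → G i →ₗ[A] G j
  c : ∀ i, G i →ₗ[A] M
  comp : ∀ i j (h : i ≤ j) (x : G i), c j (φ i j h x) = c i x
  surj : ∀ m : M, ∃ i x, c i x = m
  ker : ∀ i x, c i x = 0 → ∃ j, ∀ k (hk : i ≤ k), j ≤ k → φ i k hk x = 0

namespace DirColim

variable {ι : Type w} [Preorder ι] {G : ι → Type v}
  [∀ i, AddCommGroup (G i)] [∀ i, Module A (G i)] {M : Type v'} [AddCommGroup M] [Module A M]
  (D : DirColim A G M)

include D

lemma rTensor_comp (Q : Type u) [AddCommGroup Q] [Module A Q] (i j : ι) (h : i ≤ j)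
    (x : G i ⊗[A] Q) : (D.c j).rTensor Q ((D.φ i j h).rTensor Q x) = (D.c i).rTensor Q x := by
  rw [← LinearMap.rTensor_comp_apply]
  congr 2
  ext y
  exact D.comp i j h y

lemma rTensor_surj [IsDirectedOrder ι] [Nonempty ι] (Q : Type u) [AddCommGroup Q] [Module A Q]
    (z : M ⊗[A] Q) : ∃ i, ∃ x : G i ⊗[A] Q, (D.c i).rTensor Q x = z := by
  induction z using TensorProduct.induction_on with
  | zero => exact ⟨Classical.arbitrary ι, 0, map_zero _⟩
  | tmul m q =>
    obtain ⟨i, x, rfl⟩ := D.surj m
    exact ⟨i, x ⊗ₜ q, by simp⟩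
  | add a b ha hb =>
    obtain ⟨i, x, rfl⟩ := ha
    obtain ⟨j, y, rfl⟩ := hb
    obtain ⟨k, hik, hjk⟩ := exists_ge_ge i j
    refine ⟨k, (D.φ i k hik).rTensor Q x + (D.φ j k hjk).rTensor Q y, ?_⟩
    rw [map_add, D.rTensor_comp, D.rTensor_comp]

lemma rTensor_ker [IsDirectedOrder ι] (X : Type u) (i : ι) (w : G i ⊗[A] (X →₀ A))
    (hw : (D.c i).rTensor (X →₀ A) w = 0) :
    ∃ k, ∃ h : i ≤ k, (D.φ i k h).rTensor (X →₀ A) w = 0 := by
  classical
  have nat : ∀ {P : Type v} {P' : Type v'} [AddCommGroup P] [Module A P] [AddCommGroup P']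
      [Module A P'] (a : P →ₗ[A] P') (w : P ⊗[A] (X →₀ A)) (n : X),
      TensorProduct.finsuppScalarRight A A P' X (a.rTensor (X →₀ A) w) n =
        a (TensorProduct.finsuppScalarRight A A P X w n) := by
    intro P P' _ _ _ _ a w n
    induction w using TensorProduct.induction_on with
    | zero => simp
    | tmul m q => simp [TensorProduct.finsuppScalarRight_apply_tmul_apply]
    | add a b ha hb => simp only [map_add, Finsupp.add_apply, ha, hb]
  have nat' : ∀ {P : Type v} {P' : Type v} [AddCommGroup P] [Module A P] [AddCommGroup P']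
      [Module A P'] (a : P →ₗ[A] P') (w : P ⊗[A] (X →₀ A)) (n : X),
      TensorProduct.finsuppScalarRight A A P' X (a.rTensor (X →₀ A) w) n =
        a (TensorProduct.finsuppScalarRight A A P X w n) := by
    intro P P' _ _ _ _ a w n
    induction w using TensorProduct.induction_on with
    | zero => simp
    | tmul m q => simp [TensorProduct.finsuppScalarRight_apply_tmul_apply]
    | add a b ha hb => simp only [map_add, Finsupp.add_apply, ha, hb]
  set W := TensorProduct.finsuppScalarRight A A (G i) X w with hW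
  have h0 : ∀ n, D.c i (W n) = 0 := by
    intro n
    rw [hW, ← nat, hw, map_zero]
    rfl
  have h1 : ∀ n, ∃ j, ∀ k (hk : i ≤ k), j ≤ k → D.φ i k hk (W n) = 0 := fun n => D.ker i _ (h0 n)
  choose j hj using h1
  have h2 : ∃ k, i ≤ k ∧ ∀ n ∈ W.support, j n ≤ k := by
    have : ∀ s : Finset X, ∃ k, i ≤ k ∧ ∀ n ∈ s, j n ≤ k := by
      intro s
      induction s using Finset.induction with
      | empty => exact ⟨i, le_rfl, by simp⟩
      | insert a s _ ih =>
        obtain ⟨k, hk, hk2⟩ := ih
        obtain ⟨l, hl1, hl2⟩ := exists_ge_ge k (j a)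
        refine ⟨l, hk.trans hl1, fun n hn => ?_⟩
        rcases Finset.mem_insert.1 hn with rfl | hn
        · exact hl2
        · exact (hk2 n hn).trans hl1
    exact this _
  obtain ⟨k, hk, hk2⟩ := h2
  refine ⟨k, hk, ?_⟩
  apply (TensorProduct.finsuppScalarRight A A (G k) X).injective
  rw [map_zero]
  ext n
  rw [nat', ← hW]
  by_cases hn : n ∈ W.support
  · rw [hj n k hk (hk2 n hn)]; rfl
  · rw [Finsupp.notMem_support_iff.1 hn, map_zero]; rfl

theorem t1 [IsDirectedOrder ι] [Nonempty ι] {N : Type u} [AddCommGroup N] [Module A N]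
    (h : ∀ i, T1 A (G i) N) : T1 A M N := by
  unfold T1
  rw [injective_iff_map_eq_zero]
  intro z hz
  obtain ⟨i, x, rfl⟩ := D.rTensor_surj _ z
  rw [← comm_lr] at hz
  obtain ⟨k, hk, hk2⟩ := D.rTensor_ker N i _ hz
  have h1 : (syzι A N).lTensor (G k) ((D.φ i k hk).rTensor (Syz A N) x) = 0 := by
    rw [← comm_lr]; exact hk2
  have h2 : (D.φ i k hk).rTensor (Syz A N) x = 0 := by
    have := h k
    unfold T1 at this
    rw [injective_iff_map_eq_zero] at this
    exact this _ h1
  rw [← D.rTensor_comp _ i k hk, h2, map_zero]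

theorem tin [IsDirectedOrder ι] [Nonempty ι] {n : ℕ} :
    ∀ {N : Type u} [AddCommGroup N] [Module A N] (_ : ∀ i, TIn A (G i) n N), TIn A M n N := by
  induction n with
  | zero => intros; trivial
  | succ n ih => intro N _ _ h; exact ⟨D.t1 fun i => (h i).1, ih fun i => (h i).2⟩

theorem ti [IsDirectedOrder ι] [Nonempty ι] {N : Type u} [AddCommGroup N] [Module A N]
    (h : ∀ i, TI A (G i) N) : TI A M N := fun n => D.tin fun i => h i n

end DirColim

/-- quotients by a directed union of submodules. -/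
noncomputable def dirColimQuot {ι : Type w} [Preorder ι] [IsDirectedOrder ι] [Nonempty ι]
    {M : Type v} [AddCommGroup M] [Module A M]
    (S : ι → Submodule A M) (hS : Monotone S) (T : Submodule A M) (hT : T = ⨆ i, S i) :
    DirColim A (fun i => M ⧸ S i) (M ⧸ T) where
  φ i j h := Submodule.mapQ (S i) (S j) LinearMap.id (hS h)
  c i := Submodule.mapQ (S i) T LinearMap.id (hT ▸ le_iSup S i)
  comp i j h x := by
    obtain ⟨x, rfl⟩ := Submodule.mkQ_surjective _ x
    rfl
  surj m := by
    obtain ⟨x, rfl⟩ := Submodule.mkQ_surjective _ m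
    exact ⟨Classical.arbitrary ι, (S _).mkQ x, rfl⟩
  ker i x hx := by
    obtain ⟨x, rfl⟩ := Submodule.mkQ_surjective _ x
    have h1 : x ∈ T := by
      have : T.mkQ x = 0 := hx
      simpa using this
    rw [hT, Submodule.mem_iSup_of_directed S (hS.directed_le)] at h1
    obtain ⟨j, hj⟩ := h1
    refine ⟨j, fun k hk hjk => ?_⟩
    have : (S k).mkQ x = 0 := by simpa using hS hjk hj
    exact this

end Crest.Agent.R188.Prf
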