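/-
R188, block A5 (helper46): perfect rings of characteristic `p` are Tor-independent.
-/
import Crest.Agent.R188.PrfColim
import Crest.Agent.R188.PrfPerf

set_option autoImplicit false
set_option linter.unusedSectionVars false

namespace Crest.Agent.R188.Prf

open TensorProduct Function

universe u v w

variable {p : ℕ} [hp : Fact p.Prime] {A : Type u} [CommRing A]

section Step

variable {B : Type v} [CommRing B] [Algebra A B]

/-- multiplication by `b` on an `A`-algebra. -/
noncomputable def mulR (A : Type u) [CommRing A] {B : Type v} [CommRing B] [Algebra A B] (b : B) :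
    B →ₗ[A] B := LinearMap.mulRight A b

@[simp] lemma mulR_apply (b x : B) : mulR A b x = x * b := rfl

lemma rTensor_mulR {C : Type w} [CommRing C] [Algebra A C] (b : B) (x : B ⊗[A] C) :
    (mulR A b).rTensor C x = x * (b ⊗ₜ 1) := by
  induction x using TensorProduct.induction_on with
  | zero => simp
  | tmul m c => simp
  | add x y hx hy => rw [map_add, hx, hy, add_mul]

/-- `(f^{1/p^∞})` is the colimit of copies of `B`. -/
noncomputable def dirColimPId (hB : IsPerf p B) (f : B) :
    DirColim A (fun _ : ℕ => B) (hB.pId f) where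
  φ n m _ := mulR A (hB.rtn m f ^ (p ^ (m - n) - 1))
  c n := LinearMap.codRestrict ((hB.pId f).restrictScalars A) (mulR A (hB.rtn n f))
    (fun x => Ideal.mul_mem_left _ _ (hB.rtn_mem_pId n f))
  comp n m hnm x := by
    apply Subtype.ext
    show x * hB.rtn m f ^ (p ^ (m - n) - 1) * hB.rtn m f = x * hB.rtn n f
    rw [mul_assoc, ← pow_succ, Nat.sub_add_cancel (pow_pos hp.out.pos _), hB.rtn_pow_of_le hnm]
  surj := by
    rintro ⟨m, hm⟩
    obtain ⟨n, b, rfl⟩ := hB.mem_pId.1 hm
    exact ⟨n, b, rfl⟩
  ker n x hx := by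
    refine ⟨n + 1, fun k hk hnk => ?_⟩
    show x * hB.rtn k f ^ (p ^ (k - n) - 1) = 0
    have hx' : x * hB.rtn n f = 0 := congrArg Subtype.val hx
    refine hB.mul_rtn_pow_eq_zero ?_ hx'
    have h1 : 1 < p ^ (k - n) := Nat.one_lt_pow (by omega) hp.out.one_lt
    omega

/-- `(f^{1/p^∞}) ⊗ C → B ⊗ C` is injective. -/
lemma pId_inj (hA : IsPerf p A) (hB : IsPerf p B) {C : Type u} [CommRing C] [Algebra A C]
    (hC : IsPerf p C) (f : B) :
    Injective (((hB.pId f).restrictScalars A).subtype.rTensor C) := by
  rw [injective_iff_map_eq_zero]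
  intro z hz
  have hD : IsPerf p (B ⊗[A] C) := hA.tensor hB hC
  let D : DirColim A (fun _ : ℕ => B) ((hB.pId f).restrictScalars A) := dirColimPId hB f
  obtain ⟨n, x, rfl⟩ := D.rTensor_surj C z
  have h1 : x * (hB.rtn n f ⊗ₜ[A] (1 : C)) = 0 := by
    rw [← rTensor_mulR, ← hz, ← LinearMap.rTensor_comp_apply]
    rfl
  have h2 : x * hD.rtn n (f ⊗ₜ[A] (1 : C)) = 0 := by
    rw [← h1]
    congr 1
    exact (hB.map_rtn hD (Algebra.TensorProduct.includeLeftRingHom (R := A) (A := B) (B := C))
      n f).symm
  have h3 := hD.mul_rtn_pow_eq_zero (k := n + 1) (j := p ^ (n + 1 - n) - 1)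
    (by
      have h1 : 1 < p ^ (n + 1 - n) := Nat.one_lt_pow (by omega) hp.out.one_lt
      omega) h2
  have h4 : (D.φ n (n + 1) (Nat.le_succ n)).rTensor C x = 0 := by
    show (mulR A (hB.rtn (n + 1) f ^ (p ^ (n + 1 - n) - 1))).rTensor C x = 0
    rw [rTensor_mulR, ← h3]
    congr 1
    rw [show (hD.rtn (n + 1) (f ⊗ₜ[A] (1 : C))) = (hB.rtn (n + 1) f) ⊗ₜ[A] (1 : C) from
      (hB.map_rtn hD (Algebra.TensorProduct.includeLeftRingHom (R := A) (A := B) (B := C))
      (n + 1) f).symm, Algebra.TensorProduct.tmul_pow, one_pow]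
  rw [← D.rTensor_comp C n (n + 1) (Nat.le_succ n), h4, map_zero]

/-- one step: killing `f^{1/p^∞}`. -/
theorem TI_step (hA : IsPerf p A) (hB : IsPerf p B) {C : Type u} [CommRing C] [Algebra A C]
    (hC : IsPerf p C) {B₂ : Type w} [CommRing B₂] [Algebra A B₂] (g : B →ₐ[A] B₂)
    (hg : Surjective g) (f : B) (hker : RingHom.ker g = hB.pId f) (h : TI A B C) :
    TI A B₂ C := by
  have h1 : TI A ((hB.pId f).restrictScalars A) C :=
    (dirColimPId (A := A) hB f : DirColim A (fun _ : ℕ => B) ((hB.pId f).restrictScalars A)).ti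
      fun _ => h
  refine TI.quot (f := ((hB.pId f).restrictScalars A).subtype) (g := g.toLinearMap) h1 h hg ?_
    (Submodule.injective_subtype _) (pId_inj hA hB hC f)
  intro x
  constructor
  · intro hx
    have : x ∈ RingHom.ker g := hx
    rw [hker] at this
    exact ⟨⟨x, this⟩, rfl⟩
  · rintro ⟨⟨y, hy⟩, rfl⟩
    have : y ∈ RingHom.ker g := by rw [hker]; exact hy
    exact this

end Step

section Main

variable {B : Type v} [CommRing B] [Algebra A B]

/-- the ideal generated by all `x^{1/p^n}`, `x ∈ s`. -/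
noncomputable def sId (hB : IsPerf p B) (s : Set B) : Ideal B := ⨆ x ∈ s, hB.pId x

lemma sId_mono (hB : IsPerf p B) {s t : Set B} (hst : s ⊆ t) : sId hB s ≤ sId hB t :=
  biSup_mono hst

lemma sId_insert (hB : IsPerf p B) (x : B) (s : Set B) :
    sId hB (insert x s) = hB.pId x ⊔ sId hB s := iSup_insert

lemma sId_empty (hB : IsPerf p B) : sId hB ∅ = ⊥ := by simp [sId]

lemma quot_sId (hB : IsPerf p B) (s : Finset B) : IsPerf p (B ⧸ sId hB (s : Set B)) := by
  classical
  induction s using Finset.induction with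
  | empty =>
    rw [Finset.coe_empty, sId_empty]
    exact hB.quot ⊥ (fun x hx => by
      rw [Ideal.mem_bot] at hx ⊢
      exact hB.red x hx)
  | insert a s _ ih =>
    rw [Finset.coe_insert]
    have hle : sId hB (s : Set B) ≤ sId hB (insert a (s : Set B)) :=
      sId_mono hB (Set.subset_insert _ _)
    refine hB.quot _ fun x hx => ?_
    have hk : ∀ y : B, y ∈ sId hB (insert a (s : Set B)) ↔
        Ideal.Quotient.mk (sId hB (s : Set B)) y ∈
          ih.pId (Ideal.Quotient.mk (sId hB (s : Set B)) a) := by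
      intro y
      rw [← hB.pId_map ih, ← Ideal.mem_comap,
        Ideal.comap_map_of_surjective _ Ideal.Quotient.mk_surjective, sId_insert,
        ← RingHom.ker_eq_comap_bot, Ideal.mk_ker]
    rw [hk] at hx ⊢
    rw [map_pow] at hx
    exact ih.pId_radical hx

theorem TI_quot_sId (hA : IsPerf p A) (hB : IsPerf p B) {C : Type u} [CommRing C] [Algebra A C]
    (hC : IsPerf p C) (h : TI A B C) (s : Finset B) : TI A (B ⧸ sId hB (s : Set B)) C := by
  classical
  induction s using Finset.induction with
  | empty =>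
    rw [Finset.coe_empty, sId_empty]
    exact h.congr (AlgEquiv.quotientBot A B).symm.toLinearEquiv
  | insert a s _ ih =>
    rw [Finset.coe_insert]
    have hle : sId hB (s : Set B) ≤ sId hB (insert a (s : Set B)) :=
      sId_mono hB (Set.subset_insert _ _)
    have hP := quot_sId hB s
    refine TI_step hA hP hC (Ideal.Quotient.factorₐ A hle) (Ideal.Quotient.factor_surjective hle)
      (Ideal.Quotient.mk _ a) ?_ ih
    have : RingHom.ker (Ideal.Quotient.factorₐ A hle) = RingHom.ker (Ideal.Quotient.factor hle) :=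
      rfl
    rw [this, Ideal.Quotient.factor_ker, sId_insert, Ideal.map_sup, Ideal.map_quotient_self,
      sup_bot_eq, hB.pId_map hP]

/-- **Perfect rings are Tor-independent.** -/
theorem TI_perfect (hA : IsPerf p A) (hB : IsPerf p B) {C : Type u} [CommRing C] [Algebra A C]
    (hC : IsPerf p C) : TI A B C := by
  classical
  let R := MonoidAlgebra A B
  have hR : IsPerf p R := hA.monoidAlgebra B
    ⟨fun x y hxy => hB.pow_inj hxy, fun x => ⟨hB.rt x, hB.rt_pow x⟩⟩
  let π : R →ₐ[A] B := MonoidAlgebra.lift A B B (MonoidHom.id B)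
  have hπ : Surjective π := fun b =>
    ⟨MonoidAlgebra.single b 1, by
      show (MonoidAlgebra.lift A B B (MonoidHom.id B)) (MonoidAlgebra.single b 1) = b
      rw [MonoidAlgebra.lift_single, one_smul]; rfl⟩
  have hRC : TI A R C := TI_of_flat C
  let I : Ideal R := RingHom.ker π
  have hI : ∀ x ∈ I, hR.pId x ≤ I := by
    intro x hx
    refine Ideal.span_le.2 ?_
    rintro _ ⟨n, rfl⟩
    show π.toRingHom (hR.rtn n x) = 0
    rw [hR.map_rtn hB]
    have : π.toRingHom x = 0 := hx
    rw [this, IsPerf.rtn_zero]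
  let S : Finset I → Submodule A R := fun s =>
    (sId hR ((s.image Subtype.val : Finset R) : Set R)).restrictScalars A
  have hS : Monotone S := by
    intro s t hst
    exact sId_mono hR (Finset.coe_subset.2 (Finset.image_subset_image hst))
  have hT : I.restrictScalars A = ⨆ s, S s := by
    apply le_antisymm
    · intro x hx
      have h1 : x ∈ S {⟨x, hx⟩} := by
        show x ∈ sId hR _
        simp only [Finset.image_singleton, Finset.coe_singleton, sId, Set.mem_singleton_iff,
          iSup_iSup_eq_left]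
        exact hR.self_mem_pId x
      exact (le_iSup S _) h1
    · refine iSup_le fun s => ?_
      intro x hx
      have hx' : x ∈ sId hR ((s.image Subtype.val : Finset R) : Set R) := hx
      have h2 : sId hR ((s.image Subtype.val : Finset R) : Set R) ≤ I := by
        refine iSup₂_le fun y hy => ?_
        simp only [Finset.coe_image, Set.mem_image, Finset.mem_coe, Subtype.exists,
          exists_and_right, exists_eq_right] at hy
        exact hI y hy.1
      exact h2 hx'
  have h1 : ∀ s, TI A (R ⧸ S s) C := fun s =>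
    (TI_quot_sId hA hR hC hRC (s.image Subtype.val)).congr
      (Submodule.Quotient.restrictScalarsEquiv A _).symm
  have h2 : TI A (R ⧸ I.restrictScalars A) C := (dirColimQuot S hS _ hT).ti h1
  have h3 : I.restrictScalars A = LinearMap.ker π.toLinearMap := rfl
  rw [h3] at h2
  exact h2.congr (LinearMap.quotKerEquivOfSurjective π.toLinearMap hπ)

end Main

end Crest.Agent.R188.Prf
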