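/-
R188, block UB (helper985): exactness of the monomial Koszul strands, abstract form.

`M` a cancellative commutative monoid of exponents, `k[M]` its monoid algebra, `E i : M`
(`i : Fin s`) the exponents of the block, `S q ⊆ M` sets (degree conditions).  The graded Koszul
complex of `FlgKos` with terms "supported in `S q`" is exact.
-/
import Crest.Agent.R188.FlgKos

set_option autoImplicit false
set_option linter.unusedSectionVars false
set_option linter.unusedVariables false

namespace Crest.Agent.R188.UB

open AddMonoidAlgebra Finset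
open Crest.Agent.R188.Flg

section Filt

variable {k : Type*} [CommRing k] {M : Type*} [AddCommMonoid M]

open Classical in
/-- the part of `x` supported in `Q`. -/
noncomputable def filt (Q : M → Prop) (x : k[M]) : k[M] := ofCoeff (x.coeff.filter Q)

open Classical in
lemma coeff_filt (Q : M → Prop) (x : k[M]) (a : M) :
    (filt Q x).coeff a = if Q a then x.coeff a else 0 := by
  unfold filt
  rw [coeff_ofCoeff, Finsupp.filter_apply]

lemma filt_zero (Q : M → Prop) : filt Q (0 : k[M]) = 0 := by
  classical
  ext a; rw [coeff_filt]; simp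

lemma filt_add (Q : M → Prop) (x y : k[M]) : filt Q (x + y) = filt Q x + filt Q y := by
  classical
  ext a
  simp only [coeff_add, Finsupp.add_apply, coeff_filt]
  split_ifs <;> simp

lemma filt_smul (Q : M → Prop) (c : k) (x : k[M]) : filt Q (c • x) = c • filt Q x := by
  classical
  ext a
  simp only [coeff_smul, Finsupp.smul_apply, coeff_filt]
  split_ifs <;> simp

/-- `filt` as a linear map. -/
noncomputable def filtHom (Q : M → Prop) : k[M] →ₗ[k] k[M] where
  toFun := filt Q
  map_add' := filt_add Q
  map_smul' := fun c x => filt_smul Q c x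

@[simp] lemma filtHom_apply (Q : M → Prop) (x : k[M]) : filtHom Q x = filt Q x := rfl

lemma filt_single_pos (Q : M → Prop) {a : M} (ha : Q a) (c : k) :
    filt Q (single a c) = single a c := by
  classical
  ext b
  rw [coeff_filt, coeff_single, Finsupp.single_apply]
  by_cases h : a = b
  · subst h; rw [if_pos ha]
  · rw [if_neg h, ite_self]

lemma filt_single_neg (Q : M → Prop) {a : M} (ha : ¬ Q a) (c : k) :
    filt Q (single a c) = 0 := by
  classical
  ext b
  rw [coeff_filt, coeff_single, Finsupp.single_apply]
  by_cases h : a = b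
  · subst h; rw [if_neg ha]; simp
  · rw [if_neg h, ite_self]; simp

/-- elements supported in a set. -/
def sup (k : Type*) [CommRing k] {M : Type*} [AddCommMonoid M] (S : Set M) :
    Submodule k k[M] where
  carrier := {x | ∀ a, x.coeff a ≠ 0 → a ∈ S}
  zero_mem' := by intro a ha; simp at ha
  add_mem' := by
    intro x y hx hy a ha
    rw [coeff_add, Finsupp.add_apply] at ha
    by_contra hc
    have h1 : x.coeff a = 0 := by by_contra h; exact hc (hx a h)
    have h2 : y.coeff a = 0 := by by_contra h; exact hc (hy a h)
    rw [h1, h2, add_zero] at ha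
    exact ha rfl
  smul_mem' := by
    intro c x hx a ha
    refine hx a fun h => ha ?_
    rw [coeff_smul, Finsupp.smul_apply, h, smul_zero]

lemma mem_sup {S : Set M} {x : k[M]} : x ∈ sup k S ↔ ∀ a, x.coeff a ≠ 0 → a ∈ S := Iff.rfl

variable [IsCancelAdd M]

lemma filt_single_mul (Q : M → Prop) (E : M) (x : k[M]) :
    filt Q (single E 1 * x) = single E 1 * filt (fun a => Q (E + a)) x := by
  classical
  ext c
  by_cases h : ∃ d, c = E + d
  · obtain ⟨d, rfl⟩ := h
    rw [coeff_filt, coeff_single_mul_add, coeff_single_mul_add, coeff_filt]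
    split_ifs <;> simp
  · have h' : ∀ d, E + d ≠ c := fun d hd => h ⟨d, hd.symm⟩
    rw [coeff_filt, coeff_single_mul_of_forall_add_ne _ _ h', coeff_single_mul_of_forall_add_ne _ _ h',
      ite_self]

lemma single_mul_divOf (E : M) (x : k[M]) (hx : ∀ a, x.coeff a ≠ 0 → ∃ d, a = E + d) :
    single E 1 * x.divOf E = x := by
  classical
  ext c
  by_cases h : ∃ d, c = E + d
  · obtain ⟨d, rfl⟩ := h
    rw [coeff_single_mul_add, one_mul, coeff_divOf]
  · have h' : ∀ d, E + d ≠ c := fun d hd => h ⟨d, hd.symm⟩
    rw [coeff_single_mul_of_forall_add_ne _ _ h']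
    by_contra hc
    exact h (hx c (fun e => hc e.symm))

lemma single_mul_injective (E : M) {x y : k[M]} (h : single E 1 * x = single E 1 * y) : x = y := by
  have h1 := of'_mul_divOf (k := k) E x
  have h2 := of'_mul_divOf (k := k) E y
  rw [of'_apply] at h1 h2
  rw [← h1, ← h2, h]

end Filt

section Strand

variable {k : Type*} [CommRing k] {M : Type*} [AddCommMonoid M] [IsCancelAdd M] {s : ℕ}

/-- combinatorial input of a strand. -/
structure StrandData (E : Fin s → M) (S : ℕ → Set M) (R : Fin s → M → Prop) : Prop where
  down : ∀ i q, ∀ a, E i + a ∈ S q → a ∈ S (q + 1)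
  div : ∀ (B : Finset (Fin s)) (i : Fin s) (a : M), i ∉ B → a ∈ S B.card →
    R i ((∑ j ∈ B, E j) + a) → ∃ d, a = E i + d
  ex : ∀ (B : Finset (Fin s)) (a : M), a ∈ S B.card → ∃! i, R i ((∑ j ∈ B, E j) + a)

variable {E : Fin s → M} {S : ℕ → Set M} {R : Fin s → M → Prop}

/-- the absolute projector. -/
noncomputable def pr (E : Fin s → M) (R : Fin s → M → Prop) (i : Fin s) (B : Finset (Fin s))
    (x : k[M]) : k[M] := filt (fun a => R i ((∑ j ∈ B, E j) + a)) x

omit [IsCancelAdd M] in
lemma sum_pr (h : StrandData E S R) (B : Finset (Fin s)) {x : k[M]} (hx : x ∈ sup k (S B.card)) :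
    ∑ i, pr E R i B x = x := by
  classical
  ext a
  rw [coeff_sum, Finsupp.finsetSum_apply]
  by_cases ha : x.coeff a = 0
  · rw [ha]
    refine Finset.sum_eq_zero fun i _ => ?_
    unfold pr
    rw [coeff_filt, ha, ite_self]
  · obtain ⟨i, hi, hu⟩ := h.ex B a (hx a ha)
    rw [Finset.sum_eq_single_of_mem i (Finset.mem_univ i)]
    · unfold pr
      rw [coeff_filt, if_pos hi]
    · intro j _ hj
      unfold pr
      rw [coeff_filt, if_neg (fun hc => hj (hu j hc))]

lemma pr_single_mul (i j : Fin s) (B : Finset (Fin s)) (hj : j ∉ B) (x : k[M]) :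
    pr E R i B (single (E j) 1 * x) = single (E j) 1 * pr E R i (insert j B) x := by
  unfold pr
  rw [filt_single_mul]
  congr 2
  funext a
  rw [Finset.sum_insert hj, add_left_comm, ← add_assoc]

lemma single_mul_divOf_pr (h : StrandData E S R) (i : Fin s) (B : Finset (Fin s)) (hi : i ∉ B)
    {x : k[M]} (hx : x ∈ sup k (S B.card)) :
    single (E i) 1 * (pr E R i B x).divOf (E i) = pr E R i B x := by
  classical
  apply single_mul_divOf
  intro a ha
  unfold pr at ha
  rw [coeff_filt] at ha
  by_cases hR : R i ((∑ j ∈ B, E j) + a)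
  · rw [if_pos hR] at ha
    exact h.div B i a hi (hx a ha) hR
  · rw [if_neg hR] at ha
    exact absurd rfl ha

/-- **Exactness of the monomial Koszul strand.** -/
theorem StrandData.exact (h : StrandData E S R) (q : ℕ) (f : Finset (Fin s) → k[M])
    (hf1 : ∀ B, f B ∈ sup k (S q)) (hf2 : ∀ B, B.card ≠ q → f B = 0)
    (hd : kD (fun i => (single (E i) 1 : k[M])) f = 0) :
    ∃ f' : Finset (Fin s) → k[M], (∀ B, f' B ∈ sup k (S (q + 1))) ∧
      (∀ B, B.card ≠ q + 1 → f' B = 0) ∧ kD (fun i => (single (E i) 1 : k[M])) f' = f := by
  classical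
  have hfB : ∀ B, f B ∈ sup k (S B.card) := by
    intro B
    by_cases hB : B.card = q
    · rw [hB]; exact hf1 B
    · rw [hf2 B hB]; exact zero_mem _
  set g : Fin s → k[M] := fun i => (single (E i) 1 : k[M]) with hg
  -- the homotopy
  let H : Fin s → Finset (Fin s) → k[M] := fun i B => if i ∈ B then
    sg k[M] i (B.erase i) • (pr E R i (B.erase i) (f (B.erase i))).divOf (E i) else 0
  have hsg : ∀ (i : Fin s) (B : Finset (Fin s)), sg k[M] i B * sg k[M] i B = 1 := by
    intro i B
    unfold sg
    rw [← mul_pow, neg_mul_neg, one_mul, one_pow]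
  -- the signs are scalars of `k`
  have hsgk : ∀ (i : Fin s) (B : Finset (Fin s)) (x : k[M]),
      sg k[M] i B * x = (sg k i B) • x := by
    intro i B x
    unfold sg
    rw [Algebra.smul_def, map_pow, map_neg, map_one]
  have hprs : ∀ (i : Fin s) (B : Finset (Fin s)) (j : Fin s) (B' : Finset (Fin s)) (x : k[M]),
      pr E R i B (sg k[M] j B' * x) = sg k[M] j B' * pr E R i B x := by
    intro i B j B' x
    rw [hsgk, hsgk]
    unfold pr
    rw [filt_smul]
  have hprsum : ∀ (i : Fin s) (B : Finset (Fin s)) (t : Finset (Fin s)) (x : Fin s → k[M]),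
      pr E R i B (∑ j ∈ t, x j) = ∑ j ∈ t, pr E R i B (x j) := by
    intro i B t x
    unfold pr
    exact map_sum (filtHom (k := k) (fun a => R i ((∑ j ∈ B, E j) + a))) x t
  -- the cycle condition, projected
  have hcyc : ∀ (i : Fin s) (B : Finset (Fin s)),
      ∑ j ∈ Bᶜ, sg k[M] j B * (g j * pr E R i (insert j B) (f (insert j B))) = 0 := by
    intro i B
    have h1 := congrFun hd B
    rw [kD_apply, Pi.zero_apply] at h1
    have h2 := congrArg (pr E R i B) h1
    rw [hprsum] at h2
    have h3 : pr E R i B (0 : k[M]) = 0 := filt_zero _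
    rw [h3] at h2
    rw [← h2]
    refine Finset.sum_congr rfl fun j hj => ?_
    rw [Finset.mem_compl] at hj
    rw [smul_eq_mul, mul_assoc, hprs, pr_single_mul i j B hj]
  -- `kD (H i) = pr i f`
  have hkey : ∀ (i : Fin s) (B : Finset (Fin s)), kD g (H i) B = pr E R i B (f B) := by
    intro i B
    rw [kD_apply]
    by_cases hi : i ∈ B
    · -- multiply by `g i`
      apply single_mul_injective (E i)
      have hB : insert i (B.erase i) = B := Finset.insert_erase hi
      have hc := hcyc i (B.erase i)
      have hcompl : (B.erase i)ᶜ = insert i Bᶜ := by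
        ext j
        simp only [mem_compl, mem_erase, mem_insert, not_and_or, not_not, ne_eq]
      rw [hcompl, Finset.sum_insert (by simp [hi]), hB] at hc
      -- left side
      have hl : single (E i) 1 * ∑ j ∈ Bᶜ, (sg k[M] j B * g j) • H i (insert j B) =
          - ∑ j ∈ Bᶜ, sg k[M] i (B.erase i) * (sg k[M] j (B.erase i) *
            (g j * pr E R i (insert j (B.erase i)) (f (insert j (B.erase i))))) := by
        rw [Finset.mul_sum, ← Finset.sum_neg_distrib]
        refine Finset.sum_congr rfl fun j hj => ?_
        rw [Finset.mem_compl] at hj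
        have hij : i ≠ j := fun e => hj (e ▸ hi)
        have he : (insert j B).erase i = insert j (B.erase i) := by
          rw [Finset.erase_insert_of_ne (fun e => hij e.symm)]
        have hH : H i (insert j B) = sg k[M] i (insert j (B.erase i)) •
            (pr E R i (insert j (B.erase i)) (f (insert j (B.erase i)))).divOf (E i) := by
          simp only [H]
          rw [if_pos (Finset.mem_insert_of_mem hi), he]
        have hni : i ∉ insert j (B.erase i) := by simp [hij]
        have h4 := single_mul_divOf_pr (k := k) h i (insert j (B.erase i)) hni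
          (hfB (insert j (B.erase i)))
        have h5 := sg_comm (R := k[M]) (B := B.erase i) (i := j) (j := i)
          (fun hc => hj (Finset.mem_of_mem_erase hc)) (by simp) (fun e => hij e.symm)
        rw [hB] at h5
        rw [hH, smul_eq_mul, smul_eq_mul]
        have h6 : sg k[M] j B * g j * (sg k[M] i (insert j (B.erase i)) *
            (pr E R i (insert j (B.erase i)) (f (insert j (B.erase i)))).divOf (E i)) =
            (sg k[M] j B * sg k[M] i (insert j (B.erase i))) * (g j *
            (pr E R i (insert j (B.erase i)) (f (insert j (B.erase i)))).divOf (E i)) := by ring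
        rw [h6]
        have h7 : sg k[M] j B * sg k[M] i (insert j (B.erase i)) =
            - (sg k[M] i (B.erase i) * sg k[M] j (B.erase i)) := by
          -- multiply `h5` by signs
          have e1 : sg k[M] j (B.erase i) * (sg k[M] j (B.erase i) * sg k[M] i (insert j (B.erase i)))
              = sg k[M] i (insert j (B.erase i)) := by rw [← mul_assoc, hsg, one_mul]
          rw [← e1, h5]
          have : sg k[M] j B * (sg k[M] j (B.erase i) * -(sg k[M] i (B.erase i) * sg k[M] j B)) =
              - (sg k[M] j B * sg k[M] j B) * (sg k[M] i (B.erase i) * sg k[M] j (B.erase i)) := by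
            ring
          rw [this, hsg]; ring
        rw [h7]
        have h8 : single (E i) 1 * (-(sg k[M] i (B.erase i) * sg k[M] j (B.erase i)) * (g j *
            (pr E R i (insert j (B.erase i)) (f (insert j (B.erase i)))).divOf (E i))) =
            -(sg k[M] i (B.erase i) * (sg k[M] j (B.erase i) * (g j * (single (E i) 1 *
            (pr E R i (insert j (B.erase i)) (f (insert j (B.erase i)))).divOf (E i))))) := by ring
        rw [h8, h4]
      rw [hl, ← Finset.mul_sum]
      have h9 : ∑ j ∈ Bᶜ, sg k[M] j (B.erase i) *
            (g j * pr E R i (insert j (B.erase i)) (f (insert j (B.erase i)))) =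
          - (sg k[M] i (B.erase i) * (g i * pr E R i B (f B))) := by
        rw [eq_neg_iff_add_eq_zero, add_comm]
        exact hc
      rw [h9, mul_neg, neg_neg, ← mul_assoc, hsg, one_mul]
    · rw [Finset.sum_eq_single_of_mem i (Finset.mem_compl.2 hi)]
      · have hH : H i (insert i B) = sg k[M] i B • (pr E R i B (f B)).divOf (E i) := by
          simp only [H]
          rw [if_pos (Finset.mem_insert_self i B), Finset.erase_insert hi]
        rw [hH, smul_eq_mul, smul_eq_mul]
        have h4 := single_mul_divOf_pr (k := k) h i B hi (hfB B)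
        have : sg k[M] i B * g i * (sg k[M] i B * (pr E R i B (f B)).divOf (E i)) =
            (sg k[M] i B * sg k[M] i B) * (g i * (pr E R i B (f B)).divOf (E i)) := by ring
        rw [this, hsg, one_mul, h4]
      · intro j hj hji
        have : i ∉ insert j B := by
          rw [Finset.mem_insert, not_or]
          exact ⟨fun e => hji e.symm, hi⟩
        simp only [H, if_neg this, smul_zero]
  refine ⟨∑ i, H i, fun B => ?_, fun B hB => ?_, ?_⟩
  · rw [Finset.sum_apply]
    refine Submodule.sum_mem _ fun i _ => ?_
    by_cases hi : i ∈ B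
    · simp only [H, if_pos hi]
      rw [smul_eq_mul, hsgk]
      refine Submodule.smul_mem _ _ ?_
      intro a ha
      rw [coeff_divOf] at ha
      unfold pr at ha
      rw [coeff_filt] at ha
      have h1 : (f (B.erase i)).coeff (E i + a) ≠ 0 := by
        intro h0
        rw [h0, ite_self] at ha
        exact ha rfl
      exact h.down i q a (hf1 _ _ h1)
    · simp only [H, if_neg hi]
      exact zero_mem _
  · rw [Finset.sum_apply]
    refine Finset.sum_eq_zero fun i _ => ?_
    by_cases hi : i ∈ B
    · simp only [H, if_pos hi]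
      have : (B.erase i).card ≠ q := by
        rw [Finset.card_erase_of_mem hi]
        have := Finset.card_pos.2 ⟨i, hi⟩
        omega
      rw [hf2 _ this]
      have : pr E R i (B.erase i) (0 : k[M]) = 0 := filt_zero _
      rw [this, zero_divOf, smul_zero]
    · simp only [H, if_neg hi]
  · rw [map_sum]
    funext B
    rw [Finset.sum_apply]
    simp only [hkey]
    by_cases hB : B.card = q
    · apply sum_pr h B
      rw [hB]
      exact hf1 B
    · rw [hf2 B hB]
      refine Finset.sum_eq_zero fun i _ => ?_
      exact filt_zero _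

end Strand

end Crest.Agent.R188.UB
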