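/-
R188, block UB (helper985): the concrete exponents.

`DD p` = the nonnegative `n / p^e` in `ℝ`; `Ex s p = (Σ k, Fin (s k)) → DD p`; block degrees
`deg k : Ex s p →+ ℝ`; `Sν ν = {a | ∀ k, ν k ≤ deg k a}`; the strand data of a block `k` with
arbitrary step `σ ∈ DD p`.
-/
import Crest.Agent.R188.UB1

set_option autoImplicit false
set_option linter.unusedSectionVars false
set_option linter.unusedVariables false

namespace Crest.Agent.R188.UB

open Finset

/-- nonnegative elements of `ℤ[1/p]`, inside `ℝ`. -/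
def DD (p : ℕ) : AddSubmonoid ℝ where
  carrier := {x | ∃ n e : ℕ, x * (p : ℝ) ^ e = n}
  zero_mem' := ⟨0, 0, by simp⟩
  add_mem' := by
    rintro x y ⟨n, e, hx⟩ ⟨m, f, hy⟩
    refine ⟨n * p ^ f + m * p ^ e, e + f, ?_⟩
    push_cast
    rw [← hx, ← hy, pow_add]
    ring

section DD

variable {p : ℕ}

lemma mem_DD {x : ℝ} : x ∈ DD p ↔ ∃ n e : ℕ, x * (p : ℝ) ^ e = n := Iff.rfl

lemma natCast_mem_DD (n : ℕ) : (n : ℝ) ∈ DD p := ⟨n, 0, by simp⟩

variable [hp : Fact p.Prime]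

include hp in
lemma p_pos : (0 : ℝ) < p := by exact_mod_cast hp.out.pos

lemma DD_nonneg {x : ℝ} (hx : x ∈ DD p) : 0 ≤ x := by
  obtain ⟨n, e, h⟩ := hx
  have h1 : (0 : ℝ) < (p : ℝ) ^ e := pow_pos p_pos e
  have h2 : (0 : ℝ) ≤ x * (p : ℝ) ^ e := by rw [h]; positivity
  exact nonneg_of_mul_nonneg_left h2 h1

lemma DD_sub {x y : ℝ} (hx : x ∈ DD p) (hy : y ∈ DD p) (h : y ≤ x) : x - y ∈ DD p := by
  obtain ⟨n, e, hx⟩ := hx
  obtain ⟨m, f, hy⟩ := hy
  have hle : m * p ^ e ≤ n * p ^ f := by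
    have h1 : ((m * p ^ e : ℕ) : ℝ) ≤ ((n * p ^ f : ℕ) : ℝ) := by
      push_cast
      rw [← hx, ← hy]
      have h2 : (0 : ℝ) ≤ (p : ℝ) ^ e * (p : ℝ) ^ f := by
        have := p_pos (p := p)
        positivity
      nlinarith [mul_le_mul_of_nonneg_right h h2]
    exact_mod_cast h1
  refine ⟨n * p ^ f - m * p ^ e, e + f, ?_⟩
  rw [Nat.cast_sub hle]
  push_cast
  rw [← hx, ← hy, pow_add]
  ring

lemma DD_mul_p_inv {x : ℝ} (hx : x ∈ DD p) : x / p ∈ DD p := by
  obtain ⟨n, e, hx⟩ := hx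
  refine ⟨n, e + 1, ?_⟩
  have := p_pos (p := p)
  rw [← hx, pow_succ]
  field_simp

lemma DD_div_pow {x : ℝ} (hx : x ∈ DD p) (m : ℕ) : x / (p : ℝ) ^ m ∈ DD p := by
  induction m with
  | zero => simpa using hx
  | succ m ih =>
    have := DD_mul_p_inv ih
    rwa [div_div, ← pow_succ] at this

end DD

/-- exponents: functions on the generators of all blocks with values in `ℤ[1/p]_{≥ 0}`. -/
abbrev Ex {κ : Type} (s : κ → ℕ) (p : ℕ) : Type := (Σ k, Fin (s k)) → DD p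

section Ex

variable {κ : Type} {s : κ → ℕ} {p : ℕ}

/-- block degree -/
def deg (k : κ) : Ex s p →+ ℝ where
  toFun a := ∑ i : Fin (s k), (a ⟨k, i⟩ : ℝ)
  map_zero' := by simp
  map_add' a b := by simp [Finset.sum_add_distrib]

lemma deg_apply (k : κ) (a : Ex s p) : deg k a = ∑ i : Fin (s k), (a ⟨k, i⟩ : ℝ) := rfl

/-- exponents of degree `≥ ν`. -/
def Sν (ν : κ → ℝ) : Set (Ex s p) := {a | ∀ k, ν k ≤ deg k a}

lemma mem_Sν {ν : κ → ℝ} {a : Ex s p} : a ∈ Sν ν ↔ ∀ k, ν k ≤ deg k a := Iff.rfl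

variable [hp : Fact p.Prime]

lemma deg_nonneg (k : κ) (a : Ex s p) : 0 ≤ deg k a := by
  rw [deg_apply]
  exact Finset.sum_nonneg fun i _ => DD_nonneg (a ⟨k, i⟩).2

lemma Sν_up (ν : κ → ℝ) : ∀ a ∈ (Sν ν : Set (Ex s p)), ∀ b, b + a ∈ (Sν ν : Set (Ex s p)) := by
  intro a ha b k
  rw [map_add]
  have := deg_nonneg k b
  have := ha k
  linarith

lemma Sν_anti {ν μ : κ → ℝ} (h : ν ≤ μ) : (Sν μ : Set (Ex s p)) ⊆ Sν ν :=
  fun _ ha k => (h k).trans (ha k)

variable [DecidableEq κ]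

/-- the exponent of the `i`-th generator of block `k` to the power `σ`. -/
def Eσ (σ : DD p) (k : κ) (i : Fin (s k)) : Ex s p := Pi.single ⟨k, i⟩ σ

lemma Eσ_same (σ : DD p) (k : κ) (i : Fin (s k)) : Eσ σ k i ⟨k, i⟩ = σ := by
  simp [Eσ]

lemma Eσ_ne (σ : DD p) (k : κ) {i j : Fin (s k)} (h : j ≠ i) : Eσ σ k i ⟨k, j⟩ = 0 := by
  unfold Eσ
  rw [Pi.single_eq_of_ne]
  intro e
  apply h
  have := (Sigma.mk.inj_iff.1 e).2
  exact eq_of_heq this

lemma deg_Eσ_same (σ : DD p) (k : κ) (i : Fin (s k)) : deg k (Eσ σ k i) = σ := by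
  rw [deg_apply, Finset.sum_eq_single_of_mem i (Finset.mem_univ i), Eσ_same]
  intro j _ hj
  rw [Eσ_ne σ k hj]; rfl

lemma deg_Eσ_ne (σ : DD p) {k k' : κ} (h : k' ≠ k) (i : Fin (s k)) : deg k' (Eσ σ k i) = 0 := by
  rw [deg_apply]
  refine Finset.sum_eq_zero fun j _ => ?_
  unfold Eσ
  rw [Pi.single_eq_of_ne]; · rfl
  intro e
  exact h (Sigma.mk.inj_iff.1 e).1

lemma deg_Eσ (σ : DD p) (k k' : κ) (i : Fin (s k)) :
    deg k' (Eσ σ k i) = (Pi.single k (σ : ℝ) : κ → ℝ) k' := by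
  by_cases h : k' = k
  · subst h; rw [deg_Eσ_same, Pi.single_eq_same]
  · rw [deg_Eσ_ne σ h, Pi.single_eq_of_ne h]

/-- the degrees of the strand: `T - q σ e_k`. -/
def nuq (T : κ → ℝ) (k : κ) (σ : ℝ) (q : ℕ) : κ → ℝ := T - (q : ℝ) • (Pi.single k σ : κ → ℝ)

omit hp in
lemma nuq_apply (T : κ → ℝ) (k : κ) (σ : ℝ) (q : ℕ) (k' : κ) :
    nuq T k σ q k' = T k' - q * (Pi.single k σ : κ → ℝ) k' := rfl

omit hp in
lemma nuq_same (T : κ → ℝ) (k : κ) (σ : ℝ) (q : ℕ) : nuq T k σ q k = T k - q * σ := by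
  rw [nuq_apply, Pi.single_eq_same]

omit hp in
lemma nuq_succ (T : κ → ℝ) (k : κ) (σ : ℝ) (q : ℕ) :
    nuq T k σ q = nuq T k σ (q + 1) + (Pi.single k σ : κ → ℝ) := by
  funext k'
  rw [Pi.add_apply, nuq_apply, nuq_apply]
  push_cast
  ring

omit hp in
lemma nuq_zero (T : κ → ℝ) (k : κ) (σ : ℝ) : nuq T k σ 0 = T := by
  funext k'
  rw [nuq_apply]; simp

/-- the chooser: the first generator with exponent `≥ σ`. -/
def Rσ (σ : DD p) (k : κ) (i : Fin (s k)) (c : Ex s p) : Prop :=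
  (σ : ℝ) ≤ c ⟨k, i⟩ ∧ ∀ j < i, (c ⟨k, j⟩ : ℝ) < σ

lemma sum_Eσ_apply (σ : DD p) (k : κ) (B : Finset (Fin (s k))) (i : Fin (s k)) (hi : i ∉ B) :
    (∑ j ∈ B, Eσ σ k j) ⟨k, i⟩ = 0 := by
  rw [Finset.sum_apply]
  refine Finset.sum_eq_zero fun j hj => ?_
  exact Eσ_ne σ k (fun e => hi (e ▸ hj))

lemma sum_Eσ_same (σ : DD p) (k : κ) (B : Finset (Fin (s k))) :
    deg k (∑ j ∈ B, Eσ σ k j) = B.card * σ := by
  rw [map_sum, Finset.sum_congr rfl (fun j _ => deg_Eσ_same σ k j), Finset.sum_const,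
    nsmul_eq_mul]

/-- the chooser exists. -/
lemma exists_chooser (σ : DD p) (k : κ) {T : ℝ} (hT0 : 0 < T) (hT : (s k : ℝ) * σ ≤ T)
    (c : Ex s p) (hc : T ≤ deg k c) : ∃! i, Rσ σ k i c := by
  have hex : ∃ i : Fin (s k), (σ : ℝ) ≤ c ⟨k, i⟩ := by
    by_contra hcon
    push Not at hcon
    rcases Nat.eq_zero_or_pos (s k) with h0 | h0
    · have : deg k c = 0 := by
        rw [deg_apply]
        have : IsEmpty (Fin (s k)) := by rw [h0]; infer_instance
        simp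
      linarith
    · have : deg k c < ∑ _i : Fin (s k), (σ : ℝ) := by
        rw [deg_apply]
        refine Finset.sum_lt_sum_of_nonempty ?_ fun i _ => hcon i
        exact ⟨⟨0, h0⟩, Finset.mem_univ _⟩
      rw [Finset.sum_const, Finset.card_univ, Fintype.card_fin, nsmul_eq_mul] at this
      linarith
  classical
  let F : Finset (Fin (s k)) := Finset.univ.filter fun i => (σ : ℝ) ≤ c ⟨k, i⟩
  have hF : F.Nonempty := by
    obtain ⟨i, hi⟩ := hex
    exact ⟨i, Finset.mem_filter.2 ⟨Finset.mem_univ _, hi⟩⟩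
  refine ⟨F.min' hF, ⟨(Finset.mem_filter.1 (F.min'_mem hF)).2, fun j hj => ?_⟩, ?_⟩
  · by_contra hcon
    push Not at hcon
    have : j ∈ F := Finset.mem_filter.2 ⟨Finset.mem_univ _, hcon⟩
    exact absurd (F.min'_le j this) (not_le.2 hj)
  · rintro i ⟨h1, h2⟩
    apply le_antisymm
    · by_contra hcon
      push Not at hcon
      have h3 := h2 _ hcon
      have h4 := (Finset.mem_filter.1 (F.min'_mem hF)).2
      linarith
    · exact F.min'_le i (Finset.mem_filter.2 ⟨Finset.mem_univ _, h1⟩)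

/-- exact division by a generator. -/
lemma exists_div (σ : DD p) (k : κ) (i : Fin (s k)) (a : Ex s p) (h : (σ : ℝ) ≤ a ⟨k, i⟩) :
    ∃ d, a = Eσ σ k i + d := by
  have hmem : (a ⟨k, i⟩ : ℝ) - σ ∈ DD p := DD_sub (a ⟨k, i⟩).2 σ.2 h
  classical
  refine ⟨Function.update a ⟨k, i⟩ ⟨_, hmem⟩, ?_⟩
  funext x
  rw [Pi.add_apply]
  by_cases hx : x = ⟨k, i⟩
  · subst hx
    rw [Eσ_same, Function.update_self]
    apply Subtype.ext
    rw [AddSubmonoid.coe_add]
    ring
  · rw [Function.update_of_ne hx]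
    unfold Eσ
    rw [Pi.single_eq_of_ne hx, zero_add]

end Ex

/-! ### the Rees monoid -/

section NN

variable {κ : Type} (s : κ → ℕ) (p : ℕ)

/-- the Rees monoid `{(a, ν) : 0 ≤ ν ≤ deg a}`. -/
def NN : AddSubmonoid (Ex s p × (κ → ℝ)) where
  carrier := {x | ∀ k, 0 ≤ x.2 k ∧ x.2 k ≤ deg k x.1}
  zero_mem' := by intro k; simp
  add_mem' := by
    intro x y hx hy k
    have h1 := hx k
    have h2 := hy k
    simp only [Prod.fst_add, Prod.snd_add, Pi.add_apply, map_add]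
    constructor <;> linarith

variable {s p}

lemma mem_NN {x : Ex s p × (κ → ℝ)} : x ∈ NN s p ↔ ∀ k, 0 ≤ x.2 k ∧ x.2 k ≤ deg k x.1 := Iff.rfl

variable [hp : Fact p.Prime]

/-- `a ↦ (a, 0)` -/
def jN : Ex s p →+ NN s p where
  toFun a := ⟨(a, 0), fun k => ⟨le_rfl, deg_nonneg k a⟩⟩
  map_zero' := rfl
  map_add' a b := Subtype.ext (Prod.ext rfl (by simp))

@[simp] lemma jN_fst (a : Ex s p) : (jN a).1.1 = a := rfl
@[simp] lemma jN_snd (a : Ex s p) : (jN a).1.2 = 0 := rfl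

lemma DD_nsmul (n : ℕ) (x : DD p) : ((n • x : DD p) : ℝ) = n * x := by
  rw [← nsmul_eq_mul]; exact map_nsmul (DD p).subtype n x

lemma NN_nsmul (n : ℕ) (x : NN s p) : (n • x).1 = n • x.1 := map_nsmul (NN s p).subtype n x

lemma nsmul_bijective_Ex : Function.Bijective (fun a : Ex s p => p • a) := by
  have hp0 : (p : ℝ) ≠ 0 := (p_pos (p := p)).ne'
  constructor
  · intro a b h
    funext x
    apply Subtype.ext
    have h1 : ((p • a x : DD p) : ℝ) = ((p • b x : DD p) : ℝ) :=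
      congrArg (fun c : Ex s p => (c x : ℝ)) h
    rw [DD_nsmul, DD_nsmul] at h1
    exact mul_left_cancel₀ hp0 h1
  · intro a
    refine ⟨fun x => ⟨(a x : ℝ) / p, DD_mul_p_inv (a x).2⟩, ?_⟩
    funext x
    apply Subtype.ext
    show ((p • (⟨(a x : ℝ) / p, DD_mul_p_inv (a x).2⟩ : DD p) : DD p) : ℝ) = a x
    rw [DD_nsmul]
    field_simp

lemma nsmul_bijective_NN : Function.Bijective (fun a : NN s p => p • a) := by
  have hp0 : (p : ℝ) ≠ 0 := (p_pos (p := p)).ne'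
  constructor
  · intro x y h
    have h1 : (p • x).1 = (p • y).1 := congrArg Subtype.val h
    rw [NN_nsmul, NN_nsmul] at h1
    apply Subtype.ext
    refine Prod.ext (nsmul_bijective_Ex.1 (congrArg Prod.fst h1)) ?_
    funext k
    have h2 : (p • x.1.2) k = (p • y.1.2) k := congrFun (congrArg Prod.snd h1) k
    rw [Pi.smul_apply, Pi.smul_apply, nsmul_eq_mul, nsmul_eq_mul] at h2
    exact mul_left_cancel₀ hp0 h2
  · rintro ⟨⟨a, ν⟩, ha⟩
    obtain ⟨b, hb⟩ := nsmul_bijective_Ex.2 a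
    have hb' : p • b = a := hb
    refine ⟨⟨(b, fun k => ν k / p), fun k => ?_⟩, ?_⟩
    · have h1 := ha k
      simp only at h1
      rw [← hb', map_nsmul, nsmul_eq_mul] at h1
      have := p_pos (p := p)
      constructor
      · exact div_nonneg h1.1 this.le
      · show ν k / p ≤ deg k b
        rw [div_le_iff₀ this]
        linarith [h1.2]
    · apply Subtype.ext
      refine (NN_nsmul _ _).trans (Prod.ext hb' ?_)
      funext k
      show (p • (fun k => ν k / (p : ℝ))) k = ν k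
      rw [Pi.smul_apply, nsmul_eq_mul]
      field_simp

variable [DecidableEq κ]

/-- the generator `(σ e_{k,i}, σ e_k)` of the Rees monoid. -/
def EN (σ : DD p) (k : κ) (i : Fin (s k)) : NN s p :=
  ⟨(Eσ σ k i, Pi.single k (σ : ℝ)), fun k' => by
    simp only
    rw [deg_Eσ]
    refine ⟨?_, le_rfl⟩
    by_cases h : k' = k
    · subst h; rw [Pi.single_eq_same]; exact DD_nonneg σ.2
    · rw [Pi.single_eq_of_ne h]⟩

lemma EN_fst (σ : DD p) (k : κ) (i : Fin (s k)) : (EN σ k i).1.1 = Eσ σ k i := rfl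
lemma EN_snd (σ : DD p) (k : κ) (i : Fin (s k)) : (EN σ k i).1.2 = Pi.single k (σ : ℝ) := rfl

lemma sum_EN_fst (σ : DD p) (k : κ) (B : Finset (Fin (s k))) :
    (∑ j ∈ B, EN σ k j).1.1 = ∑ j ∈ B, Eσ σ k j := by
  rw [AddSubmonoid.coe_finsetSum, Prod.fst_sum]
  rfl

/-- the strand data of block `k` with step `σ` in the Rees monoid. -/
theorem strandDataN (σ : DD p) (k : κ) (T : κ → ℝ) (hT0 : 0 < T k)
    (hT : (s k : ℝ) * σ ≤ T k) :
    StrandData (M := NN s p) (EN σ k) (fun q => {x | x.1.2 = nuq T k σ q})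
      (fun i x => Rσ σ k i x.1.1) where
  down i q x h := by
    show x.1.2 = _
    have h1 : (EN σ k i + x).1.2 = nuq T k σ q := h
    rw [AddSubmonoid.coe_add, Prod.snd_add, EN_snd, nuq_succ, add_comm] at h1
    exact add_right_cancel h1
  div B i x hi hx h := by
    have hx' : x.1.2 = nuq T k σ B.card := hx
    have h1 : (σ : ℝ) ≤ (x.1.1 ⟨k, i⟩ : ℝ) := by
      have := h.1
      rw [AddSubmonoid.coe_add, Prod.fst_add, sum_EN_fst, Pi.add_apply, sum_Eσ_apply σ k B i hi,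
        zero_add] at this
      exact this
    obtain ⟨d, hd⟩ := exists_div σ k i x.1.1 h1
    have hcard : (B.card : ℝ) + 1 ≤ s k := by
      have : (insert i B).card ≤ s k := by
        have := Finset.card_le_univ (insert i B)
        rwa [Fintype.card_fin] at this
      rw [Finset.card_insert_of_notMem hi] at this
      exact_mod_cast this
    have hσ := DD_nonneg (p := p) σ.2
    refine ⟨⟨(d, nuq T k σ (B.card + 1)), fun k' => ?_⟩, ?_⟩
    · have h2 := x.2 k'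
      rw [hx', nuq_succ, Pi.add_apply, hd, map_add, deg_Eσ] at h2
      refine ⟨?_, by simp only; linarith [h2.2]⟩
      by_cases hk : k' = k
      · subst hk
        simp only [nuq_same]
        push_cast
        nlinarith
      · rw [Pi.single_eq_of_ne hk, add_zero] at h2
        exact h2.1
    · apply Subtype.ext
      rw [AddSubmonoid.coe_add]
      refine Prod.ext hd ?_
      have h3 : nuq T k (σ : ℝ) B.card =
          (Pi.single k (σ : ℝ) : κ → ℝ) + nuq T k σ (B.card + 1) := by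
        rw [nuq_succ, add_comm]
      exact hx'.trans h3
  ex B x hx := by
    have hx' : x.1.2 = nuq T k σ B.card := hx
    have : T k ≤ deg k ((∑ j ∈ B, EN σ k j) + x).1.1 := by
      rw [AddSubmonoid.coe_add, Prod.fst_add, sum_EN_fst, map_add, sum_Eσ_same]
      have h2 := (x.2 k).2
      rw [hx', nuq_same] at h2
      linarith
    exact exists_chooser σ k hT0 hT _ this

end NN

end Crest.Agent.R188.UB
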