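/-
R188, block UB (helper985): the perfected Rees algebra `SS = RR ⊗ P` of a perfect ring `P` with
respect to finitely many blocks of generators, with its grading (coaction) and augmentation.
-/
import Crest.Agent.R188.UB2
import Crest.Agent.R188.Cmp2
import Crest.Agent.R188.PrfAdd
import Crest.Agent.R188.PrfMain
import Crest.Agent.R188.PrfCx

set_option autoImplicit false
set_option linter.unusedSectionVars false
set_option linter.unusedVariables false

namespace Crest.Agent.R188.UB

open Finset TensorProduct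
open Crest.Agent.R188.Prf

/-! ### fractional powers -/

section FP

variable {p : ℕ} [hp : Fact p.Prime] {P : Type} [CommRing P] (hP : IsPerf p P)

/-- `c ^ x` for `x ∈ ℤ[1/p]_{≥ 0}`. -/
noncomputable def fp (c : P) (x : DD p) : P :=
  hP.rtn (x.2.choose_spec.choose) c ^ (x.2.choose)

lemma fp_eq (c : P) (x : DD p) (n e : ℕ) (h : (x : ℝ) * (p : ℝ) ^ e = n) :
    fp hP c x = hP.rtn e c ^ n := by
  unfold fp
  set n₀ := x.2.choose with hn
  set e₀ := x.2.choose_spec.choose with he
  have h₀ : (x : ℝ) * (p : ℝ) ^ e₀ = n₀ := x.2.choose_spec.choose_spec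
  have hnat : n₀ * p ^ e = n * p ^ e₀ := by
    have : ((n₀ * p ^ e : ℕ) : ℝ) = ((n * p ^ e₀ : ℕ) : ℝ) := by
      push_cast
      rw [← h, ← h₀]
      ring
    exact_mod_cast this
  rw [← hP.rtn_add_pow e₀ e c, ← pow_mul, mul_comm (p ^ e) n₀, hnat, ← hP.rtn_add_pow e e₀ c,
    ← pow_mul, mul_comm (p ^ e₀) n, add_comm]

lemma fp_zero (c : P) : fp hP c 0 = 1 := by
  rw [fp_eq hP c 0 0 0 (by simp), pow_zero]

lemma fp_add (c : P) (x y : DD p) : fp hP c (x + y) = fp hP c x * fp hP c y := by
  obtain ⟨n, e, hx⟩ := x.2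
  obtain ⟨m, f, hy⟩ := y.2
  have h1 : (x : ℝ) * (p : ℝ) ^ (e + f) = ((n * p ^ f : ℕ) : ℝ) := by
    push_cast; rw [← hx, pow_add]; ring
  have h2 : (y : ℝ) * (p : ℝ) ^ (e + f) = ((m * p ^ e : ℕ) : ℝ) := by
    push_cast; rw [← hy, pow_add]; ring
  have h3 : ((x + y : DD p) : ℝ) * (p : ℝ) ^ (e + f) = ((n * p ^ f + m * p ^ e : ℕ) : ℝ) := by
    rw [AddSubmonoid.coe_add, add_mul, h1, h2]
    push_cast
    ring
  rw [fp_eq hP c x _ _ h1, fp_eq hP c y _ _ h2, fp_eq hP c (x + y) _ _ h3, pow_add]

/-- the natural number `n` as an element of `DD p`. -/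
def DD.nat (p : ℕ) (n : ℕ) : DD p := ⟨n, natCast_mem_DD n⟩

@[simp] lemma DD.nat_coe (n : ℕ) : ((DD.nat p n : DD p) : ℝ) = n := rfl

lemma fp_nat (c : P) (n : ℕ) : fp hP c (DD.nat p n) = c ^ n := by
  rw [fp_eq hP c (DD.nat p n) n 0 (by simp)]
  simp

lemma fp_pow (c : P) (x : DD p) (n : ℕ) : fp hP c x ^ n = fp hP c (n • x) := by
  induction n with
  | zero => rw [pow_zero, zero_smul, fp_zero]
  | succ n ih => rw [pow_succ, ih, succ_nsmul, fp_add]

/-- `1 / p^n` as an element of `DD p`. -/
noncomputable def DD.inv (p : ℕ) [Fact p.Prime] (n : ℕ) : DD p :=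
  ⟨1 / (p : ℝ) ^ n, DD_div_pow (natCast_mem_DD 1 |> fun h => by simpa using h) n⟩

lemma DD.inv_coe (n : ℕ) : ((DD.inv p n : DD p) : ℝ) = 1 / (p : ℝ) ^ n := rfl

lemma fp_inv (c : P) (n : ℕ) : fp hP c (DD.inv p n) = hP.rtn n c := by
  have := p_pos (p := p)
  rw [fp_eq hP c (DD.inv p n) 1 n (by rw [DD.inv_coe]; field_simp; simp), pow_one]

end FP

/-! ### the rings -/

section Rings

variable {κ : Type} (s : κ → ℕ) (p : ℕ)

/-- the universal perfect monomial ring. -/
abbrev UU : Type := AddMonoidAlgebra (ZMod p) (Ex s p)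

/-- its perfected multi-Rees algebra. -/
abbrev RR : Type := AddMonoidAlgebra (ZMod p) (NN s p)

variable {s p}

/-- ring homs out of a monoid algebra over `ZMod p`. -/
noncomputable def mh {M R : Type*} [AddCommMonoid M] [CommRing R] (φ : ZMod p →+* R)
    (F : Multiplicative M →* R) : AddMonoidAlgebra (ZMod p) M →+* R :=
  AddMonoidAlgebra.liftNCRingHom φ F (fun _ _ => Commute.all _ _)

@[simp] lemma mh_single {M R : Type*} [AddCommMonoid M] [CommRing R] (φ : ZMod p →+* R)
    (F : Multiplicative M →* R) (a : M) (b : ZMod p) :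
    mh φ F (AddMonoidAlgebra.single a b) = φ b * F (Multiplicative.ofAdd a) := by
  unfold mh
  rw [AddMonoidAlgebra.liftNCRingHom_single]

lemma mh_ext {M R : Type*} [AddCommMonoid M] [CommRing R]
    {f g : AddMonoidAlgebra (ZMod p) M →+* R}
    (h : ∀ a, f (AddMonoidAlgebra.single a 1) = g (AddMonoidAlgebra.single a 1)) : f = g := by
  apply AddMonoidAlgebra.ringHom_ext'
  · exact Subsingleton.elim _ _
  · apply MonoidHom.ext
    intro a
    exact h _

variable [hp : Fact p.Prime]

noncomputable instance instAlgUR : Algebra (UU s p) (RR s p) :=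
  (AddMonoidAlgebra.mapDomainRingHom (ZMod p) (jN (s := s) (p := p))).toAlgebra

lemma algUR_single (a : Ex s p) (t : ZMod p) :
    algebraMap (UU s p) (RR s p) (AddMonoidAlgebra.single a t) =
      AddMonoidAlgebra.single (jN a) t := by
  show AddMonoidAlgebra.mapDomainRingHom (ZMod p) jN (AddMonoidAlgebra.single a t) = _
  simp

lemma isPerf_UU : IsPerf p (UU s p) := IsPerf.zmod.addMonoidAlgebra _ nsmul_bijective_Ex

lemma isPerf_RR : IsPerf p (RR s p) := IsPerf.zmod.addMonoidAlgebra _ nsmul_bijective_NN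

end Rings

section PP

variable {κ : Type} [Fintype κ] {s : κ → ℕ} {p : ℕ} [hp : Fact p.Prime]
  {P : Type} [CommRing P] [CharP P p]

/-- `g ^ a = ∏ g_{k,i} ^ a_{k,i}`. -/
noncomputable def gm (hP : IsPerf p P) (g : (Σ k, Fin (s k)) → P) :
    Multiplicative (Ex s p) →* P where
  toFun a := ∏ x, fp hP (g x) (a.toAdd x)
  map_one' := by
    refine Finset.prod_eq_one fun x _ => ?_
    exact fp_zero hP _
  map_mul' a b := by
    rw [← Finset.prod_mul_distrib]
    refine Finset.prod_congr rfl fun x _ => ?_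
    exact fp_add hP _ _ _

/-- the monomial `g ^ a` -/
noncomputable def mono (hP : IsPerf p P) (g : (Σ k, Fin (s k)) → P) (a : Ex s p) : P :=
  ∏ x, fp hP (g x) (a x)

lemma gm_apply (hP : IsPerf p P) (g : (Σ k, Fin (s k)) → P) (a : Ex s p) :
    gm hP g (Multiplicative.ofAdd a) = mono hP g a := rfl

lemma mono_zero (hP : IsPerf p P) (g : (Σ k, Fin (s k)) → P) : mono hP g 0 = 1 :=
  (gm hP g).map_one

lemma mono_add (hP : IsPerf p P) (g : (Σ k, Fin (s k)) → P) (a b : Ex s p) :
    mono hP g (a + b) = mono hP g a * mono hP g b :=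
  (gm hP g).map_mul (Multiplicative.ofAdd a) (Multiplicative.ofAdd b)

lemma mono_nsmul (hP : IsPerf p P) (g : (Σ k, Fin (s k)) → P) (n : ℕ) (a : Ex s p) :
    mono hP g (n • a) = mono hP g a ^ n := by
  induction n with
  | zero => rw [zero_smul, mono_zero, pow_zero]
  | succ n ih => rw [succ_nsmul, mono_add, ih, pow_succ]

lemma mono_Eσ [DecidableEq κ] (hP : IsPerf p P) (g : (Σ k, Fin (s k)) → P) (σ : DD p) (k : κ)
    (i : Fin (s k)) : mono hP g (Eσ σ k i) = fp hP (g ⟨k, i⟩) σ := by
  unfold mono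
  rw [Finset.prod_eq_single_of_mem (⟨k, i⟩ : Σ k, Fin (s k)) (Finset.mem_univ _)]
  · rw [Eσ_same]
  · intro x _ hx
    unfold Eσ
    rw [Pi.single_eq_of_ne hx, fp_zero]

/-- `P`, with its `UU`-algebra structure given by `g`. -/
def PP (hP : IsPerf p P) (g : (Σ k, Fin (s k)) → P) : Type := P

variable (hP : IsPerf p P) (g : (Σ k, Fin (s k)) → P)

instance : CommRing (PP hP g) := inferInstanceAs (CommRing P)

/-- the evaluation -/
noncomputable def ev : UU s p →+* P := mh (ZMod.castHom dvd_rfl P) (gm hP g)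

noncomputable instance instAlgUP : Algebra (UU s p) (PP hP g) := (ev hP g).toAlgebra

lemma ev_single (a : Ex s p) (t : ZMod p) :
    ev hP g (AddMonoidAlgebra.single a t) = ZMod.castHom dvd_rfl P t * mono hP g a := by
  unfold ev
  rw [mh_single, gm_apply]

lemma isPerf_PP : IsPerf p (PP hP g) := hP

/-- forget the degree -/
def fstN : NN s p →+ Ex s p where
  toFun x := x.1.1
  map_zero' := rfl
  map_add' _ _ := rfl

/-- the evaluation on the Rees algebra -/
noncomputable def evR : RR s p →+* P :=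
  mh (ZMod.castHom dvd_rfl P) ((gm hP g).comp (AddMonoidHom.toMultiplicative fstN))

lemma evR_single (x : NN s p) (t : ZMod p) :
    evR hP g (AddMonoidAlgebra.single x t) = ZMod.castHom dvd_rfl P t * mono hP g x.1.1 := by
  unfold evR
  rw [mh_single]
  rfl

/-- `evR` as an algebra hom -/
noncomputable def evRA : RR s p →ₐ[UU s p] PP hP g :=
  { evR hP g with
    commutes' := fun u => by
      have : (evR hP g).comp (algebraMap (UU s p) (RR s p)) = ev hP g := by
        apply mh_ext
        intro a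
        rw [RingHom.comp_apply, algUR_single, evR_single, ev_single]
        rfl
      exact congrArg (fun f : UU s p →+* P => f u) this }

/-- the perfected multi-Rees algebra of `P`. -/
def SS : Type := RR s p ⊗[UU s p] PP hP g

noncomputable instance : CommRing (SS hP g) :=
  inferInstanceAs (CommRing (RR s p ⊗[UU s p] PP hP g))

noncomputable instance : Algebra (UU s p) (SS hP g) :=
  inferInstanceAs (Algebra (UU s p) (RR s p ⊗[UU s p] PP hP g))

/-- pure tensors -/
noncomputable def tm (r : RR s p) (c : P) : SS hP g :=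
  (r ⊗ₜ[UU s p] (show PP hP g from c) : RR s p ⊗[UU s p] PP hP g)

lemma tm_mul (r r' : RR s p) (c c' : P) :
    tm hP g r c * tm hP g r' c' = tm hP g (r * r') (c * c') :=
  Algebra.TensorProduct.tmul_mul_tmul (R := UU s p) (A := RR s p) (B := PP hP g) r r' c c'

lemma tm_one : tm hP g 1 1 = 1 := rfl

@[elab_as_elim]
lemma SS_induction {motive : SS hP g → Prop} (z : SS hP g) (h0 : motive 0)
    (ht : ∀ (x : NN s p) (t : ZMod p) (c : P), motive (tm hP g (AddMonoidAlgebra.single x t) c))
    (ha : ∀ x y, motive x → motive y → motive (x + y)) : motive z := by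
  refine TensorProduct.induction_on (motive := motive) z h0 ?_ (fun x y hx hy => ha x y hx hy)
  intro r c
  have hr : r = r.coeff.sum fun g a => AddMonoidAlgebra.single g a :=
    (AddMonoidAlgebra.sum_coeff_single r).symm
  rw [hr]
  unfold Finsupp.sum
  rw [TensorProduct.sum_tmul]
  refine Finset.sum_induction _ motive (fun x y hx hy => ha x y hx hy) h0 ?_
  intro x _
  exact ht x _ c

lemma isPerf_SS : IsPerf p (SS hP g) :=
  IsPerf.tensor (A := UU s p) (B := RR s p) (C := PP hP g) isPerf_UU isPerf_RR (isPerf_PP hP g)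

/-- the coaction target -/
abbrev SS' : Type := AddMonoidAlgebra (SS hP g) (κ → ℝ)

lemma isPerf_SS' : IsPerf p (SS' hP g) := by
  apply (isPerf_SS hP g).addMonoidAlgebra
  have hp0 : (p : ℝ) ≠ 0 := (p_pos (p := p)).ne'
  constructor
  · intro a b h
    funext x
    have h1 : (p • a) x = (p • b) x := congrFun h x
    rw [Pi.smul_apply, Pi.smul_apply, nsmul_eq_mul, nsmul_eq_mul] at h1
    exact mul_left_cancel₀ hp0 h1
  · intro a
    refine ⟨fun x => a x / p, ?_⟩
    funext x
    show (p • (fun x => a x / (p : ℝ))) x = a x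
    rw [Pi.smul_apply, nsmul_eq_mul]
    field_simp

/-- constants -/
noncomputable def iSS : P →+* SS hP g :=
  (Algebra.TensorProduct.includeRight : PP hP g →ₐ[UU s p] RR s p ⊗[UU s p] PP hP g).toRingHom

/-- augmentation -/
noncomputable def εSS : SS hP g →+* P :=
  (Algebra.TensorProduct.productMap (evRA hP g) (AlgHom.id (UU s p) (PP hP g))).toRingHom

lemma iSS_apply (c : P) : iSS hP g c = tm hP g 1 c := rfl

lemma εSS_tm (r : RR s p) (c : P) : εSS hP g (tm hP g r c) = evR hP g r * c := rfl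

/-- degree zero elements of `SS'` -/
noncomputable def ιSS : SS hP g →+* SS' hP g := AddMonoidAlgebra.singleZeroRingHom

lemma ιSS_apply (z : SS hP g) : ιSS hP g z = AddMonoidAlgebra.single 0 z := rfl

/-- the multiplicative map `x ↦ u^{ν} (T^x ⊗ 1)` -/
noncomputable def Fρ : Multiplicative (NN s p) →* SS' hP g where
  toFun x := AddMonoidAlgebra.single (x.toAdd.1.2) (tm hP g (AddMonoidAlgebra.single x.toAdd 1) 1)
  map_one' := rfl
  map_mul' x y := by
    rw [AddMonoidAlgebra.single_mul_single, tm_mul, AddMonoidAlgebra.single_mul_single, one_mul,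
      one_mul]
    rfl

/-- left inclusion -/
noncomputable def incL : RR s p →+* SS hP g :=
  (Algebra.TensorProduct.includeLeftRingHom : RR s p →+* RR s p ⊗[UU s p] PP hP g)

lemma incL_apply (r : RR s p) : incL hP g r = tm hP g r 1 := rfl

/-- the coaction on `RR` -/
noncomputable def ρR : RR s p →+* SS' hP g :=
  mh (R := SS' hP g) (((ιSS hP g).comp (incL hP g)).comp AddMonoidAlgebra.singleZeroRingHom)
    (Fρ hP g)

lemma ρR_single (x : NN s p) (t : ZMod p) :
    ρR hP g (AddMonoidAlgebra.single x t) = AddMonoidAlgebra.single (x.1.2)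
      (tm hP g (AddMonoidAlgebra.single x t) 1) := by
  unfold ρR
  rw [mh_single]
  show AddMonoidAlgebra.single 0 (tm hP g (AddMonoidAlgebra.single 0 t) 1) *
    AddMonoidAlgebra.single (x.1.2) (tm hP g (AddMonoidAlgebra.single x 1) 1) = _
  rw [AddMonoidAlgebra.single_mul_single, tm_mul,
    AddMonoidAlgebra.single_mul_single, zero_add, zero_add, mul_one, mul_one]

lemma algUSS_single (a : Ex s p) :
    algebraMap (UU s p) (SS' hP g) (AddMonoidAlgebra.single a 1) =
      AddMonoidAlgebra.single 0 (tm hP g (AddMonoidAlgebra.single (jN a) 1) 1) := by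
  have h1 : algebraMap (UU s p) (SS' hP g) (AddMonoidAlgebra.single a 1) =
    AddMonoidAlgebra.single 0 (algebraMap (UU s p) (SS hP g) (AddMonoidAlgebra.single a 1)) := rfl
  have h2 : algebraMap (UU s p) (SS hP g) (AddMonoidAlgebra.single a 1) =
    tm hP g (algebraMap (UU s p) (RR s p) (AddMonoidAlgebra.single a 1)) 1 := rfl
  rw [h1, h2, algUR_single]

/-- `ρR` as an algebra hom -/
noncomputable def ρRA : RR s p →ₐ[UU s p] SS' hP g :=
  { ρR hP g with
    commutes' := fun u => by
      have : (ρR hP g).comp (algebraMap (UU s p) (RR s p)) = algebraMap (UU s p) (SS' hP g) := by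
        apply mh_ext (R := SS' hP g)
        intro a
        rw [RingHom.comp_apply, algUR_single, ρR_single, algUSS_single]
        rfl
      exact congrArg (fun f : UU s p →+* SS' hP g => f u) this }

/-- right inclusion as an algebra hom -/
noncomputable def incRA : PP hP g →ₐ[UU s p] SS hP g :=
  (Algebra.TensorProduct.includeRight : PP hP g →ₐ[UU s p] RR s p ⊗[UU s p] PP hP g)

/-- constants, as an algebra hom -/
noncomputable def ρPA : PP hP g →ₐ[UU s p] SS' hP g :=
  (AddMonoidAlgebra.singleZeroAlgHom : SS hP g →ₐ[UU s p] SS' hP g).comp (incRA hP g)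

/-- the coaction -/
noncomputable def ρSS : SS hP g →+* SS' hP g :=
  (Algebra.TensorProduct.productMap (ρRA hP g) (ρPA hP g)).toRingHom

lemma ρSS_tm (x : NN s p) (t : ZMod p) (c : P) :
    ρSS hP g (tm hP g (AddMonoidAlgebra.single x t) c) =
      AddMonoidAlgebra.single (x.1.2) (tm hP g (AddMonoidAlgebra.single x t) c) := by
  have h1 : ρSS hP g (tm hP g (AddMonoidAlgebra.single x t) c) =
    ρR hP g (AddMonoidAlgebra.single x t) * AddMonoidAlgebra.single 0 (tm hP g 1 c) := rfl
  rw [h1, ρR_single, AddMonoidAlgebra.single_mul_single, tm_mul, add_zero, mul_one, one_mul]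

/-- the graded data. -/
noncomputable def D : Cmp.GD p P (SS hP g) (SS' hP g) where
  hP := hP
  hS := isPerf_SS hP g
  hS' := isPerf_SS' hP g
  i := iSS hP g
  ε := εSS hP g
  ι := ιSS hP g
  ρ := ρSS hP g
  εi a := by
    rw [iSS_apply, εSS_tm, map_one, one_mul]
  ρi a := by
    have h1 : (1 : RR s p) = AddMonoidAlgebra.single 0 1 := rfl
    rw [iSS_apply, ιSS_apply, h1, ρSS_tm]
    rfl

end PP

end Crest.Agent.R188.UB
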