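/-
R188, block UB (helper985): exactness of the Koszul strands over a perfect ring `P`
(`Cmp.GD.KosEx` for the graded data `UB.D`).
-/
import Crest.Agent.R188.UB3

set_option autoImplicit false
set_option linter.unusedSectionVars false
set_option linter.unusedVariables false

namespace Crest.Agent.R188.UB

open Finset TensorProduct Function
open Crest.Agent.R188.Prf Crest.Agent.R188.Flg Crest.Agent.R188.Cmp Crest.Agent.R188.Wit

section Proj

variable {κ : Type} {s : κ → ℕ} {p : ℕ} [hp : Fact p.Prime]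

/-- the projector of `RR` onto degree `ν`, as a `UU`-linear map. -/
noncomputable def πν (ν : κ → ℝ) : RR s p →ₗ[UU s p] RR s p where
  toFun := filt (fun x : NN s p => x.1.2 = ν)
  map_add' := filt_add _
  map_smul' u r := by
    rw [RingHom.id_apply]
    induction u using AddMonoidAlgebra.induction_linear with
    | zero => rw [zero_smul, zero_smul, filt_zero]
    | add u v hu hv => rw [add_smul, add_smul, filt_add, hu, hv]
    | single a t =>
      rw [Algebra.smul_def, Algebra.smul_def, algUR_single]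
      have h1 : (AddMonoidAlgebra.single (jN a) t : RR s p) =
          t • AddMonoidAlgebra.single (jN a) 1 := by
        rw [AddMonoidAlgebra.smul_single]; simp
      rw [h1, smul_mul_assoc, smul_mul_assoc, filt_smul, filt_single_mul]
      congr 3
      funext b
      rw [AddSubmonoid.coe_add, Prod.snd_add, jN_snd, zero_add]

lemma πν_apply (ν : κ → ℝ) (r : RR s p) : πν ν r = filt (fun x : NN s p => x.1.2 = ν) r := rfl

open Classical in
lemma coeff_πν (ν : κ → ℝ) (r : RR s p) (a : NN s p) :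
    (πν ν r).coeff a = if a.1.2 = ν then r.coeff a else 0 := by
  rw [πν_apply, coeff_filt]

lemma πν_idem (ν : κ → ℝ) (r : RR s p) : πν ν (πν ν r) = πν ν r := by
  classical
  ext a
  rw [coeff_πν, coeff_πν]
  split_ifs <;> rfl

lemma πν_eq_self_iff (ν : κ → ℝ) (r : RR s p) :
    πν ν r = r ↔ r ∈ sup (ZMod p) {x : NN s p | x.1.2 = ν} := by
  classical
  constructor
  · intro h a ha
    by_contra hc
    have hc' : ¬ a.1.2 = ν := hc
    apply ha
    rw [← h, coeff_πν, if_neg hc']
  · intro h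
    ext a
    rw [coeff_πν]
    by_cases ha : r.coeff a = 0
    · rw [ha, ite_self]
    · have : a.1.2 = ν := h a ha
      rw [if_pos this]

variable [DecidableEq κ]

lemma πν_EN_mul (σ : DD p) (k : κ) (i : Fin (s k)) (T : κ → ℝ) (q : ℕ) {r : RR s p}
    (hr : πν (nuq T k σ (q + 1)) r = r) :
    πν (nuq T k σ q) (AddMonoidAlgebra.single (EN σ k i) 1 * r) =
      AddMonoidAlgebra.single (EN σ k i) 1 * r := by
  rw [πν_apply, filt_single_mul]
  conv_rhs => rw [← hr]
  rw [πν_apply]
  congr 2
  funext b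
  rw [AddSubmonoid.coe_add, Prod.snd_add, EN_snd, nuq_succ, add_comm]
  apply propext
  constructor
  · intro h; exact add_right_cancel h
  · intro h; rw [h]

end Proj

section Cx

variable {κ : Type} [DecidableEq κ] (s : κ → ℕ) {p : ℕ} [hp : Fact p.Prime]

/-- the ambient module -/
abbrev AA (s : κ → ℕ) (p : ℕ) (k : κ) : Type := Finset (Fin (s k)) → RR s p

variable (σ : DD p) (k : κ) (T : κ → ℝ)

/-- the Koszul elements of `RR` -/
noncomputable def Θ (i : Fin (s k)) : RR s p :=
  AddMonoidAlgebra.single (EN σ k i) 1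

/-- the projector onto the `q`-th term. -/
noncomputable def rr (q : ℕ) : AA s p k →ₗ[UU s p] AA s p k where
  toFun f B := if B.card = q then πν (nuq T k σ q) (f B) else 0
  map_add' f f' := by
    funext B
    simp only [Pi.add_apply]
    split_ifs
    · rw [map_add]
    · rw [add_zero]
  map_smul' u f := by
    funext B
    simp only [Pi.smul_apply, RingHom.id_apply]
    split_ifs
    · rw [map_smul]
    · rw [smul_zero]

lemma rr_apply (q : ℕ) (f : AA s p k) (B : Finset (Fin (s k))) :
    rr s σ k T q f B = if B.card = q then πν (nuq T k σ q) (f B) else 0 := rfl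

lemma rr_idem (q : ℕ) (f : AA s p k) : rr s σ k T q (rr s σ k T q f) = rr s σ k T q f := by
  funext B
  rw [rr_apply, rr_apply]
  split_ifs
  · rw [πν_idem]
  · rfl

/-- the `q`-th term of the strand, as a `UU`-submodule. -/
noncomputable def CC (q : ℕ) : Submodule (UU s p) (AA s p k) where
  carrier := {f | rr s σ k T q f = f}
  zero_mem' := map_zero _
  add_mem' := by
    intro f f' hf hf'
    simp only [Set.mem_ofPred_eq] at *
    rw [map_add, hf, hf']
  smul_mem' := by
    intro c f hf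
    simp only [Set.mem_ofPred_eq] at *
    rw [map_smul, hf]

lemma mem_CC {q : ℕ} {f : AA s p k} : f ∈ CC s σ k T q ↔ rr s σ k T q f = f := Iff.rfl

lemma mem_CC_iff {q : ℕ} {f : AA s p k} : f ∈ CC s σ k T q ↔
    (∀ B, πν (nuq T k σ q) (f B) = f B) ∧ ∀ B, B.card ≠ q → f B = 0 := by
  rw [mem_CC]
  constructor
  · intro h
    have h2 : ∀ B, B.card ≠ q → f B = 0 := by
      intro B hB
      rw [← h, rr_apply, if_neg hB]
    refine ⟨fun B => ?_, h2⟩
    by_cases hB : B.card = q
    · have := congrFun h B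
      rwa [rr_apply, if_pos hB] at this
    · rw [h2 B hB, map_zero]
  · rintro ⟨h1, h2⟩
    funext B
    rw [rr_apply]
    split_ifs with hB
    · exact h1 B
    · exact (h2 B hB).symm

/-- retraction onto the `q`-th term -/
noncomputable def rC (q : ℕ) : AA s p k →ₗ[UU s p] CC s σ k T q :=
  (rr s σ k T q).codRestrict _ fun f => rr_idem s σ k T q f

lemma rC_subtype (q : ℕ) (x : CC s σ k T q) : rC s σ k T q ((CC s σ k T q).subtype x) = x :=
  Subtype.ext x.2

lemma subtype_comp_rC (q : ℕ) : (CC s σ k T q).subtype ∘ₗ rC s σ k T q = rr s σ k T q := rfl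

/-- the Koszul differential, `UU`-linear -/
noncomputable def dA : AA s p k →ₗ[UU s p] AA s p k :=
  (kD (Θ s σ k) : AA s p k →ₗ[RR s p] AA s p k).restrictScalars (UU s p)

lemma dA_apply (f : AA s p k) : dA s σ k f = kD (Θ s σ k) f := rfl

lemma dA_mem {q : ℕ} {f : AA s p k} (hf : f ∈ CC s σ k T (q + 1)) :
    dA s σ k f ∈ CC s σ k T q := by
  rw [mem_CC_iff] at *
  refine ⟨fun B => ?_, fun B hB => ?_⟩
  · rw [dA_apply, kD_apply, map_sum]
    refine Finset.sum_congr rfl fun i _ => ?_
    rw [smul_eq_mul, mul_assoc]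
    have h1 := πν_EN_mul σ k i T q (hf.1 (insert i B))
    have h2 : πν (nuq T k σ q) (Θ s σ k i * f (insert i B)) = Θ s σ k i * f (insert i B) := h1
    unfold sg
    rcases neg_one_pow_eq_or (RR s p) (B.filter (· < i)).card with h | h
    · rw [h, one_mul, h2]
    · rw [h, neg_one_mul, map_neg, h2]
  · rw [dA_apply, kD_apply]
    refine Finset.sum_eq_zero fun i hi => ?_
    rw [Finset.mem_compl] at hi
    rw [hf.2 _ (by rw [Finset.card_insert_of_notMem hi]; omega), smul_zero]

/-- the differential of the strand -/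
noncomputable def dC (q : ℕ) : CC s σ k T (q + 1) →ₗ[UU s p] CC s σ k T q :=
  ((dA s σ k).comp (CC s σ k T (q + 1)).subtype).codRestrict _ fun f => dA_mem s σ k T f.2

lemma subtype_comp_dC (q : ℕ) :
    (CC s σ k T q).subtype ∘ₗ dC s σ k T q = dA s σ k ∘ₗ (CC s σ k T (q + 1)).subtype := rfl

variable {s σ k T}

/-- exactness over `UU`, elementwise. -/
lemma exact_aux (hT0 : 0 < T k) (hT : (s k : ℝ) * σ ≤ T k) (q : ℕ) (f : AA s p k)
    (hf : f ∈ CC s σ k T q) (hd : dA s σ k f = 0) :
    ∃ f' ∈ CC s σ k T (q + 1), dA s σ k f' = f := by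
  rw [mem_CC_iff] at hf
  obtain ⟨f', h1, h2, h3⟩ := (strandDataN σ k T hT0 hT).exact (k := ZMod p) q f
    (fun B => (πν_eq_self_iff _ _).1 (hf.1 B)) hf.2 hd
  exact ⟨f', (mem_CC_iff s σ k T).2 ⟨fun B => (πν_eq_self_iff _ _).2 (h1 B), h2⟩, h3⟩

lemma dC_surjective (hT0 : 0 < T k) (hT : (s k : ℝ) * σ ≤ T k) :
    Surjective (dC s σ k T 0) := by
  rintro ⟨f, hf⟩
  have hd : dA s σ k f = 0 := by
    funext B
    rw [dA_apply, kD_apply]
    refine Finset.sum_eq_zero fun i hi => ?_
    rw [Finset.mem_compl] at hi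
    rw [((mem_CC_iff s σ k T).1 hf).2 _ (by rw [Finset.card_insert_of_notMem hi]; omega), smul_zero]
  obtain ⟨f', h1, h2⟩ := exact_aux hT0 hT 0 f hf hd
  exact ⟨⟨f', h1⟩, Subtype.ext h2⟩

lemma dC_exact (hT0 : 0 < T k) (hT : (s k : ℝ) * σ ≤ T k) (q : ℕ) :
    Exact (dC s σ k T (q + 1)) (dC s σ k T q) := by
  rintro ⟨f, hf⟩
  constructor
  · intro h
    have hd : dA s σ k f = 0 := congrArg Subtype.val h
    obtain ⟨f', h1, h2⟩ := exact_aux hT0 hT (q + 1) f hf hd
    exact ⟨⟨f', h1⟩, Subtype.ext h2⟩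
  · rintro ⟨⟨f', hf'⟩, h⟩
    rw [← h]
    exact Subtype.ext (kD_kD (Θ s σ k) f')

end Cx

section Tensor

variable {κ : Type} [Fintype κ] {s : κ → ℕ} {p : ℕ} [hp : Fact p.Prime]
  {P : Type} [CommRing P] [CharP P p] (hP : IsPerf p P) (g : (Σ k, Fin (s k)) → P)

/-- the projector of `SS` onto degree `ν`. -/
noncomputable def PiS (ν : κ → ℝ) : SS hP g →+ SS hP g :=
  (((πν ν).rTensor (PP hP g)).toAddMonoidHom :
    RR s p ⊗[UU s p] PP hP g →+ RR s p ⊗[UU s p] PP hP g)

lemma PiS_eq (ν : κ → ℝ) (z : SS hP g) : PiS hP g ν z = (πν ν).rTensor (PP hP g) z := rfl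

lemma PiS_tm (ν : κ → ℝ) (r : RR s p) (c : P) :
    PiS hP g ν (tm hP g r c) = tm hP g (πν ν r) c := rfl

lemma tm_zero (c : P) : tm hP g 0 c = 0 :=
  TensorProduct.zero_tmul (R := UU s p) (RR s p) (show PP hP g from c)

lemma πν_single_pos (ν : κ → ℝ) {x : NN s p} (h : x.1.2 = ν) (t : ZMod p) :
    πν ν (AddMonoidAlgebra.single x t : RR s p) = AddMonoidAlgebra.single x t :=
  filt_single_pos (fun x : NN s p => x.1.2 = ν) h t

lemma πν_single_neg (ν : κ → ℝ) {x : NN s p} (h : ¬ x.1.2 = ν) (t : ZMod p) :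
    πν ν (AddMonoidAlgebra.single x t : RR s p) = 0 :=
  filt_single_neg (fun x : NN s p => x.1.2 = ν) h t

lemma coeff_ρSS (ν : κ → ℝ) (z : SS hP g) : (ρSS hP g z).coeff ν = PiS hP g ν z := by
  classical
  induction z using SS_induction with
  | h0 => rw [map_zero, map_zero]; rfl
  | ha x y hx hy =>
    rw [map_add, AddMonoidAlgebra.coeff_add, Finsupp.add_apply, hx, hy, map_add]
  | ht x t c =>
    rw [ρSS_tm, PiS_tm, AddMonoidAlgebra.coeff_single, Finsupp.single_apply]
    by_cases h : x.1.2 = ν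
    · rw [if_pos h, πν_single_pos ν h]
    · rw [if_neg h, πν_single_neg ν h, tm_zero]

lemma ρSS_PiS (ν : κ → ℝ) (z : SS hP g) :
    ρSS hP g (PiS hP g ν z) = AddMonoidAlgebra.single ν (PiS hP g ν z) := by
  classical
  induction z using SS_induction with
  | h0 => rw [map_zero, map_zero, AddMonoidAlgebra.single_zero]
  | ha x y hx hy =>
    rw [map_add, map_add, hx, hy, AddMonoidAlgebra.single_add]
  | ht x t c =>
    rw [PiS_tm]
    by_cases h : x.1.2 = ν
    · rw [πν_single_pos ν h, ρSS_tm, h]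
    · rw [πν_single_neg ν h, tm_zero, map_zero, AddMonoidAlgebra.single_zero]

/-- the degree `ν` element of `SS'` -/
noncomputable abbrev eν (ν : κ → ℝ) : SS' hP g := AddMonoidAlgebra.single ν 1

lemma mem_K_iff (ν : κ → ℝ) (z : SS hP g) : z ∈ (D hP g).K (eν hP g ν) ↔ PiS hP g ν z = z := by
  have h0 : z ∈ (D hP g).K (eν hP g ν) ↔ ρSS hP g z = AddMonoidAlgebra.single ν z := by
    have : z ∈ (D hP g).K (eν hP g ν) ↔ ρSS hP g z =
      AddMonoidAlgebra.single ν 1 * AddMonoidAlgebra.single 0 z := Iff.rfl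
    rw [this, AddMonoidAlgebra.single_mul_single, add_zero, one_mul]
  rw [h0]
  constructor
  · intro h
    rw [← coeff_ρSS, h, AddMonoidAlgebra.coeff_single, Finsupp.single_eq_same]
  · intro h
    conv_lhs => rw [← h]
    rw [ρSS_PiS, h]

lemma tm_mem_K (x : NN s p) (t : ZMod p) (c : P) :
    tm hP g (AddMonoidAlgebra.single x t) c ∈ (D hP g).K (eν hP g x.1.2) := by
  rw [mem_K_iff, PiS_tm, πν_single_pos _ rfl]

variable [DecidableEq κ]

lemma TI_CC (σ : DD p) (k : κ) (T : κ → ℝ) (q : ℕ) :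
    TI (UU s p) (CC s σ k T q) (PP hP g) := by
  have h1 : TI (UU s p) (RR s p) (PP hP g) := TI_perfect isPerf_UU isPerf_RR (isPerf_PP hP g)
  have h2 : TI (UU s p) (AA s p k) (PP hP g) := TI.pi h1 (Finset (Fin (s k)))
  exact TI.retract h2 (CC s σ k T q).subtype (rC s σ k T q) (rC_subtype s σ k T q)

variable (s p)

/-- evaluation at `B` -/
noncomputable def pB (k : κ) (B : Finset (Fin (s k))) : AA s p k →ₗ[UU s p] RR s p :=
  LinearMap.proj B

/-- the delta function at `B` -/
noncomputable def sB (k : κ) (B : Finset (Fin (s k))) : RR s p →ₗ[UU s p] AA s p k :=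
  LinearMap.single (UU s p) (fun _ : Finset (Fin (s k)) => RR s p) B

lemma pB_sB_same (k : κ) (B : Finset (Fin (s k))) :
    pB s p k B ∘ₗ sB s p k B = LinearMap.id := by
  apply LinearMap.ext
  intro x
  show (Pi.single B x : AA s p k) B = _
  rw [Pi.single_eq_same]; rfl

lemma pB_sB_ne (k : κ) {B B' : Finset (Fin (s k))} (h : B' ≠ B) :
    pB s p k B' ∘ₗ sB s p k B = 0 := by
  apply LinearMap.ext
  intro x
  show (Pi.single B x : AA s p k) B' = _
  rw [Pi.single_eq_of_ne h]; rfl

lemma sum_sB_pB (k : κ) : ∑ B, sB s p k B ∘ₗ pB s p k B = LinearMap.id := by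
  classical
  apply LinearMap.ext
  intro f
  rw [LinearMap.sum_apply]
  funext B
  rw [Finset.sum_apply, Finset.sum_eq_single_of_mem B (Finset.mem_univ B)]
  · show (Pi.single B (f B) : AA s p k) B = f B
    rw [Pi.single_eq_same]
  · intro B' _ h
    show (Pi.single B' (f B') : AA s p k) B = 0
    rw [Pi.single_eq_of_ne (Ne.symm h)]

variable {s p}

lemma rTensor_sum' {k : κ} {X : Type} [AddCommGroup X] [Module (UU s p) X]
    {Y : Type} [AddCommGroup Y] [Module (UU s p) Y] {ι : Type} (t : Finset ι)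
    (F : ι → (X →ₗ[UU s p] Y)) (z : X ⊗[UU s p] PP hP g) :
    (∑ i ∈ t, F i).rTensor (PP hP g) z = ∑ i ∈ t, (F i).rTensor (PP hP g) z := by
  have := congrArg (fun G => G z) (map_sum (LinearMap.rTensorHom (PP hP g)) F t)
  simpa only [LinearMap.sum_apply, LinearMap.coe_rTensorHom] using this

lemma sum_rTensor (k : κ) (z : AA s p k ⊗[UU s p] PP hP g) :
    ∑ B, (sB s p k B).rTensor (PP hP g) ((pB s p k B).rTensor (PP hP g) z) = z := by
  have h1 := rTensor_sum' hP g (k := k) Finset.univ (fun B => sB s p k B ∘ₗ pB s p k B) z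
  rw [sum_sB_pB, LinearMap.rTensor_id, LinearMap.id_apply] at h1
  simp only [LinearMap.rTensor_comp_apply] at h1
  exact h1.symm

lemma rTensor_ext (k : κ) {z : AA s p k ⊗[UU s p] PP hP g}
    (h : ∀ B, (pB s p k B).rTensor (PP hP g) z = 0) : z = 0 := by
  rw [← sum_rTensor hP g k z]
  refine Finset.sum_eq_zero fun B _ => ?_
  rw [h, map_zero]

/-- evaluation at `B`, tensored -/
noncomputable def pT (k : κ) (B : Finset (Fin (s k))) :
    AA s p k ⊗[UU s p] PP hP g →+ SS hP g :=
  (((pB s p k B).rTensor (PP hP g)).toAddMonoidHom :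
    AA s p k ⊗[UU s p] PP hP g →+ RR s p ⊗[UU s p] PP hP g)

/-- the delta function at `B`, tensored -/
noncomputable def sT (k : κ) (B : Finset (Fin (s k))) :
    SS hP g →+ AA s p k ⊗[UU s p] PP hP g :=
  (((sB s p k B).rTensor (PP hP g)).toAddMonoidHom :
    RR s p ⊗[UU s p] PP hP g →+ AA s p k ⊗[UU s p] PP hP g)

lemma pT_ext (k : κ) {z : AA s p k ⊗[UU s p] PP hP g} (h : ∀ B, pT hP g k B z = 0) : z = 0 :=
  rTensor_ext hP g k h

lemma pT_sT_same (k : κ) (B : Finset (Fin (s k))) (x : SS hP g) :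
    pT hP g k B (sT hP g k B x) = x := by
  show (pB s p k B).rTensor (PP hP g) ((sB s p k B).rTensor (PP hP g) x) = x
  rw [← LinearMap.rTensor_comp_apply, pB_sB_same, LinearMap.rTensor_id]; rfl

lemma pT_sT_ne (k : κ) {B B' : Finset (Fin (s k))} (h : B' ≠ B) (x : SS hP g) :
    pT hP g k B' (sT hP g k B x) = 0 := by
  show (pB s p k B').rTensor (PP hP g) ((sB s p k B).rTensor (PP hP g) x) = 0
  rw [← LinearMap.rTensor_comp_apply, pB_sB_ne s p k h, LinearMap.rTensor_zero]; rfl

/-- multiplication by `r ⊗ 1` -/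
noncomputable def mT (r : RR s p) : SS hP g →+ SS hP g :=
  ((((LinearMap.mul (UU s p) (RR s p) r).rTensor (PP hP g)).toAddMonoidHom :
    RR s p ⊗[UU s p] PP hP g →+ RR s p ⊗[UU s p] PP hP g))

lemma mT_eq (r : RR s p) (z : SS hP g) : mT hP g r z = tm hP g r 1 * z := by
  induction z using SS_induction with
  | h0 => rw [map_zero, mul_zero]
  | ha x y hx hy => rw [map_add, hx, hy, mul_add]
  | ht x t c =>
    rw [tm_mul, one_mul]
    rfl

/-- the Koszul elements of `SS` -/
noncomputable def ΘS (σ : DD p) (k : κ) (i : Fin (s k)) : SS hP g := tm hP g (Θ s σ k i) 1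

lemma pT_dA (σ : DD p) (k : κ) (z : AA s p k ⊗[UU s p] PP hP g) (B : Finset (Fin (s k))) :
    pT hP g k B ((dA s σ k).rTensor (PP hP g) z) =
      kD (ΘS hP g σ k) (fun B' => pT hP g k B' z) B := by
  have h1 : pB s p k B ∘ₗ dA s σ k = ∑ i ∈ Bᶜ,
      (LinearMap.mul (UU s p) (RR s p) (sg (RR s p) i B * Θ s σ k i)) ∘ₗ pB s p k (insert i B) := by
    apply LinearMap.ext
    intro f
    rw [LinearMap.sum_apply]
    rfl
  have h2 : pT hP g k B ((dA s σ k).rTensor (PP hP g) z) = ∑ i ∈ Bᶜ,
      mT hP g (sg (RR s p) i B * Θ s σ k i) (pT hP g k (insert i B) z) := by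
    show (pB s p k B).rTensor (PP hP g) ((dA s σ k).rTensor (PP hP g) z) = _
    rw [← LinearMap.rTensor_comp_apply, h1, rTensor_sum' hP g (k := k)]
    refine Finset.sum_congr rfl fun i _ => ?_
    rw [LinearMap.rTensor_comp_apply]
    rfl
  rw [h2, kD_apply]
  refine Finset.sum_congr rfl fun i _ => ?_
  rw [mT_eq, smul_eq_mul]
  have h3 : tm hP g (sg (RR s p) i B * Θ s σ k i) 1 = sg (SS hP g) i B * ΘS hP g σ k i := by
    unfold ΘS sg
    rw [← incL_apply, ← incL_apply, map_mul, map_pow, map_neg, map_one]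
  rw [h3]

/-- **Exactness of the Koszul strand over `P`.** -/
theorem kosEx {σ : DD p} {k : κ} {T : κ → ℝ} (hT0 : 0 < T k) (hT : (s k : ℝ) * σ ≤ T k) :
    (D hP g).KosEx (ΘS hP g σ k) (fun q => eν hP g (nuq T k σ q)) := by
  classical
  intro q F hF hd
  -- lift to the tensor product
  set z : AA s p k ⊗[UU s p] PP hP g := ∑ B, sT hP g k B (F B) with hz
  have hzB : ∀ B, pT hP g k B z = F B := by
    intro B
    rw [hz, map_sum, Finset.sum_eq_single_of_mem B (Finset.mem_univ B)]
    · exact pT_sT_same hP g k B _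
    · intro B' _ h
      exact pT_sT_ne hP g k (Ne.symm h) _
  have hcycle : (dA s σ k).rTensor (PP hP g) z = 0 := by
    apply pT_ext
    intro B
    have h2 : (fun B' => pT hP g k B' z) = F := funext hzB
    rw [pT_dA, h2, hd]
    rfl
  have hrz : (rr s σ k T q).rTensor (PP hP g) z = z := by
    rw [← sub_eq_zero]
    apply pT_ext
    intro B
    rw [map_sub, hzB]
    by_cases hB : B.card = q
    · have h1 : pB s p k B ∘ₗ rr s σ k T q = πν (nuq T k σ q) ∘ₗ pB s p k B := by
        apply LinearMap.ext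
        intro f
        show rr s σ k T q f B = πν (nuq T k σ q) (f B)
        rw [rr_apply, if_pos hB]
      have h2 : pT hP g k B ((rr s σ k T q).rTensor (PP hP g) z) =
          PiS hP g (nuq T k σ q) (pT hP g k B z) := by
        show (pB s p k B).rTensor (PP hP g) ((rr s σ k T q).rTensor (PP hP g) z) =
          (πν (nuq T k σ q)).rTensor (PP hP g) ((pB s p k B).rTensor (PP hP g) z)
        rw [← LinearMap.rTensor_comp_apply, h1, LinearMap.rTensor_comp_apply]
      rw [h2, hzB, (mem_K_iff hP g _ _).1 (hF.1 B), sub_self]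
    · have h1 : pB s p k B ∘ₗ rr s σ k T q = 0 := by
        apply LinearMap.ext
        intro f
        show rr s σ k T q f B = 0
        rw [rr_apply, if_neg hB]
      have h2 : pT hP g k B ((rr s σ k T q).rTensor (PP hP g) z) = 0 := by
        show (pB s p k B).rTensor (PP hP g) ((rr s σ k T q).rTensor (PP hP g) z) = 0
        rw [← LinearMap.rTensor_comp_apply, h1, LinearMap.rTensor_zero]
        rfl
      rw [h2, hF.2 B hB, sub_zero]
  -- restrict to the `q`-th term
  set zq : CC s σ k T q ⊗[UU s p] PP hP g := (rC s σ k T q).rTensor (PP hP g) z with hzq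
  have hzq2 : (CC s σ k T q).subtype.rTensor (PP hP g) zq = z := by
    rw [hzq, ← LinearMap.rTensor_comp_apply, subtype_comp_rC, hrz]
  have hw : ∃ w, (dC s σ k T q).rTensor (PP hP g) w = zq := by
    cases q with
    | zero => exact LinearMap.rTensor_surjective (PP hP g) (dC_surjective hT0 hT) zq
    | succ j =>
      have hex := exact_rTensor (A := UU s p) (C := fun q => CC s σ k T q) (dC s σ k T)
        (N := PP hP g) (fun i => TI_CC hP g σ k T i) (dC_surjective hT0 hT) (dC_exact hT0 hT) j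
      apply (hex zq).1
      -- injectivity of the inclusion
      have hinj : Injective ((CC s σ k T j).subtype.rTensor (PP hP g)) := by
        have h1 : rC s σ k T j ∘ₗ (CC s σ k T j).subtype = LinearMap.id :=
          LinearMap.ext (rC_subtype s σ k T j)
        refine Injective.of_comp (f := (rC s σ k T j).rTensor (PP hP g)) ?_
        have : (rC s σ k T j).rTensor (PP hP g) ∘ ((CC s σ k T j).subtype.rTensor (PP hP g)) =
            id := by
          funext t
          rw [Function.comp_apply, ← LinearMap.rTensor_comp_apply, h1, LinearMap.rTensor_id]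
          rfl
        rw [this]
        exact injective_id
      apply hinj
      rw [map_zero, ← LinearMap.rTensor_comp_apply, subtype_comp_dC, LinearMap.rTensor_comp_apply,
        hzq2, hcycle]
  obtain ⟨w, hw⟩ := hw
  set y : AA s p k ⊗[UU s p] PP hP g := (CC s σ k T (q + 1)).subtype.rTensor (PP hP g) w with hy
  refine ⟨fun B => pT hP g k B y, ⟨fun B => ?_, fun B hB => ?_⟩, ?_⟩
  · rw [mem_K_iff]
    show (πν (nuq T k σ (q + 1))).rTensor (PP hP g) ((pB s p k B).rTensor (PP hP g) y) =
      (pB s p k B).rTensor (PP hP g) y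
    rw [hy, ← LinearMap.rTensor_comp_apply, ← LinearMap.rTensor_comp_apply,
      ← LinearMap.rTensor_comp_apply]
    congr 2
    apply LinearMap.ext
    rintro ⟨f, hf⟩
    exact ((mem_CC_iff s σ k T).1 hf).1 B
  · show (pB s p k B).rTensor (PP hP g) y = 0
    rw [hy, ← LinearMap.rTensor_comp_apply]
    have : pB s p k B ∘ₗ (CC s σ k T (q + 1)).subtype = 0 := by
      apply LinearMap.ext
      rintro ⟨f, hf⟩
      exact ((mem_CC_iff s σ k T).1 hf).2 B hB
    rw [this, LinearMap.rTensor_zero]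
    rfl
  · funext B
    rw [← pT_dA, hy, ← LinearMap.rTensor_comp_apply (PP hP g) (dA s σ k), ← subtype_comp_dC,
      LinearMap.rTensor_comp_apply, hw, hzq2]
    exact hzB B

end Tensor

end Crest.Agent.R188.UB
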