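/-
R188, block UB (helper985): consumer side of the graded data `UB.D`:
degrees, monomial ideals, `Nul`, membership, the natural-number form of the strands, and the
almost exact strands on the ideals `D.I` of `P`.
-/
import Crest.Agent.R188.UB4

set_option autoImplicit false
set_option linter.unusedSectionVars false
set_option linter.unusedVariables false

namespace Crest.Agent.R188.UB

open Finset TensorProduct Function
open Crest.Agent.R188.Prf Crest.Agent.R188.Flg Crest.Agent.R188.Cmp Crest.Agent.R188.Wit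

/-! ### generic: almost exact Koszul complexes on the ideals `D.I` of `P` -/

section Gen

variable {p : ℕ} [hp : Fact p.Prime] {P S S' : Type*}
  [CommRing P] [CommRing S] [CommRing S'] (D : GD p P S S') {s : ℕ}

/-- the Koszul complex on the ideals `I(e q)` of `P` is almost exact. -/
theorem kosNullP {g : Fin s → S} {e : ℕ → S'} {v : S'} (hg : ∀ i, g i ∈ D.K v)
    (hv : ∀ q < s, v * e (q + 1) = e q) (h : D.KosEx g e) {h₀ : P}
    (hN : ∀ q ≤ s, D.Nul (e q) h₀) (hN' : D.Nul (v * e 0) h₀) :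
    KosNull (Ideal.span (Set.range fun n => D.hP.rtn n h₀)) (fun i => D.ε (g i))
      (fun q => (D.I (e q) : Submodule P P)) := by
  classical
  intro q f hf hf0 a ha
  by_cases hqs : s < q
  · have hf00 : f = 0 := by
      funext B
      apply hf.2
      have := Finset.card_le_univ B
      rw [Fintype.card_fin] at this
      omega
    exact ⟨0, zero_mem _, by rw [hf00, map_zero, smul_zero]⟩
  have key : ∀ n, ∃ f' ∈ kK (fun q => (D.I (e q) : Submodule P P)) s (q + 1),
      kD (fun i => D.ε (g i)) f' = D.hP.rtn n h₀ • f := by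
    intro n
    have hl : ∀ B, ∃ y, y ∈ D.K (e q) ∧ D.ε y = f B ∧ (B.card ≠ q → y = 0) := by
      intro B
      by_cases hB : B.card = q
      · obtain ⟨y, hy, hy2⟩ := D.mem_I.1 (hf.1 B)
        exact ⟨y, hy, hy2, fun h => absurd hB h⟩
      · exact ⟨0, zero_mem _, by rw [map_zero, hf.2 B hB], fun _ => rfl⟩
    choose F hF1 hF2 hF3 using hl
    have hεF : (fun B => D.ε (F B)) = f := by funext B; exact hF2 B
    have hker : ∀ B, D.ε (kD g F B) = 0 := by
      intro B
      rw [kD_map, hεF, hf0]; rfl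
    have hmem : ∀ B, kD g F B ∈ D.K (v * e q) := by
      intro B
      rw [kD_apply]
      refine sum_mem fun i _ => ?_
      have h1 : g i * F (insert i B) ∈ D.K (v * e q) := mul_mem_Gr (hg i) (hF1 _)
      unfold sg
      rcases neg_one_pow_eq_or S (B.filter (· < i)).card with h | h
      · rw [h, one_mul]; exact h1
      · rw [h, neg_one_mul, neg_smul]; exact neg_mem h1
    have hNq : D.Nul (v * e q) h₀ := by
      cases q with
      | zero => exact hN'
      | succ q => rw [hv q (by omega)]; exact hN q (by omega)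
    set t := D.i (D.hP.rtn n h₀) with ht
    have hc : kD g (fun B => t * F B) = 0 := by
      rw [kD_mul]
      funext B
      exact hNq _ (hmem B) (hker B) n
    obtain ⟨F', hF', hF'2⟩ := h q (fun B => t * F B)
      ⟨fun B => D.i_mul_mem _ (hF1 B), fun B hB => by
        show t * F B = 0
        rw [hF3 B hB, mul_zero]⟩ hc
    refine ⟨fun B => D.ε (F' B), ⟨fun B => D.mem_I.2 ⟨F' B, hF'.1 B, rfl⟩, fun B hB => by
      show D.ε (F' B) = 0
      rw [hF'.2 B hB, map_zero]⟩, ?_⟩
    rw [← kD_comp_map]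
    funext B
    have h3 : kD g F' B = t * F B := congrFun hF'2 B
    show D.ε (kD g F' B) = _
    rw [h3, map_mul, hF2, ht, D.εi]
    rfl
  refine Submodule.span_induction (p := fun a _ => ∃ f' ∈ kK (fun q => (D.I (e q) :
    Submodule P P)) s (q + 1), kD (fun i => D.ε (g i)) f' = a • f)
    ?_ ?_ ?_ ?_ ha
  · rintro _ ⟨n, rfl⟩
    exact key n
  · exact ⟨0, zero_mem _, by rw [map_zero, zero_smul]⟩
  · rintro a b _ _ ⟨fa, hfa, ha⟩ ⟨fb, hfb, hb⟩
    exact ⟨fa + fb, add_mem hfa hfb, by rw [map_add, ha, hb, add_smul]⟩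
  · rintro c a _ ⟨fa, hfa, ha⟩
    exact ⟨c • fa, Submodule.smul_mem _ _ hfa, by rw [map_smul, ha, smul_smul, smul_eq_mul]⟩

end Gen

section Main

variable {κ : Type} [Fintype κ] {s : κ → ℕ} {p : ℕ} [hp : Fact p.Prime]
  {P : Type} [CommRing P] [CharP P p] (hP : IsPerf p P) (g : (Σ k, Fin (s k)) → P)

/-! ### degrees -/

lemma eν_zero : eν hP g (0 : κ → ℝ) = 1 := rfl

lemma eν_add (ν μ : κ → ℝ) : eν hP g (ν + μ) = eν hP g ν * eν hP g μ := by
  rw [AddMonoidAlgebra.single_mul_single, one_mul]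

lemma eν_pow (ν : κ → ℝ) (n : ℕ) : eν hP g ν ^ n = eν hP g (n • ν) := by
  induction n with
  | zero => rw [pow_zero, zero_smul, eν_zero]
  | succ n ih => rw [pow_succ, ih, succ_nsmul, eν_add]

/-- only nonnegative degrees occur. -/
lemma K_eq_zero_of_neg {ν : κ → ℝ} {k : κ} (hk : ν k < 0) {z : SS hP g}
    (hz : z ∈ (D hP g).K (eν hP g ν)) : z = 0 := by
  rw [mem_K_iff] at hz
  rw [← hz]
  have : (πν ν : RR s p →ₗ[UU s p] RR s p) = 0 := by
    classical
    apply LinearMap.ext
    intro r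
    apply AddMonoidAlgebra.coeff_injective
    ext a
    rw [coeff_πν, if_neg]
    · rfl
    · intro h
      have := (a.2 k).1
      rw [h] at this
      linarith
  rw [PiS_eq, this, LinearMap.rTensor_zero]
  rfl

/-- induction for elements of degree `ν`. -/
lemma K_induction {ν : κ → ℝ} {motive : SS hP g → Prop} {z : SS hP g}
    (hz : z ∈ (D hP g).K (eν hP g ν)) (h0 : motive 0)
    (ht : ∀ (x : NN s p) (t : ZMod p) (c : P), x.1.2 = ν →
      motive (tm hP g (AddMonoidAlgebra.single x t) c))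
    (ha : ∀ x y, motive x → motive y → motive (x + y)) : motive z := by
  rw [mem_K_iff] at hz
  rw [← hz]
  clear hz
  induction z using SS_induction with
  | h0 => rw [map_zero]; exact h0
  | ha x y hx hy => rw [map_add]; exact ha _ _ hx hy
  | ht x t c =>
    rw [PiS_tm]
    by_cases h : x.1.2 = ν
    · rw [πν_single_pos ν h]; exact ht x t c h
    · rw [πν_single_neg ν h, tm_zero]; exact h0

/-! ### the monomial ideals -/

lemma castHom_mul_mono_mem (a : Ex s p) {I : Ideal P} (h : mono hP g a ∈ I) (t : ZMod p) :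
    ZMod.castHom dvd_rfl P t * mono hP g a ∈ I := I.mul_mem_left _ h

/-- `D.I (eν ν)` is the ideal spanned by the monomials of degree `≥ ν`. -/
theorem I_eq_span {ν : κ → ℝ} (hν : 0 ≤ ν) :
    (D hP g).I (eν hP g ν) = Ideal.span (mono hP g '' Sν ν) := by
  apply le_antisymm
  · rintro _ ⟨z, hz, rfl⟩
    refine K_induction hP g (ν := ν) (motive := fun z => (D hP g).ε z ∈ Ideal.span (mono hP g '' Sν ν))
      hz ?_ ?_ ?_
    · rw [map_zero]; exact zero_mem _
    · intro x t c hx
      show εSS hP g (tm hP g (AddMonoidAlgebra.single x t) c) ∈ _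
      rw [εSS_tm, evR_single]
      refine Ideal.mul_mem_right _ _ (Ideal.mul_mem_left _ _ (Ideal.subset_span ⟨x.1.1, ?_, rfl⟩))
      intro k
      rw [← hx]
      exact (x.2 k).2
    · intro x y hx hy
      rw [map_add]; exact add_mem hx hy
  · rw [Ideal.span_le]
    rintro _ ⟨a, ha, rfl⟩
    let x : NN s p := ⟨(a, ν), fun k => ⟨hν k, ha k⟩⟩
    refine ⟨tm hP g (AddMonoidAlgebra.single x 1) 1, tm_mem_K hP g x 1 1, ?_⟩
    show εSS hP g (tm hP g (AddMonoidAlgebra.single x 1) 1) = _
    rw [εSS_tm, evR_single, map_one, one_mul, mul_one]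

lemma mono_mem_I {ν : κ → ℝ} (hν : 0 ≤ ν) {a : Ex s p} (ha : a ∈ Sν ν) :
    mono hP g a ∈ (D hP g).I (eν hP g ν) := by
  rw [I_eq_span hP g hν]
  exact Ideal.subset_span ⟨a, ha, rfl⟩

lemma I_anti {ν μ : κ → ℝ} (hν : 0 ≤ ν) (h : ν ≤ μ) :
    (D hP g).I (eν hP g μ) ≤ (D hP g).I (eν hP g ν) := by
  rw [I_eq_span hP g hν, I_eq_span hP g (hν.trans h)]
  exact Ideal.span_mono (Set.image_mono (Sν_anti h))

/-! ### choices of one generator per block -/

/-- the exponent `x · e_c`, `c` a choice of one generator in each block. -/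
noncomputable def Ec [DecidableEq κ] (c : ∀ k, Fin (s k)) (x : DD p) : Ex s p :=
  ∑ k, Eσ x k (c k)

/-- the product of the chosen generators. -/
noncomputable def hc (c : ∀ k, Fin (s k)) : P := ∏ k, g ⟨k, c k⟩

variable [DecidableEq κ]

lemma deg_Ec (c : ∀ k, Fin (s k)) (x : DD p) (k : κ) : deg k (Ec c x) = x := by
  unfold Ec
  rw [map_sum, Finset.sum_eq_single_of_mem k (Finset.mem_univ k), deg_Eσ_same]
  intro k' _ h
  rw [deg_Eσ_ne x (Ne.symm h)]

lemma mono_sum {ι : Type} (t : Finset ι) (F : ι → Ex s p) :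
    mono hP g (∑ i ∈ t, F i) = ∏ i ∈ t, mono hP g (F i) := by
  classical
  induction t using Finset.induction with
  | empty => rw [Finset.sum_empty, Finset.prod_empty, mono_zero]
  | insert a t ha ih => rw [Finset.sum_insert ha, Finset.prod_insert ha, mono_add, ih]

lemma mono_Ec (c : ∀ k, Fin (s k)) (x : DD p) : mono hP g (Ec c x) = ∏ k, fp hP (g ⟨k, c k⟩) x := by
  unfold Ec
  rw [mono_sum]
  exact Finset.prod_congr rfl fun k _ => mono_Eσ hP g x k (c k)

lemma mono_Ec_nat (c : ∀ k, Fin (s k)) (n : ℕ) :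
    mono hP g (Ec c (DD.nat p n)) = hc g c ^ n := by
  rw [mono_Ec]
  unfold hc
  rw [← Finset.prod_pow]
  exact Finset.prod_congr rfl fun k _ => fp_nat hP _ n

lemma pow_hc_mem_I (c : ∀ k, Fin (s k)) {ν : κ → ℝ} (hν : 0 ≤ ν) {n : ℕ} (hn : ∀ k, ν k ≤ n) :
    hc g c ^ n ∈ (D hP g).I (eν hP g ν) := by
  rw [← mono_Ec_nat hP g c n]
  apply mono_mem_I hP g hν
  intro k
  rw [deg_Ec]
  exact hn k

lemma exists_pow_hc_mem_I (c : ∀ k, Fin (s k)) {ν : κ → ℝ} (hν : 0 ≤ ν) :
    ∃ n, hc g c ^ n ∈ (D hP g).I (eν hP g ν) := by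
  have : ∃ n : ℕ, ∀ k, ν k ≤ n := by
    obtain ⟨n, hn⟩ := exists_nat_ge (∑ k, ν k)
    refine ⟨n, fun k => le_trans ?_ hn⟩
    exact Finset.single_le_sum (fun k _ => hν k) (Finset.mem_univ k)
  obtain ⟨n, hn⟩ := this
  exact ⟨n, pow_hc_mem_I hP g c hν hn⟩

/-- multiplication by a monomial of degree `≥ ν` factors `K(ν) → P`. -/
lemma key_nul (ν : κ → ℝ) (hν : 0 ≤ ν) (a : Ex s p) (ha : a ∈ Sν ν) {z : SS hP g}
    (hz : z ∈ (D hP g).K (eν hP g ν)) :
    iSS hP g (mono hP g a) * z =
      tm hP g (AddMonoidAlgebra.single (⟨(a, ν), fun k => ⟨hν k, ha k⟩⟩ : NN s p) 1) 1 *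
        iSS hP g (εSS hP g z) := by
  refine K_induction hP g (ν := ν) (motive := fun z => iSS hP g (mono hP g a) * z =
      tm hP g (AddMonoidAlgebra.single (⟨(a, ν), fun k => ⟨hν k, ha k⟩⟩ : NN s p) 1) 1 *
        iSS hP g (εSS hP g z)) hz ?_ ?_ ?_
  · rw [map_zero, map_zero, mul_zero, mul_zero]
  · intro x t c hx
    rw [εSS_tm, iSS_apply, iSS_apply, tm_mul, tm_mul, one_mul, one_mul, mul_one]
    -- both sides equal `T^{a + x} ⊗ c`
    have h1 : tm hP g (AddMonoidAlgebra.single x t) (mono hP g a * c) =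
        tm hP g (algebraMap (UU s p) (RR s p) (AddMonoidAlgebra.single a 1) *
          AddMonoidAlgebra.single x t) c := by
      have h2 := TensorProduct.smul_tmul (R := UU s p) (AddMonoidAlgebra.single a 1 : UU s p)
        (AddMonoidAlgebra.single x t : RR s p) (show PP hP g from c)
      have h3 : (AddMonoidAlgebra.single a 1 : UU s p) • (show PP hP g from c) =
          (show PP hP g from mono hP g a * c) := by
        show ev hP g (AddMonoidAlgebra.single a 1) * c = mono hP g a * c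
        rw [ev_single, map_one, one_mul]
      rw [h3, Algebra.smul_def] at h2
      exact h2.symm
    have h4 : tm hP g (AddMonoidAlgebra.single (⟨(a, ν), fun k => ⟨hν k, ha k⟩⟩ : NN s p) 1)
        (evR hP g (AddMonoidAlgebra.single x t) * c) =
        tm hP g (algebraMap (UU s p) (RR s p) (AddMonoidAlgebra.single x.1.1 t) *
          AddMonoidAlgebra.single (⟨(a, ν), fun k => ⟨hν k, ha k⟩⟩ : NN s p) 1) c := by
      have h2 := TensorProduct.smul_tmul (R := UU s p) (AddMonoidAlgebra.single x.1.1 t : UU s p)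
        (AddMonoidAlgebra.single (⟨(a, ν), fun k => ⟨hν k, ha k⟩⟩ : NN s p) 1 : RR s p)
        (show PP hP g from c)
      have h3 : (AddMonoidAlgebra.single x.1.1 t : UU s p) • (show PP hP g from c) =
          (show PP hP g from evR hP g (AddMonoidAlgebra.single x t) * c) := by
        show ev hP g (AddMonoidAlgebra.single x.1.1 t) * c =
          evR hP g (AddMonoidAlgebra.single x t) * c
        rw [ev_single, evR_single]
      rw [h3, Algebra.smul_def] at h2
      exact h2.symm
    rw [h1, h4, algUR_single, algUR_single, AddMonoidAlgebra.single_mul_single,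
      AddMonoidAlgebra.single_mul_single, one_mul, mul_one]
    congr 2
    apply Subtype.ext
    rw [AddSubmonoid.coe_add, AddSubmonoid.coe_add]
    refine Prod.ext ?_ ?_
    · show a + x.1.1 = x.1.1 + a
      exact add_comm _ _
    · show (0 : κ → ℝ) + x.1.2 = 0 + ν
      rw [hx]
  · intro x y hx hy
    rw [mul_add, hx, hy, map_add, map_add, mul_add]

/-- **`Nul`**: the kernel of `K(ν) → P` is killed by all `h^{1/p^n}`, `h` a product of one
generator per block. -/
theorem nul (ν : κ → ℝ) (c : ∀ k, Fin (s k)) : (D hP g).Nul (eν hP g ν) (hc g c) := by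
  intro z hz hz0 n
  by_cases hν : 0 ≤ ν
  · obtain ⟨m, hm⟩ : ∃ n : ℕ, ∀ k, ν k ≤ n := by
      obtain ⟨n, hn⟩ := exists_nat_ge (∑ k, ν k)
      refine ⟨n, fun k => le_trans ?_ hn⟩
      exact Finset.single_le_sum (fun k _ => hν k) (Finset.mem_univ k)
    have ha : Ec c (DD.nat p m) ∈ (Sν ν : Set (Ex s p)) := by
      intro k
      rw [deg_Ec]; exact hm k
    have h1 := key_nul hP g ν hν _ ha hz
    have h0 : εSS hP g z = 0 := hz0
    rw [h0, map_zero, mul_zero, mono_Ec_nat, map_pow] at h1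
    have h2 : z * (iSS hP g (hc g c)) ^ m = 0 := by rw [mul_comm]; exact h1
    have h3 := (isPerf_SS hP g).pow_torsion h2 n
    rw [← hP.map_rtn (isPerf_SS hP g) (iSS hP g)] at h3
    rw [mul_comm]
    exact h3
  · have : ∃ k, ν k < 0 := by
      by_contra hcon
      push Not at hcon
      exact hν hcon
    obtain ⟨k, hk⟩ := this
    rw [K_eq_zero_of_neg hP g hk hz, mul_zero]

/-! ### the strands -/

lemma ΘS_mem (σ : DD p) (k : κ) (i : Fin (s k)) :
    ΘS hP g σ k i ∈ (D hP g).K (eν hP g (Pi.single k (σ : ℝ))) :=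
  tm_mem_K hP g (EN σ k i) 1 1

lemma ε_ΘS (σ : DD p) (k : κ) (i : Fin (s k)) :
    (D hP g).ε (ΘS hP g σ k i) = fp hP (g ⟨k, i⟩) σ := by
  show εSS hP g (tm hP g (AddMonoidAlgebra.single (EN σ k i) 1) 1) = _
  rw [εSS_tm, evR_single, map_one, one_mul, mul_one, EN_fst, mono_Eσ]

lemma eν_nuq (T : κ → ℝ) (k : κ) (σ : DD p) (q : ℕ) :
    eν hP g (Pi.single k (σ : ℝ)) * eν hP g (nuq T k σ (q + 1)) = eν hP g (nuq T k σ q) := by
  rw [← eν_add, nuq_succ T k σ q, add_comm]

/-- the almost exact Koszul strand on the ideals `I(T - q σ e_k)` of `P`. -/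
theorem kosNull_I {σ : DD p} {k : κ} {T : κ → ℝ} (hT0 : 0 < T k) (hT : (s k : ℝ) * σ ≤ T k)
    (c : ∀ k, Fin (s k)) :
    KosNull (Ideal.span (Set.range fun n => hP.rtn n (hc g c))) (fun i => fp hP (g ⟨k, i⟩) σ)
      (fun q => ((D hP g).I (eν hP g (nuq T k σ q)) : Submodule P P)) := by
  have h := kosNullP (D hP g) (g := ΘS hP g σ k) (e := fun q => eν hP g (nuq T k σ q))
    (ΘS_mem hP g σ k) (fun q _ => eν_nuq hP g T k σ q) (kosEx hP g hT0 hT) (h₀ := hc g c)
    (fun q _ => nul hP g _ c) (by rw [← eν_add]; exact nul hP g _ c)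
  simp only [ε_ΘS] at h
  exact h

/-- real degree vector of a natural one. -/
def toR (t : κ → ℕ) : κ → ℝ := fun k => t k

omit [Fintype κ] in
lemma toR_add (t t' : κ → ℕ) : toR (t + t') = toR t + toR t' := by
  funext k; simp [toR]

omit [Fintype κ] in
lemma toR_single (k : κ) (n : ℕ) : toR (Pi.single k n : κ → ℕ) = Pi.single k (n : ℝ) := by
  funext k'
  by_cases h : k' = k
  · subst h; simp [toR]
  · simp [toR, h]

lemma toR_nonneg (t : κ → ℕ) : 0 ≤ toR t := fun k => Nat.cast_nonneg _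

/-- the strand in natural-number degrees, in the form of `AsmG.monoSys_J`. -/
theorem kosEx_nat {k : κ} (T : κ → ℕ) (hs : 0 < s k) (hT : s k ≤ T k) :
    (D hP g).KosEx (ΘS hP g (DD.nat p 1) k) (fun q => eν hP g (toR (T - Pi.single k q))) := by
  have hq : ∀ q, q ≤ s k → toR (T - Pi.single k q) = nuq (toR T) k ((DD.nat p 1 : DD p) : ℝ) q := by
    intro q hq
    funext k'
    rw [nuq_apply]
    by_cases h : k' = k
    · subst h
      simp only [toR, Pi.sub_apply, Pi.single_eq_same, DD.nat_coe]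
      rw [Nat.cast_sub (hq.trans hT)]
      push_cast; ring
    · simp [toR, h]
  have hT' : 0 < toR T k := by
    unfold toR
    exact_mod_cast lt_of_lt_of_le hs hT
  have hT'' : (s k : ℝ) * ((DD.nat p 1 : DD p) : ℝ) ≤ toR T k := by
    rw [DD.nat_coe]
    simp only [toR, Nat.cast_one, mul_one]
    exact_mod_cast hT
  intro q F hF hd
  by_cases hqs : s k < q
  · have : F = 0 := hF.eq_zero hqs
    exact ⟨0, SuppIn.zero _ _, by rw [this, map_zero]⟩
  · simp only at hF
    rw [hq q (by omega)] at hF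
    obtain ⟨F', hF', hd'⟩ := kosEx hP g hT' hT'' q F hF hd
    by_cases hqs' : s k < q + 1
    · have : F' = 0 := hF'.eq_zero hqs'
      rw [this] at hd'
      exact ⟨0, SuppIn.zero _ _, hd'⟩
    · refine ⟨F', ?_, hd'⟩
      simp only
      rw [hq (q + 1) (by omega)]
      exact hF'

lemma eν_toR_zero : eν hP g (toR (0 : κ → ℕ)) = 1 := by
  have : toR (0 : κ → ℕ) = 0 := by funext k; simp [toR]
  rw [this, eν_zero]

lemma eν_toR_single (t : κ → ℕ) (k : κ) :
    eν hP g (Pi.single k ((DD.nat p 1 : DD p) : ℝ)) * eν hP g (toR t) =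
      eν hP g (toR (t + Pi.single k 1)) := by
  rw [← eν_add, toR_add, toR_single, DD.nat_coe, add_comm]

lemma ε_ΘS_one (k : κ) (i : Fin (s k)) :
    (D hP g).ε (ΘS hP g (DD.nat p 1) k i) = g ⟨k, i⟩ := by
  rw [ε_ΘS, fp_nat, pow_one]

end Main

end Crest.Agent.R188.UB
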