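/-
R188, block FINC (helper985), part 1: monomial ideals with one additional block `y`.
-/
import Crest.Agent.R188.UB5
import Crest.Agent.R188.FinA3

set_option autoImplicit false
set_option linter.unusedSectionVars false
set_option linter.unusedVariables false
set_option linter.unusedFintypeInType false
set_option linter.style.haveILetI false

namespace Crest.Agent.R188.FinC

open WittVector Crest.Agent.R188.Prf Crest.Agent.R188.Wit Crest.Agent.R188.Flg
open Crest.Agent.R188.Cmp Crest.Agent.R188.UB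
open Crest.Agent.R183.Digit (Convex)

/-! ### combinatorics -/

/-- below a function of large sum there is one of prescribed sum. -/
lemma exists_le_sum_eq {α : Type} [Fintype α] [DecidableEq α] (f : α → ℕ) :
    ∀ T : ℕ, T ≤ ∑ i, f i → ∃ β : α → ℕ, (∀ i, β i ≤ f i) ∧ ∑ i, β i = T := by
  intro T
  induction T with
  | zero => intro _; exact ⟨fun _ => 0, fun _ => Nat.zero_le _, by simp⟩
  | succ T ih =>
    intro h
    obtain ⟨β, h1, h2⟩ := ih (by omega)
    have : ∃ i, β i < f i := by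
      by_contra hcon
      push Not at hcon
      have h3 : ∑ i, f i ≤ ∑ i, β i := Finset.sum_le_sum fun i _ => hcon i
      omega
    obtain ⟨i, hi⟩ := this
    refine ⟨β + Pi.single i 1, fun j => ?_, ?_⟩
    · by_cases hj : j = i
      · subst hj; simp; omega
      · simp [hj]; exact h1 j
    · rw [Finset.sum_congr rfl fun j _ => Pi.add_apply β _ j, Finset.sum_add_distrib, h2,
        Finset.sum_pi_single']
      simp

/-- rounding down nonnegative reals of large sum. -/
lemma exists_floor {m : ℕ} (a : Fin m → ℝ) (ha : ∀ i, 0 ≤ a i) {T n : ℕ}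
    (hn : m ≤ n) (hs : ((n + 1 : ℕ) : ℝ) * T ≤ ∑ i, a i) :
    ∃ β : Fin m → ℕ, (∀ i, (β i : ℝ) ≤ a i) ∧ ∑ i, β i = T := by
  rcases Nat.eq_zero_or_pos T with h0 | h0
  · subst h0
    exact ⟨fun _ => 0, fun i => by simpa using ha i, by simp⟩
  · have h1 : (∑ i, a i) ≤ (∑ i, (⌊a i⌋₊ : ℝ)) + m := by
      have : ∀ i, a i ≤ (⌊a i⌋₊ : ℝ) + 1 := fun i => (Nat.lt_floor_add_one (a i)).le
      calc (∑ i, a i) ≤ ∑ i : Fin m, ((⌊a i⌋₊ : ℝ) + 1) := Finset.sum_le_sum fun i _ => this i
        _ = _ := by rw [Finset.sum_add_distrib]; simp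
    have h2 : T ≤ ∑ i, ⌊a i⌋₊ := by
      have h3 : ((T : ℕ) : ℝ) ≤ ((∑ i, ⌊a i⌋₊ : ℕ) : ℝ) := by
        push_cast
        have h4 : ((m : ℕ) : ℝ) ≤ n := by exact_mod_cast hn
        have h5 : (1 : ℝ) ≤ T := by exact_mod_cast h0
        have h6 : (0 : ℝ) ≤ n := Nat.cast_nonneg n
        push_cast at hs
        nlinarith
      exact_mod_cast h3
    obtain ⟨β, h3, h4⟩ := exists_le_sum_eq (fun i => ⌊a i⌋₊) T h2
    exact ⟨β, fun i => le_trans (by exact_mod_cast h3 i) (Nat.floor_le (ha i)), h4⟩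

/-! ### the extended system of generators -/

section opt

variable {κ : Type} [Fintype κ] [DecidableEq κ] (s : κ → ℕ) (s₀ : ℕ)

/-- the sizes of the blocks, with the additional block. -/
def sO : Option κ → ℕ
  | none => s₀
  | some k => s k

variable {P : Type} {s s₀}

/-- the generators, with the additional block. -/
def gO (g : (Σ k, Fin (s k)) → P) (y : Fin s₀ → P) : (Σ o, Fin (sO s s₀ o)) → P
  | ⟨none, j⟩ => y j
  | ⟨some k, i⟩ => g ⟨k, i⟩

/-- the degrees `(t T, m)`. -/
def NT (T : κ → ℕ) (t m : ℕ) : Option κ → ℕ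
  | none => m
  | some k => t * T k

lemma NT_add (T : κ → ℕ) (a b c d : ℕ) : NT T (a + c) (b + d) = NT T a b + NT T c d := by
  funext o
  cases o with
  | none => rfl
  | some k => exact add_mul a c (T k)

lemma NT_zero (T : κ → ℕ) : NT T 0 0 = 0 := by
  funext o
  cases o with
  | none => rfl
  | some k => exact zero_mul _

lemma NT_nsmul (T : κ → ℕ) (n a b : ℕ) : NT T (n * a) (n * b) = n • NT T a b := by
  funext o
  cases o with
  | none => rfl
  | some k => exact mul_assoc n a (T k)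

lemma NT_mono (T : κ → ℕ) {a b c d : ℕ} (h1 : a ≤ c) (h2 : b ≤ d) : NT T a b ≤ NT T c d := by
  intro o
  cases o with
  | none => exact h2
  | some k => exact Nat.mul_le_mul_right _ h1

variable {p : ℕ} [hp : Fact p.Prime]

/-- restriction of exponents to the old blocks -/
def resE (a : Ex (sO s s₀) p) : Ex s p := fun x => a ⟨some x.1, x.2⟩

/-- extension of exponents by zero on the new block -/
def extE (a : Ex s p) : Ex (sO s s₀) p
  | ⟨none, _⟩ => 0
  | ⟨some k, i⟩ => a ⟨k, i⟩

omit hp [Fintype κ] [DecidableEq κ] in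
lemma resE_extE (a : Ex s p) : resE (extE (s₀ := s₀) a) = a := rfl

omit hp [Fintype κ] [DecidableEq κ] in
lemma deg_some (a : Ex (sO s s₀) p) (k : κ) : deg (some k) a = deg k (resE a) := rfl

omit hp [Fintype κ] [DecidableEq κ] in
lemma deg_none_ext (a : Ex s p) : deg (none : Option κ) (extE (s₀ := s₀) a) = 0 := by
  rw [deg_apply]
  exact Finset.sum_eq_zero fun i _ => rfl

variable [CommRing P] [CharP P p] (hP : IsPerf p P) (g : (Σ k, Fin (s k)) → P) (y : Fin s₀ → P)

omit [DecidableEq κ] in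
lemma mono_gO (a : Ex (sO s s₀) p) :
    mono hP (gO g y) a = (∏ j : Fin s₀, fp hP (y j) (a ⟨none, j⟩)) * mono hP g (resE a) := by
  unfold mono
  rw [← Finset.univ_sigma_univ, Finset.prod_sigma, Fintype.prod_option, ← Finset.univ_sigma_univ,
    Finset.prod_sigma]
  rfl

omit [DecidableEq κ] in
lemma mono_gO_ext (a : Ex s p) : mono hP (gO g y) (extE a) = mono hP g a := by
  rw [mono_gO, resE_extE]
  have : (∏ j : Fin s₀, fp hP (y j) (extE a ⟨none, j⟩)) = 1 := by
    refine Finset.prod_eq_one fun j _ => ?_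
    show fp hP (y j) 0 = 1
    exact fp_zero hP _
  rw [this, one_mul]

/-! ### the ideals -/

/-- natural degrees: `D.I (eν (toR T))`. -/
noncomputable abbrev In {κ : Type} [Fintype κ] [DecidableEq κ] {s : κ → ℕ}
    (g : (Σ k, Fin (s k)) → P) (T : κ → ℕ) : Ideal P :=
  (UB.D hP g).I (eν hP g (toR T))

section gen

variable {κ' : Type} [Fintype κ'] [DecidableEq κ'] {s' : κ' → ℕ} (g' : (Σ k, Fin (s' k)) → P)

lemma In_zero : In hP g' 0 = ⊤ := by
  rw [Ideal.eq_top_iff_one]
  unfold In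
  rw [eν_toR_zero]
  have h := (UB.D hP g').i_mem 1
  exact ⟨_, h, (UB.D hP g').εi 1⟩

lemma toR_mono {T T' : κ' → ℕ} (h : T ≤ T') : toR T ≤ toR T' :=
  fun k => Nat.cast_le.2 (h k)

lemma In_anti {T T' : κ' → ℕ} (h : T ≤ T') : In hP g' T' ≤ In hP g' T :=
  I_anti hP g' (toR_nonneg T) (toR_mono h)

lemma In_mul {T T' : κ' → ℕ} {x y : P} (hx : x ∈ In hP g' T) (hy : y ∈ In hP g' T') :
    x * y ∈ In hP g' (T + T') := by
  obtain ⟨z, hz, rfl⟩ := hx
  obtain ⟨w, hw, rfl⟩ := hy
  refine ⟨z * w, ?_, map_mul _ _ _⟩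
  rw [toR_add, eν_add]
  exact mul_mem_Gr hz hw

lemma In_root {T : κ' → ℕ} {x : P} (hx : x ^ p ∈ In hP g' (p • T)) : x ∈ In hP g' T := by
  have h1 : eν hP g' (toR (p • T)) = eν hP g' (toR T) ^ p ^ 1 := by
    rw [eν_pow, pow_one]
    congr 1
    funext k
    simp [toR]
  unfold In at hx
  rw [h1] at hx
  have h2 := (UB.D hP g').rtn_mem_I hx
  rwa [(UB.D hP g').hP.rtn_eq_of_pow (n := 1) (y := x) (by rw [pow_one])] at h2

lemma mono_mem_In {T : κ' → ℕ} {a : Ex s' p} (ha : ∀ k, (T k : ℝ) ≤ deg k a) :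
    mono hP g' a ∈ In hP g' T := mono_mem_I hP g' (toR_nonneg T) ha

lemma gen_mem_In (k : κ') (i : Fin (s' k)) : g' ⟨k, i⟩ ∈ In hP g' (Pi.single k 1) := by
  have h1 : mono hP g' (Eσ (DD.nat p 1) k i) = g' ⟨k, i⟩ := by
    rw [mono_Eσ, fp_nat, pow_one]
  rw [← h1]
  apply mono_mem_In
  intro k'
  by_cases h : k' = k
  · subst h
    rw [deg_Eσ_same, Pi.single_eq_same, DD.nat_coe]
  · rw [deg_Eσ_ne _ h, Pi.single_eq_of_ne h]; simp

/-- induction principle: `In` is spanned by monomials. -/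
lemma In_induction {T : κ' → ℕ} {motive : P → Prop} {x : P} (hx : x ∈ In hP g' T)
    (hm : ∀ a : Ex s' p, (∀ k, (T k : ℝ) ≤ deg k a) → motive (mono hP g' a))
    (h0 : motive 0) (ha : ∀ x y, motive x → motive y → motive (x + y))
    (hs : ∀ c x, motive x → motive (c * x)) : motive x := by
  unfold In at hx
  rw [I_eq_span hP g' (toR_nonneg T)] at hx
  refine Submodule.span_induction (p := fun x _ => motive x) ?_ h0 (fun x y _ _ => ha x y)
    (fun c x _ => hs c x) hx
  rintro _ ⟨a, ha, rfl⟩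
  exact hm a ha

end gen

/-- the ideal of degree `(t T, m)`. -/
noncomputable def IO (T : κ → ℕ) (t m : ℕ) : Ideal P := In hP (gO g y) (NT T t m)

/-- **the family `Fam`.** -/
noncomputable def fam (T : κ → ℕ) : FinA.Fam p P where
  I t m := IO hP g y T t m
  convex t m := (UB.D hP (gO g y)).I_convex _
  top := by
    unfold IO
    rw [NT_zero]
    exact In_zero hP _
  anti h1 h2 := In_anti hP _ (NT_mono T h1 h2)
  mul hx hy := by
    unfold IO
    rw [NT_add]
    exact In_mul hP _ hx hy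
  root hx := by
    unfold IO at hx
    rw [NT_nsmul] at hx
    exact In_root hP _ hx

lemma fam_I (T : κ → ℕ) (t m : ℕ) : (fam hP g y T).I t m = IO hP g y T t m := rfl

/-- the degree `(T, 0)` part is the old ideal. -/
theorem IO_one_zero (T : κ → ℕ) : IO hP g y T 1 0 = In hP g T := by
  apply le_antisymm
  · intro x hx
    refine In_induction hP (gO g y) hx (motive := fun x => x ∈ In hP g T) ?_ (zero_mem _)
      (fun _ _ => add_mem) (fun c _ => Ideal.mul_mem_left _ c)
    intro a ha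
    rw [mono_gO]
    refine Ideal.mul_mem_left _ _ (mono_mem_In hP g fun k => ?_)
    have := ha (some k)
    rw [deg_some] at this
    simpa [NT] using this
  · intro x hx
    refine In_induction hP g hx (motive := fun x => x ∈ IO hP g y T 1 0) ?_ (zero_mem _)
      (fun _ _ => add_mem) (fun c _ => Ideal.mul_mem_left _ c)
    intro a ha
    rw [← mono_gO_ext hP g y]
    refine mono_mem_In hP _ fun o => ?_
    cases o with
    | none => rw [deg_none_ext]; simp [NT]
    | some k => rw [deg_some, resE_extE]; simpa [NT] using ha k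

/-- the new generators are in `I 0 1`. -/
lemma y_mem (T : κ → ℕ) (j : Fin s₀) : y j ∈ IO hP g y T 0 1 := by
  have h := gen_mem_In hP (gO g y) none j
  have : NT T 0 1 = Pi.single none 1 := by
    funext o
    cases o with
    | none => simp [NT]
    | some k => simp [NT]
  unfold IO
  rw [this]
  exact h

/-- products of the old generators. -/
lemma hc_mem (T : κ → ℕ) (i₀ : ∀ k, Fin (s k)) {t n : ℕ} (hn : ∀ k, t * T k ≤ n) :
    hc g i₀ ^ n ∈ IO hP g y T t 0 := by
  rw [← mono_Ec_nat hP g i₀ n, ← mono_gO_ext hP g y]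
  refine mono_mem_In hP _ fun o => ?_
  cases o with
  | none => rw [deg_none_ext]; simp [NT]
  | some k =>
    rw [deg_some, resE_extE, deg_Ec, DD.nat_coe]
    exact_mod_cast hn k

/-! ### Skoda -/

/-- the integral exponents of degree exactly `T`. -/
def Exps (s : κ → ℕ) (T : κ → ℕ) : Type :=
  {β : ∀ x : (Σ k, Fin (s k)), Fin (T x.1 + 1) // ∀ k, ∑ i : Fin (s k), (β ⟨k, i⟩ : ℕ) = T k}

noncomputable instance (s : κ → ℕ) (T : κ → ℕ) : Fintype (Exps s T) := by
  classical
  exact inferInstanceAs (Fintype {β : ∀ x : (Σ k, Fin (s k)), Fin (T x.1 + 1) //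
    ∀ k, ∑ i : Fin (s k), (β ⟨k, i⟩ : ℕ) = T k})

/-- the monomial with integral exponents. -/
def gen (g : (Σ k, Fin (s k)) → P) (T : κ → ℕ) (β : Exps s T) : P := ∏ x, g x ^ (β.1 x : ℕ)

/-- the exponent of a generator -/
def eE (T : κ → ℕ) (β : Exps s T) : Ex s p := fun x => DD.nat p (β.1 x : ℕ)

lemma gen_eq (T : κ → ℕ) (β : Exps s T) : gen g T β = mono hP g (eE T β) := by
  unfold gen mono
  exact Finset.prod_congr rfl fun x _ => (fp_nat hP _ _).symm

lemma deg_eE (T : κ → ℕ) (β : Exps s T) (k : κ) : deg k (eE (p := p) T β) = T k := by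
  rw [deg_apply]
  have h := β.2 k
  have : (∑ i : Fin (s k), ((eE (p := p) T β ⟨k, i⟩ : DD p) : ℝ)) =
      ((∑ i : Fin (s k), (β.1 ⟨k, i⟩ : ℕ) : ℕ) : ℝ) := by
    push_cast
    exact Finset.sum_congr rfl fun i _ => DD.nat_coe _
  rw [this, h]

lemma gen_mem (T : κ → ℕ) (β : Exps s T) : gen g T β ∈ IO hP g y T 1 0 := by
  rw [IO_one_zero, gen_eq hP]
  exact mono_mem_In hP g fun k => (deg_eE T β k).ge

/-- **Skoda** -/
theorem skoda (T : κ → ℕ) {n : ℕ} (hn : ∀ k, s k ≤ n) {x : P} (hx : x ∈ IO hP g y T (n + 1) 0) :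
    ∃ a : Exps s T → P, (∀ β, a β ∈ IO hP g y T n 0) ∧ x = ∑ β, gen g T β * a β := by
  classical
  refine In_induction hP (gO g y) hx (motive := fun x => ∃ a : Exps s T → P,
    (∀ β, a β ∈ IO hP g y T n 0) ∧ x = ∑ β, gen g T β * a β) ?_ ?_ ?_ ?_
  · intro a ha
    have h1 : ∀ k, ∃ β : Fin (s k) → ℕ, (∀ i, (β i : ℝ) ≤ a ⟨some k, i⟩) ∧ ∑ i, β i = T k := by
      intro k
      refine exists_floor _ (fun i => DD_nonneg (a ⟨some k, i⟩).2) (hn k) ?_
      have := ha (some k)
      rw [deg_some, deg_apply] at this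
      simp only [NT] at this
      push_cast at this ⊢
      exact this
    choose β h2 h3 using h1
    have h4 : ∀ k i, β k i < T k + 1 := by
      intro k i
      have : β k i ≤ ∑ i, β k i := Finset.single_le_sum (fun _ _ => Nat.zero_le _)
        (Finset.mem_univ i)
      have := h3 k
      omega
    let β' : Exps s T := ⟨fun x => ⟨β x.1 x.2, h4 x.1 x.2⟩, h3⟩
    -- the difference
    let a' : Ex (sO s s₀) p := fun x => match x with
      | ⟨none, j⟩ => a ⟨none, j⟩
      | ⟨some k, i⟩ => ⟨(a ⟨some k, i⟩ : ℝ) - (β k i : ℝ),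
          DD_sub (a ⟨some k, i⟩).2 (natCast_mem_DD _) (h2 k i)⟩
    have haa : a = extE (eE T β') + a' := by
      funext x
      rcases x with ⟨o, i⟩
      cases o with
      | none =>
        show a ⟨none, i⟩ = 0 + a ⟨none, i⟩
        rw [zero_add]
      | some k =>
        apply Subtype.ext
        show (a ⟨some k, i⟩ : ℝ) = ((DD.nat p (β k i) : DD p) : ℝ) +
          ((a ⟨some k, i⟩ : ℝ) - (β k i : ℝ))
        rw [DD.nat_coe]; ring
    have h5 : mono hP (gO g y) a' ∈ IO hP g y T n 0 := by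
      refine mono_mem_In hP _ fun o => ?_
      cases o with
      | none =>
        simp only [NT, Nat.cast_zero]
        exact deg_nonneg _ _
      | some k =>
        have h6 := ha (some k)
        have h7 : deg (some k) a = deg (some k) (extE (s₀ := s₀) (eE (p := p) T β')) +
          deg (some k) a' := by
          conv_lhs => rw [haa]
          rw [map_add]
        rw [deg_some (extE (eE T β')) k, resE_extE, deg_eE] at h7
        simp only [NT] at h6 ⊢
        push_cast at h6 ⊢
        linarith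
    refine ⟨fun γ => if γ = β' then mono hP (gO g y) a' else 0, fun γ => ?_, ?_⟩
    · by_cases h : γ = β'
      · simp only [if_pos h]; exact h5
      · simp only [if_neg h]; exact zero_mem _
    · rw [Finset.sum_eq_single_of_mem β' (Finset.mem_univ _)]
      · simp only [if_pos]
        rw [gen_eq hP, ← mono_gO_ext hP g y, ← mono_add, ← haa]
      · intro γ _ h
        simp only [if_neg h, mul_zero]
  · exact ⟨fun _ => 0, fun _ => zero_mem _, by simp⟩
  · rintro x x' ⟨a, h1, rfl⟩ ⟨a', h1', rfl⟩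
    refine ⟨fun β => a β + a' β, fun β => add_mem (h1 β) (h1' β), ?_⟩
    rw [← Finset.sum_add_distrib]
    exact Finset.sum_congr rfl fun β _ => by ring
  · rintro c x ⟨a, h1, rfl⟩
    refine ⟨fun β => c * a β, fun β => Ideal.mul_mem_left _ _ (h1 β), ?_⟩
    rw [Finset.mul_sum]
    exact Finset.sum_congr rfl fun β _ => by ring

/-! ### the strand of the new block -/

/-- the extended choice of one generator in each block. -/
def cO (i₀ : ∀ k, Fin (s k)) (j₀ : Fin s₀) : ∀ o, Fin (sO s s₀ o)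
  | none => j₀
  | some k => i₀ k

omit [CharP P p] hp in
lemma hc_gO (i₀ : ∀ k, Fin (s k)) (j₀ : Fin s₀) : hc (gO g y) (cO i₀ j₀) = y j₀ * hc g i₀ := by
  unfold hc
  rw [Fintype.prod_option]
  rfl

lemma NT_sub (T : κ → ℕ) (t q : ℕ) :
    (NT T t s₀ - Pi.single none q : Option κ → ℕ) = NT T t (s₀ - q) := by
  funext o
  cases o with
  | none => simp [NT]
  | some k => simp [NT]

lemma NT_sub_add (T : κ → ℕ) (t q : ℕ) (hq : q < s₀) :
    (NT T t (s₀ - (q + 1)) + Pi.single none 1 : Option κ → ℕ) = NT T t (s₀ - q) := by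
  funext o
  cases o with
  | none => simp [NT]; omega
  | some k => simp [NT]

/-- **the strand of the `y`-block**: `n = 1`, ideals `I 1 (s₀ - q)`. -/
theorem strand (T : κ → ℕ) (t : ℕ) (hs₀ : 0 < s₀) (i₀ : ∀ k, Fin (s k)) (j₀ : Fin s₀) :
    KosNull (Ideal.span (Set.range fun n => hP.rtn n (y j₀ * hc g i₀))) y
      (fun q => (IO hP g y T t (s₀ - q) : Submodule P P)) := by
  have hK : (UB.D hP (gO g y)).KosEx (ΘS hP (gO g y) (DD.nat p 1) (none : Option κ))
      (fun q => eν hP (gO g y) (toR (NT T t (s₀ - q)))) := by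
    have := kosEx_nat hP (gO g y) (k := none) (NT T t s₀) hs₀ le_rfl
    simp only [NT_sub] at this
    exact this
  have hv : ∀ q < s₀, eν hP (gO g y) (Pi.single none ((DD.nat p 1 : DD p) : ℝ)) *
      eν hP (gO g y) (toR (NT T t (s₀ - (q + 1)))) = eν hP (gO g y) (toR (NT T t (s₀ - q))) := by
    intro q hq
    rw [eν_toR_single, NT_sub_add T t q hq]
  have hN : ∀ ν : Option κ → ℝ, (UB.D hP (gO g y)).Nul (eν hP (gO g y) ν)
      (hc (gO g y) (cO i₀ j₀)) := fun ν => nul hP (gO g y) ν (cO i₀ j₀)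
  have h := kosNullP (UB.D hP (gO g y)) (s := s₀)
    (g := ΘS hP (gO g y) (DD.nat p 1) (none : Option κ))
    (e := fun q => eν hP (gO g y) (toR (NT T t (s₀ - q))))
    (v := eν hP (gO g y) (Pi.single none ((DD.nat p 1 : DD p) : ℝ)))
    (ΘS_mem hP (gO g y) (DD.nat p 1) none) hv hK (h₀ := hc (gO g y) (cO i₀ j₀))
    (fun q _ => hN _) (by rw [← eν_add]; exact hN _)
  have e1 : (fun j : Fin s₀ => (UB.D hP (gO g y)).ε
      (ΘS hP (gO g y) (DD.nat p 1) (none : Option κ) j)) = y := by
    funext j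
    exact ε_ΘS_one hP (gO g y) none j
  rw [hc_gO] at h
  rw [e1] at h
  exact h

end opt

end Crest.Agent.R188.FinC
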