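/-
R188, block (GOOD): parameters of `B/β`.   helper111
-/
import Crest.Agent.R188.PerfC3
import Crest.Agent.R188.FinA5
import Crest.Agent.R188.Noe6

set_option autoImplicit false
set_option linter.unusedSectionVars false

namespace Crest.Agent.R188.PerfC

open IsLocalRing
open WittVector Crest.Agent.R183 Crest.Agent.R183.Res Crest.Agent.R183.Cohen
open Crest.Agent.R188.Asm

theorem mB_eq (p : ℕ) [hp : Fact p.Prime] (k : Type) [Field k] [CharP k p] [PerfectRing k p]
    (b : ℕ) : mB p k b = maximalIdeal (BB p k b) := by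
  rw [← maxBB]
  unfold mB Ideal.ofList
  congr 1
  ext x
  change x ∈ Set.range (tB p k b) ↔ x ∈ List.ofFn (tB p k b)
  rw [List.mem_ofFn, Set.mem_range]

/-- **parameters of `B/β`** -/
theorem paramB (p : ℕ) [hp : Fact p.Prime] (k : Type) [Field k] [CharP k p] [PerfectRing k p]
    (b : ℕ) : FinA.ParamB p k b := by
  intro β hβ
  by_cases hu : IsUnit β
  · refine ⟨fun _ => 0, fun _ => zero_mem _, 0, ?_⟩
    rw [Ideal.span_singleton_eq_top.2 hu, top_sup_eq]
    exact le_top
  · have := regBB p k b
    have hm : Ideal.span {β} ≤ maximalIdeal (BB p k b) := by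
      rw [Ideal.span_singleton_le_iff_mem]
      exact (mem_maximalIdeal _).2 hu
    have hdim : ringKrullDim (BB p k b ⧸ Ideal.span {β}) ≤ (b : ℕ) := by
      have h1 := ringKrullDim_quotient_succ_le_of_nonZeroDivisor (mem_nonZeroDivisors_of_ne_zero hβ)
      rw [dimBB] at h1
      push_cast at h1
      exact ENat.WithBot.add_le_add_natCast_right_iff.mp h1
    obtain ⟨z, hz, c, hc⟩ := Noe.exists_sop hm hdim
    refine ⟨z, fun i => by rw [mB_eq]; exact hz i, c, by rw [mB_eq]; exact hc⟩

end Crest.Agent.R188.PerfC
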