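import Crest.Agent.R188.FinA6
import Crest.Agent.R188.FinB2
import Crest.Agent.R188.FinC1
import Crest.Agent.R188.PerfC6
import Crest.Agent.R188.AsmU1

/-!
# R188, block FINA (helper414), part 7: `Good` for the monomial ideals, and `Twist`
-/

set_option autoImplicit false
set_option linter.unusedSectionVars false
set_option linter.style.haveILetI false

namespace Crest.Agent.R188.FinA

open scoped ENNReal Pointwise
open WittVector Function Crest.Agent.R188.Prf Crest.Agent.R188.Wit Crest.Agent.R183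
open Crest.Agent.R183.Digit (Convex)
open Crest.Agent.R188.Asm Crest.Agent.R188.AsmG Crest.Agent.R188.KosG

section sharp

variable {p : ℕ} [hp : Fact p.Prime] {P : Type} [CommRing P] {h : IsPerf p P}
  {ξ : WittVector p P} {A : Type} [CommRing A] {ι : A →+* Om ξ}

lemma sharpPair_pow {a : P} {r : ℕ → A} (h1 : SharpPair h ι a r) (n : ℕ) :
    SharpPair h ι (a ^ n) (fun m => r m ^ n) := by
  induction n with
  | zero => simpa using SharpPair.one
  | succ n ih =>
    have := SharpPair.mul ih h1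
    simpa only [pow_succ] using this

end sharp

section world

variable {p : ℕ} [hp : Fact p.Prime] {k : Type} [Field k] [CharP k p] {b : ℕ} (W : World p k b)

lemma tr_zero_ne (i : Fin (b + 1)) : W.tr i 0 ≠ 0 := by
  rw [W.tr_zero]
  intro h
  have h1 : tB p k b i = 0 := by
    apply FaithfulSMul.algebraMap_injective (BB p k b) (BPlus p k b)
    rw [h, map_zero]
  revert h1
  refine Fin.cases ?_ (fun i => ?_) i
  · intro h1
    have h2 : (p : BB p k b) = 0 := h1
    have h3 : (MvPowerSeries.constantCoeff (p : BB p k b)) = 0 := by rw [h2, map_zero]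
    rw [map_natCast] at h3
    exact WittVector.p_nonzero p k h3
  · intro h1
    have h2 : (MvPowerSeries.X i : BB p k b) = 0 := h1
    have h3 := congrArg (MvPowerSeries.coeff (Finsupp.single i 1)) h2
    rw [MvPowerSeries.coeff_index_single_self_X, map_zero] at h3
    exact one_ne_zero h3

variable [IsAlgClosed k] {κ : Type} [Fintype κ] [DecidableEq κ] {s : κ → ℕ}
  {c : ∀ j, Fin (s j) → BPlus p k b}

theorem kh_IT_ne_top (hB : HBound p k b) (F : SharpFam W s c) (i₀ : ∀ j, Fin (s j))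
    (hi₀ : ∀ j, c j (i₀ j) ≠ 0) (T : κ → ℕ) (i : ℤ) :
    kh (LP W.Λ) (List.ofFn W.t) ↥(AsmU.IT W F.a T) i ≠ ⊤ := by
  obtain ⟨h1, h2⟩ := F.prod i₀ hi₀
  have hIT : AsmU.IT W F.a T = (FinC.fam W.perf F.a W.t T).I 1 0 :=
    (FinC.IO_one_zero W.perf F.a W.t T).symm
  rw [hIT]
  set G := FinC.fam W.perf F.a W.t T with hG
  have hy : ∀ j, W.t j ∈ G.I 0 1 := fun j => FinC.y_mem W.perf F.a W.t T j
  have hsh := SharpPair.mul (W.t_sharp 0) h1
  refine FinB.kh_world_ne_top W hsh (mul_ne_zero (tr_zero_ne W 0) h2) 1 one_pos (G.I 1 0)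
    (fun q => G.I 1 (b + 1 - q)) (fun q _ => G.anti le_rfl (Nat.zero_le _)) ?_ (fun q _ => ?_) i
  · simp only [pow_one]
    exact FinC.strand W.perf F.a W.t T 1 (Nat.succ_pos b) i₀ 0
  · refine fin_of_fam W hB G (c := FinC.gen F.a T)
      (r := fun β n => ∏ x, F.rr x n ^ (β.1 x : ℕ)) (fun β => ?_) (fun β => ?_)
      (s := 1 + ∑ j, s j) ?_ (Nat.le_add_right 1 _) hy
      (h := (∏ j, F.a ⟨j, i₀ j⟩) ^ (∑ j, (1 + ∑ j, s j) * T j))
      (sharpPair_pow h1 _) (pow_ne_zero _ h2) ?_ le_rfl _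
    · exact SharpPair.prod _ fun x _ => sharpPair_pow (F.sharp x) _
    · exact FinC.gen_mem W.perf F.a W.t T β
    · intro n hn x hx
      refine FinC.skoda W.perf F.a W.t T (fun j => ?_) hx
      have : s j ≤ ∑ j, s j := Finset.single_le_sum (fun _ _ => Nat.zero_le _) (Finset.mem_univ j)
      omega
    · exact FinC.hc_mem W.perf F.a W.t T i₀ fun j =>
        Finset.single_le_sum (f := fun j => (1 + ∑ j, s j) * T j) (fun _ _ => Nat.zero_le _)
          (Finset.mem_univ j)

/-- **`Good`** for the monomial ideals. -/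
theorem good_IT (hB : HBound p k b) (F : SharpFam W s c) (i₀ : ∀ j, Fin (s j))
    (hi₀ : ∀ j, c j (i₀ j) ≠ 0) (T : κ → ℕ) :
    Good W (UB.hc F.a i₀) (AsmU.IT W F.a T) := by
  obtain ⟨h1, h2⟩ := F.prod i₀ hi₀
  exact good_of W (PerfC.paramB p k b) h1 h2 (AsmU.convex_IT W F.a T)
    (AsmU.exists_pow_mem_IT W F.a i₀ T) (kh_IT_ne_top W hB F i₀ hi₀ T)

/-- **`Twist`** -/
theorem twist (hB : HBound p k b) : Twist W :=
  AsmU.twist_of_good W fun _ _ _ _ F i₀ hi₀ T => good_IT W hB F i₀ hi₀ T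

end world

end Crest.Agent.R188.FinA
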