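import Mathlib

/-!
# R188 (Serre positivity), block HB: dimension of algebraic extensions of finite type

`ringKrullDim_adjoin_finset_le` : `S` a Noetherian domain, `L ⊇ S` a domain, `F ⊂ L` finite,
all elements of `F` algebraic over `S`: `dim S[F] ≤ dim S`.
-/

set_option autoImplicit false

namespace Crest.Agent.R188.HB

open Polynomial

theorem withBot_le_of_add_one_le {a b : WithBot ℕ∞} (h : a + 1 ≤ b + 1) : a ≤ b := by
  induction a with
  | bot => exact bot_le
  | coe a =>
    induction b with
    | bot => simp at h
    | coe b =>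
      have h' : a + 1 ≤ b + 1 := by exact_mod_cast h
      have : a ≤ b := (ENat.add_le_add_iff_right ENat.one_ne_top).1 h'
      exact_mod_cast this

/-- adjoining one algebraic element does not increase the dimension. -/
theorem ringKrullDim_adjoin_singleton_le {S L : Type*} [CommRing S] [IsNoetherianRing S]
    [CommRing L] [IsDomain L] [Algebra S L] [FaithfulSMul S L] (x : L) (hx : IsAlgebraic S x) :
    ringKrullDim (Algebra.adjoin S {x}) ≤ ringKrullDim S := by
  have hinj : Function.Injective (algebraMap S L) := FaithfulSMul.algebraMap_injective S L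
  have : IsDomain S := hinj.isDomain
  obtain ⟨p, hp0, hp⟩ := hx
  have e : (S[X] ⧸ RingHom.ker (aeval (R := S) x)) ≃ₐ[S] (aeval (R := S) x).range :=
    Ideal.quotientKerEquivRange _
  have e2 : (aeval (R := S) x).range ≃ₐ[S] Algebra.adjoin S {x} :=
    Subalgebra.equivOfEq _ _ (Algebra.adjoin_singleton_eq_range_aeval S x).symm
  rw [← ringKrullDim_eq_of_ringEquiv (e.trans e2).toRingEquiv]
  have hle : Ideal.span {p} ≤ RingHom.ker (aeval (R := S) x) := by
    rw [Ideal.span_singleton_le_iff_mem, RingHom.mem_ker]
    exact hp
  have h1 : ringKrullDim (S[X] ⧸ RingHom.ker (aeval (R := S) x)) ≤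
      ringKrullDim (S[X] ⧸ Ideal.span {p}) :=
    ringKrullDim_le_of_surjective (Ideal.Quotient.factor hle)
      (Ideal.Quotient.factor_surjective hle)
  have h2 := ringKrullDim_quotient_succ_le_of_nonZeroDivisor
    (mem_nonZeroDivisors_of_ne_zero hp0)
  rw [Polynomial.ringKrullDim_of_isNoetherianRing] at h2
  exact h1.trans (withBot_le_of_add_one_le h2)

theorem isNoetherianRing_adjoin_finset {S L : Type*} [CommRing S] [IsNoetherianRing S]
    [CommRing L] [Algebra S L] (F : Finset L) :
    IsNoetherianRing (Algebra.adjoin S (F : Set L)) := by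
  have : Algebra.FiniteType S (Algebra.adjoin S (F : Set L)) :=
    (Subalgebra.fg_iff_finiteType _).1 ⟨F, rfl⟩
  exact Algebra.FiniteType.isNoetherianRing S _

theorem ringKrullDim_adjoin_finset_le {S L : Type*} [CommRing S] [IsNoetherianRing S]
    [CommRing L] [IsDomain L] [Algebra S L] [FaithfulSMul S L] (F : Finset L)
    (hF : ∀ x ∈ F, IsAlgebraic S x) :
    ringKrullDim (Algebra.adjoin S (F : Set L)) ≤ ringKrullDim S := by
  classical
  have hinj : Function.Injective (algebraMap S L) := FaithfulSMul.algebraMap_injective S L
  induction F using Finset.induction with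
  | empty =>
    have e : Algebra.adjoin S ((∅ : Finset L) : Set L) ≃ₐ[S] S :=
      (Subalgebra.equivOfEq _ _ (by simp)).trans (Algebra.botEquivOfInjective hinj)
    exact (ringKrullDim_eq_of_ringEquiv e.toRingEquiv).le
  | insert x F hx ih =>
    have ih' := ih fun z hz => hF z (Finset.mem_insert_of_mem hz)
    have hN : IsNoetherianRing (Algebra.adjoin S (F : Set L)) := isNoetherianRing_adjoin_finset F
    have hinj2 : Function.Injective (algebraMap S (Algebra.adjoin S (F : Set L))) := by
      intro a b hab
      exact hinj (congrArg Subtype.val hab)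
    have halg : IsAlgebraic (Algebra.adjoin S (F : Set L)) x :=
      (hF x (Finset.mem_insert_self _ _)).extendScalars hinj2
    have h1 := ringKrullDim_adjoin_singleton_le (S := Algebra.adjoin S (F : Set L)) x halg
    have h2 : (Algebra.adjoin (Algebra.adjoin S (F : Set L)) ({x} : Set L)).restrictScalars S =
        Algebra.adjoin S ((insert x F : Finset L) : Set L) := by
      rw [← Algebra.adjoin_union_eq_adjoin_adjoin]
      congr 1
      ext z
      simp
    have e := Subalgebra.equivOfEq _ _ h2
    rw [← ringKrullDim_eq_of_ringEquiv e.toRingEquiv]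
    exact h1.trans ih'

end Crest.Agent.R188.HB
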