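import Crest.Agent.R188.HB6
import Crest.Agent.R188.HB1
import Crest.Agent.R188.FinA6
import Crest.Agent.R188.PerfC6
import Crest.Agent.R183.G11
import Crest.Agent.R183.RD8

/-!
# R188 (Serre positivity), block HB, part 7: the Hilbert bound over finite subalgebras of `B⁺`
(helper414)
-/

set_option autoImplicit false
set_option linter.unusedSectionVars false

namespace Crest.Agent.R188.HB

open IsLocalRing Crest.Agent.R183

universe u v

section local_

variable (B : Type u) [CommRing B] [IsLocalRing B] [IsNoetherianRing B]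
  [IsAdicComplete (maximalIdeal B) B] (N : Type v) [CommRing N] [Algebra B N]
  [Module.Finite B N]

lemma map_le_of_isMaximal (M : Ideal N) [M.IsMaximal] :
    (maximalIdeal B).map (algebraMap B N) ≤ M := by
  have h1 : (M.comap (algebraMap B N)).IsMaximal :=
    Ideal.isMaximal_comap_of_isIntegral_of_isMaximal M
  rw [Ideal.map_le_iff_le_comap, eq_maximalIdeal h1]

lemma isMaximal_of_le (P : Ideal N) [P.IsPrime] (h : (maximalIdeal B).map (algebraMap B N) ≤ P) :
    P.IsMaximal := by
  have h1 : maximalIdeal B ≤ P.comap (algebraMap B N) := Ideal.map_le_iff_le_comap.1 h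
  have h2 : P.comap (algebraMap B N) = maximalIdeal B :=
    ((maximalIdeal.isMaximal B).eq_of_le (Ideal.IsPrime.comap (algebraMap B N)).ne_top h1).symm
  have h3 : (P.comap (algebraMap B N)).IsMaximal := h2 ▸ maximalIdeal.isMaximal B
  exact Ideal.isMaximal_of_isIntegral_of_isMaximal_comap P h3

lemma isArtinian_fibre : IsArtinianRing (N ⧸ (maximalIdeal B).map (algebraMap B N)) := by
  have hNN : IsNoetherianRing N := IsNoetherianRing.of_finite B N
  rw [isArtinianRing_iff_isNoetherianRing_krullDimLE_zero]
  refine ⟨inferInstance, Ring.KrullDimLE.mk₀ fun P hP => ?_⟩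
  have h1 : (P.comap (Ideal.Quotient.mk ((maximalIdeal B).map (algebraMap B N)))).IsMaximal := by
    refine isMaximal_of_le B N _ fun x hx => ?_
    rw [Ideal.mem_comap, Ideal.Quotient.eq_zero_iff_mem.2 hx]
    exact zero_mem _
  have h2 := Ideal.map_comap_of_surjective
    (Ideal.Quotient.mk ((maximalIdeal B).map (algebraMap B N))) Ideal.Quotient.mk_surjective P
  rcases Ideal.map_eq_top_or_isMaximal_of_surjective
    (Ideal.Quotient.mk ((maximalIdeal B).map (algebraMap B N))) Ideal.Quotient.mk_surjective h1 with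
    h3 | h3
  · rw [h2] at h3
    exact absurd h3 hP.ne_top
  · rwa [h2] at h3

theorem idem_dichotomy {A : Type v} [CommRing A] [IsArtinianRing A]
    (h : ∀ e : A, e * e = e → e = 0 ∨ e = 1) (y : A) : IsUnit y ∨ IsNilpotent y := by
  obtain ⟨n, z, hz⟩ := IsArtinian.exists_pow_succ_smul_dvd (M := A) y (1 : A)
  simp only [smul_eq_mul, mul_one, Nat.succ_eq_add_one] at hz
  have h1 : ∀ m, y ^ (n + m) * z ^ m = y ^ n := by
    intro m
    induction m with
    | zero => simp
    | succ m ih =>
      calc y ^ (n + (m + 1)) * z ^ (m + 1) = y ^ m * z ^ m * (y ^ (n + 1) * z) := by ring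
        _ = y ^ (n + m) * z ^ m := by rw [hz]; ring
        _ = y ^ n := ih
  have h2 := h1 n
  rcases h (y ^ n * z ^ n) (by
    calc y ^ n * z ^ n * (y ^ n * z ^ n) = (y ^ (n + n) * z ^ n) * z ^ n := by ring
      _ = y ^ n * z ^ n := by rw [h2]) with h3 | h3
  · right
    refine ⟨n, ?_⟩
    calc y ^ n = y ^ (n + n) * z ^ n := h2.symm
      _ = y ^ n * (y ^ n * z ^ n) := by ring
      _ = 0 := by rw [h3, mul_zero]
  · left
    rcases Nat.eq_zero_or_pos n with rfl | hn
    · refine IsUnit.of_mul_eq_one z ?_
      simpa using hz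
    · have h4 : IsUnit (y ^ n) := IsUnit.of_mul_eq_one _ h3
      exact (isUnit_pow_iff hn.ne').1 h4

include B in
/-- a domain finite over a complete Noetherian local ring is local. -/
theorem isLocalRing_of_finite [IsDomain N] : IsLocalRing N := by
  set I : Ideal N := (maximalIdeal B).map (algebraMap B N) with hI
  have hNN : IsNoetherianRing N := IsNoetherianRing.of_finite B N
  have hjac : I ≤ (⊥ : Ideal N).jacobson := by
    refine le_sInf ?_
    rintro M ⟨-, hM⟩
    exact map_le_of_isMaximal B N M
  have h1 : IsPrecomplete (maximalIdeal B) N := G.isPrecomplete_of_finite _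
  have h2 : IsPrecomplete I N :=
    (IsPrecomplete.map_algebraMap_iff (R := B) (S := N) (M := N)).2 h1
  have h3 : IsHausdorff I N := IsHausdorff.of_le_jacobson I N hjac
  have h4 : IsAdicComplete I N := { toIsHausdorff := h3, toIsPrecomplete := h2 }
  have h5 : HenselianRing N I := inferInstance
  have hart : IsArtinianRing (N ⧸ I) := isArtinian_fibre B N
  have hidem : ∀ e : N ⧸ I, e * e = e → e = 0 ∨ e = 1 := by
    intro e he
    obtain ⟨a₀, rfl⟩ := Ideal.Quotient.mk_surjective e
    have h6 : a₀ * a₀ - a₀ ∈ I := by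
      rw [← Ideal.Quotient.eq_zero_iff_mem, map_sub, map_mul, he, sub_self]
    have h7 : IsUnit (Ideal.Quotient.mk I (2 * a₀ - 1)) := by
      refine IsUnit.of_mul_eq_one (Ideal.Quotient.mk I (2 * a₀ - 1)) ?_
      rw [← map_mul, ← map_one (Ideal.Quotient.mk I), Ideal.Quotient.eq]
      have : (2 * a₀ - 1) * (2 * a₀ - 1) - 1 = 4 * (a₀ * a₀ - a₀) := by ring
      rw [this]
      exact Ideal.mul_mem_left _ _ h6
    obtain ⟨a, ha, haa⟩ := h5.is_henselian (Polynomial.X ^ 2 - Polynomial.X) (by
      monicity!) a₀ (by simpa [sq] using h6) (by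
        have h10 : (Polynomial.X ^ 2 - Polynomial.X : Polynomial N).derivative.eval a₀ =
            2 * a₀ - 1 := by
          simp
          left
          norm_num
        rw [h10]; exact h7)
    have h8 : a * (a - 1) = 0 := by
      have := ha.eq_zero
      simp at this
      linear_combination this
    have h9 : Ideal.Quotient.mk I a = Ideal.Quotient.mk I a₀ := (Ideal.Quotient.eq).2 haa
    rcases mul_eq_zero.1 h8 with h | h
    · left; rw [← h9, h, map_zero]
    · right; rw [← h9, sub_eq_zero.1 h, map_one]
  have hunit : ∀ y : N, IsUnit (Ideal.Quotient.mk I y) → IsUnit y := by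
    intro y hy
    obtain ⟨z, hz⟩ := hy.exists_right_inv
    obtain ⟨z, rfl⟩ := Ideal.Quotient.mk_surjective z
    rw [← map_mul, ← map_one (Ideal.Quotient.mk I), Ideal.Quotient.eq] at hz
    exact isUnit_of_mul_isUnit_left (Ideal.isUnit_of_sub_one_mem_jacobson_bot _ (hjac hz))
  refine IsLocalRing.of_isUnit_or_isUnit_one_sub_self fun y => ?_
  rcases idem_dichotomy hidem (Ideal.Quotient.mk I y) with h | h
  · exact Or.inl (hunit y h)
  · refine Or.inr (hunit _ ?_)
    rw [map_sub, map_one]
    exact h.isUnit_one_sub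

/-- powers of the maximal ideal -/
theorem exists_pow_le [IsLocalRing N] :
    ∃ c, maximalIdeal N ^ c ≤ (maximalIdeal B).map (algebraMap B N) := by
  have hNN : IsNoetherianRing N := IsNoetherianRing.of_finite B N
  have hrad : maximalIdeal N ≤ ((maximalIdeal B).map (algebraMap B N)).radical := by
    rw [Ideal.radical_eq_sInf]
    refine le_sInf fun P hP => ?_
    obtain ⟨hP1, hP2⟩ := hP
    exact (eq_maximalIdeal (isMaximal_of_le B N P hP1)).ge
  exact Ideal.exists_pow_le_of_le_radical_of_fg hrad (IsNoetherian.noetherian _)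

/-- residue fields -/
theorem surjective_residue [IsAlgClosed (ResidueField B)] [IsLocalRing N] :
    Function.Surjective (algebraMap B (ResidueField N)) := by
  have hloc : IsLocalHom (algebraMap B N) := by
    have h1 : ((maximalIdeal N).comap (algebraMap B N)).IsMaximal :=
      Ideal.isMaximal_comap_of_isIntegral_of_isMaximal (maximalIdeal N)
    exact ((IsLocalRing.local_hom_TFAE (algebraMap B N)).out 0 4).2 (eq_maximalIdeal h1)
  have h1 : Algebra.IsIntegral (ResidueField B) (ResidueField N) := inferInstance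
  have h2 : Function.Surjective (algebraMap (ResidueField B) (ResidueField N)) :=
    IsAlgClosed.algebraMap_bijective_of_isIntegral.2
  intro x
  obtain ⟨y, rfl⟩ := h2 x
  obtain ⟨y, rfl⟩ := residue_surjective y
  exact ⟨y, rfl⟩

/-- **the Hilbert bound for finite domains over a complete local ring** -/
theorem hilbert_bound_finite [IsDomain N] [IsAlgClosed (ResidueField B)] (b : ℕ)
    (hb : ringKrullDim N ≤ b) (𝔠 : Ideal N) :
    ∃ C : ℕ, ∀ t M : ℕ, Module.length B
      (↥(𝔠 ^ t) ⧸ (((maximalIdeal B).map (algebraMap B N)) ^ M • ⊤ : Submodule N ↥(𝔠 ^ t))) ≤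
      C * ((t + M + 1 : ℕ) : ℕ∞) ^ b := by
  have hNN : IsNoetherianRing N := IsNoetherianRing.of_finite B N
  have hloc : IsLocalRing N := isLocalRing_of_finite B N
  have hs := surjective_residue B N
  obtain ⟨c, hc⟩ := exists_pow_le B N
  have hinf : Infinite (ResidueField N) := by
    have hlocal : IsLocalHom (algebraMap B N) := by
      have h1 : ((maximalIdeal N).comap (algebraMap B N)).IsMaximal :=
        Ideal.isMaximal_comap_of_isIntegral_of_isMaximal (maximalIdeal N)
      exact ((IsLocalRing.local_hom_TFAE (algebraMap B N)).out 0 4).2 (eq_maximalIdeal h1)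
    have h1 : Infinite (ResidueField B) := inferInstance
    exact Infinite.of_injective (algebraMap (ResidueField B) (ResidueField N))
      (RingHom.injective _)
  exact hilbert_bound_over hs 𝔠 _ c b hc hb

end local_

section adjoin

variable {B : Type u} [CommRing B] [IsLocalRing B] [IsNoetherianRing B]
  [IsAdicComplete (maximalIdeal B) B] [IsAlgClosed (ResidueField B)]
  {L : Type v} [CommRing L] [IsDomain L] [Algebra B L] [FaithfulSMul B L]
  [Algebra.IsIntegral B L]

theorem exists_subalgebra (b : ℕ) (hb : ringKrullDim B ≤ b) (s : Set L) (hs : s.Finite) :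
    ∃ (N : Type v) (_ : CommRing N) (_ : Algebra B N) (f : N →+* L),
      (∀ x, f (algebraMap B N x) = algebraMap B L x) ∧ s ⊆ Set.range f ∧
      ∀ 𝔠 : Ideal N, ∃ C : ℕ, ∀ t M : ℕ, Module.length B
        (↥(𝔠 ^ t) ⧸ (((maximalIdeal B).map (algebraMap B N)) ^ M • ⊤ :
          Submodule N ↥(𝔠 ^ t))) ≤ C * ((t + M + 1 : ℕ) : ℕ∞) ^ b := by
  classical
  let F : Finset L := hs.toFinset
  refine ⟨Algebra.adjoin B (F : Set L), inferInstance, inferInstance,
    (Algebra.adjoin B (F : Set L)).val, fun x => rfl, ?_, ?_⟩
  · intro x hx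
    exact ⟨⟨x, Algebra.subset_adjoin (by simpa [F] using hx)⟩, rfl⟩
  · have hfin : Module.Finite B (Algebra.adjoin B (F : Set L)) := by
      have h1 := fg_adjoin_of_finite (R := B) F.finite_toSet
        fun x _ => Algebra.IsIntegral.isIntegral x
      exact Module.Finite.iff_fg.2 h1
    exact hilbert_bound_finite B _ b ((ringKrullDim_adjoin_finset_le F fun x _ =>
      (Algebra.IsIntegral.isIntegral x).isAlgebraic).trans hb)

end adjoin

section world

open Crest.Agent.R188.Asm

variable (p : ℕ) [hp : Fact p.Prime] (k : Type) [Field k] [CharP k p] [IsAlgClosed k] (b : ℕ)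

/-- **(iii)** -/
theorem hBound : FinA.HBound p k b := by
  have hreg := PerfC.regBB p k b
  have hwn : IsNoetherianRing (WittVector p k) := (Cohen.isCohen_witt p k).isNoetherianRing
  have hcw : IsAdicComplete (maximalIdeal (WittVector p k)) (WittVector p k) := by
    rw [Cohen.maximalIdeal_witt]
    infer_instance
  have hc : IsAdicComplete (maximalIdeal (BB p k b)) (BB p k b) := RD.isAdicComplete_mv
  have hres : IsAlgClosed (ResidueField (BB p k b)) := by
    let φ : BB p k b →+* k :=
      (WittVector.constantCoeff (p := p) (R := k)).comp MvPowerSeries.constantCoeff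
    have hφ : Function.Surjective φ := by
      intro x
      refine ⟨MvPowerSeries.C (WittVector.teichmuller p x), ?_⟩
      rw [RingHom.comp_apply, MvPowerSeries.constantCoeff_C]
      exact WittVector.teichmuller_coeff_zero p x
    have hker : RingHom.ker φ = maximalIdeal (BB p k b) :=
      eq_maximalIdeal (RingHom.ker_isMaximal_of_surjective φ hφ)
    exact IsAlgClosed.of_ringEquiv k (ResidueField (BB p k b))
      ((RingHom.quotientKerEquivOfSurjective hφ).symm.trans (Ideal.quotEquivOfEq hker))
  intro s hs
  rw [PerfC.mB_eq]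
  exact exists_subalgebra (b + 1) (PerfC.dimBB p k b).le s hs

end world

end Crest.Agent.R188.HB
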