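import Crest.Agent.R188.FinA7
import Crest.Agent.R188.HB7

/-!
# R188, block FINA (helper414), part 8: `Twist` for every world
-/

set_option autoImplicit false

namespace Crest.Agent.R188.FinA

open Crest.Agent.R188.Asm

/-- **TWIST** -/
theorem twist' {p : ℕ} [hp : Fact p.Prime] {k : Type} [Field k] [CharP k p] [IsAlgClosed k]
    {b : ℕ} (W : World p k b) : Twist W :=
  twist W (HB.hBound p k b)

end Crest.Agent.R188.FinA
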