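import Crest.Agent.R188.FlgKos
import Crest.Agent.R188.KosC

/-!
# R188, FinB1 (helper546): the Koszul complex on `Finset (Fin s) → X` is `KosG.kos (List.ofFn g) X`,
and the strand lemma `KosNull + finite colength ⇒ finite Koszul lengths`.
-/

set_option autoImplicit false

namespace Crest.Agent.R188.FinB

open Crest.Agent.R183 Crest.Agent.R188.Flg Crest.Agent.R188.KosG
open scoped ENNReal

universe u v

variable {A : Type u} [CommRing A]

/-- The Koszul complex on finsets, as a graded complex. -/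
def fsk {s : ℕ} (g : Fin s → A) (X : Type v) [AddCommGroup X] [Module A X] : GCx.{u, v} A where
  T := Finset (Fin s) → X
  gr := fun i =>
    { carrier := {f | ∀ B : Finset (Fin s), (B.card : ℤ) ≠ i → f B = 0}
      add_mem' := by
        intro f f' h h' B hB
        rw [Pi.add_apply, h B hB, h' B hB, add_zero]
      zero_mem' := fun B _ => rfl
      smul_mem' := by
        intro a f h B hB
        rw [Pi.smul_apply, h B hB, smul_zero] }
  D := kD g
  D_gr := by
    intro i f hf B hB
    rw [kD_apply]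
    refine Finset.sum_eq_zero fun j hj => ?_
    rw [Finset.mem_compl] at hj
    rw [hf _ (by rw [Finset.card_insert_of_notMem hj]; push_cast; omega), smul_zero]
  DD := fun f => kD_kD g f

theorem fsk_mem {s : ℕ} {g : Fin s → A} {X : Type v} [AddCommGroup X] [Module A X] {i : ℤ}
    {f : Finset (Fin s) → X} :
    (show (fsk g X).T from f) ∈ (fsk g X).gr i ↔ ∀ B : Finset (Fin s), (B.card : ℤ) ≠ i → f B = 0 :=
  Iff.rfl

/-! ### splitting off `0` -/

section split

variable {s : ℕ}

/-- `B ↦ B.map succ` -/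
def up (B : Finset (Fin s)) : Finset (Fin (s + 1)) := B.map (Fin.succEmb s)

/-- `B ↦ {0} ∪ B.map succ` -/
def up0 (B : Finset (Fin s)) : Finset (Fin (s + 1)) := insert 0 (up B)

/-- the preimage under `succ` -/
def dn (B : Finset (Fin (s + 1))) : Finset (Fin s) := Finset.univ.filter fun i => i.succ ∈ B

lemma mem_up {B : Finset (Fin s)} {i : Fin s} : i.succ ∈ up B ↔ i ∈ B := by
  unfold up
  rw [Finset.mem_map]
  constructor
  · rintro ⟨j, hj, e⟩
    have : j = i := Fin.succ_injective _ e
    rwa [← this]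
  · intro h; exact ⟨i, h, rfl⟩

lemma zero_notMem_up (B : Finset (Fin s)) : (0 : Fin (s + 1)) ∉ up B := by
  unfold up
  rw [Finset.mem_map]
  rintro ⟨j, _, e⟩
  exact Fin.succ_ne_zero j e

lemma mem_up0 {B : Finset (Fin s)} {i : Fin s} : i.succ ∈ up0 B ↔ i ∈ B := by
  unfold up0
  rw [Finset.mem_insert, mem_up]
  constructor
  · rintro (h | h)
    · exact absurd h (Fin.succ_ne_zero i)
    · exact h
  · exact fun h => Or.inr h

lemma mem_dn {B : Finset (Fin (s + 1))} {i : Fin s} : i ∈ dn B ↔ i.succ ∈ B := by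
  simp [dn]

lemma up_dn {B : Finset (Fin (s + 1))} (h : (0 : Fin (s + 1)) ∉ B) : up (dn B) = B := by
  ext i
  refine Fin.cases ?_ (fun j => ?_) i
  · exact ⟨fun h' => absurd h' (zero_notMem_up _), fun h' => absurd h' h⟩
  · rw [mem_up, mem_dn]

lemma up0_dn {B : Finset (Fin (s + 1))} (h : (0 : Fin (s + 1)) ∈ B) : up0 (dn B) = B := by
  ext i
  refine Fin.cases ?_ (fun j => ?_) i
  · exact ⟨fun _ => h, fun _ => Finset.mem_insert_self _ _⟩
  · rw [mem_up0, mem_dn]

lemma dn_up (B : Finset (Fin s)) : dn (up B) = B := by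
  ext i; rw [mem_dn, mem_up]

lemma dn_up0 (B : Finset (Fin s)) : dn (up0 B) = B := by
  ext i; rw [mem_dn, mem_up0]

lemma card_up (B : Finset (Fin s)) : (up B).card = B.card := Finset.card_map _

lemma card_up0 (B : Finset (Fin s)) : (up0 B).card = B.card + 1 := by
  unfold up0
  rw [Finset.card_insert_of_notMem (zero_notMem_up B), card_up]

lemma insert_up (i : Fin s) (B : Finset (Fin s)) : insert i.succ (up B) = up (insert i B) := by
  ext j
  refine Fin.cases ?_ (fun j => ?_) j
  · constructor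
    · intro h
      rcases Finset.mem_insert.1 h with h | h
      · exact absurd h.symm (Fin.succ_ne_zero i)
      · exact absurd h (zero_notMem_up B)
    · intro h; exact absurd h (zero_notMem_up _)
  · rw [Finset.mem_insert, mem_up, mem_up, Finset.mem_insert, Fin.succ_inj]

lemma insert_up0 (i : Fin s) (B : Finset (Fin s)) : insert i.succ (up0 B) = up0 (insert i B) := by
  unfold up0
  rw [Finset.insert_comm, insert_up]

lemma sg_up (i : Fin s) (B : Finset (Fin s)) : sg A i.succ (up B) = sg A i B := by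
  unfold sg
  congr 1
  have : (up B).filter (· < i.succ) = up (B.filter (· < i)) := by
    ext j
    refine Fin.cases ?_ (fun j => ?_) j
    · constructor
      · intro h; exact absurd (Finset.mem_filter.1 h).1 (zero_notMem_up B)
      · intro h; exact absurd h (zero_notMem_up _)
    · rw [Finset.mem_filter, mem_up, mem_up, Finset.mem_filter, Fin.succ_lt_succ_iff]
  rw [this, card_up]

lemma sg_up0 (i : Fin s) (B : Finset (Fin s)) : sg A i.succ (up0 B) = - sg A i B := by
  unfold up0
  rw [sg_insert_of_lt (zero_notMem_up B) (Fin.succ_pos i), sg_up]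

lemma sg_zero (B : Finset (Fin (s + 1))) : sg A (0 : Fin (s + 1)) B = 1 := by
  unfold sg
  have : B.filter (· < (0 : Fin (s + 1))) = ∅ := by
    rw [Finset.filter_eq_empty_iff]
    intro x _
    exact Fin.not_lt_zero x
  rw [this, Finset.card_empty, pow_zero]

lemma compl_up (B : Finset (Fin s)) : (up B)ᶜ = insert 0 (up Bᶜ) := by
  ext i
  refine Fin.cases ?_ (fun j => ?_) i
  · constructor
    · intro _; exact Finset.mem_insert_self _ _
    · intro _; rw [Finset.mem_compl]; exact zero_notMem_up B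
  · change _ ↔ j.succ ∈ up0 Bᶜ
    rw [Finset.mem_compl, mem_up, mem_up0, Finset.mem_compl]

lemma compl_up0 (B : Finset (Fin s)) : (up0 B)ᶜ = up Bᶜ := by
  ext i
  refine Fin.cases ?_ (fun j => ?_) i
  · constructor
    · intro h; rw [Finset.mem_compl] at h; exact absurd (Finset.mem_insert_self _ _) h
    · intro h; exact absurd h (zero_notMem_up _)
  · rw [Finset.mem_compl, mem_up0, mem_up, Finset.mem_compl]

variable {X : Type v} [AddCommGroup X] [Module A X]

theorem kD_up (g : Fin (s + 1) → A) (f : Finset (Fin (s + 1)) → X) (B : Finset (Fin s)) :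
    kD g f (up B) = kD (fun i => g i.succ) (fun C => f (up C)) B + g 0 • f (up0 B) := by
  rw [kD_apply, compl_up, Finset.sum_insert (zero_notMem_up _), sg_zero, one_mul, add_comm]
  congr 1
  rw [kD_apply]
  unfold up
  rw [Finset.sum_map]
  refine Finset.sum_congr rfl fun i _ => ?_
  change (sg A i.succ (up B) * g i.succ) • f (insert i.succ (up B)) = _
  rw [sg_up, insert_up]
  rfl

theorem kD_up0 (g : Fin (s + 1) → A) (f : Finset (Fin (s + 1)) → X) (B : Finset (Fin s)) :
    kD g f (up0 B) = -kD (fun i => g i.succ) (fun C => f (up0 C)) B := by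
  rw [kD_apply, compl_up0, kD_apply, ← Finset.sum_neg_distrib]
  unfold up
  rw [Finset.sum_map]
  refine Finset.sum_congr rfl fun i _ => ?_
  change (sg A i.succ (up0 B) * g i.succ) • f (insert i.succ (up0 B)) = _
  rw [sg_up0, insert_up0, neg_mul, neg_smul]

/-- splitting off the index `0` -/
def splitE (s : ℕ) (A : Type u) [CommRing A] (X : Type v) [AddCommGroup X] [Module A X] :
    (Finset (Fin (s + 1)) → X) ≃ₗ[A] ((Finset (Fin s) → X) × (Finset (Fin s) → X)) where
  toFun f := (fun B => f (up B), fun B => f (up0 B))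
  map_add' _ _ := rfl
  map_smul' _ _ := rfl
  invFun p B := if (0 : Fin (s + 1)) ∈ B then p.2 (dn B) else p.1 (dn B)
  left_inv f := by
    funext B
    by_cases h : (0 : Fin (s + 1)) ∈ B
    · simp only [if_pos h, up0_dn h]
    · simp only [if_neg h, up_dn h]
  right_inv p := by
    refine Prod.ext ?_ ?_
    · funext B
      simp only [if_neg (zero_notMem_up B), dn_up]
    · funext B
      have : (0 : Fin (s + 1)) ∈ up0 B := Finset.mem_insert_self _ _
      simp only [if_pos this, dn_up0]

/-- the cone decomposition -/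
def splitIso (g : Fin (s + 1) → A) (X : Type v) [AddCommGroup X] [Module A X] :
    GCx.Iso (fsk g X) (GCx.cone (g 0) (fsk (fun i => g i.succ) X)) where
  e := splitE s A X
  gr := by
    intro i f
    constructor
    · rintro ⟨h1, h2⟩ B hB
      by_cases h : (0 : Fin (s + 1)) ∈ B
      · have := h2 (dn B) (by
          have e := card_up0 (dn B)
          rw [up0_dn h] at e
          intro e'
          apply hB
          rw [e]
          push_cast
          omega)
        change f (up0 (dn B)) = 0 at this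
        rwa [up0_dn h] at this
      · have := h1 (dn B) (by
          have e := card_up (dn B)
          rw [up_dn h] at e
          rw [← e]
          exact hB)
        change f (up (dn B)) = 0 at this
        rwa [up_dn h] at this
    · intro h
      refine ⟨fun B hB => h _ (by rw [card_up]; exact hB), fun B hB => h _ (by
        rw [card_up0]
        push_cast
        omega)⟩
  comm := by
    intro f
    refine Prod.ext ?_ ?_
    · funext B
      exact kD_up g f B
    · funext B
      exact kD_up0 g f B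

/-- no generators -/
def zeroIso (g : Fin 0 → A) (X : Type v) [AddCommGroup X] [Module A X] :
    GCx.Iso (fsk g X) (one A X) where
  e :=
    { toFun := fun f => f ∅
      map_add' := fun _ _ => rfl
      map_smul' := fun _ _ => rfl
      invFun := fun x _ => x
      left_inv := fun f => by
        funext B
        rw [Finset.eq_empty_of_isEmpty B]
      right_inv := fun _ => rfl }
  gr := by
    intro i f
    change (f ∅ : X) ∈ (if i = 0 then (⊤ : Submodule A X) else ⊥) ↔ _
    by_cases hi : i = 0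
    · rw [if_pos hi]
      subst hi
      refine ⟨fun _ B hB => ?_, fun _ => trivial⟩
      rw [Finset.eq_empty_of_isEmpty B] at hB
      exact absurd rfl hB
    · rw [if_neg hi, Submodule.mem_bot]
      constructor
      · intro h B _
        rw [Finset.eq_empty_of_isEmpty B]
        exact h
      · intro h
        exact h ∅ (by rw [Finset.card_empty]; exact fun e => hi e.symm)
  comm := by
    intro f
    exact (kD_apply g f ∅).trans (Finset.sum_eq_zero fun i _ => i.elim0)

end split

/-- **The Koszul complex on finsets is the iterated cone.** -/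
theorem exists_iso (X : Type v) [AddCommGroup X] [Module A X] : ∀ {s : ℕ} (g : Fin s → A),
    Nonempty (GCx.Iso (fsk g X) (kos (List.ofFn g) X))
  | 0, g => by
    rw [List.ofFn_zero]
    exact ⟨zeroIso g X⟩
  | s + 1, g => by
    obtain ⟨φ⟩ := exists_iso X (fun i : Fin s => g i.succ)
    rw [List.ofFn_succ, kos_cons]
    exact ⟨(splitIso g X).trans (φ.cone (g 0))⟩

theorem kh_eq (Λ : AddLen.{u, v} A) (X : Type v) [AddCommGroup X] [Module A X] {s : ℕ}
    (g : Fin s → A) (i : ℤ) : (fsk g X).h Λ i = kh Λ (List.ofFn g) X i := by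
  obtain ⟨φ⟩ := exists_iso X g
  exact φ.h_eq Λ i

theorem fsk_smul_H {s : ℕ} (g : Fin s → A) (X : Type v) [AddCommGroup X] [Module A X] (j : Fin s)
    (i : ℤ) (x : (fsk g X).H i) : g j • x = 0 := by
  obtain ⟨φ⟩ := exists_iso X g
  have h1 : g j ∈ (kos (List.ofFn g) X).NHI := by
    refine span_le_NHI X (List.ofFn g) (Submodule.mem_sup_left (Ideal.subset_span ?_))
    change g j ∈ List.ofFn g
    rw [List.mem_ofFn]
    exact ⟨j, rfl⟩
  have h2 : (fsk g X).NH (g j) := φ.symm.NH h1
  exact GCx.NH.smul_H h2 i x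

/-! ### the strand lemma -/

section strand

variable (Λ : AddLen.{u, v} A) {X : Type v} [AddCommGroup X] [Module A X] {s : ℕ}

/-- the graded piece modulo the strand is a finite power of `X ⧸ I q` -/
theorem L_gr_quot_ne_top (I : ℕ → Submodule A X) (q : ℕ)
    (hfin : Λ.L (X ⧸ I q) ≠ ⊤) (Z : Submodule A (Finset (Fin s) → X))
    (N : Submodule A Z)
    (hN : ∀ z : Z, (∀ B, (z : Finset (Fin s) → X) B ∈ I q) → z ∈ N) :
    Λ.L (Z ⧸ N) ≠ ⊤ := by
  classical
  -- `Z → ∏_B X/I q`, kernel in `N`
  let π : Z →ₗ[A] (Finset (Fin s) → (X ⧸ I q)) :=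
    LinearMap.pi (fun B => (I q).mkQ.comp ((LinearMap.proj B).comp Z.subtype))
  have hker : LinearMap.ker π ≤ N := by
    intro z hz
    refine hN z fun B => ?_
    have := congrFun (LinearMap.mem_ker.1 hz) B
    change (I q).mkQ ((z : Finset (Fin s) → X) B) = 0 at this
    rwa [Submodule.mkQ_apply, Submodule.Quotient.mk_eq_zero] at this
  -- `Z/N` is a quotient of `Z/ker π`, which embeds into the product
  have h1 : Λ.L (Z ⧸ N) ≤ Λ.L (Z ⧸ LinearMap.ker π) := by
    refine Λ.L_le_of_surjective (Submodule.factor hker) (Submodule.factor_surjective hker)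
  have h2 : Λ.L (Z ⧸ LinearMap.ker π) ≤ Λ.L (Finset (Fin s) → (X ⧸ I q)) := by
    refine Λ.L_le_of_injective (Submodule.liftQ _ π le_rfl) ?_
    rw [← LinearMap.ker_eq_bot]
    exact Submodule.ker_liftQ_eq_bot _ _ _ le_rfl
  have h3 : Λ.L (Finset (Fin s) → (X ⧸ I q)) ≠ ⊤ := by
    rw [Λ.L_pi_const]
    exact ENNReal.mul_ne_top (ENNReal.natCast_ne_top _) hfin
  exact ne_top_of_le_ne_top h3 (h1.trans h2)

/-- **STRAND LEMMA**: an almost exact strand of finite colength gives finite Koszul lengths. -/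
theorem h_ne_top (𝔞 : Ideal A) (g : Fin s → A) (I : ℕ → Submodule A X) (hK : KosNull 𝔞 g I)
    (hnull : ∀ (V : Type v) [AddCommGroup V] [Module A V], (∀ a ∈ 𝔞, ∀ x : V, a • x = 0) →
      (∀ j, ∀ x : V, g j • x = 0) → Λ.L V = 0)
    (hfin : ∀ q ≤ s, Λ.L (X ⧸ I q) ≠ ⊤) (i : ℤ) : (fsk g X).h Λ i ≠ ⊤ := by
  classical
  rcases lt_or_ge i 0 with hi | hi
  · rw [kh_eq, kh_eq_zero Λ X _ i (Or.inl hi)]
    exact ENNReal.zero_ne_top
  obtain ⟨q, rfl⟩ := Int.eq_ofNat_of_zero_le hi
  rcases Nat.lt_or_ge s q with hq | hq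
  · rw [kh_eq, kh_eq_zero Λ X _ _ (Or.inr (by rw [List.length_ofFn]; exact_mod_cast hq))]
    exact ENNReal.zero_ne_top
  let K := fsk g X
  let N : Submodule A (K.Z q) := (kK I s q).comap (K.Z q).subtype
  have hNmem : ∀ z : K.Z q, (∀ B, (show Finset (Fin s) → X from (z : K.T)) B ∈ I q) → z ∈ N := by
    intro z hz
    refine ⟨hz, fun B hB => ?_⟩
    exact z.2.1 B (by exact_mod_cast hB)
  have h1 : Λ.L (K.Z q ⧸ N) ≠ ⊤ :=
    L_gr_quot_ne_top Λ I q (hfin q hq) (K.Z q) N hNmem
  -- the image of `N` in the homology is null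
  let N' : Submodule A (K.H q) := N.map (K.cls q)
  have h2 : Λ.L N' = 0 := by
    refine hnull N' ?_ ?_
    · rintro a ha ⟨_, ⟨z, hz, rfl⟩⟩
      apply Subtype.ext
      change a • K.cls q z = 0
      rw [← map_smul, GCx.cls_eq_zero]
      obtain ⟨f', hf', hD⟩ := hK q (z : K.T) hz z.2.2 a ha
      refine ⟨f', ?_, hD⟩
      intro B hB
      exact hf'.2 B (by
        intro e
        apply hB
        rw [e]
        push_cast
        rfl)
    · rintro j ⟨y, hy⟩
      apply Subtype.ext
      exact fsk_smul_H g X j q y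
  have h3 : Λ.L (K.H q ⧸ N') ≤ Λ.L (K.Z q ⧸ N) := by
    refine Λ.L_le_of_surjective (Submodule.mapQ N N' (K.cls q) (Submodule.le_comap_map _ _)) ?_
    intro y
    obtain ⟨y, rfl⟩ := N'.mkQ_surjective y
    obtain ⟨z, rfl⟩ := K.cls_surj q y
    exact ⟨N.mkQ z, rfl⟩
  change Λ.L (K.H q) ≠ ⊤
  rw [Λ.L_eq_add_quotient N', h2, zero_add]
  exact ne_top_of_le_ne_top h1 h3

theorem kh_ne_top (𝔞 : Ideal A) (g : Fin s → A) (I : ℕ → Submodule A X) (hK : KosNull 𝔞 g I)
    (hnull : ∀ (V : Type v) [AddCommGroup V] [Module A V], (∀ a ∈ 𝔞, ∀ x : V, a • x = 0) →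
      (∀ j, ∀ x : V, g j • x = 0) → Λ.L V = 0)
    (hfin : ∀ q ≤ s, Λ.L (X ⧸ I q) ≠ ⊤) (i : ℤ) : kh Λ (List.ofFn g) X i ≠ ⊤ := by
  rw [← kh_eq]
  exact h_ne_top Λ 𝔞 g I hK hnull hfin i

end strand

/-! ### powers -/

/-- finiteness for `l' ` whose entries are null-homotopic on `K(l)`, and conversely -/
theorem kh_ne_top_of_map_pow (Λ : AddLen.{u, v} A) (C : Type v) [AddCommGroup C] [Module A C]
    (l : List A) (n : ℕ) (hn : 0 < n) (h : ∀ i, kh Λ (l.map (· ^ n)) C i ≠ ⊤) (i : ℤ) :
    kh Λ l C i ≠ ⊤ := by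
  have h1 : kh Λ (l.map (· ^ n) ++ l) C i = pas (kh Λ l C) (l.map (· ^ n)).length i := by
    refine kh_append_NHI Λ C _ l ?_ i
    intro a ha
    obtain ⟨b, hb, rfl⟩ := List.mem_map.1 ha
    exact Ideal.pow_mem_of_mem _ (span_le_NHI C l
      (Submodule.mem_sup_left (Ideal.subset_span hb))) n hn
  have h2 : kh Λ l C i ≤ pas (kh Λ l C) (l.map (· ^ n)).length i := by
    unfold pas
    refine le_trans ?_ (Finset.single_le_sum (f := fun j : ℕ =>
      (((l.map (· ^ n)).length.choose j : ℕ) : ℝ≥0∞) * kh Λ l C (i - j)) (fun _ _ => zero_le)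
      (Finset.mem_range.2 (Nat.succ_pos _)))
    simp
  have h3 : kh Λ (l.map (· ^ n) ++ l) C i = kh Λ (l ++ l.map (· ^ n)) C i :=
    kh_perm Λ C List.perm_append_comm i
  have h4 := kh_append_le Λ C l (l.map (· ^ n)) i
  refine ne_top_of_le_ne_top ?_ (h2.trans ((h1.symm.trans h3).le.trans h4))
  unfold pas
  exact ENNReal.sum_ne_top.2 fun j _ => ENNReal.mul_ne_top (ENNReal.natCast_ne_top _) (h _)

/-- **the final form**: generators `y j ^ n` -/
theorem kh_ne_top_of_pow (Λ : AddLen.{u, v} A) {X : Type v} [AddCommGroup X] [Module A X] {s : ℕ}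
    (𝔞 : Ideal A) (y : Fin s → A) (n : ℕ) (hn : 0 < n) (I : ℕ → Submodule A X)
    (hK : KosNull 𝔞 (fun j => y j ^ n) I)
    (hnull : ∀ (V : Type v) [AddCommGroup V] [Module A V], (∀ a ∈ 𝔞, ∀ x : V, a • x = 0) →
      (∀ j, ∀ x : V, y j ^ n • x = 0) → Λ.L V = 0)
    (hfin : ∀ q ≤ s, Λ.L (X ⧸ I q) ≠ ⊤) (i : ℤ) : kh Λ (List.ofFn y) X i ≠ ⊤ := by
  refine kh_ne_top_of_map_pow Λ X (List.ofFn y) n hn (fun i => ?_) i
  have e : (List.ofFn y).map (· ^ n) = List.ofFn fun j => y j ^ n := by
    rw [List.map_ofFn]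
    rfl
  rw [e]
  exact kh_ne_top Λ 𝔞 (fun j => y j ^ n) I hK hnull hfin i

end Crest.Agent.R188.FinB
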