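/-
R188, block FINC (helper985), part 2: the family `Fam` of a world.
-/
import Crest.Agent.R188.FinC1
import Crest.Agent.R188.AsmU1
import Crest.Agent.R188.FinA4

set_option autoImplicit false
set_option linter.unusedSectionVars false
set_option linter.unusedVariables false
set_option linter.unusedFintypeInType false
set_option linter.style.haveILetI false

namespace Crest.Agent.R188.FinC

open WittVector Crest.Agent.R183 Crest.Agent.R188.Prf Crest.Agent.R188.Wit Crest.Agent.R188.Flg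
open Crest.Agent.R188.Cmp Crest.Agent.R188.UB Crest.Agent.R188.Asm Crest.Agent.R188.AsmG
open Crest.Agent.R188.AsmU

attribute [local instance] World.ringP

section sharp

variable {p : ℕ} [hp : Fact p.Prime] {P : Type} [CommRing P] {h : IsPerf p P}
  {ξ : WittVector p P} {A : Type} [CommRing A] {ι : A →+* Om ξ}

lemma SharpPair.pow {a : P} {r : ℕ → A} (h1 : SharpPair h ι a r) (n : ℕ) :
    SharpPair h ι (a ^ n) (fun m => r m ^ n) := by
  induction n with
  | zero => simpa only [pow_zero] using SharpPair.one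
  | succ n ih =>
    simp only [pow_succ]
    exact SharpPair.mul ih h1

end sharp

variable {p : ℕ} [hp : Fact p.Prime] {k : Type} [Field k] [CharP k p] {b : ℕ} (W : World p k b)

/-- Frobenius, in the form of `FinA`. -/
theorem frob_W : FinA.Frob (LP W.Λ) p (b + 1) := W.frob

/-- the null criterion for the roots of a nonzero sharp element. -/
theorem nullAt_W {a : W.P} {r : ℕ → BPlus p k b} (h1 : SharpPair W.perf W.ι a r)
    (h0 : r 0 ≠ 0) : FinA.NullAt W.perf W.Λ W.t a :=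
  fun X _ _ h2 h3 => W.null a r h1 h0 X h2 h3

section fam

variable {κ : Type} [Fintype κ] [DecidableEq κ] {s : κ → ℕ} {c : ∀ j, Fin (s j) → BPlus p k b}
  (F : SharpFam W s c) (T : κ → ℕ)

/-- the family of a world. -/
noncomputable def famW : FinA.Fam p W.P := fam W.perf F.a W.t T

variable {W}

lemma famW_one_zero : (famW W F T).I 1 0 = IT W F.a T := IO_one_zero W.perf F.a W.t T

lemma t_mem (i : Fin (b + 1)) : W.t i ∈ (famW W F T).I 0 1 := y_mem W.perf F.a W.t T i

lemma π_mem : W.π ∈ (famW W F T).I 0 1 := by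
  obtain ⟨u, hu⟩ := W.t_zero
  rw [← hu]
  exact Ideal.mul_mem_right _ _ (t_mem F T 0)

lemma hc_pow_mem (i₀ : ∀ j, Fin (s j)) {t n : ℕ} (hn : ∀ j, t * T j ≤ n) :
    hc F.a i₀ ^ n ∈ (famW W F T).I t 0 := hc_mem W.perf F.a W.t T i₀ hn

lemma sharp_hc (i₀ : ∀ j, Fin (s j)) (hi₀ : ∀ j, c j (i₀ j) ≠ 0) :
    SharpPair W.perf W.ι (hc F.a i₀) (fun n => ∏ j, F.rr ⟨j, i₀ j⟩ n) ∧
    (∏ j, F.rr ⟨j, i₀ j⟩ 0) ≠ 0 := F.prod i₀ hi₀

theorem nullAt_hc_pow (i₀ : ∀ j, Fin (s j)) (hi₀ : ∀ j, c j (i₀ j) ≠ 0) (n : ℕ) :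
    FinA.NullAt W.perf W.Λ W.t (hc F.a i₀ ^ n) := by
  obtain ⟨h1, h2⟩ := sharp_hc F i₀ hi₀
  exact nullAt_W W (SharpPair.pow h1 n) (pow_ne_zero _ h2)

lemma tr_zero_ne_zero (j₀ : Fin (b + 1)) : W.tr j₀ 0 ≠ 0 := by
  rw [W.tr_zero]
  intro h
  have h1 : tB p k b j₀ = 0 := by
    have hinj : Function.Injective (algebraMap (BB p k b) (BPlus p k b)) :=
      FaithfulSMul.algebraMap_injective _ _
    apply hinj
    rw [h, map_zero]
  revert h1
  refine Fin.cases ?_ (fun i => ?_) j₀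
  · intro h1
    have h2 : (p : BB p k b) = 0 := h1
    have h3 : MvPowerSeries.constantCoeff (σ := Fin b) (R := WittVector p k) (p : BB p k b) = 0 := by
      rw [h2, map_zero]
    rw [map_natCast] at h3
    exact WittVector.p_nonzero p k h3
  · intro h1
    have h2 : (MvPowerSeries.X i : BB p k b) = 0 := h1
    have h3 := MvPowerSeries.coeff_index_single_self_X (R := WittVector p k) i
    rw [h2, map_zero] at h3
    exact zero_ne_one h3

theorem nullAt_strand (i₀ : ∀ j, Fin (s j)) (hi₀ : ∀ j, c j (i₀ j) ≠ 0) (j₀ : Fin (b + 1)) :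
    FinA.NullAt W.perf W.Λ W.t (W.t j₀ * hc F.a i₀) := by
  obtain ⟨h1, h2⟩ := sharp_hc F i₀ hi₀
  exact nullAt_W W (SharpPair.mul (W.t_sharp j₀) h1) (mul_ne_zero (tr_zero_ne_zero j₀) h2)

/-- the strand of the parameters `t`. -/
theorem strandW (t : ℕ) (i₀ : ∀ j, Fin (s j)) (j₀ : Fin (b + 1)) :
    KosNull (Ideal.span (Set.range fun n => W.perf.rtn n (W.t j₀ * hc F.a i₀))) W.t
      (fun q => ((famW W F T).I t (b + 1 - q) : Submodule W.P W.P)) :=
  strand W.perf F.a W.t T t (Nat.succ_pos b) i₀ j₀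

/-- the generators in `B⁺`. -/
noncomputable def genB (c : ∀ j, Fin (s j) → BPlus p k b) (T : κ → ℕ) (β : Exps s T) :
    BPlus p k b := ∏ x, c x.1 x.2 ^ (β.1 x : ℕ)

theorem sh_gen (β : Exps s T) : sh W.ξ (gen F.a T β) = W.ι (genB c T β) := by
  have h1 : SharpPair W.perf W.ι (gen F.a T β) (fun n => ∏ x, F.rr x n ^ (β.1 x : ℕ)) := by
    unfold gen
    exact SharpPair.prod (h := W.perf) (ι := W.ι) Finset.univ
      (a := fun x => F.a x ^ (β.1 x : ℕ)) (r := fun x n => F.rr x n ^ (β.1 x : ℕ))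
      (fun x _ => SharpPair.pow (F.sharp x) _)
  rw [SharpPair.sh_eq h1]
  congr 1
  unfold genB
  exact Finset.prod_congr rfl fun x _ => by rw [F.zero]

lemma gen_memW (β : Exps s T) : gen F.a T β ∈ (famW W F T).I 1 0 :=
  gen_mem W.perf F.a W.t T β

/-- **Skoda**, in the form of `FinA.Fam.Skoda`. -/
theorem skodaW {n : ℕ} (hn : ∀ j, s j ≤ n) :
    FinA.Fam.Skoda (famW W F T) (gen F.a T) n := by
  intro m hm x hx
  exact skoda W.perf F.a W.t T (fun j => (hn j).trans hm) hx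

end fam

end Crest.Agent.R188.FinC
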