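import Mathlib

/-! # R188, block (F): existence of flags

Commuting endomorphisms of a finite dimensional vector space over an algebraically closed field
have a common flag.
-/

set_option autoImplicit false

namespace Crest.Agent.R188.Flg

open Finset

section field

variable {K : Type*} [Field K] [IsAlgClosed K] {W : Type*} [AddCommGroup W] [Module K W]
  [FiniteDimensional K W] {ι : Type*} (T : ι → Module.End K W)

/-- a common eigenvector modulo an invariant subspace -/
theorem exists_eig (hT : ∀ i j x, T i (T j x) = T j (T i x)) (U : Submodule K W)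
    (hU : ∀ i, ∀ x ∈ U, T i x ∈ U) (hne : U ≠ ⊤) :
    ∃ w, w ∉ U ∧ ∃ γ : ι → K, ∀ i, T i w - γ i • w ∈ U := by
  classical
  -- a minimal invariant submodule strictly above `U`
  have hex : ∃ n, ∃ N : Submodule K W, U < N ∧ (∀ i, ∀ x ∈ N, T i x ∈ N) ∧
      Module.finrank K N = n :=
    ⟨_, ⊤, lt_top_iff_ne_top.2 hne, fun _ _ _ => Submodule.mem_top, rfl⟩
  obtain ⟨N, hUN, hN, hn⟩ := Nat.find_spec hex
  have hmin : ∀ N' : Submodule K W, U < N' → (∀ i, ∀ x ∈ N', T i x ∈ N') → N' ≤ N → N' = N := by
    intro N' h1 h2 h3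
    have h4 := Nat.find_min' hex ⟨N', h1, h2, rfl⟩
    rw [← hn] at h4
    exact Submodule.eq_of_le_of_finrank_le h3 h4
  have hscal : ∀ i, ∃ μ : K, ∀ x ∈ N, T i x - μ • x ∈ U := by
    intro i
    -- the induced map on `N / U`
    let U' : Submodule K N := U.comap N.subtype
    let f : Module.End K N := (T i).restrict (hN i)
    have hf : U' ≤ U'.comap f := by
      intro x hx
      exact hU i x.1 hx
    let g : Module.End K (N ⧸ U') := U'.mapQ U' f hf
    have hnt : Nontrivial (N ⧸ U') := by
      rw [Submodule.Quotient.nontrivial_iff]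
      intro h
      apply hUN.not_ge
      intro x hx
      have : (⟨x, hx⟩ : N) ∈ U' := by rw [h]; exact Submodule.mem_top
      exact this
    obtain ⟨μ, hμ⟩ := Module.End.exists_eigenvalue g
    obtain ⟨v, hv, hv0⟩ := hμ.exists_hasEigenvector
    obtain ⟨x, rfl⟩ := Submodule.Quotient.mk_surjective _ v
    have hx1 : x.1 ∉ U := by
      intro h
      apply hv0
      rw [Submodule.Quotient.mk_eq_zero]
      exact h
    have hx2 : T i x.1 - μ • x.1 ∈ U := by
      rw [Module.End.mem_eigenspace_iff] at hv
      have h1 : g (Submodule.Quotient.mk x) = Submodule.Quotient.mk (f x) := rfl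
      rw [h1, ← Submodule.Quotient.mk_smul, Submodule.Quotient.eq] at hv
      exact hv
    let N' : Submodule K W :=
      { carrier := {y | y ∈ N ∧ T i y - μ • y ∈ U}
        add_mem' := by
          rintro y z ⟨h1, h2⟩ ⟨h3, h4⟩
          refine ⟨N.add_mem h1 h3, ?_⟩
          have := U.add_mem h2 h4
          rw [map_add, smul_add]
          convert this using 1
          abel
        zero_mem' := ⟨N.zero_mem, by rw [map_zero, smul_zero, sub_zero]; exact U.zero_mem⟩
        smul_mem' := by
          rintro a y ⟨h1, h2⟩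
          refine ⟨N.smul_mem a h1, ?_⟩
          have := U.smul_mem a h2
          rw [map_smul, smul_comm μ a, ← smul_sub]
          exact this }
    have hN' : N' = N := by
      refine hmin N' ?_ ?_ (fun y hy => hy.1)
      · refine lt_of_le_of_ne (fun y hy => ⟨hUN.le hy, U.sub_mem (hU i y hy) (U.smul_mem μ hy)⟩) ?_
        intro h
        apply hx1
        rw [h]
        exact ⟨x.2, hx2⟩
      · rintro j y ⟨h1, h2⟩
        refine ⟨hN j y h1, ?_⟩
        have h3 := hU j _ h2
        rw [map_sub, map_smul, ← hT i j] at h3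
        exact h3
    refine ⟨μ, fun y hy => ?_⟩
    rw [← hN'] at hy
    exact hy.2
  choose μ hμ using hscal
  obtain ⟨w, hw1, hw2⟩ := SetLike.exists_of_lt hUN
  exact ⟨w, hw2, μ, fun i => hμ i w hw1⟩

/-- span of the first `k` vectors -/
def sp (K : Type*) [Field K] {W : Type*} [AddCommGroup W] [Module K W] (w : ℕ → W) (k : ℕ) :
    Submodule K W := Submodule.span K (w '' Set.Iio k)

omit [IsAlgClosed K] [FiniteDimensional K W] in
lemma sp_congr {w w' : ℕ → W} {k : ℕ} (h : ∀ j < k, w j = w' j) : sp K w k = sp K w' k := by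
  unfold sp
  congr 1
  ext x
  constructor
  · rintro ⟨j, hj, rfl⟩; exact ⟨j, hj, (h j hj).symm⟩
  · rintro ⟨j, hj, rfl⟩; exact ⟨j, hj, h j hj⟩

omit [IsAlgClosed K] [FiniteDimensional K W] in
lemma sp_mono (w : ℕ → W) {k k' : ℕ} (h : k ≤ k') : sp K w k ≤ sp K w k' :=
  Submodule.span_mono (Set.image_mono fun _ hj => lt_of_lt_of_le hj h)

omit [IsAlgClosed K] [FiniteDimensional K W] in
lemma mem_sp (w : ℕ → W) {j k : ℕ} (h : j < k) : w j ∈ sp K w k :=
  Submodule.subset_span ⟨j, h, rfl⟩

omit [IsAlgClosed K] [FiniteDimensional K W] in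
/-- elements of the span of the first `k` vectors -/
lemma mem_sp_iff {w : ℕ → W} {k : ℕ} {x : W} :
    x ∈ sp K w k ↔ ∃ c : ℕ → K, x = ∑ j ∈ range k, c j • w j := by
  unfold sp
  have : (Set.Iio k : Set ℕ) = ((range k : Finset ℕ) : Set ℕ) := by
    ext; simp
  rw [this]
  rw [Submodule.mem_span_image_finset_iff_exists_fun]
  constructor
  · rintro ⟨c, hc⟩
    refine ⟨fun j => if hj : j ∈ range k then c ⟨j, hj⟩ else 0, ?_⟩
    rw [← hc, ← Finset.sum_coe_sort (range k)]
    refine Finset.sum_congr rfl fun j _ => ?_
    simp only [dif_pos j.2]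
  · rintro ⟨c, hc⟩
    refine ⟨fun j => c j.1, ?_⟩
    rw [hc, ← Finset.sum_coe_sort (range k)]

/-- **a common flag** (`w j ∉ span (w i, i < j)`, `T i w_j ∈ γ_j w_j + span (w i, i < j)`) -/
theorem exists_flag_aux (hT : ∀ i j x, T i (T j x) = T j (T i x)) (k : ℕ)
    (hk : k ≤ Module.finrank K W) :
    ∃ (w : ℕ → W) (γ : ℕ → ι → K), (∀ j < k, w j ∉ sp K w j) ∧
      ∀ j < k, ∀ i, T i (w j) - γ j i • w j ∈ sp K w j := by
  classical
  induction k with
  | zero => exact ⟨fun _ => 0, fun _ _ => 0, by simp, by simp⟩
  | succ k ih =>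
    obtain ⟨w, γ, h1, h2⟩ := ih (by omega)
    have hne : sp K w k ≠ ⊤ := by
      intro h
      have h3 : Module.finrank K (sp K w k) ≤ k := by
        have := finrank_span_finset_le_card (R := K) ((range k).image w)
        have h4 : (((range k).image w : Finset W) : Set W) = w '' Set.Iio k := by
          ext x; simp
        rw [h4] at this
        exact this.trans (Finset.card_image_le.trans (by simp))
      rw [h, finrank_top] at h3
      omega
    have hinv : ∀ i, ∀ x ∈ sp K w k, T i x ∈ sp K w k := by
      intro i x hx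
      rw [mem_sp_iff] at hx
      obtain ⟨c, rfl⟩ := hx
      rw [map_sum]
      refine Submodule.sum_mem _ fun j hj => ?_
      rw [Finset.mem_range] at hj
      rw [map_smul]
      refine Submodule.smul_mem _ _ ?_
      have h3 := sp_mono (K := K) w hj.le (h2 j hj i)
      have h4 := Submodule.smul_mem _ (γ j i) (mem_sp (K := K) w hj)
      have := Submodule.add_mem _ h3 h4
      rwa [sub_add_cancel] at this
    obtain ⟨v, hv, μ, hμ⟩ := exists_eig T hT (sp K w k) hinv hne
    refine ⟨Function.update w k v, Function.update γ k μ, ?_, ?_⟩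
    · intro j hj
      have hsp : sp K (Function.update w k v) j = sp K w j :=
        sp_congr fun j' hj' => Function.update_of_ne (by omega) _ _
      rw [hsp]
      by_cases hjk : j = k
      · subst hjk
        rw [Function.update_self]; exact hv
      · rw [Function.update_of_ne hjk]; exact h1 j (by omega)
    · intro j hj i
      have hsp : sp K (Function.update w k v) j = sp K w j :=
        sp_congr fun j' hj' => Function.update_of_ne (by omega) _ _
      rw [hsp]
      by_cases hjk : j = k
      · subst hjk
        rw [Function.update_self, Function.update_self]; exact hμ i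
      · rw [Function.update_of_ne hjk, Function.update_of_ne hjk]; exact h2 j (by omega) i

omit [IsAlgClosed K] [FiniteDimensional K W] in
/-- independence of a flag -/
theorem linInd_of_flag {w : ℕ → W} (k : ℕ) (h : ∀ j < k, w j ∉ sp K w j) :
    LinearIndependent K (fun j : Fin k => w j) := by
  induction k with
  | zero => exact linearIndependent_empty_type
  | succ k ih =>
    have e : (fun j : Fin (k + 1) => w j) =
        Fin.snoc (α := fun _ => W) (fun j : Fin k => w j) (w k) := by
      ext j
      refine Fin.lastCases ?_ (fun j => ?_) j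
      · simp
      · simp
    rw [e, linearIndependent_finSnoc]
    refine ⟨ih fun j hj => h j (by omega), ?_⟩
    have h1 := h k (by omega)
    unfold sp at h1
    convert h1 using 3
    ext x
    constructor
    · rintro ⟨j, rfl⟩; exact ⟨j, j.2, rfl⟩
    · rintro ⟨j, hj, rfl⟩; exact ⟨⟨j, hj⟩, rfl⟩

end field

end Crest.Agent.R188.Flg
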