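import Crest.Agent.R188.FlgEx
import Crest.Agent.R188.FlgRec

/-! # R188, block (F): flags of integral row vectors

`O` a domain, integrally closed in its fraction field `K`, `K` algebraically closed, `B → O`;
`ρ : S → Mat_r(B)` a representation of an integral `B`-algebra.
-/

set_option autoImplicit false

namespace Crest.Agent.R188.Flg

open Finset Matrix

universe u

section rep

variable {B S : Type*} [CommRing B] [CommRing S] [Algebra B S] {r : ℕ}

/-- the row operators over `K` -/
noncomputable def rowT (K : Type*) [Field K] [Algebra B K] (ρ : S →ₐ[B] Matrix (Fin r) (Fin r) B) (s : S) :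
    Module.End K (Fin r → K) :=
  Matrix.vecMulLinear ((ρ s).map (algebraMap B K))

lemma rowT_apply (K : Type*) [Field K] [Algebra B K] (ρ : S →ₐ[B] Matrix (Fin r) (Fin r) B) (s : S)
    (x : Fin r → K) : rowT K ρ s x = x ᵥ* ((ρ s).map (algebraMap B K)) := rfl

lemma rowT_mul (K : Type*) [Field K] [Algebra B K] (ρ : S →ₐ[B] Matrix (Fin r) (Fin r) B) (s t : S)
    (x : Fin r → K) : rowT K ρ (s * t) x = rowT K ρ t (rowT K ρ s x) := by
  rw [rowT_apply, rowT_apply, rowT_apply, map_mul, Matrix.vecMul_vecMul, Matrix.map_mul]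

lemma rowT_comm (K : Type*) [Field K] [Algebra B K] (ρ : S →ₐ[B] Matrix (Fin r) (Fin r) B) (s t : S)
    (x : Fin r → K) : rowT K ρ s (rowT K ρ t x) = rowT K ρ t (rowT K ρ s x) := by
  rw [← rowT_mul, ← rowT_mul, mul_comm]

lemma rowT_add (K : Type*) [Field K] [Algebra B K] (ρ : S →ₐ[B] Matrix (Fin r) (Fin r) B) (s t : S)
    (x : Fin r → K) : rowT K ρ (s + t) x = rowT K ρ s x + rowT K ρ t x := by
  rw [rowT_apply, rowT_apply, rowT_apply, map_add, Matrix.map_add _ (map_add _), Matrix.vecMul_add]

lemma rowT_algebraMap (K : Type*) [Field K] [Algebra B K] (ρ : S →ₐ[B] Matrix (Fin r) (Fin r) B)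
    (a : B) (x : Fin r → K) : rowT K ρ (algebraMap B S a) x = algebraMap B K a • x := by
  rw [rowT_apply, AlgHom.commutes, Matrix.algebraMap_eq_diagonal, Matrix.diagonal_map (map_zero _)]
  ext c
  rw [Matrix.vecMul_diagonal]
  simp [mul_comm]

/-- **integral flags** -/
theorem exists_flag {O : Type*} [CommRing O] [IsDomain O] (K : Type*) [Field K]
    [Algebra B O] [Algebra O K] [Algebra B K] [IsScalarTower B O K] [IsFractionRing O K]
    [IsIntegrallyClosed O] [IsAlgClosed K] [Algebra.IsIntegral B S]
    (ρ : S →ₐ[B] Matrix (Fin r) (Fin r) B) (hr0 : 0 < r) :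
    ∃ (l : ℕ → Fin r → O) (γ : ℕ → (S →ₐ[B] O)),
      (∀ k < r, ∀ s : S, ∃ D : O, D ≠ 0 ∧ ∃ n : ℕ → O,
        D • ((l k) ᵥ* ((ρ s).map (algebraMap B O)) - γ k s • l k) = ∑ i ∈ range k, n i • l i) ∧
      Matrix.det (Matrix.of fun i j : Fin r => l i j) ≠ 0 := by
  classical
  obtain ⟨w, γ, h1, h2⟩ := exists_flag_aux (K := K) (W := Fin r → K) (rowT K ρ)
    (fun i j x => rowT_comm K ρ i j x) r (by simp)
  -- the `γ k`, `k < r`, are algebra homomorphisms
  have hinv : ∀ k ≤ r, ∀ s, ∀ x ∈ sp K w k, rowT K ρ s x ∈ sp K w k := by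
    intro k hk s x hx
    rw [mem_sp_iff] at hx
    obtain ⟨c, rfl⟩ := hx
    rw [map_sum]
    refine Submodule.sum_mem _ fun j hj => ?_
    rw [Finset.mem_range] at hj
    rw [map_smul]
    refine Submodule.smul_mem _ _ ?_
    have h3 := sp_mono (K := K) w hj.le (h2 j (by omega) s)
    have h4 := Submodule.smul_mem _ (γ j s) (mem_sp (K := K) w hj)
    have := Submodule.add_mem _ h3 h4
    rwa [sub_add_cancel] at this
  have huniq : ∀ k < r, ∀ a b : K, a • w k - b • w k ∈ sp K w k → a = b := by
    intro k hk a b hab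
    by_contra hne
    apply h1 k hk
    rw [← sub_smul] at hab
    have := Submodule.smul_mem _ (a - b)⁻¹ hab
    rwa [smul_smul, inv_mul_cancel₀ (sub_ne_zero.2 hne), one_smul] at this
  have hγmul : ∀ k < r, ∀ s t, γ k (s * t) = γ k s * γ k t := by
    intro k hk s t
    apply huniq k hk
    have e1 := h2 k hk (s * t)
    rw [rowT_mul] at e1
    have e2 := hinv k hk.le t _ (h2 k hk s)
    rw [map_sub, map_smul] at e2
    have e3 := Submodule.smul_mem _ (γ k s) (h2 k hk t)
    have := Submodule.add_mem _ (Submodule.sub_mem _ e2 e1) e3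
    rw [smul_sub, smul_smul] at this
    convert this using 1
    abel
  have hγadd : ∀ k < r, ∀ s t, γ k (s + t) = γ k s + γ k t := by
    intro k hk s t
    apply huniq k hk
    have e1 := h2 k hk (s + t)
    rw [rowT_add] at e1
    have := Submodule.sub_mem _ (Submodule.add_mem _ (h2 k hk s) (h2 k hk t)) e1
    rw [add_smul]
    convert this using 1
    abel
  have hγalg : ∀ k < r, ∀ a : B, γ k (algebraMap B S a) = algebraMap B K a := by
    intro k hk a
    apply huniq k hk
    have e1 := h2 k hk (algebraMap B S a)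
    rw [rowT_algebraMap] at e1
    have := Submodule.neg_mem _ e1
    rwa [neg_sub] at this
  have hγone : ∀ k < r, γ k 1 = 1 := by
    intro k hk
    have := hγalg k hk 1
    rwa [map_one, map_one] at this
  have hγzero : ∀ k < r, γ k 0 = 0 := by
    intro k hk
    have := hγalg k hk 0
    rwa [map_zero, map_zero] at this
  let f : O →ₐ[B] K := IsScalarTower.toAlgHom B O K
  have hf : Function.Injective f := IsFractionRing.injective O K
  -- lift to `O`
  have hlift : ∀ k, k < r → ∃ g : S →ₐ[B] O, ∀ s, algebraMap O K (g s) = γ k s := by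
    intro k hk
    let g0 : S →ₐ[B] K :=
      { toFun := γ k
        map_one' := hγone k hk
        map_mul' := hγmul k hk
        map_zero' := hγzero k hk
        map_add' := hγadd k hk
        commutes' := hγalg k hk }
    have hr : ∀ s, g0 s ∈ f.range := by
      intro s
      have hi : IsIntegral B (g0 s) := (Algebra.IsIntegral.isIntegral (R := B) s).map g0
      have hi' : IsIntegral O (g0 s) := hi.tower_top
      obtain ⟨y, hy⟩ := IsIntegrallyClosed.isIntegral_iff.1 hi'
      exact ⟨y, hy⟩
    let g1 : S →ₐ[B] f.range := g0.codRestrict f.range hr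
    let e := AlgEquiv.ofInjective f hf
    refine ⟨(e.symm : f.range →ₐ[B] O).comp g1, fun s => ?_⟩
    have : f (e.symm (g1 s)) = (g1 s : K) := by
      have := e.apply_symm_apply (g1 s)
      exact congrArg Subtype.val this
    exact this
  -- clear denominators
  have hden : ∀ k, ∃ D : O, D ≠ 0 ∧ ∃ lk : Fin r → O, ∀ c, algebraMap O K (lk c) =
      algebraMap O K D * w k c := by
    intro k
    obtain ⟨D, hD⟩ := IsLocalization.exist_integer_multiples_of_finset (nonZeroDivisors O)
      (univ.image (w k))
    refine ⟨D, nonZeroDivisors.coe_ne_zero D, ?_⟩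
    have : ∀ c, ∃ y : O, algebraMap O K y = algebraMap O K D * w k c := by
      intro c
      obtain ⟨y, hy⟩ := hD (w k c) (Finset.mem_image_of_mem _ (Finset.mem_univ c))
      exact ⟨y, by rw [hy, Algebra.smul_def]⟩
    choose lk hlk using this
    exact ⟨lk, hlk⟩
  choose D hD l hl using hden
  have hl' : ∀ k, (fun c => algebraMap O K (l k c)) = algebraMap O K (D k) • w k := by
    intro k; ext c; rw [hl]; rfl
  have hDK : ∀ k, algebraMap O K (D k) ≠ 0 := fun k => by
    rw [Ne, FaithfulSMul.algebraMap_eq_zero_iff]; exact hD k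
  have hsp : ∀ k, sp K (fun k => fun c => algebraMap O K (l k c)) k = sp K w k := by
    intro k
    apply le_antisymm
    · unfold sp
      rw [Submodule.span_le]
      rintro _ ⟨j, hj, rfl⟩
      simp only [hl']
      exact Submodule.smul_mem _ _ (mem_sp (K := K) w hj)
    · unfold sp
      rw [Submodule.span_le]
      rintro _ ⟨j, hj, rfl⟩
      have h3 : w j = (algebraMap O K (D j))⁻¹ • (fun c => algebraMap O K (l j c)) := by
        rw [hl', smul_smul, inv_mul_cancel₀ (hDK j), one_smul]
      rw [h3]
      exact Submodule.smul_mem _ _ (Submodule.subset_span ⟨j, hj, rfl⟩)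
  have hlift' : ∀ k, ∃ g : S →ₐ[B] O, k < r → ∀ s, algebraMap O K (g s) = γ k s := by
    intro k
    by_cases hk : k < r
    · obtain ⟨g, hg⟩ := hlift k hk
      exact ⟨g, fun _ => hg⟩
    · obtain ⟨g, hg⟩ := hlift 0 hr0
      exact ⟨g, fun h => absurd h hk⟩
  choose g hg using hlift'
  refine ⟨l, g, ?_, ?_⟩
  · intro k hk s
    -- the relation over `K`
    have h3 : rowT K ρ s (fun c => algebraMap O K (l k c)) -
        algebraMap O K (g k s) • (fun c => algebraMap O K (l k c)) ∈ sp K w k := by
      rw [hl', hg k hk s, map_smul, smul_comm, ← smul_sub]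
      exact Submodule.smul_mem _ _ (h2 k hk s)
    rw [← hsp, mem_sp_iff] at h3
    obtain ⟨c, hc⟩ := h3
    obtain ⟨E, hE⟩ := IsLocalization.exist_integer_multiples_of_finset (nonZeroDivisors O)
      ((range k).image c)
    have : ∀ i, ∃ y : O, i < k → algebraMap O K y = algebraMap O K E * c i := by
      intro i
      by_cases hi : i < k
      · obtain ⟨y, hy⟩ := hE (c i) (Finset.mem_image_of_mem _ (Finset.mem_range.2 hi))
        exact ⟨y, fun _ => by rw [hy, Algebra.smul_def]⟩
      · exact ⟨0, fun h => absurd h hi⟩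
    choose n hn using this
    refine ⟨E, nonZeroDivisors.coe_ne_zero E, n, ?_⟩
    ext c'
    apply IsFractionRing.injective O K
    have h4 := congrFun hc c'
    rw [Pi.smul_apply, smul_eq_mul, map_mul, Pi.sub_apply, map_sub, Finset.sum_apply, map_sum]
    have h5 : algebraMap O K ((l k ᵥ* (ρ s).map (algebraMap B O)) c') =
        rowT K ρ s (fun c => algebraMap O K (l k c)) c' := by
      rw [rowT_apply]
      simp only [Matrix.vecMul, dotProduct, Matrix.map_apply, map_sum, map_mul,
        ← IsScalarTower.algebraMap_apply B O K]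
    rw [h5]
    rw [Pi.sub_apply, Finset.sum_apply] at h4
    have h6 : algebraMap O K ((g k s • l k) c') =
        (algebraMap O K (g k s) • fun c => algebraMap O K (l k c)) c' := by
      simp
    rw [h6, h4, Finset.mul_sum]
    refine Finset.sum_congr rfl fun i hi => ?_
    rw [Pi.smul_apply, smul_eq_mul, Pi.smul_apply, smul_eq_mul, map_mul,
      hn i (Finset.mem_range.1 hi)]
    ring
  · -- the determinant
    intro hdet
    have h3 : LinearIndependent K (fun j : Fin r => fun c => algebraMap O K (l j c)) := by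
      refine linInd_of_flag (w := fun k => fun c => algebraMap O K (l k c)) r ?_
      intro j hj
      rw [hsp]
      intro h
      apply h1 j hj
      simp only [hl'] at h
      have := Submodule.smul_mem _ (algebraMap O K (D j))⁻¹ h
      rwa [smul_smul, inv_mul_cancel₀ (hDK j), one_smul] at this
    have h4 : Matrix.det (Matrix.of fun i j : Fin r => algebraMap O K (l i j)) ≠ 0 := by
      have h5 : LinearIndependent K (Matrix.of fun i j : Fin r => algebraMap O K (l i j)).row := h3
      rw [Matrix.linearIndependent_rows_iff_isUnit, Matrix.isUnit_iff_isUnit_det] at h5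
      exact h5.ne_zero
    apply h4
    have h6 : (Matrix.of fun i j : Fin r => algebraMap O K (l i j)) =
        (Matrix.of fun i j : Fin r => l i j).map (algebraMap O K) := by
      ext i j; rfl
    rw [h6, ← RingHom.mapMatrix_apply, ← RingHom.map_det, hdet, map_zero]

end rep

end Crest.Agent.R188.Flg
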