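/-
R188 (Serre positivity), helper453: uniqueness principle for additive lengths and the abstract
Frobenius scaling lemma.

`Λ₂ ≤ Λ₁` additive lengths which agree on a module of finite length agree on all its
subquotients; hence, if they agree on `A ⧸ I n`, they agree on all finitely generated modules
killed by some `I n`, and by continuity on all `I`-torsion modules.
-/
import Mathlib
import Crest.Agent.R183.AddLen
import Crest.Agent.R183.AddLenInst

set_option autoImplicit false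

namespace Crest.Agent.R188.Frb

open Crest.Agent.R183
open scoped ENNReal

universe u v

lemma ennreal_cancel {a₁ b₁ a₂ b₂ : ℝ≥0∞} (h : a₂ + b₂ = a₁ + b₁) (ha : a₂ ≤ a₁) (hb : b₂ ≤ b₁)
    (hfin : a₁ + b₁ ≠ ⊤) : a₂ = a₁ ∧ b₂ = b₁ := by
  have ha1 : a₁ ≠ ⊤ := (ENNReal.add_ne_top.1 hfin).1
  have hb1 : b₁ ≠ ⊤ := (ENNReal.add_ne_top.1 hfin).2
  refine ⟨le_antisymm ha ?_, le_antisymm hb ?_⟩
  · have h1 : a₁ + b₁ ≤ a₂ + b₁ := by rw [← h]; gcongr
    exact (ENNReal.add_le_add_iff_right hb1).1 h1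
  · have h1 : a₁ + b₁ ≤ a₁ + b₂ := by rw [← h]; gcongr
    exact (ENNReal.add_le_add_iff_left ha1).1 h1

section Uniq

variable {A : Type u} [CommRing A] (Λ₁ Λ₂ : AddLen.{u, v} A)

/-- quotients -/
theorem eq_of_surjective (hle : ∀ (M : Type v) [AddCommGroup M] [Module A M], Λ₂.L M ≤ Λ₁.L M)
    {M N : Type v} [AddCommGroup M] [Module A M] [AddCommGroup N] [Module A N]
    (f : M →ₗ[A] N) (hf : Function.Surjective f) (hM : Λ₂.L M = Λ₁.L M) (hfin : Λ₁.L M ≠ ⊤) :
    Λ₂.L N = Λ₁.L N ∧ Λ₁.L N ≠ ⊤ := by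
  have e1 := Λ₁.add' (LinearMap.ker f).subtype f (Submodule.subtype_injective _) hf
    (LinearMap.exact_subtype_ker_map f)
  have e2 := Λ₂.add' (LinearMap.ker f).subtype f (Submodule.subtype_injective _) hf
    (LinearMap.exact_subtype_ker_map f)
  refine ⟨(ennreal_cancel (by rw [← e1, ← e2, hM]) (hle _) (hle _) (by rw [← e1]; exact hfin)).2,
    ne_top_of_le_ne_top hfin (Λ₁.L_le_of_surjective f hf)⟩

/-- submodules -/
theorem eq_of_injective (hle : ∀ (M : Type v) [AddCommGroup M] [Module A M], Λ₂.L M ≤ Λ₁.L M)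
    {M N : Type v} [AddCommGroup M] [Module A M] [AddCommGroup N] [Module A N]
    (f : N →ₗ[A] M) (hf : Function.Injective f) (hM : Λ₂.L M = Λ₁.L M) (hfin : Λ₁.L M ≠ ⊤) :
    Λ₂.L N = Λ₁.L N ∧ Λ₁.L N ≠ ⊤ := by
  have e1 := Λ₁.add' f (LinearMap.range f).mkQ hf (Submodule.mkQ_surjective _)
    (LinearMap.exact_map_mkQ_range f)
  have e2 := Λ₂.add' f (LinearMap.range f).mkQ hf (Submodule.mkQ_surjective _)
    (LinearMap.exact_map_mkQ_range f)
  refine ⟨(ennreal_cancel (by rw [← e1, ← e2, hM]) (hle _) (hle _) (by rw [← e1]; exact hfin)).1,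
    ne_top_of_le_ne_top hfin (Λ₁.L_le_of_injective f hf)⟩

end Uniq

section Cyclic

variable {A : Type u} [CommRing A]

/-- a finitely generated module killed by `I` is a quotient of `(A ⧸ I)^n` -/
theorem exists_surj_of_fg (I : Ideal A) (M : Type v) [AddCommGroup M] [Module A M]
    [Module.Finite A M] (hM : ∀ a ∈ I, ∀ x : M, a • x = 0) :
    ∃ (n : ℕ) (f : (Fin n → A ⧸ I) →ₗ[A] M), Function.Surjective f := by
  obtain ⟨n, g, hg⟩ := Module.Finite.exists_fin' A M
  let h : M → ((A ⧸ I) →ₗ[A] M) := fun m =>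
    Submodule.liftQ I (LinearMap.toSpanSingleton A M m) (by
      intro a ha
      rw [LinearMap.mem_ker, LinearMap.toSpanSingleton_apply]
      exact hM a ha m)
  have hh : ∀ m a, h m (Ideal.Quotient.mk I a) = a • m := fun m a => by
    change Submodule.liftQ I (LinearMap.toSpanSingleton A M m) _ (Submodule.Quotient.mk a) = _
    rw [Submodule.liftQ_apply, LinearMap.toSpanSingleton_apply]
  refine ⟨n, ∑ i, (h (g (Pi.single i 1))).comp (LinearMap.proj i), fun x => ?_⟩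
  obtain ⟨y, rfl⟩ := hg x
  refine ⟨fun i => Ideal.Quotient.mk I (y i), ?_⟩
  rw [LinearMap.sum_apply]
  have : y = ∑ i, y i • (Pi.single i (1 : A) : Fin n → A) := by
    ext j
    simp [Finset.sum_apply, Pi.single_apply]
  conv_rhs => rw [this, map_sum]
  refine Finset.sum_congr rfl fun i _ => ?_
  rw [LinearMap.comp_apply, LinearMap.proj_apply, hh, map_smul]

/-- **Uniqueness principle**, finitely generated modules killed by `I`. -/
theorem eq_of_fg (Λ₁ Λ₂ : AddLen.{u, u} A)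
    (hle : ∀ (M : Type u) [AddCommGroup M] [Module A M], Λ₂.L M ≤ Λ₁.L M)
    (I : Ideal A) (hI : Λ₂.L (A ⧸ I) = Λ₁.L (A ⧸ I)) (hfin : Λ₁.L (A ⧸ I) ≠ ⊤)
    (M : Type u) [AddCommGroup M] [Module A M] [Module.Finite A M]
    (hM : ∀ a ∈ I, ∀ x : M, a • x = 0) :
    Λ₂.L M = Λ₁.L M ∧ Λ₁.L M ≠ ⊤ := by
  obtain ⟨n, f, hf⟩ := exists_surj_of_fg I M hM
  refine eq_of_surjective Λ₁ Λ₂ hle f hf ?_ ?_
  · rw [Λ₂.L_finset_pi, Λ₁.L_finset_pi, hI]
  · rw [Λ₁.L_finset_pi]
    exact ENNReal.mul_ne_top (ENNReal.natCast_ne_top n) hfin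

end Cyclic

end Crest.Agent.R188.Frb
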