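/-
R188 (Serre positivity), helper453: Frobenius scaling of helper529's normalised length over
`B_∞ = B[t_i^{1/p^∞}]`: if `e : Y ≃+ Y'`, `e (a • y) = a^p • e y` and `p Y' = 0`, then
`λ(Y') = p^d λ(Y)`.
-/
import Mathlib
import Crest.Agent.R183.BInf4
import Crest.Agent.R183.Lam3
import Crest.Agent.R183.AddLenInst

set_option autoImplicit false

namespace Crest.Agent.R188.Frb

open Crest.Agent.R183 Crest.Agent.R183.BInf
open scoped ENNReal

universe u v

section

variable {d : ℕ} {p : ℕ} [hpr : Fact p.Prime] {B : Type u} [CommRing B] (t : Fin d → B)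

/-- the `p`-th power of an element of level `e+1` is congruent modulo `p` to an element of
level `e` -/
theorem exists_pow_mod (e : ℕ) {a : BInf p t} (ha : a ∈ SA p t hpr.out.pos (e + 1)) :
    ∃ b ∈ SA p t hpr.out.pos e, (p : BInf p t) ∣ a ^ p - b := by
  have ha' : a ∈ Submodule.span B (Set.range fun n : Fin d → ℕ =>
      mon p t (ex p hpr.out.pos (e + 1) n)) := by
    rw [← SA_eq_span]; exact ha
  clear ha
  induction ha' using Submodule.span_induction with
  | mem x hx =>
    obtain ⟨n, rfl⟩ := hx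
    refine ⟨mon p t (ex p hpr.out.pos e n), mon_ex_mem p t hpr.out.pos e n, ?_⟩
    dsimp only
    rw [← mon_nsmul]
    have h : p • ex p hpr.out.pos (e + 1) n = ex p hpr.out.pos e n := by
      funext j
      apply Subtype.ext
      rw [Pi.smul_apply, AddSubmonoidClass.coe_nsmul]
      change p • ((n j : ℚ≥0) / (p : ℚ≥0) ^ (e + 1)) = (n j : ℚ≥0) / (p : ℚ≥0) ^ e
      have hp0 : (p : ℚ≥0) ≠ 0 := by exact_mod_cast hpr.out.ne_zero
      rw [nsmul_eq_mul, pow_succ]
      field_simp
    rw [h, sub_self]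
    exact dvd_zero _
  | zero => exact ⟨0, Subalgebra.zero_mem _, by
      rw [zero_pow hpr.out.ne_zero, sub_self]; exact dvd_zero _⟩
  | add x y _ _ hx hy =>
    obtain ⟨b, hb, z, hz⟩ := hx
    obtain ⟨b', hb', z', hz'⟩ := hy
    obtain ⟨r, hr⟩ := exists_add_pow_prime_eq hpr.out x y
    exact ⟨b + b', Subalgebra.add_mem _ hb hb', z + z' + x * y * r, by
      rw [hr]; linear_combination hz + hz'⟩
  | smul c x _ hx =>
    obtain ⟨b, hb, z, hz⟩ := hx
    refine ⟨algebraMap B (BInf p t) (c ^ p) * b,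
      Subalgebra.mul_mem _ (Subalgebra.algebraMap_mem _ _) hb,
      algebraMap B (BInf p t) (c ^ p) * z, ?_⟩
    have h1 : c • x = algebraMap B (BInf p t) c * x := Algebra.smul_def c x
    rw [h1, mul_pow, map_pow]
    linear_combination (algebraMap B (BInf p t) c) ^ p * hz

/-- an element of level `e` is congruent modulo `p` to the `p`-th power of an element of
level `e+1` -/
theorem exists_root_mod {i0 : Fin d} (h : PBasis p t i0) (e : ℕ) {b : BInf p t}
    (hb : b ∈ SA p t hpr.out.pos e) :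
    ∃ a ∈ SA p t hpr.out.pos (e + 1), (p : BInf p t) ∣ b - a ^ p := by
  have hpow : ∀ (n : Fin d → ℕ) (k : ℕ), ∃ a ∈ SA p t hpr.out.pos (k + 1),
      mon p t (ex p hpr.out.pos k n) = a ^ p := by
    intro n k
    refine ⟨mon p t (ex p hpr.out.pos (k + 1) n), mon_ex_mem p t hpr.out.pos (k + 1) n, ?_⟩
    rw [← mon_nsmul]
    congr 1
    funext j
    apply Subtype.ext
    rw [Pi.smul_apply, AddSubmonoidClass.coe_nsmul]
    change (n j : ℚ≥0) / (p : ℚ≥0) ^ k = p • ((n j : ℚ≥0) / (p : ℚ≥0) ^ (k + 1))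
    have hp0 : (p : ℚ≥0) ≠ 0 := by exact_mod_cast hpr.out.ne_zero
    rw [nsmul_eq_mul, pow_succ]
    field_simp
  have hadd : ∀ x y : BInf p t,
      (∃ a ∈ SA p t hpr.out.pos (e + 1), (p : BInf p t) ∣ x - a ^ p) →
      (∃ a ∈ SA p t hpr.out.pos (e + 1), (p : BInf p t) ∣ y - a ^ p) →
      ∃ a ∈ SA p t hpr.out.pos (e + 1), (p : BInf p t) ∣ (x + y) - a ^ p := by
    rintro x y ⟨a, ha, z, hz⟩ ⟨a', ha', z', hz'⟩
    obtain ⟨r, hr⟩ := exists_add_pow_prime_eq hpr.out a a'
    exact ⟨a + a', Subalgebra.add_mem _ ha ha', z + z' - a * a' * r, by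
      rw [hr]; linear_combination hz + hz'⟩
  have hmul : ∀ x y : BInf p t,
      (∃ a ∈ SA p t hpr.out.pos (e + 1), (p : BInf p t) ∣ x - a ^ p) →
      (∃ a ∈ SA p t hpr.out.pos (e + 1), (p : BInf p t) ∣ y - a ^ p) →
      ∃ a ∈ SA p t hpr.out.pos (e + 1), (p : BInf p t) ∣ (x * y) - a ^ p := by
    rintro x y ⟨a, ha, z, hz⟩ ⟨a', ha', z', hz'⟩
    refine ⟨a * a', Subalgebra.mul_mem _ ha ha', z * y + a ^ p * z', ?_⟩
    rw [mul_pow]
    linear_combination y * hz + a ^ p * hz'
  have hzero : ∃ a ∈ SA p t hpr.out.pos (e + 1), (p : BInf p t) ∣ 0 - a ^ p :=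
    ⟨0, Subalgebra.zero_mem _, by rw [zero_pow hpr.out.ne_zero, sub_self]; exact dvd_zero _⟩
  have hsum : ∀ {κ : Type} (s : Finset κ) (f : κ → BInf p t),
      (∀ i ∈ s, ∃ a ∈ SA p t hpr.out.pos (e + 1), (p : BInf p t) ∣ f i - a ^ p) →
      ∃ a ∈ SA p t hpr.out.pos (e + 1), (p : BInf p t) ∣ (∑ i ∈ s, f i) - a ^ p := by
    classical
    intro κ s f hf
    induction s using Finset.induction_on with
    | empty => rw [Finset.sum_empty]; exact hzero
    | insert a s ha ih =>
      rw [Finset.sum_insert ha]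
      exact hadd _ _ (hf a (Finset.mem_insert_self a s))
        (ih fun i hi => hf i (Finset.mem_insert_of_mem hi))
  have hB : ∀ c : B, ∃ a ∈ SA p t hpr.out.pos (e + 1),
      (p : BInf p t) ∣ algebraMap B (BInf p t) c - a ^ p := by
    intro c
    obtain ⟨f, z, hz⟩ := h.gen c
    have hc : c = (∑ α, (∏ i, t i ^ (α.1 i : ℕ)) * f α ^ p) + p * z := by rw [← hz]; ring
    rw [hc, map_add, map_sum, map_mul, map_natCast]
    refine hadd _ _ (hsum _ _ fun α _ => ?_) ⟨0, Subalgebra.zero_mem _, by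
      rw [zero_pow hpr.out.ne_zero, sub_zero]; exact Dvd.intro _ rfl⟩
    rw [map_mul, map_pow]
    refine hmul _ _ ?_ ⟨algebraMap B _ (f α), Subalgebra.algebraMap_mem _ _, by
      rw [sub_self]; exact dvd_zero _⟩
    rw [← mon_natG]
    have h0 : (natG (fun i => ((α.1 i : Fin p) : ℕ)) : Gam d p) =
        ex p hpr.out.pos 0 (fun i => ((α.1 i : Fin p) : ℕ)) := (ex_level_zero p hpr.out.pos _).symm
    rw [h0]
    obtain ⟨a, ha, hae⟩ := hpow (fun i => ((α.1 i : Fin p) : ℕ)) 0
    exact ⟨a, SA_mono p t hpr.out.pos (by omega) ha, by rw [hae, sub_self]; exact dvd_zero _⟩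
  have hb' : b ∈ Submodule.span B (Set.range fun n : Fin d → ℕ =>
      mon p t (ex p hpr.out.pos e n)) := by
    rw [← SA_eq_span]; exact hb
  clear hb
  induction hb' using Submodule.span_induction with
  | mem x hx =>
    obtain ⟨n, rfl⟩ := hx
    obtain ⟨a, ha, hae⟩ := hpow n e
    exact ⟨a, ha, by dsimp only; rw [hae, sub_self]; exact dvd_zero _⟩
  | zero => exact hzero
  | add x y _ _ hx hy => exact hadd _ _ hx hy
  | smul c x _ hx =>
    have h1 : c • x = algebraMap B (BInf p t) c * x := Algebra.smul_def c x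
    rw [h1]
    exact hmul _ _ (hB c) hx

variable [IsNoetherianRing B]

/-- **Frobenius scaling over `B_∞`** -/
theorem lam_frob {i0 : Fin d} (h : PBasis p t i0) {M M' : Type v} [AddCommGroup M]
    [Module (BInf p t) M] [AddCommGroup M'] [Module (BInf p t) M'] (φ : M ≃+ M')
    (hφ : ∀ (a : BInf p t) (x : M), φ (a • x) = a ^ p • φ x)
    (hp' : ∀ y : M', (p : BInf p t) • y = 0) :
    (tower p t hpr.out.pos).lam M' = ((p ^ d : ℕ) : ℝ≥0∞) * (tower p t hpr.out.pos).lam M := by
  have key : ∀ (a b : BInf p t), (p : BInf p t) ∣ a - b → ∀ y : M', a • y = b • y := by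
    rintro a b ⟨z, hz⟩ y
    have : a = b + z * p := by linear_combination hz
    rw [this, add_smul, mul_smul, hp' y, smul_zero, add_zero]
  exact (tower p t hpr.out.pos).lam_scaling φ
    (fun e a ha => by
      obtain ⟨b, hb, hab⟩ := exists_pow_mod t e ha
      exact ⟨b, hb, fun x => by rw [hφ, key _ _ hab]⟩)
    (fun e b hb => by
      obtain ⟨a, ha, hab⟩ := exists_root_mod t h e hb
      exact ⟨a, ha, fun x => by rw [hφ, key _ _ hab]⟩)

/-- the same for a `B_∞`-algebra `A` (e.g. the `p`-completion), lengths of `A`-modules measured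
over `B_∞` -/
theorem restrict_frob {i0 : Fin d} (h : PBasis p t i0) {A : Type*} [CommRing A]
    (f : BInf p t →+* A) {M M' : Type v} [AddCommGroup M]
    [Module A M] [AddCommGroup M'] [Module A M'] (φ : M ≃+ M')
    (hφ : ∀ (a : A) (x : M), φ (a • x) = a ^ p • φ x)
    (hp' : ∀ y : M', (p : A) • y = 0) :
    ((AddLen.ofTower (tower p t hpr.out.pos)).restrict f).L M' =
      ((p ^ d : ℕ) : ℝ≥0∞) * ((AddLen.ofTower (tower p t hpr.out.pos)).restrict f).L M := by
  let _ : Module (BInf p t) M := Module.compHom M f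
  let _ : Module (BInf p t) M' := Module.compHom M' f
  refine lam_frob t h φ (fun a x => ?_) (fun y => ?_)
  · change φ (f a • x) = f (a ^ p) • φ x
    rw [hφ, map_pow]
  · change f (p : BInf p t) • y = 0
    rw [map_natCast]
    exact hp' y

end

end Crest.Agent.R188.Frb
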