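/-
R188, block (L3): Frobenius scaling of the extended length, lengths on `W(P)`-modules,
comparison with the given length on `Ω = W(P)/ξ`.   helper200
-/
import Mathlib
import Crest.Agent.R188.LenW1

set_option autoImplicit false

namespace Crest.Agent.R188.LenW

open scoped ENNReal
open Crest.Agent.R183

universe u v

section extf

variable {A : Type u} [CommRing A] {B : Type u} [CommRing B]

/-- the extension along a surjection is the least length that dominates. -/
theorem extf_le (f : A →+* B) (hf : Function.Surjective f) (Λ : AddLen.{u, v} B)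
    (Λ' : AddLen.{u, v} A)
    (h : ∀ (M : Type v) [AddCommGroup M] [Module A M] [Module B M],
      (∀ (a : A) (x : M), a • x = f a • x) → Λ.L M ≤ Λ'.L M)
    (M : Type v) [AddCommGroup M] [Module A M] : (extf f hf Λ).L M ≤ Λ'.L M := by
  refine ext_le _ _ Λ' ?_ M
  intro M _ _ _ _
  let e := RingHom.quotientKerEquivOfSurjective hf
  let _ : Module B M := Module.compHom M (e.symm : B →+* (A ⧸ RingHom.ker f))
  have hsm : ∀ (b : B) (x : M), b • x = e.symm b • x := fun _ _ => rfl
  have h0 : ∀ (a : A) (x : M), a • x = f a • x := fun a x => by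
    rw [hsm]
    have : e.symm (f a) = Ideal.Quotient.mk _ a := by
      rw [RingEquiv.symm_apply_eq]; rfl
    rw [this]
    exact (algebraMap_smul (A ⧸ RingHom.ker f) a x).symm
  refine le_trans (le_of_eq ?_) (h M h0)
  rfl

/-- a module killed by `ker f` is a `B`-module. -/
theorem exists_module (f : A →+* B) (hf : Function.Surjective f) (M : Type v) [AddCommGroup M]
    [Module A M] (hM : ∀ a ∈ RingHom.ker f, ∀ x : M, a • x = 0) :
    ∃ _ : Module B M, ∀ (a : A) (x : M), a • x = f a • x := by
  let g : B →+* Module.End ℤ M := f.liftOfSurjective hf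
    ⟨Module.toModuleEnd ℤ (S := A) M, fun a ha => by
      rw [RingHom.mem_ker]
      ext x
      exact hM a ha x⟩
  refine ⟨Module.compHom M g, fun a x => ?_⟩
  change a • x = g (f a) x
  have : g (f a) = Module.toModuleEnd ℤ (S := A) M a :=
    f.liftOfRightInverse_comp_apply _ (Function.rightInverse_surjInv hf) ⟨_, _⟩ a
  rw [this]; rfl

/-- agreement on modules killed by the kernel, hence everywhere on torsion. -/
theorem extf_agree (f : A →+* B) (hf : Function.Surjective f) (Λ : AddLen.{u, v} B)
    (Λ' : AddLen.{u, v} A)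
    (h : ∀ (M : Type v) [AddCommGroup M] [Module A M] [Module B M],
      (∀ (a : A) (x : M), a • x = f a • x) → Λ'.L M = Λ.L M)
    (M : Type v) [AddCommGroup M] [Module A M] (hM : ∀ a ∈ RingHom.ker f, ∀ x : M, a • x = 0) :
    (extf f hf Λ).L M = Λ'.L M := by
  obtain ⟨_, h0⟩ := exists_module f hf M hM
  rw [h M h0, extf_L f hf Λ M h0]

/-- transitivity of the extension -/
theorem extf_extf {C : Type u} [CommRing C] (f : A →+* B) (hf : Function.Surjective f)
    (g : B →+* C) (hg : Function.Surjective g) (Λ : AddLen.{u, v} C)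
    (M : Type v) [AddCommGroup M] [Module A M] :
    (extf f hf (extf g hg Λ)).L M = (extf (g.comp f) (hg.comp hf) Λ).L M := by
  refine le_antisymm ?_ ?_
  · refine extf_le f hf _ _ ?_ M
    intro M _ _ _ h
    -- the length `M ↦ (extf (g ∘ f) Λ) M` on `B`-modules dominates `Λ`
    have key := extf_le g hg Λ ((extf (g.comp f) (hg.comp hf) Λ).restrict f) (fun N _ _ _ hN => by
      let _ : Module A N := Module.compHom N f
      rw [AddLen.restrict_L _ f N (fun _ _ => rfl)]
      rw [extf_L (g.comp f) (hg.comp hf) Λ N (fun a x => by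
        change f a • x = _
        rw [hN]; rfl)]) M
    rwa [AddLen.restrict_L _ f M h] at key
  · refine extf_le (g.comp f) (hg.comp hf) _ _ ?_ M
    intro M _ _ _ h
    obtain ⟨_, h0⟩ := exists_module f hf M (fun a ha x => by
      rw [h, RingHom.comp_apply, (RingHom.mem_ker).1 ha, map_zero, zero_smul])
    rw [extf_L f hf _ M h0, extf_L g hg Λ M (fun b x => by
      obtain ⟨a, rfl⟩ := hf b
      rw [← h0, h]; rfl)]

end extf

/-! ### Twisted modules -/

/-- `M` with scalars restricted along `g`. -/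
def Tw {A B : Type*} [CommRing A] [CommRing B] (_g : A →+* B) (M : Type v) : Type v := M

section Tw

variable {A B : Type*} [CommRing A] [CommRing B] (g : A →+* B) (M : Type v) [AddCommGroup M]
  [Module B M]

instance : AddCommGroup (Tw g M) := inferInstanceAs (AddCommGroup M)

instance : Module A (Tw g M) := Module.compHom M g

/-- the identity -/
def tw : M ≃+ Tw g M := AddEquiv.refl M

lemma tw_smul (a : A) (x : M) : a • tw g M x = tw g M (g a • x) := rfl

lemma restrict_L_tw {A : Type u} [CommRing A] {B : Type*} [CommRing B] (g : A →+* B)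
    (M : Type v) [AddCommGroup M] [Module B M] (Λ : AddLen.{u, v} A) :
    (Λ.restrict g).L M = Λ.L (Tw g M) := rfl

end Tw

/-! ### Frobenius scaling -/

/-- **Frobenius scaling**: if `Y'` is `Y` with `c` acting as `c ^ p`, then `κ * L Y' = L Y`
(`κ = p ^ b`).  Such a `Y'` only exists if `p` kills `Y`. -/
def FrobS {A : Type u} [CommRing A] (Λ : AddLen.{u, v} A) (p : ℕ) (κ : ℝ≥0∞) : Prop :=
  ∀ (Y Y' : Type v) [AddCommGroup Y] [Module A Y] [AddCommGroup Y'] [Module A Y'] (e : Y ≃+ Y'),
    (∀ (c : A) (y : Y), c • e y = e (c ^ p • y)) → κ * Λ.L Y' = Λ.L Y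

section frob

variable {A : Type u} [CommRing A]

/-- restriction of scalars preserves Frobenius scaling. -/
theorem FrobS.restrict {Λ : AddLen.{u, v} A} {p : ℕ} {κ : ℝ≥0∞} (h : FrobS Λ p κ) {B : Type*}
    [CommRing B] (g : A →+* B) : FrobS (Λ.restrict g) p κ := by
  intro Y Y' _ _ _ _ e he
  let _ : Module A Y := Module.compHom Y g
  let _ : Module A Y' := Module.compHom Y' g
  rw [Λ.restrict_L g Y (fun _ _ => rfl), Λ.restrict_L g Y' (fun _ _ => rfl)]
  refine h Y Y' e fun c y => ?_
  change g c • e y = e (g (c ^ p) • y)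
  rw [he, map_pow]

variable {P R : Type u} [CommRing P] [CommRing R]

/-- **Frobenius scaling for the extension** along `f : P → R`, `P` perfect, `ker f = (π)`. -/
theorem FrobS.extf {p : ℕ} {κ : ℝ≥0∞} (hκ0 : κ ≠ 0) (hκ : κ ≠ ⊤) (hp : 0 < p)
    (φ : P ≃+* P) (hφ : ∀ c, φ c = c ^ p) (f : P →+* R) (hf : Function.Surjective f) (π : P)
    (hker : RingHom.ker f = Ideal.span {π}) {Λ : AddLen.{u, v} R} (h : FrobS Λ p κ) :
    FrobS (extf f hf Λ) p κ := by
  -- the Frobenius of `R`
  have hle : RingHom.ker f ≤ RingHom.ker (f.comp (φ : P →+* P)) := by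
    intro a ha
    rw [RingHom.mem_ker] at ha ⊢
    change f (φ a) = 0
    rw [hφ, map_pow, ha, zero_pow hp.ne']
  let φ₀ : R →+* R := f.liftOfSurjective hf ⟨f.comp (φ : P →+* P), hle⟩
  have hφ₀ : ∀ a, φ₀ (f a) = f a ^ p := by
    intro a
    have : φ₀ (f a) = f.comp (φ : P →+* P) a :=
      f.liftOfRightInverse_comp_apply _ (Function.rightInverse_surjInv hf) ⟨_, _⟩ a
    rw [this, RingHom.comp_apply]
    change f (φ a) = _
    rw [hφ, map_pow]
  have hφ₀' : ∀ r, φ₀ r = r ^ p := by
    intro r
    obtain ⟨a, rfl⟩ := hf r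
    exact hφ₀ a
  set L := LenW.extf f hf Λ with hL
  set Λ' : AddLen.{u, v} P := (L.restrict (φ : P →+* P)).smul κ with hΛ'
  -- `Λ' = Λ` on `R`-modules
  have key1 : ∀ (M : Type v) [AddCommGroup M] [Module P M] [Module R M],
      (∀ (a : P) (x : M), a • x = f a • x) → Λ'.L M = Λ.L M := by
    intro M _ _ _ h0
    rw [hΛ', AddLen.smul_L, restrict_L_tw]
    let _ : Module R (Tw (φ : P →+* P) M) := Module.compHom M φ₀
    have e2 : L.L (Tw (φ : P →+* P) M) = Λ.L (Tw (φ : P →+* P) M) :=
      extf_L f hf Λ (Tw (φ : P →+* P) M) (fun a x => by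
        change φ a • (show M from x) = φ₀ (f a) • (show M from x)
        rw [h0, hφ₀, hφ, map_pow])
    rw [e2]
    refine h M (Tw (φ : P →+* P) M) (tw (φ : P →+* P) M) fun c y => ?_
    change φ₀ c • (show M from y) = c ^ p • y
    rw [hφ₀']
  have key2 : ∀ (M : Type v) [AddCommGroup M] [Module P M],
      (∀ a ∈ Ideal.span {π}, ∀ x : M, a • x = 0) → L.L M = Λ'.L M := by
    intro M _ _ hM
    exact extf_agree f hf Λ Λ' key1 M (by rw [hker]; exact hM)
  intro Y Y' _ _ _ _ e he
  refine le_antisymm ?_ ?_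
  · -- `κ * L Y' ≤ L Y`
    set Λ'' : AddLen.{u, v} P := (L.restrict (φ.symm : P →+* P)).smul κ⁻¹ with hΛ''
    have h1 : L.L Y' ≤ Λ''.L Y' := by
      refine extf_le f hf Λ Λ'' ?_ Y'
      intro M _ _ _ h0
      rw [hΛ'', AddLen.smul_L, restrict_L_tw]
      have e2 : L.L (Tw (φ.symm : P →+* P) M) = Λ'.L (Tw (φ.symm : P →+* P) M) := by
        refine agree_pow (Ideal.span {π}) L Λ' key2 p _ ?_
        intro a ha x
        rw [Ideal.span_singleton_pow, Ideal.mem_span_singleton] at ha
        obtain ⟨b, rfl⟩ := ha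
        change φ.symm (π ^ p * b) • (show M from x) = 0
        rw [← hφ, map_mul, φ.symm_apply_apply, h0, map_mul]
        have : f π = 0 := by
          rw [← RingHom.mem_ker, hker]; exact Ideal.mem_span_singleton_self π
        rw [this, zero_mul, zero_smul]
      have e3 : Λ'.L (Tw (φ.symm : P →+* P) M) = κ * L.L M := by
        rw [hΛ', AddLen.smul_L, restrict_L_tw]
        congr 1
        refine L.L_congr ?_
        refine LinearEquiv.symm { (tw (φ.symm : P →+* P) M).trans
            (tw (φ : P →+* P) (Tw (φ.symm : P →+* P) M)) with map_smul' := fun c x => ?_ }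
        change c • (show M from x) = φ.symm (φ c) • (show M from x)
        rw [φ.symm_apply_apply]
      rw [e2, e3, ← mul_assoc, ENNReal.inv_mul_cancel hκ0 hκ, one_mul, extf_L f hf Λ M h0]
    have h2 : (L.restrict (φ.symm : P →+* P)).L Y' = L.L Y := by
      rw [restrict_L_tw]
      refine L.L_congr ?_
      refine LinearEquiv.symm { e.trans (tw (φ.symm : P →+* P) Y') with
        map_smul' := fun c y => ?_ }
      change e (c • y) = φ.symm c • e y
      rw [he, ← hφ, φ.apply_symm_apply]
    rw [hΛ'', AddLen.smul_L, h2] at h1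
    calc κ * L.L Y' ≤ κ * (κ⁻¹ * L.L Y) := by gcongr
      _ = L.L Y := by rw [← mul_assoc, ENNReal.mul_inv_cancel hκ0 hκ, one_mul]
  · have h1 : L.L Y ≤ Λ'.L Y := by
      refine extf_le f hf Λ Λ' ?_ Y
      intro M _ _ _ h0
      exact (key1 M h0).ge
    refine h1.trans ?_
    rw [hΛ', AddLen.smul_L]
    gcongr
    rw [restrict_L_tw]
    refine (L.L_congr (LinearEquiv.symm { e.symm.trans (tw (φ : P →+* P) Y) with
      map_smul' := fun c y => ?_ })).le
    change e.symm (c • y) = φ c • e.symm y
    rw [AddEquiv.symm_apply_eq, hφ, ← he, e.apply_symm_apply]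

end frob

end Crest.Agent.R188.LenW
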