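/-
R188 (Serre positivity), block Tow2: the scaling inequality of the tower of the rings `C_K`
(integral closures in finite Galois extensions) from Galois symmetry.  Author: helper814
-/
import Crest.Agent.R188.Tow1
import Crest.Agent.R183.AddLenInst

set_option autoImplicit false

namespace Crest.Agent.R188.Tow

open scoped ENNReal TensorProduct
open Submodule Crest.Agent.R183

universe u v w

section Tors

variable {A : Type u} [CommRing A] {κ : Type w} {t : κ → A}

theorem Tors.pi {M : Type u} [AddCommGroup M] [Module A M] (h : Tors t M) {G : Type}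
    [Finite G] : Tors t (G → M) := by
  classical
  have := Fintype.ofFinite G
  intro x i
  choose n hn using fun g => h (x g) i
  refine ⟨∑ g, n g, funext fun g => ?_⟩
  change t i ^ (∑ g, n g) • x g = 0
  rw [← Finset.sum_erase_add _ _ (Finset.mem_univ g), pow_add, mul_smul, hn g, smul_zero]

theorem Tors.tensor (C : Type u) [CommRing C] [Algebra A C] {M : Type u} [AddCommGroup M]
    [Module A M] (h : Tors t M) : Tors t (C ⊗[A] M) := by
  intro x i
  induction x with
  | zero => exact ⟨0, by simp⟩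
  | tmul c m =>
    obtain ⟨n, hn⟩ := h m i
    exact ⟨n, by rw [← TensorProduct.tmul_smul, hn, TensorProduct.tmul_zero]⟩
  | add x y hx hy =>
    obtain ⟨n, hn⟩ := hx
    obtain ⟨m, hm⟩ := hy
    refine ⟨n + m, ?_⟩
    rw [smul_add, pow_add, mul_comm, mul_smul, hn, smul_zero, zero_add, mul_comm, mul_smul, hm,
      smul_zero]

end Tors

section Galois

variable {A C C' : Type u} [CommRing A] [CommRing C] [CommRing C'] [Algebra A C] [Algebra A C']
  [Algebra C C'] [IsScalarTower A C C'] {G : Type}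

/-- the `A`-submodule of `G → V` spanned by the vectors `(σ_g(a) v)_g`. -/
def decSub (σ : G → C →ₐ[A] C) (V : Type u) [AddCommGroup V] [Module A V] [Module C V] :
    Submodule A (G → V) :=
  Submodule.span A {w | ∃ (a : C) (v : V), w = fun g => σ g a • v}

variable {κ : Type w} {t : κ → A} (Λ : AddLen.{u, u} A) [Fintype G]

omit [IsScalarTower A C C'] in
/-- **Scaling from Galois symmetry.** -/
theorem galois_scale (σ : G → C →ₐ[A] C) (σ' : G → C' →ₐ[A] C')
    (hσ' : ∀ g, Function.Surjective (σ' g))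
    (hc : ∀ g a, σ' g (algebraMap C C' a) = algebraMap C C' (σ g a)) {n' : ℝ≥0∞}
    (hFL : ∀ (V : Type u) [AddCommGroup V] [Module A V], Tors t V →
      Λ.L (C' ⊗[A] V) ≤ n' * Λ.L V)
    {Q Q' : Type u} [AddCommGroup Q] [Module A Q] [Module C Q] [IsScalarTower A C Q]
    [AddCommGroup Q'] [Module A Q'] [Module C Q'] [Module C' Q'] [IsScalarTower A C' Q']
    [IsScalarTower C C' Q'] [IsScalarTower A C Q'] (f : Q →ₗ[C] Q')
    (hf : Submodule.span C' (Set.range f) = ⊤) (hQ : Tors t Q)
    (hDEC : Λ.L ((G → Q) ⧸ decSub σ Q) = 0) :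
    (Fintype.card G : ℝ≥0∞) * Λ.L Q' ≤ n' * Λ.L Q := by
  classical
  -- the two bilinear maps
  let Φ₀ : C' →ₗ[A] Q →ₗ[A] (G → Q') :=
    LinearMap.mk₂ A (fun c v => fun g => σ' g c • f v)
      (fun c₁ c₂ v => funext fun g => by simp only [map_add, add_smul, Pi.add_apply])
      (fun a c v => funext fun g => by
        simp only [map_smul, Pi.smul_apply, smul_assoc])
      (fun c v₁ v₂ => funext fun g => by simp only [map_add, smul_add, Pi.add_apply])
      (fun a c v => funext fun g => by
        have : f (a • v) = a • f v := (f.restrictScalars A).map_smul a v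
        simp only [this, Pi.smul_apply]
        rw [smul_comm])
  let Ψ₀ : C' →ₗ[A] (G → Q) →ₗ[A] (G → Q') :=
    LinearMap.mk₂ A (fun c w => fun g => σ' g c • f (w g))
      (fun c₁ c₂ v => funext fun g => by simp only [map_add, add_smul, Pi.add_apply])
      (fun a c v => funext fun g => by
        simp only [map_smul, Pi.smul_apply, smul_assoc])
      (fun c v₁ v₂ => funext fun g => by simp only [map_add, smul_add, Pi.add_apply])
      (fun a c v => funext fun g => by
        have : f (a • v g) = a • f (v g) := (f.restrictScalars A).map_smul a (v g)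
        simp only [Pi.smul_apply, this]
        rw [smul_comm])
  let Φ : C' ⊗[A] Q →ₗ[A] (G → Q') := TensorProduct.lift Φ₀
  have hΦ : ∀ c v, Φ (c ⊗ₜ v) = fun g => σ' g c • f v := fun c v => rfl
  -- `coker Φ` is a quotient of `C' ⊗ ((G → Q) / decSub)`
  let R := LinearMap.range Φ
  let Ψ₁ : (G → Q) →ₗ[A] C' →ₗ[A] ((G → Q') ⧸ R) := (Ψ₀.compr₂ R.mkQ).flip
  have hker : decSub σ Q ≤ LinearMap.ker Ψ₁ := by
    refine Submodule.span_le.mpr ?_
    rintro _ ⟨a, v, rfl⟩
    refine LinearMap.mem_ker.mpr (LinearMap.ext fun c => ?_)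
    change R.mkQ (fun g => σ' g c • f (σ g a • v)) = 0
    rw [Submodule.mkQ_apply, Submodule.Quotient.mk_eq_zero]
    refine ⟨(c * algebraMap C C' a) ⊗ₜ v, ?_⟩
    rw [hΦ]
    funext g
    rw [map_mul, hc, mul_smul, map_smul, algebraMap_smul]
  let Ψ : C' ⊗[A] ((G → Q) ⧸ decSub σ Q) →ₗ[A] ((G → Q') ⧸ R) :=
    TensorProduct.lift ((decSub σ Q).liftQ Ψ₁ hker).flip
  have hΨ : ∀ c w, Ψ (c ⊗ₜ (decSub σ Q).mkQ w) = R.mkQ (fun g => σ' g c • f (w g)) :=
    fun c w => rfl
  have hsingle : ∀ (g : G) (q : Q'), ∃ z, Ψ z = R.mkQ (Pi.single g q) := by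
    intro g q
    have hq : q ∈ Submodule.span C' (Set.range f) := by rw [hf]; trivial
    induction hq using Submodule.closure_induction with
    | zero => exact ⟨0, by rw [map_zero, Pi.single_zero, map_zero]⟩
    | add x y _ _ hx hy =>
      obtain ⟨z₁, h₁⟩ := hx
      obtain ⟨z₂, h₂⟩ := hy
      exact ⟨z₁ + z₂, by rw [map_add, h₁, h₂, Pi.single_add, map_add]⟩
    | smul_mem c x hx =>
      obtain ⟨v, rfl⟩ := hx
      obtain ⟨c', rfl⟩ := hσ' g c
      refine ⟨c' ⊗ₜ (decSub σ Q).mkQ (Pi.single g v), ?_⟩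
      rw [hΨ]
      congr 1
      funext h
      by_cases hh : h = g
      · subst hh
        simp
      · simp [Pi.single_eq_of_ne hh]
  have hΨs : Function.Surjective Ψ := by
    intro y
    obtain ⟨y, rfl⟩ := R.mkQ_surjective y
    choose z hz using fun g => hsingle g (y g)
    refine ⟨∑ g, z g, ?_⟩
    rw [map_sum]
    simp only [hz]
    rw [← map_sum]
    congr 1
    exact Finset.univ_sum_single y
  have h1 : Λ.L ((G → Q') ⧸ R) = 0 := by
    refine le_antisymm ((Λ.L_le_of_surjective Ψ hΨs).trans ?_) zero_le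
    refine (hFL _ (hQ.pi.quotient _)).trans ?_
    rw [hDEC, mul_zero]
  calc (Fintype.card G : ℝ≥0∞) * Λ.L Q' = Λ.L (G → Q') := (Λ.L_pi_const G).symm
    _ = Λ.L R + Λ.L ((G → Q') ⧸ R) := Λ.L_eq_add_quotient R
    _ = Λ.L R := by rw [h1, add_zero]
    _ ≤ Λ.L (C' ⊗[A] Q) := Λ.L_le_of_surjective Φ.rangeRestrict Φ.surjective_rangeRestrict
    _ ≤ n' * Λ.L Q := hFL Q hQ

end Galois

section GalTower

/-- The tower of the rings `C_K` (`K / Frac A` finite Galois): a directed family of subalgebras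
`S i` of the `A`-algebra `R`, with endomorphisms `σ i g`, `g ∈ G i`, extending to the bigger ones. -/
structure GalTower (A R : Type u) [CommRing A] [CommRing R] [Algebra A R] (I : Type v) [Preorder I]
    (κ : Type w) where
  /-- the subalgebras -/
  S : I → Subalgebra A R
  mono : Monotone S
  /-- index sets of the conjugates -/
  G : I → Type
  [fG : ∀ i, Fintype (G i)]
  [neG : ∀ i, Nonempty (G i)]
  /-- the conjugates -/
  σ : ∀ i, G i → (S i →ₐ[A] S i)
  ext : ∀ (i j : I) (h : i ≤ j) (g : G i), ∃ σ' : S j →ₐ[A] S j, Function.Surjective σ' ∧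
    ∀ a : S i, σ' (Subalgebra.inclusion (mono h) a) = Subalgebra.inclusion (mono h) (σ i g a)
  /-- the elements whose power torsion is considered -/
  t : κ → A
  /-- the length on `A`-modules -/
  Λ : AddLen.{u, u} A
  cont : ContOn Λ t
  fin : ∀ (V : Type u) [AddCommGroup V] [Module A V], Module.Finite A V → Tors t V → Λ.L V ≠ ⊤
  FL : ∀ (i : I) (V : Type u) [AddCommGroup V] [Module A V], Tors t V →
    Λ.L (S i ⊗[A] V) = (Fintype.card (G i) : ℝ≥0∞) * Λ.L V
  DEC : ∀ (i : I) (V : Type u) [AddCommGroup V] [Module A V] [Module (S i) V]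
    [IsScalarTower A (S i) V], Tors t V → Λ.L ((G i → V) ⧸ decSub (σ i) V) = 0

attribute [instance] GalTower.fG GalTower.neG

namespace GalTower

variable {A R : Type u} [CommRing A] [CommRing R] [Algebra A R] {I : Type v} [Preorder I]
  {κ : Type w} (D : GalTower A R I κ)

/-- the rank of `S i` -/
noncomputable def n (i : I) : ℝ≥0∞ := (Fintype.card (D.G i) : ℝ≥0∞)

theorem n_ne_zero (i : I) : D.n i ≠ 0 := by
  unfold n
  exact_mod_cast Fintype.card_ne_zero

theorem n_ne_top (i : I) : D.n i ≠ ⊤ := ENNReal.natCast_ne_top _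

/-- scaling with an `A`-algebra structure around -/
theorem scale' (i j : I) (h : i ≤ j) {Q Q' : Type u} [AddCommGroup Q] [Module A Q]
    [Module (D.S i) Q] [IsScalarTower A (D.S i) Q] [AddCommGroup Q'] [Module A Q']
    [Module (D.S j) Q'] [IsScalarTower A (D.S j) Q'] (f : Q →+ Q')
    (hf : ∀ (a : D.S i) (x : Q), f (a • x) = Subalgebra.inclusion (D.mono h) a • f x)
    (hspan : Submodule.span (D.S j) (Set.range f) = ⊤) (hQ : Tors D.t Q) :
    D.n i * D.Λ.L Q' ≤ D.n j * D.Λ.L Q := by
  let _ : Algebra (D.S i) (D.S j) := (Subalgebra.inclusion (D.mono h)).toRingHom.toAlgebra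
  have : IsScalarTower A (D.S i) (D.S j) := IsScalarTower.of_algebraMap_eq (fun a => rfl)
  let _ : Module (D.S i) Q' := Module.compHom Q' (Subalgebra.inclusion (D.mono h)).toRingHom
  have : IsScalarTower (D.S i) (D.S j) Q' := ⟨fun a b x => by
    change (Subalgebra.inclusion (D.mono h) a * b) • x = Subalgebra.inclusion (D.mono h) a • b • x
    rw [mul_smul]⟩
  have : IsScalarTower A (D.S i) Q' := ⟨fun a b x => by
    change (Subalgebra.inclusion (D.mono h) (a • b)) • x =
      a • Subalgebra.inclusion (D.mono h) b • x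
    rw [map_smul, smul_assoc]⟩
  let f' : Q →ₗ[D.S i] Q' := { toFun := f, map_add' := f.map_add, map_smul' := hf }
  choose σ' hs he using D.ext i j h
  exact galois_scale (t := D.t) D.Λ (D.σ i) σ' hs (fun g a => he g a)
    (n' := D.n j) (fun V _ _ hV => (D.FL j V hV).le) f' hspan hQ (D.DEC i Q hQ)

/-- the structure map `A → S i` -/
def str (i : I) : A →+* (D.S i).toSubring :=
  (algebraMap A R).codRestrict (D.S i).toSubring (fun a => (D.S i).algebraMap_mem a)

/-- the length on the `S i`-modules -/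
noncomputable def len (i : I) : AddLen.{u, u} (D.S i).toSubring :=
  ((D.Λ.restrict (D.str i))).smul (D.n i)⁻¹

theorem len_eq (i : I) (M : Type u) [AddCommGroup M] [Module (D.S i).toSubring M] [Module A M]
    (h : ∀ (a : A) (x : M), a • x = D.str i a • x) : (D.len i).L M = (D.n i)⁻¹ * D.Λ.L M := by
  unfold len
  rw [AddLen.smul_L, AddLen.restrict_L _ _ _ h]

theorem mono' : Monotone (fun i => (D.S i).toSubring) := fun _ _ h => D.mono h

theorem tors_str {i : I} {M : Type u} [AddCommGroup M] [Module (D.S i).toSubring M]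
    (hT : Tors (fun k => D.str i (D.t k)) M) [Module A M]
    (h : ∀ (a : A) (x : M), a • x = D.str i a • x) : Tors D.t M := by
  intro x k
  obtain ⟨n, hn⟩ := hT x k
  exact ⟨n, by rw [h, map_pow]; exact hn⟩

theorem isScalarTower_str {i : I} {M : Type u} [AddCommGroup M] [inst : Module (D.S i) M]
    [Module A M] (h : ∀ (a : A) (x : M), a • x = algebraMap A (D.S i) a • x) :
    IsScalarTower A (D.S i) M :=
  ⟨fun a b x => by rw [Algebra.smul_def, mul_smul, h]⟩

theorem fin' (i : I) (M : Type u) [AddCommGroup M] [Module (D.S i).toSubring M]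
    (hM : Module.Finite (D.S i).toSubring M)
    (hT : Tors (fun k => D.str i (D.t k)) M) : (D.len i).L M ≠ ⊤ := by
  let _ : Module A M := Module.compHom M (D.str i)
  let _ : Module (D.S i) M := ‹Module (D.S i).toSubring M›
  have : IsScalarTower A (D.S i) M := D.isScalarTower_str (fun a x => rfl)
  rw [D.len_eq i M (fun a x => rfl)]
  refine ENNReal.mul_ne_top (ENNReal.inv_ne_top.mpr (D.n_ne_zero i)) ?_
  obtain ⟨s, hs⟩ := hM
  have hT' : Tors D.t M := D.tors_str hT (fun a x => rfl)
  let V := Submodule.span A (s : Set M)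
  have hV : D.Λ.L V ≠ ⊤ := D.fin V (Module.Finite.iff_fg.mpr (Submodule.fg_span s.finite_toSet))
    (hT'.submodule V)
  have h1 := D.FL i V (hT'.submodule V)
  let Φ₀ : D.S i →ₗ[A] V →ₗ[A] M :=
    LinearMap.mk₂ A (fun c v => c • (v : M)) (fun _ _ _ => add_smul _ _ _)
      (fun _ _ _ => smul_assoc _ _ _) (fun _ _ _ => smul_add _ _ _)
      (fun a c v => by
        change c • (a • (v : M)) = a • c • (v : M)
        rw [smul_comm])
  have hsurj : Function.Surjective (TensorProduct.lift Φ₀) := by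
    intro x
    have hx : x ∈ Submodule.span (D.S i).toSubring (s : Set M) := by rw [hs]; trivial
    induction hx using Submodule.closure_induction with
    | zero => exact ⟨0, map_zero _⟩
    | add x y _ _ hx hy =>
      obtain ⟨z₁, h₁⟩ := hx
      obtain ⟨z₂, h₂⟩ := hy
      exact ⟨z₁ + z₂, by rw [map_add, h₁, h₂]⟩
    | smul_mem c x hx =>
      exact ⟨(c : D.S i) ⊗ₜ ⟨x, Submodule.subset_span hx⟩, rfl⟩
  refine ne_top_of_le_ne_top ?_ (D.Λ.L_le_of_surjective _ hsurj)
  rw [h1]
  exact ENNReal.mul_ne_top (D.n_ne_top i) hV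

theorem cont' (i : I) : ContOn (D.len i) (fun k => D.str i (D.t k)) := by
  intro M _ _ hT
  let _ : Module A M := Module.compHom M (D.str i)
  have hT' : Tors D.t M := D.tors_str hT (fun a x => rfl)
  rw [D.len_eq i M (fun a x => rfl), D.cont.eq_iSup hT', ENNReal.mul_iSup]
  refine iSup_mono fun E => ?_
  let _ : Module A (Submodule.span (D.S i).toSubring (E : Set M)) := Module.compHom _ (D.str i)
  rw [D.len_eq i _ (fun a x => rfl)]
  gcongr
  have hle : ∀ x ∈ Submodule.span A (E : Set M), x ∈ Submodule.span (D.S i).toSubring (E : Set M) := by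
    intro x hx
    induction hx using Submodule.span_induction with
    | mem x hx => exact Submodule.subset_span hx
    | zero => exact Submodule.zero_mem _
    | add x y _ _ hx hy => exact Submodule.add_mem _ hx hy
    | smul a x _ hx => exact Submodule.smul_mem _ (D.str i a) hx
  let g : Submodule.span A (E : Set M) →ₗ[A] Submodule.span (D.S i).toSubring (E : Set M) :=
    { toFun := fun x => ⟨x.1, hle x.1 x.2⟩
      map_add' := fun x y => rfl
      map_smul' := fun a x => rfl }
  refine D.Λ.L_le_of_injective g ?_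
  intro x y hxy
  have h2 : (g x).1 = (g y).1 := by rw [hxy]
  exact Subtype.ext h2

theorem scaleN (i j : I) (h : i ≤ j) (Q Q' : Type u) [AddCommGroup Q]
    [Module (D.S i).toSubring Q] [AddCommGroup Q'] [Module (D.S j).toSubring Q'] (f : Q →+ Q')
    (hf : ∀ (a : (D.S i).toSubring) (x : Q), f (a • x) =
      (Subring.inclusion (D.mono' h) a) • f x)
    (hT : Tors (fun k => D.str i (D.t k)) Q)
    (hspan : Submodule.span (D.S j).toSubring (Set.range f) = ⊤) :
    (D.len j).L Q' ≤ (D.len i).L Q := by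
  let _ : Module A Q := Module.compHom Q (D.str i)
  let _ : Module (D.S i) Q := ‹Module (D.S i).toSubring Q›
  have : IsScalarTower A (D.S i) Q := D.isScalarTower_str (fun a x => rfl)
  let _ : Module A Q' := Module.compHom Q' (D.str j)
  let _ : Module (D.S j) Q' := ‹Module (D.S j).toSubring Q'›
  have : IsScalarTower A (D.S j) Q' := D.isScalarTower_str (fun a x => rfl)
  have key := D.scale' i j h f hf hspan (D.tors_str hT (fun a x => rfl))
  rw [D.len_eq i Q (fun a x => rfl), D.len_eq j Q' (fun a x => rfl)]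
  have h1 := D.n_ne_zero i
  have h2 := D.n_ne_top i
  have h3 := D.n_ne_zero j
  have h4 := D.n_ne_top j
  rw [mul_comm, ← div_eq_mul_inv, ENNReal.div_le_iff h3 h4, mul_comm _ (D.Λ.L Q), mul_assoc,
    mul_comm _ (D.n j), ← mul_assoc, ← div_eq_mul_inv, ENNReal.le_div_iff_mul_le (Or.inl h1) (Or.inl h2),
    mul_comm _ (D.n i), mul_comm _ (D.n j)]
  exact key

/-- the abstract tower of a Galois tower -/
noncomputable def toNTower : NTower R I κ where
  S i := (D.S i).toSubring
  mono := D.mono'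
  t k := algebraMap A R (D.t k)
  t_mem _ i := (D.S i).algebraMap_mem _
  Λ := D.len
  fin i M _ _ hM hT := D.fin' i M hM hT
  cont := D.cont'
  scale i j h Q Q' _ _ _ _ f hf hT hs := D.scaleN i j h Q Q' f hf hT hs

section Kernels

/-- `S i ⊗ V' → S i ⊗ V` is injective up to null -/
theorem ker_lTensor_null (i : I) {V : Type u} [AddCommGroup V] [Module A V] (hV : Tors D.t V)
    (hfin : D.Λ.L V ≠ ⊤) (V' : Submodule A V) :
    D.Λ.L (LinearMap.ker (LinearMap.lTensor (D.S i) V'.subtype)) = 0 := by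
  set f := LinearMap.lTensor (D.S i) V'.subtype with hf
  have hex : Function.Exact f (LinearMap.lTensor (D.S i) V'.mkQ) :=
    lTensor_exact (D.S i) (LinearMap.exact_subtype_mkQ V') V'.mkQ_surjective
  have h1 : D.Λ.L (D.S i ⊗[A] V) = D.Λ.L (LinearMap.range f) + D.Λ.L (D.S i ⊗[A] (V ⧸ V')) :=
    D.Λ.add' (LinearMap.range f).subtype (LinearMap.lTensor (D.S i) V'.mkQ)
      (Submodule.subtype_injective _)
      (LinearMap.lTensor_surjective (D.S i) V'.mkQ_surjective) (by
        intro x
        rw [hex x]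
        simp)
  have h2 := D.Λ.L_ker_add_range f
  have h3 := D.FL i V hV
  have h4 := D.FL i V' (hV.submodule V')
  have h5 := D.FL i (V ⧸ V') (hV.quotient V')
  have h6 := D.Λ.L_eq_add_quotient V'
  have hfin' : D.Λ.L V' ≠ ⊤ := ne_top_of_le_ne_top hfin (D.Λ.L_submodule_le V')
  have hfin'' : D.Λ.L (V ⧸ V') ≠ ⊤ := ne_top_of_le_ne_top hfin (D.Λ.L_quotient_le V')
  rw [h3, h5, h6, mul_add] at h1
  have h7 : (Fintype.card (D.G i) : ℝ≥0∞) * D.Λ.L V' = D.Λ.L (LinearMap.range f) :=
    (ENNReal.add_left_inj (ENNReal.mul_ne_top (ENNReal.natCast_ne_top _) hfin'')).mp h1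
  rw [h4, h7] at h2
  have h8 : D.Λ.L (LinearMap.range f) ≠ ⊤ := by
    rw [← h7]
    exact ENNReal.mul_ne_top (ENNReal.natCast_ne_top _) hfin'
  have h9 : 0 + D.Λ.L (LinearMap.range f) =
      D.Λ.L (LinearMap.ker f) + D.Λ.L (LinearMap.range f) := by rw [zero_add]; exact h2
  exact ((ENNReal.add_left_inj h8).mp h9).symm

/-- the inclusion `S i ⊗ V → S j ⊗ V` -/
noncomputable def incl {i j : I} (h : i ≤ j) (V : Type u) [AddCommGroup V] [Module A V] :
    D.S i ⊗[A] V →ₗ[A] D.S j ⊗[A] V :=
  LinearMap.rTensor V (Subalgebra.inclusion (D.mono h)).toLinearMap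

/-- `S i ⊗ V → S j ⊗ V` is injective up to null -/
theorem ker_incl_null {i j : I} (h : i ≤ j) {V : Type u} [AddCommGroup V] [Module A V]
    (hV : Tors D.t V) (hfin : D.Λ.L V ≠ ⊤) : D.Λ.L (LinearMap.ker (D.incl h V)) = 0 := by
  -- the kernel as `S i`-submodule
  let f : D.S i ⊗[A] V →+ D.S j ⊗[A] V := (D.incl h V).toAddMonoidHom
  have hf : ∀ (a : D.S i) (x : D.S i ⊗[A] V),
      f (a • x) = Subalgebra.inclusion (D.mono h) a • f x := by
    intro a x
    induction x with
    | zero => simp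
    | tmul c v =>
      change (Subalgebra.inclusion (D.mono h) (a * c)) ⊗ₜ[A] v =
        Subalgebra.inclusion (D.mono h) a • ((Subalgebra.inclusion (D.mono h) c) ⊗ₜ[A] v)
      rw [map_mul, TensorProduct.smul_tmul']
      rfl
    | add x y hx hy => rw [smul_add, map_add, map_add, smul_add, hx, hy]
  let K : Submodule (D.S i) (D.S i ⊗[A] V) :=
    { carrier := {x | f x = 0}
      zero_mem' := map_zero f
      add_mem' := fun {x y} hx hy => by
        change f (x + y) = 0
        rw [map_add, show f x = 0 from hx, show f y = 0 from hy, add_zero]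
      smul_mem' := fun a x hx => by
        change f (a • x) = 0
        rw [hf, show f x = 0 from hx, smul_zero] }
  let f' : (D.S i ⊗[A] V) ⧸ K →+ D.S j ⊗[A] V :=
    QuotientAddGroup.lift K.toAddSubgroup f (fun x hx => hx)
  have hf' : ∀ (a : D.S i) (x : (D.S i ⊗[A] V) ⧸ K),
      f' (a • x) = Subalgebra.inclusion (D.mono h) a • f' x := by
    intro a x
    obtain ⟨x, rfl⟩ := K.mkQ_surjective x
    exact hf a x
  have hspan : Submodule.span (D.S j) (Set.range f') = ⊤ := by
    rw [eq_top_iff]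
    rintro x -
    induction x with
    | zero => exact Submodule.zero_mem _
    | tmul c v =>
      have : c ⊗ₜ[A] v = c • f' (K.mkQ ((1 : D.S i) ⊗ₜ v)) := by
        change c ⊗ₜ[A] v = c • ((Subalgebra.inclusion (D.mono h) 1) ⊗ₜ[A] v)
        rw [map_one, TensorProduct.smul_tmul', smul_eq_mul, mul_one]
      rw [this]
      exact Submodule.smul_mem _ _ (Submodule.subset_span ⟨_, rfl⟩)
    | add x y hx hy => exact Submodule.add_mem _ hx hy
  have hT : Tors D.t (D.S i ⊗[A] V) := hV.tensor (D.S i)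
  have hTq : Tors D.t ((D.S i ⊗[A] V) ⧸ K) :=
    hT.of_surjective (K.mkQ.restrictScalars A) K.mkQ_surjective
  have key := D.scale' i j h f' hf' hspan hTq
  rw [D.FL j V hV] at key
  -- additivity
  have hadd : D.Λ.L (D.S i ⊗[A] V) = D.Λ.L (LinearMap.ker (D.incl h V)) +
      D.Λ.L ((D.S i ⊗[A] V) ⧸ K) :=
    D.Λ.add' (LinearMap.ker (D.incl h V)).subtype (K.mkQ.restrictScalars A)
      (Submodule.subtype_injective _) K.mkQ_surjective (by
        intro x
        change K.mkQ x = 0 ↔ _
        rw [Submodule.mkQ_apply, Submodule.Quotient.mk_eq_zero]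
        constructor
        · intro hx; exact ⟨⟨x, hx⟩, rfl⟩
        · rintro ⟨y, rfl⟩; exact y.2)
  have hW : D.Λ.L (D.S i ⊗[A] V) ≠ ⊤ := by
    rw [D.FL i V hV]; exact ENNReal.mul_ne_top (ENNReal.natCast_ne_top _) hfin
  have hQ : D.Λ.L ((D.S i ⊗[A] V) ⧸ K) ≠ ⊤ := by
    refine ne_top_of_le_ne_top hW ?_
    rw [hadd]; exact le_add_self
  have h3 : D.Λ.L (D.S i ⊗[A] V) ≤ D.Λ.L ((D.S i ⊗[A] V) ⧸ K) := by
    rw [D.FL i V hV]
    have h4 : D.n j * ((Fintype.card (D.G i) : ℝ≥0∞) * D.Λ.L V) ≤
        D.n j * D.Λ.L ((D.S i ⊗[A] V) ⧸ K) := by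
      refine le_trans (le_of_eq ?_) key
      unfold n
      ring
    exact (ENNReal.mul_le_mul_iff_right (D.n_ne_zero j) (D.n_ne_top j)).mp h4
  rw [hadd] at h3
  have h5 : D.Λ.L (LinearMap.ker (D.incl h V)) + D.Λ.L ((D.S i ⊗[A] V) ⧸ K) ≤
      0 + D.Λ.L ((D.S i ⊗[A] V) ⧸ K) := by rwa [zero_add]
  exact le_antisymm ((ENNReal.add_le_add_iff_right hQ).mp h5) zero_le

end Kernels

end GalTower

end GalTower

end Crest.Agent.R188.Tow
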