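/-
R188 (Serre positivity), block Tow3: the length of a Galois tower on base changed modules:
`L (R ⊗_A V) = Λ V` for every torsion `A`-module `V`.  Author: helper814
-/
import Crest.Agent.R188.Tow2
import Mathlib

set_option autoImplicit false

namespace Crest.Agent.R188.Tow

open scoped ENNReal TensorProduct
open Submodule Crest.Agent.R183

universe u v w

namespace GalTower

variable {A R : Type u} [CommRing A] [CommRing R] [Algebra A R] {I : Type v} [Preorder I]
  {κ : Type w} (D : GalTower A R I κ)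

theorem exists_fg_le [IsDirectedOrder I] (hU : ∀ x : R, ∃ i, x ∈ D.S i) (i : I)
    (Q : Submodule A R) (hQ : Q.FG) : ∃ j, i ≤ j ∧ ∀ x ∈ Q, x ∈ D.S j := by
  classical
  obtain ⟨s, rfl⟩ := hQ
  have h1 : ∃ j, i ≤ j ∧ ∀ x ∈ s, x ∈ D.S j := by
    induction s using Finset.induction_on with
    | empty => exact ⟨i, le_rfl, by simp⟩
    | insert x s hx ih =>
      obtain ⟨j, hij, hj⟩ := ih
      obtain ⟨k, hk⟩ := hU x
      obtain ⟨l, hjl, hkl⟩ := exists_ge_ge j k
      refine ⟨l, hij.trans hjl, fun y hy => ?_⟩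
      rcases Finset.mem_insert.mp hy with rfl | hy
      · exact D.mono hkl hk
      · exact D.mono hjl (hj y hy)
  obtain ⟨j, hij, hj⟩ := h1
  refine ⟨j, hij, fun x hx => ?_⟩
  have h2 : Submodule.span A (s : Set R) ≤ Subalgebra.toSubmodule (D.S j) :=
    Submodule.span_le.mpr (fun y hy => hj y hy)
  exact h2 hx

/-- an element of `S i ⊗ V` that dies in `R ⊗ V` dies in some `S j ⊗ V` -/
theorem exists_incl_eq_zero [IsDirectedOrder I] (hU : ∀ x : R, ∃ i, x ∈ D.S i) (i : I)
    {V : Type u} [AddCommGroup V] [Module A V] (x : D.S i ⊗[A] V)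
    (hx : LinearMap.rTensor V (D.S i).val.toLinearMap x = 0) :
    ∃ (j : I) (h : i ≤ j), D.incl h V x = 0 := by
  obtain ⟨P, hP, t, rfl⟩ := TensorProduct.exists_of_fg x
  let val : D.S i →ₗ[A] R := (D.S i).val.toLinearMap
  let e : P →ₗ[A] P.map val := val.submoduleMap P
  have h1 : LinearMap.rTensor V (P.map val).subtype (LinearMap.rTensor V e t) = 0 := by
    rw [← LinearMap.comp_apply, ← LinearMap.rTensor_comp] at hx ⊢
    exact hx
  obtain ⟨Q, hPQ, hQ, hz⟩ := TensorProduct.eq_zero_of_fg_of_subtype_eq_zero (hP.map val) h1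
  obtain ⟨j, hij, hj⟩ := D.exists_fg_le hU i Q hQ
  refine ⟨j, hij, ?_⟩
  let g : Q →ₗ[A] D.S j :=
    { toFun := fun x => ⟨x.1, hj x.1 x.2⟩
      map_add' := fun x y => rfl
      map_smul' := fun a x => rfl }
  have h2 : LinearMap.rTensor V g (LinearMap.rTensor V (Submodule.inclusion hPQ)
      (LinearMap.rTensor V e t)) = 0 := by rw [hz, map_zero]
  unfold incl
  rw [← LinearMap.comp_apply, ← LinearMap.comp_apply, ← LinearMap.rTensor_comp,
    ← LinearMap.rTensor_comp] at h2
  rw [← LinearMap.comp_apply, ← LinearMap.rTensor_comp]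
  exact h2

theorem exists_lTensor_eq_zero (S : Type u) [AddCommGroup S] [Module A S]
    {V : Type u} [AddCommGroup V] [Module A V] (V' : Submodule A V) (hV' : V'.FG)
    (x : S ⊗[A] V') (hx : LinearMap.lTensor S V'.subtype x = 0) :
    ∃ (V'' : Submodule A V) (h : V' ≤ V''), V''.FG ∧
      LinearMap.lTensor S (Submodule.inclusion h) x = 0 := by
  have h1 : LinearMap.rTensor S V'.subtype (TensorProduct.comm A S V' x) = 0 := by
    have := LinearMap.congr_fun (LinearMap.comm_comp_lTensor_comp_comm_eq (Q := S) V'.subtype)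
      (TensorProduct.comm A S V' x)
    rw [← this]
    simp [hx]
  obtain ⟨V'', h, hfg, hz⟩ := TensorProduct.eq_zero_of_fg_of_subtype_eq_zero hV' h1
  refine ⟨V'', h, hfg, ?_⟩
  have := LinearMap.congr_fun
    (LinearMap.comm_comp_rTensor_comp_comm_eq (Q := S) (Submodule.inclusion h)) x
  rw [← this]
  simp [hz]

omit D in
theorem L_ker_comp_eq_zero (Λ : AddLen.{u, u} A) {X Y Z : Type u} [AddCommGroup X] [Module A X]
    [AddCommGroup Y] [Module A Y] [AddCommGroup Z] [Module A Z] (f : X →ₗ[A] Y) (g : Y →ₗ[A] Z)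
    (hf : Λ.L (LinearMap.ker f) = 0) (hg : Λ.L (LinearMap.ker g) = 0) :
    Λ.L (LinearMap.ker (g ∘ₗ f)) = 0 := by
  refine Λ.null_of_exact (Submodule.inclusion (LinearMap.ker_le_ker_comp f g))
    (f.restrict (p := LinearMap.ker (g ∘ₗ f)) (q := LinearMap.ker g) (fun y hy => hy)) ?_ hf hg
  intro y
  constructor
  · intro hy
    exact ⟨⟨y.1, congrArg Subtype.val hy⟩, rfl⟩
  · rintro ⟨z, rfl⟩
    exact Subtype.ext z.2

theorem ker_lTensor_inclusion_null (j : I) {V : Type u} [AddCommGroup V] [Module A V]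
    (hV : Tors D.t V) {V' V'' : Submodule A V} (h : V' ≤ V'') (hfg : V''.FG) :
    D.Λ.L (LinearMap.ker (LinearMap.lTensor (D.S j) (Submodule.inclusion h))) = 0 := by
  have h3 := D.ker_lTensor_null j (hV.submodule V'')
    (D.fin V'' (Module.Finite.iff_fg.mpr hfg) (hV.submodule V'')) (V'.submoduleOf V'')
  let e : V' ≃ₗ[A] V'.submoduleOf V'' := (Submodule.submoduleOfEquivOfLe h).symm
  refine le_antisymm ?_ zero_le
  rw [← h3]
  let ψ : D.S j ⊗[A] V' →ₗ[A] D.S j ⊗[A] (V'.submoduleOf V'') :=
    LinearMap.lTensor (D.S j) e.toLinearMap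
  have hψ : Function.Injective ψ := (LinearEquiv.lTensor (D.S j) e).injective
  have hc : (V'.submoduleOf V'').subtype ∘ₗ e.toLinearMap = Submodule.inclusion h := rfl
  have hψ2 : ∀ y, LinearMap.lTensor (D.S j) (V'.submoduleOf V'').subtype (ψ y) =
      LinearMap.lTensor (D.S j) (Submodule.inclusion h) y := by
    intro y
    rw [← hc, LinearMap.lTensor_comp]
    rfl
  refine D.Λ.L_le_of_injective (ψ.restrict (p := LinearMap.ker _) (q := LinearMap.ker _) ?_) ?_
  · intro y hy
    rw [LinearMap.mem_ker] at hy ⊢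
    rw [hψ2, hy]
  · intro y z hyz
    have h4 : ψ y.1 = ψ z.1 := congrArg Subtype.val hyz
    exact Subtype.ext (hψ h4)

/-- `S i ⊗ V' → R ⊗ V` is injective up to null, `V'` finitely generated -/
theorem ker_map_null [IsDirectedOrder I] (hU : ∀ x : R, ∃ i, x ∈ D.S i) (i : I)
    {V : Type u} [AddCommGroup V] [Module A V] (hV : Tors D.t V) (V' : Submodule A V)
    (hV' : V'.FG) :
    D.Λ.L (LinearMap.ker (TensorProduct.map (D.S i).val.toLinearMap V'.subtype)) = 0 := by
  have hTt : Tors D.t (D.S i ⊗[A] V') := (hV.submodule V').tensor (D.S i)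
  refine D.cont.eq_zero_of_mem (hTt.submodule _) ?_
  rintro ⟨x, hx⟩
  -- `x` dies in `S j ⊗ V`
  have h1 : LinearMap.rTensor V (D.S i).val.toLinearMap
      (LinearMap.lTensor (D.S i) V'.subtype x) = 0 := by
    have h0 := LinearMap.congr_fun
      (LinearMap.rTensor_comp_lTensor _ (D.S i).val.toLinearMap V'.subtype) x
    exact h0.trans hx
  obtain ⟨j, hij, hj⟩ := D.exists_incl_eq_zero hU i _ h1
  have h2 : LinearMap.lTensor (D.S j) V'.subtype (D.incl hij V' x) = 0 := by
    have h0 := LinearMap.congr_fun (LinearMap.rTensor_comp_lTensor _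
      (Subalgebra.inclusion (D.mono hij)).toLinearMap V'.subtype) x
    have h0' := LinearMap.congr_fun (LinearMap.lTensor_comp_rTensor _
      (Subalgebra.inclusion (D.mono hij)).toLinearMap V'.subtype) x
    exact h0'.trans (h0.symm.trans hj)
  obtain ⟨V'', h, hfg, hz⟩ := exists_lTensor_eq_zero (D.S j) V' hV' _ h2
  -- the kernel of `S i ⊗ V' → S j ⊗ V' → S j ⊗ V''` is null
  have hφ : D.Λ.L (LinearMap.ker
      (LinearMap.lTensor (D.S j) (Submodule.inclusion h) ∘ₗ D.incl hij V')) = 0 :=
    L_ker_comp_eq_zero D.Λ _ _ (D.ker_incl_null hij (hV.submodule V')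
        (D.fin V' (Module.Finite.iff_fg.mpr hV') (hV.submodule V')))
      (D.ker_lTensor_inclusion_null j hV h hfg)
  refine ⟨(LinearMap.ker (LinearMap.lTensor (D.S j) (Submodule.inclusion h) ∘ₗ
    D.incl hij V')).comap (LinearMap.ker _).subtype, hz, ?_⟩
  exact D.Λ.null_of_comap (LinearMap.ker _).subtype (Submodule.subtype_injective _) _ _ hφ le_rfl

variable [IsDirectedOrder I] [Nonempty I]

/-- **the additive length on `R`-modules of a Galois tower** -/
noncomputable def L : AddLen.{u, u} R := D.toNTower.addLen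

/-- the torsion `R`-modules -/
abbrev TorsR (M : Type u) [AddCommGroup M] [Module R M] : Prop :=
  Tors (fun k => algebraMap A R (D.t k)) M

omit [IsDirectedOrder I] [Nonempty I] in
theorem torsR_of_tors {M : Type u} [AddCommGroup M] [Module R M] [Module A M]
    [IsScalarTower A R M] (h : Tors D.t M) : D.TorsR M := by
  intro x k
  obtain ⟨n, hn⟩ := h x k
  refine ⟨n, ?_⟩
  change (algebraMap A R (D.t k)) ^ n • x = 0
  rw [← map_pow, algebraMap_smul, hn]

theorem contOn_L : ContOn D.L (fun k => algebraMap A R (D.t k)) := D.toNTower.contOn_addLen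

theorem L_eq_top {M : Type u} [AddCommGroup M] [Module R M] (h : ¬ D.TorsR M) : D.L.L M = ⊤ :=
  D.toNTower.addLen_L_of_not h

/-- **upper bound**: `M` generated by the image of an `S i`-module `Q`. -/
theorem L_le_of_generated (hU : ∀ x : R, ∃ i, x ∈ D.S i) (i : I) {Q M : Type u}
    [AddCommGroup Q] [Module A Q] [Module (D.S i) Q] [IsScalarTower A (D.S i) Q]
    [AddCommGroup M] [Module R M] (hQ : Tors D.t Q) (f : Q →+ M)
    (hf : ∀ (a : D.S i) (x : Q), f (a • x) = (a : R) • f x)
    (hspan : Submodule.span R (Set.range f) = ⊤) : D.n i * D.L.L M ≤ D.Λ.L Q := by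
  let _ : Module (D.S i).toSubring Q := ‹Module (D.S i) Q›
  let _ : Module (D.toNTower.S i) Q := ‹Module (D.S i) Q›
  have hA : ∀ (a : A) (x : Q), a • x = D.str i a • x := fun a x => by
    change a • x = algebraMap A (D.S i) a • x
    rw [algebraMap_smul]
  have hQ' : D.toNTower.TorsE i Q := by
    intro x k
    obtain ⟨n, hn⟩ := hQ x k
    exact ⟨n, by
      change (D.str i (D.t k)) ^ n • x = 0
      rw [← map_pow, ← hA, hn]⟩
  have hT : Tors (fun k => algebraMap A R (D.t k)) M := by
    intro y k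
    have hy : y ∈ Submodule.span R (Set.range f) := by rw [hspan]; trivial
    induction hy using Submodule.closure_induction with
    | zero => exact ⟨0, by simp⟩
    | add x y _ _ hx hy =>
      obtain ⟨n, hn⟩ := hx
      obtain ⟨m, hm⟩ := hy
      refine ⟨n + m, ?_⟩
      rw [smul_add, pow_add, mul_comm, mul_smul, hn, smul_zero, zero_add, mul_comm, mul_smul, hm,
        smul_zero]
    | smul_mem c x hx =>
      obtain ⟨v, rfl⟩ := hx
      obtain ⟨n, hn⟩ := hQ v k
      refine ⟨n, ?_⟩
      rw [smul_comm, ← map_pow]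
      have : (algebraMap A R (D.t k ^ n)) • f v = f (algebraMap A (D.S i) (D.t k ^ n) • v) := by
        rw [hf]; rfl
      rw [this, algebraMap_smul, hn, map_zero, smul_zero]
  have h1 := D.toNTower.lam_le_of_generated (fun x => hU x) i hQ' f (fun a x => hf a x) hspan
  change D.n i * D.toNTower.addLen.L M ≤ _
  rw [D.toNTower.addLen_L hT]
  have h2 : (D.toNTower.Λ i).L Q = (D.n i)⁻¹ * D.Λ.L Q := D.len_eq i Q hA
  rw [h2] at h1
  calc D.n i * D.toNTower.lam M ≤ D.n i * ((D.n i)⁻¹ * D.Λ.L Q) := by gcongr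
    _ = D.Λ.L Q := by
      rw [← mul_assoc, ENNReal.mul_inv_cancel (D.n_ne_zero i) (D.n_ne_top i), one_mul]

/-- **the length of a base changed module** -/
theorem L_tensor (hU : ∀ x : R, ∃ i, x ∈ D.S i) {V : Type u} [AddCommGroup V] [Module A V]
    (hV : Tors D.t V) : D.L.L (R ⊗[A] V) = D.Λ.L V := by
  classical
  have hT : D.TorsR (R ⊗[A] V) := D.torsR_of_tors (hV.tensor R)
  apply le_antisymm
  · let i : I := Classical.arbitrary I
    have hspan : Submodule.span R (Set.range
        (LinearMap.rTensor V (D.S i).val.toLinearMap).toAddMonoidHom) = ⊤ := by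
      rw [eq_top_iff]
      rintro x -
      induction x with
      | zero => exact Submodule.zero_mem _
      | tmul c v =>
        have : c ⊗ₜ[A] v = c • (LinearMap.rTensor V (D.S i).val.toLinearMap)
            ((1 : D.S i) ⊗ₜ v) := by
          change c ⊗ₜ[A] v = c • ((1 : R) ⊗ₜ[A] v)
          rw [TensorProduct.smul_tmul', smul_eq_mul, mul_one]
        rw [this]
        exact Submodule.smul_mem _ _ (Submodule.subset_span ⟨(1 : D.S i) ⊗ₜ v, rfl⟩)
      | add x y hx hy => exact Submodule.add_mem _ hx hy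
    have h1 := D.L_le_of_generated hU i (Q := D.S i ⊗[A] V) (M := R ⊗[A] V)
      (hV.tensor (D.S i)) (LinearMap.rTensor V (D.S i).val.toLinearMap).toAddMonoidHom
      (fun a x => by
        change LinearMap.rTensor V (D.S i).val.toLinearMap (a • x) =
          (a : R) • LinearMap.rTensor V (D.S i).val.toLinearMap x
        induction x with
        | zero => simp
        | tmul c v =>
          rw [TensorProduct.smul_tmul', LinearMap.rTensor_tmul, LinearMap.rTensor_tmul,
            TensorProduct.smul_tmul']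
          rfl
        | add x y hx hy => rw [smul_add, map_add, map_add, smul_add, hx, hy]) hspan
    rw [D.FL i V hV] at h1
    exact (ENNReal.mul_le_mul_iff_right (D.n_ne_zero i) (D.n_ne_top i)).mp h1
  · rw [D.cont.eq_iSup hV]
    refine iSup_le fun E => ?_
    let V' := Submodule.span A (E : Set V)
    have hfg : V'.FG := Submodule.fg_span E.finite_toSet
    change D.Λ.L V' ≤ D.toNTower.addLen.L (R ⊗[A] V)
    rw [D.toNTower.addLen_L hT]
    let E1 : Finset (R ⊗[A] V) := E.image (fun v => (1 : R) ⊗ₜ[A] v)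
    refine le_trans ?_ (D.toNTower.lamSet_le_lam E1)
    refine le_iInf fun i => ?_
    set g := TensorProduct.map (D.S i).val.toLinearMap V'.subtype with hg
    have hker := D.ker_map_null hU i hV V' hfg
    have h1 : D.Λ.L (D.S i ⊗[A] V') = D.Λ.L (LinearMap.range g) := by
      rw [D.Λ.L_ker_add_range g, hker, zero_add]
    rw [D.FL i V' (hV.submodule V')] at h1
    let _ : Module A (Submodule.span (D.S i).toSubring (E1 : Set (R ⊗[A] V))) :=
      Module.compHom _ (D.str i)
    have h2 : D.toNTower.a i (E1 : Set (R ⊗[A] V)) =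
        (D.n i)⁻¹ * D.Λ.L (Submodule.span (D.S i).toSubring (E1 : Set (R ⊗[A] V))) :=
      D.len_eq i (Submodule.span (D.S i).toSubring (E1 : Set (R ⊗[A] V))) (fun a x => rfl)
    rw [h2]
    have h3 : D.Λ.L (LinearMap.range g) ≤
        D.Λ.L (Submodule.span (D.S i).toSubring (E1 : Set (R ⊗[A] V))) := by
      have hmem : ∀ x ∈ LinearMap.range g,
          x ∈ Submodule.span (D.S i).toSubring (E1 : Set (R ⊗[A] V)) := by
        rintro _ ⟨x, rfl⟩
        induction x with
        | zero => rw [map_zero]; exact Submodule.zero_mem _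
        | tmul c v =>
          obtain ⟨v, hv⟩ := v
          have h4 : ∀ w ∈ V', (1 : R) ⊗ₜ[A] w ∈
              Submodule.span (D.S i).toSubring (E1 : Set (R ⊗[A] V)) := by
            intro w hw
            induction hw using Submodule.span_induction with
            | mem w hw =>
              exact Submodule.subset_span (by
                rw [Finset.coe_image]
                exact ⟨w, hw, rfl⟩)
            | zero => rw [TensorProduct.tmul_zero]; exact Submodule.zero_mem _
            | add w w' _ _ h h' => rw [TensorProduct.tmul_add]; exact Submodule.add_mem _ h h'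
            | smul a w _ h =>
              have : (1 : R) ⊗ₜ[A] (a • w) = D.str i a • ((1 : R) ⊗ₜ[A] w) := by
                rw [TensorProduct.tmul_smul]
                change a • ((1 : R) ⊗ₜ[A] w) = (algebraMap A R a) • ((1 : R) ⊗ₜ[A] w)
                rw [algebraMap_smul]
              rw [this]
              exact Submodule.smul_mem _ _ h
          have h5 : g (c ⊗ₜ ⟨v, hv⟩) = (c : (D.S i).toSubring) • ((1 : R) ⊗ₜ[A] v) := by
            change (c : R) ⊗ₜ[A] v = (c : R) • ((1 : R) ⊗ₜ[A] v)
            rw [TensorProduct.smul_tmul', smul_eq_mul, mul_one]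
          rw [h5]
          exact Submodule.smul_mem _ _ (h4 v hv)
        | add x y hx hy => rw [map_add]; exact Submodule.add_mem _ hx hy
      let φ : LinearMap.range g →ₗ[A] Submodule.span (D.S i).toSubring (E1 : Set (R ⊗[A] V)) :=
        { toFun := fun x => ⟨x.1, hmem x.1 x.2⟩
          map_add' := fun x y => rfl
          map_smul' := fun a x => Subtype.ext (by
            change a • x.1 = (algebraMap A R a) • x.1
            rw [algebraMap_smul]) }
      refine D.Λ.L_le_of_injective φ ?_
      intro x y hxy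
      have h6 : (φ x).1 = (φ y).1 := by rw [hxy]
      exact Subtype.ext h6
    calc D.Λ.L V' = (D.n i)⁻¹ * (D.n i * D.Λ.L V') := by
          rw [← mul_assoc, ENNReal.inv_mul_cancel (D.n_ne_zero i) (D.n_ne_top i), one_mul]
      _ = (D.n i)⁻¹ * D.Λ.L (LinearMap.range g) := by rw [← h1]; rfl
      _ ≤ _ := by gcongr

/-- `R ⊗_A -` preserves injections up to null -/
theorem ker_lTensor_R_null (hU : ∀ x : R, ∃ i, x ∈ D.S i) {V : Type u} [AddCommGroup V]
    [Module A V] (hV : Tors D.t V) (hfin : D.Λ.L V ≠ ⊤) (V' : Submodule A V) :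
    D.L.L (LinearMap.ker (V'.subtype.baseChange R)) = 0 := by
  set f : R ⊗[A] V' →ₗ[R] R ⊗[A] V := V'.subtype.baseChange R with hf
  let g : R ⊗[A] V →ₗ[R] R ⊗[A] (V ⧸ V') := V'.mkQ.baseChange R
  have hex : Function.Exact f g := lTensor_exact R (LinearMap.exact_subtype_mkQ V')
    V'.mkQ_surjective
  have hg : Function.Surjective g := LinearMap.lTensor_surjective R V'.mkQ_surjective
  have h1 : D.L.L (R ⊗[A] V) = D.L.L (LinearMap.range f) + D.L.L (R ⊗[A] (V ⧸ V')) :=
    D.L.add' (LinearMap.range f).subtype g (Submodule.subtype_injective _) hg (by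
        intro x
        rw [hex x]
        simp)
  have h2 := D.L.L_ker_add_range f
  rw [D.L_tensor hU hV, D.L_tensor hU (hV.quotient V')] at h1
  rw [D.L_tensor hU (hV.submodule V')] at h2
  have h6 := D.Λ.L_eq_add_quotient V'
  have hfin' : D.Λ.L V' ≠ ⊤ := ne_top_of_le_ne_top hfin (D.Λ.L_submodule_le V')
  have hfin'' : D.Λ.L (V ⧸ V') ≠ ⊤ := ne_top_of_le_ne_top hfin (D.Λ.L_quotient_le V')
  rw [h6] at h1
  have h7 : D.Λ.L V' = D.L.L (LinearMap.range f) := (ENNReal.add_left_inj hfin'').mp h1
  rw [← h7] at h2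
  have h9 : 0 + D.Λ.L V' = D.L.L (LinearMap.ker f) + D.Λ.L V' := by rw [zero_add]; exact h2
  exact ((ENNReal.add_left_inj hfin').mp h9).symm

end GalTower

end Crest.Agent.R188.Tow
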