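/-
R188 (Serre positivity), helper453: FROB for a Galois tower (`Tow.GalTower`) over an integral
perfectoid ring: if the length `Λ` over the bottom ring `A` scales by `c` under Frobenius, then so
does the length `D.L` over the top ring `R`; output also in the form `LenW.FrobS`.
-/
import Mathlib
import Crest.Agent.R188.Frb2
import Crest.Agent.R188.Frb3
import Crest.Agent.R188.Tow3
import Crest.Agent.R188.LenW2
import Crest.Agent.R183.Om5

set_option autoImplicit false

namespace Crest.Agent.R188.Frb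

open Crest.Agent.R183 Crest.Agent.R188.Tow Crest.Agent.R183.Om
open scoped ENNReal TensorProduct

universe u v w

section Ideals

variable {p : ℕ} [hpr : Fact p.Prime] {R : Type*} [CommRing R] {ϖ : ℕ → R}

/-- the `p`-th power of an element of `J₁` lies in `J` -/
theorem pow_mem_of_mem (S : Set R) (J : Ideal R) (hp : (p : R) ∈ J) (hS : ∀ s ∈ S, s ^ p ∈ J)
    {x : R} (hx : x ∈ Ideal.span S) : x ^ p ∈ J := by
  induction hx using Submodule.span_induction with
  | mem x hx => exact hS x hx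
  | zero => rw [zero_pow hpr.out.ne_zero]; exact J.zero_mem
  | add x y _ _ hx hy =>
    obtain ⟨r, hr⟩ := exists_add_pow_prime_eq hpr.out x y
    rw [hr]
    refine J.add_mem (J.add_mem hx hy) ?_
    have : (p : R) * x * y * r = (x * y * r) * p := by ring
    rw [this]
    exact J.mul_mem_left _ hp
  | smul a x _ hx => rw [smul_eq_mul, mul_pow]; exact J.mul_mem_left _ hx

/-- **Frobenius pull back of ideals** in an integral perfectoid ring -/
theorem mem_frob_iff (d : PData p R ϖ) {κ : Type*} (τ τ1 : κ → R) (hτ : ∀ i, τ1 i ^ p = τ i)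
    (x : R) :
    x ∈ Ideal.span {ϖ 1} ⊔ Ideal.span (Set.range τ1) ↔
      x ^ p ∈ Ideal.span {(p : R)} ⊔ Ideal.span (Set.range τ) := by
  have hϖ : ϖ 1 ^ p = (p : R) := by rw [d.roots 0, d.zero]
  have hp : (p : R) ∈ Ideal.span {(p : R)} ⊔ Ideal.span (Set.range τ) :=
    Ideal.mem_sup_left (Ideal.mem_span_singleton_self _)
  constructor
  · intro hx
    rw [← Ideal.span_union] at hx
    refine pow_mem_of_mem _ _ hp ?_ hx
    rintro s (hs | ⟨i, rfl⟩)
    · rw [Set.mem_singleton_iff] at hs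
      rw [hs, hϖ]; exact hp
    · rw [hτ]
      exact Ideal.mem_sup_right (Ideal.subset_span ⟨i, rfl⟩)
  · intro hx
    -- an element of `J` is congruent mod `p` to a `p`-th power of an element of `J₁`
    have key : ∀ z ∈ Ideal.span {(p : R)} ⊔ Ideal.span (Set.range τ),
        ∃ w ∈ Ideal.span (Set.range τ1), (p : R) ∣ z - w ^ p := by
      intro z hz
      rw [← Ideal.span_union] at hz
      induction hz using Submodule.span_induction with
      | mem z hz =>
        rcases hz with hz | ⟨i, rfl⟩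
        · rw [Set.mem_singleton_iff] at hz
          exact ⟨0, Ideal.zero_mem _, by rw [hz, zero_pow hpr.out.ne_zero, sub_zero]⟩
        · exact ⟨τ1 i, Ideal.subset_span ⟨i, rfl⟩, by rw [hτ, sub_self]; exact dvd_zero _⟩
      | zero => exact ⟨0, Ideal.zero_mem _, by
          rw [zero_pow hpr.out.ne_zero, sub_zero]; exact dvd_zero _⟩
      | add z z' _ _ hz hz' =>
        obtain ⟨w, hw, u, hu⟩ := hz
        obtain ⟨w', hw', u', hu'⟩ := hz'
        obtain ⟨r, hr⟩ := exists_add_pow_prime_eq hpr.out w w'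
        exact ⟨w + w', Ideal.add_mem _ hw hw', u + u' - w * w' * r, by
          rw [hr]; linear_combination hu + hu'⟩
      | smul a z _ hz =>
        obtain ⟨w, hw, u, hu⟩ := hz
        obtain ⟨b, v, hv⟩ := d.fsurj a
        refine ⟨b * w, Ideal.mul_mem_left _ _ hw, v * z + b ^ p * u, ?_⟩
        rw [smul_eq_mul, mul_pow]
        linear_combination z * hv + b ^ p * hu
    obtain ⟨w, hw, hxw⟩ := key _ hx
    have h1 : ϖ 1 ∣ x - w := d.finj _ (dvd_pow_sub_of x w hxw)
    have h2 : x = (x - w) + w := by ring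
    rw [h2]
    exact Ideal.add_mem _ (Ideal.mem_sup_left (Ideal.mem_span_singleton.2 h1))
      (Ideal.mem_sup_right hw)

/-- the twisted pair `R/(ϖ₁, τ1) ≃ R/(p, τ)` -/
theorem exists_tw_span (d : PData p R ϖ) {κ : Type*} (τ τ1 : κ → R) (hτ : ∀ i, τ1 i ^ p = τ i) :
    ∃ ψ : (R ⧸ (Ideal.span {ϖ 1} ⊔ Ideal.span (Set.range τ1))) ≃+
        (R ⧸ (Ideal.span {(p : R)} ⊔ Ideal.span (Set.range τ))), Tw p (C := R) ψ :=
  exists_tw_quot d.fsurj _ _ (Ideal.mem_sup_left (Ideal.mem_span_singleton_self _))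
    (mem_frob_iff d τ τ1 hτ)

end Ideals

section GT

variable {p : ℕ} [hpr : Fact p.Prime] {A R : Type u} [CommRing A] [CommRing R] [Algebra A R]
  {I : Type v} [Preorder I] {κ : Type w} (D : GalTower A R I κ)

/-- the length of `R ⧸ 𝔞R` -/
theorem L_quot_map [IsDirectedOrder I] [Nonempty I] (hU : ∀ x : R, ∃ i, x ∈ D.S i) (𝔞 : Ideal A)
    (hT : Tors D.t (A ⧸ 𝔞)) : D.L.L (R ⧸ 𝔞.map (algebraMap A R)) = D.Λ.L (A ⧸ 𝔞) := by
  rw [← D.L_tensor hU hT]
  exact D.L.L_congr (Algebra.TensorProduct.quotIdealMapEquivTensorQuot R 𝔞).toLinearEquiv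

variable {ϖ : ℕ → A}

omit hpr in
theorem map_span_sup (a : A) {κ' : Type*} (τ : κ' → A) :
    (Ideal.span {a} ⊔ Ideal.span (Set.range τ)).map (algebraMap A R) =
      Ideal.span {algebraMap A R a} ⊔ Ideal.span (Set.range fun i => algebraMap A R (τ i)) := by
  rw [Ideal.map_sup, Ideal.map_span, Ideal.map_span, Set.image_singleton, ← Set.range_comp]
  rfl

theorem tors_quot_span {κ' : Type*} (t : κ' → A) (N : ℕ) (𝔟 : Ideal A) :
    Tors t (A ⧸ (𝔟 ⊔ Ideal.span (Set.range fun i => t i ^ N))) := by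
  intro x i
  refine ⟨N, ?_⟩
  obtain ⟨x, rfl⟩ := Ideal.Quotient.mk_surjective x
  change Ideal.Quotient.mk _ (t i ^ N * x) = 0
  refine Ideal.Quotient.eq_zero_iff_mem.2 ?_
  exact Ideal.mul_mem_right _ _ (Ideal.mem_sup_right (Ideal.subset_span ⟨i, rfl⟩))

/-- **FROB for a Galois tower.** `c = p^d`. -/
theorem galTower_frob [IsDirectedOrder I] [Nonempty I] [Finite κ]
    (hU : ∀ x : R, ∃ i, x ∈ D.S i) (dA : PData p A ϖ) (dR : PData p R (fun e => algebraMap A R (ϖ e)))
    (t1 : κ → A) (ht1 : ∀ i, t1 i ^ p = D.t i) (c : ℝ≥0∞) (hc : c ≠ 0)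
    (hA : ∀ (M M' : Type u) [AddCommGroup M] [Module A M] [AddCommGroup M'] [Module A M']
      (φ : M ≃+ M'), Tw p (C := A) φ → D.Λ.L M' = c * D.Λ.L M)
    {V V' : Type u} [AddCommGroup V] [Module R V] [AddCommGroup V'] [Module R V']
    (φ : V ≃+ V') (hφ : Tw p (C := R) φ) : D.L.L V' = c * D.L.L V := by
  refine tower_frob D.toNTower hpr.out.pos c hc ?_ ?_ φ hφ
  · intro e Q Q' _ _ _ _ φ hφ
    let _ : Module (D.S e).toSubring Q := ‹Module (D.toNTower.S e) Q›
    let _ : Module (D.S e).toSubring Q' := ‹Module (D.toNTower.S e) Q'›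
    let _ : Module A Q := Module.compHom Q (D.str e)
    let _ : Module A Q' := Module.compHom Q' (D.str e)
    have h1 : (D.toNTower.Λ e).L Q = (D.n e)⁻¹ * D.Λ.L Q := D.len_eq e Q (fun a x => rfl)
    have h2 : (D.toNTower.Λ e).L Q' = (D.n e)⁻¹ * D.Λ.L Q' := D.len_eq e Q' (fun a x => rfl)
    have h3 : D.Λ.L Q' = c * D.Λ.L Q := hA Q Q' φ
      { smul := fun a x => by
          change φ (D.str e a • x) = D.str e (a ^ p) • φ x
          rw [map_pow]
          exact hφ.smul (D.str e a) x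
        kill := fun y => by
          change D.str e (p : A) • y = 0
          rw [map_natCast]
          exact hφ.kill y }
    rw [h1, h2, h3]
    exact le_of_eq (by ring)
  · intro N
    let τ : κ → A := fun i => D.t i ^ N
    let τ1 : κ → A := fun i => t1 i ^ N
    have hτ : ∀ i, τ1 i ^ p = τ i := fun i => by
      change (t1 i ^ N) ^ p = D.t i ^ N
      rw [← ht1 i]; ring
    set 𝔞 := Ideal.span {(p : A)} ⊔ Ideal.span (Set.range τ) with h𝔞
    set 𝔞₁ := Ideal.span {ϖ 1} ⊔ Ideal.span (Set.range τ1) with h𝔞₁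
    obtain ⟨ψA, hψA⟩ : ∃ ψ : (A ⧸ 𝔞₁) ≃+ (A ⧸ 𝔞), Tw p (C := A) ψ := exists_tw_span dA τ τ1 hτ
    obtain ⟨ψR, hψR⟩ := exists_tw_span dR (fun i => algebraMap A R (τ i))
      (fun i => algebraMap A R (τ1 i)) (fun i => by rw [← map_pow, hτ])
    have hTa : Tors D.t (A ⧸ 𝔞) := tors_quot_span D.t N _
    have hTa1 : Tors D.t (A ⧸ 𝔞₁) := (hψA.tors_iff hpr.out.pos D.t).2 hTa
    have ea : 𝔞.map (algebraMap A R) = Ideal.span {(p : R)} ⊔
        Ideal.span (Set.range fun i => algebraMap A R (τ i)) := by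
      rw [h𝔞, map_span_sup, map_natCast]
    have ea1 : 𝔞₁.map (algebraMap A R) = Ideal.span {algebraMap A R (ϖ 1)} ⊔
        Ideal.span (Set.range fun i => algebraMap A R (τ1 i)) := by
      rw [h𝔞₁, map_span_sup]
    have hL := L_quot_map D hU 𝔞 hTa
    have hL1 := L_quot_map D hU 𝔞₁ hTa1
    rw [ea] at hL
    rw [ea1] at hL1
    refine ⟨_, _, ψR, hψR, ?_, ?_, ?_⟩
    · refine sup_le_sup le_rfl (Ideal.span_le.2 ?_)
      rintro _ ⟨i, rfl⟩
      refine Ideal.subset_span ⟨i, ?_⟩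
      change (algebraMap A R (D.t i)) ^ N = algebraMap A R (D.t i ^ N)
      rw [map_pow]
    · change D.L.L _ ≠ ⊤
      rw [hL]
      exact D.fin _ inferInstance hTa
    · change D.L.L _ = c * D.L.L _
      rw [hL, hL1]
      exact hA _ _ ψA hψA

/-- FROB for a Galois tower whose bottom length is restricted from `B_∞`. -/
theorem galTower_frob' [IsDirectedOrder I] [Nonempty I] [Finite κ]
    (hU : ∀ x : R, ∃ i, x ∈ D.S i) (dA : PData p A ϖ) (dR : PData p R (fun e => algebraMap A R (ϖ e)))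
    (t1 : κ → A) (ht1 : ∀ i, t1 i ^ p = D.t i)
    {d : ℕ} {B : Type*} [CommRing B] [IsNoetherianRing B] {tb : Fin d → B} {i0 : Fin d}
    (hB : BInf.PBasis p tb i0) (f : BInf.BInf p tb →+* A)
    (hΛ : D.Λ = (AddLen.ofTower (BInf.tower p tb hpr.out.pos)).restrict f)
    {V V' : Type u} [AddCommGroup V] [Module R V] [AddCommGroup V'] [Module R V']
    (φ : V ≃+ V') (hφ : Tw p (C := R) φ) : D.L.L V' = ((p ^ d : ℕ) : ℝ≥0∞) * D.L.L V := by
  refine galTower_frob D hU dA dR t1 ht1 _ ?_ (fun M M' _ _ _ _ φ hφ => ?_) φ hφ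
  · exact_mod_cast pow_ne_zero d hpr.out.ne_zero
  · rw [hΛ]
    exact restrict_frob tb hB f φ hφ.smul hφ.kill

end GT

section FS

variable {p : ℕ} {R : Type u} [CommRing R]

/-- from twisted pairs over `R` to helper200's `FrobS` over an `R`-algebra `R'` killed by `p`
(e.g. `R' = R ⧸ p`) -/
theorem frobS_of_tw (Λ : AddLen.{u, v} R) (c : ℝ≥0∞)
    (h : ∀ (V V' : Type v) [AddCommGroup V] [Module R V] [AddCommGroup V'] [Module R V']
      (φ : V ≃+ V'), Tw p (C := R) φ → Λ.L V' = c * Λ.L V)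
    (Y Y' : Type v) [AddCommGroup Y] [Module R Y] [AddCommGroup Y'] [Module R Y']
    (e : Y ≃+ Y') (hp : ∀ y : Y, (p : R) • y = 0)
    (he : ∀ (a : R) (y : Y), a • e y = e (a ^ p • y)) : c * Λ.L Y' = Λ.L Y := by
  refine (h Y' Y e.symm ⟨fun a x => ?_, hp⟩).symm
  obtain ⟨y, rfl⟩ := e.surjective x
  rw [he, e.symm_apply_apply, e.symm_apply_apply]

/-- **FROB in the form `LenW.FrobS`** for the restriction to `R' = R ⧸ p` (or any `R`-algebra
killed by `p`) -/
theorem frobS_restrict (Λ : AddLen.{u, v} R) (c : ℝ≥0∞)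
    (h : ∀ (V V' : Type v) [AddCommGroup V] [Module R V] [AddCommGroup V'] [Module R V']
      (φ : V ≃+ V'), Tw p (C := R) φ → Λ.L V' = c * Λ.L V) {R' : Type u} [CommRing R']
    (g : R →+* R') (hg : (p : R') = 0) : LenW.FrobS (Λ.restrict g) p c := by
  intro Y Y' _ _ _ _ e he
  let _ : Module R Y := Module.compHom Y g
  let _ : Module R Y' := Module.compHom Y' g
  rw [Λ.restrict_L g Y (fun _ _ => rfl), Λ.restrict_L g Y' (fun _ _ => rfl)]
  refine frobS_of_tw Λ c h Y Y' e (fun y => ?_) (fun a y => ?_)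
  · change g (p : R) • y = 0
    rw [map_natCast, hg, zero_smul]
  · change g a • e y = e (g (a ^ p) • y)
    rw [he, map_pow]

end FS

end Crest.Agent.R188.Frb
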