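import Crest.Agent.R188.HB1

/-!
# R188 (Serre positivity), block HB: the multi-Rees algebra

For ideals `n k` (`k : κ`, finite) of a commutative ring `A` and `τ : κ →₀ ℕ` let
`E n τ = ∏ k, n k ^ τ k`. `Rees n` is the subalgebra of `A[X_k]` of the polynomials whose
coefficient at `τ` lies in `E n τ`; `RJ n J` is the ideal of those with coefficient in `J * E n τ`.
It is of finite type over `A`, and if `A` is a Noetherian domain and all `n k ≠ 0` then
`dim Rees n ≤ dim A + |κ|`.
-/

set_option autoImplicit false
set_option linter.unusedSectionVars false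

namespace Crest.Agent.R188.HB

open MvPolynomial

universe u v

variable {κ : Type v} [Fintype κ] {A : Type u} [CommRing A]

/-- `∏ k, n k ^ τ k` -/
def E (n : κ → Ideal A) (τ : κ →₀ ℕ) : Ideal A := ∏ k, n k ^ τ k

@[simp] theorem E_zero (n : κ → Ideal A) : E n 0 = ⊤ := by simp [E, Ideal.one_eq_top]

theorem E_add (n : κ → Ideal A) (σ τ : κ →₀ ℕ) : E n (σ + τ) = E n σ * E n τ := by
  simp [E, pow_add, Finset.prod_mul_distrib]

theorem E_single (n : κ → Ideal A) (k : κ) (e : ℕ) :
    E n (Finsupp.single k e) = n k ^ e := by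
  classical
  rw [E, Finset.prod_eq_single k]
  · simp
  · intro j _ hj
    simp [hj.symm]
  · intro h
    exact absurd (Finset.mem_univ k) h

/-- the multi-Rees algebra. -/
def Rees (n : κ → Ideal A) : Subalgebra A (MvPolynomial κ A) where
  carrier := {f | ∀ τ, f.coeff τ ∈ E n τ}
  mul_mem' := by
    classical
    intro f g hf hg τ
    rw [coeff_mul]
    refine Ideal.sum_mem _ fun x hx => ?_
    rw [Finset.HasAntidiagonal.mem_antidiagonal] at hx
    rw [← hx, E_add]
    exact Ideal.mul_mem_mul (hf _) (hg _)
  add_mem' := by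
    intro f g hf hg τ
    rw [coeff_add]
    exact Ideal.add_mem _ (hf τ) (hg τ)
  algebraMap_mem' := by
    classical
    intro a τ
    rw [algebraMap_eq, coeff_C]
    split_ifs with h
    · rw [← h]; simp
    · exact zero_mem _

theorem mem_Rees {n : κ → Ideal A} {f : MvPolynomial κ A} :
    f ∈ Rees n ↔ ∀ τ, f.coeff τ ∈ E n τ := Iff.rfl

theorem monomial_mem_Rees {n : κ → Ideal A} {τ : κ →₀ ℕ} {a : A} (ha : a ∈ E n τ) :
    monomial τ a ∈ Rees n := by
  classical
  intro σ
  rw [coeff_monomial]
  split_ifs with h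
  · rw [← h]; exact ha
  · exact zero_mem _

/-- the generators `a T_k`. -/
def gens (G : κ → Set A) : Set (MvPolynomial κ A) :=
  {f | ∃ k, ∃ a ∈ G k, f = monomial (Finsupp.single k 1) a}

theorem gens_subset_Rees {n : κ → Ideal A} {G : κ → Set A} (hG : ∀ k, G k ⊆ n k) :
    gens G ⊆ Rees n := by
  rintro _ ⟨k, a, ha, rfl⟩
  refine monomial_mem_Rees ?_
  rw [E_single, pow_one]
  exact hG k ha

theorem monomial_single_mem_adjoin {n : κ → Ideal A} {G : κ → Set A}
    (hG : ∀ k, Ideal.span (G k) = n k) (k : κ) {a : A} (ha : a ∈ n k) :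
    monomial (Finsupp.single k 1) a ∈ Algebra.adjoin A (gens G) := by
  rw [← hG k] at ha
  induction ha using Submodule.span_induction with
  | mem x hx => exact Algebra.subset_adjoin ⟨k, x, hx, rfl⟩
  | zero => simp
  | add x y _ _ hx hy => rw [map_add]; exact add_mem hx hy
  | smul r x _ hx =>
    rw [map_smul]
    exact Subalgebra.smul_mem _ hx r

theorem monomial_mem_adjoin {n : κ → Ideal A} {G : κ → Set A}
    (hG : ∀ k, Ideal.span (G k) = n k) (τ : κ →₀ ℕ) {a : A} (ha : a ∈ E n τ) :
    monomial τ a ∈ Algebra.adjoin A (gens G) := by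
  classical
  induction τ using Finsupp.induction_linear generalizing a with
  | zero =>
    exact Subalgebra.algebraMap_mem _ a
  | add σ τ hσ hτ =>
    rw [E_add] at ha
    refine Submodule.mul_induction_on ha (fun x hx y hy => ?_) fun x y hx hy => ?_
    · rw [← monomial_mul]
      exact mul_mem (hσ hx) (hτ hy)
    · rw [map_add]; exact add_mem hx hy
  | single k e =>
    rw [E_single] at ha
    induction e generalizing a with
    | zero =>
      rw [Finsupp.single_zero]
      exact Subalgebra.algebraMap_mem _ a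
    | succ e ih =>
      rw [pow_succ] at ha
      refine Submodule.mul_induction_on ha (fun x hx y hy => ?_) fun x y hx hy => ?_
      · rw [Finsupp.single_add, ← monomial_mul]
        exact mul_mem (ih hx) (monomial_single_mem_adjoin hG k hy)
      · rw [map_add]; exact add_mem hx hy

theorem Rees_eq_adjoin {n : κ → Ideal A} {G : κ → Set A}
    (hG : ∀ k, Ideal.span (G k) = n k) : Rees n = Algebra.adjoin A (gens G) := by
  apply le_antisymm
  · intro f hf
    rw [f.as_sum]
    exact sum_mem fun τ _ => monomial_mem_adjoin hG τ (hf τ)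
  · rw [Algebra.adjoin_le_iff]
    exact gens_subset_Rees fun k => by rw [← hG k]; exact Ideal.subset_span

theorem gens_finite {G : κ → Set A} (hG : ∀ k, (G k).Finite) : (gens G).Finite := by
  have : gens G = ⋃ k, (monomial (Finsupp.single k 1)) '' (G k) := by
    ext f
    simp only [gens, Set.mem_ofPred_eq, Set.mem_iUnion, Set.mem_image]
    constructor
    · rintro ⟨k, a, ha, rfl⟩
      exact ⟨k, a, ha, rfl⟩
    · rintro ⟨k, a, ha, rfl⟩
      exact ⟨k, a, ha, rfl⟩
  rw [this]
  exact Set.finite_iUnion fun k => (hG k).image _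

variable [IsNoetherianRing A]

theorem Rees_fg (n : κ → Ideal A) : (Rees n).FG := by
  classical
  have h : ∀ k, ∃ G : Finset A, Ideal.span (G : Set A) = n k := fun k =>
    (isNoetherianRing_iff_ideal_fg A).1 inferInstance (n k)
  choose G hG using h
  rw [Rees_eq_adjoin (G := fun k => (G k : Set A)) hG]
  exact ⟨(gens_finite fun k => (G k).finite_toSet).toFinset, by simp⟩

instance (n : κ → Ideal A) : Algebra.FiniteType A (Rees n) :=
  (Subalgebra.fg_iff_finiteType _).1 (Rees_fg n)

instance isNoetherianRing_Rees (n : κ → Ideal A) : IsNoetherianRing (Rees n) :=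
  Algebra.FiniteType.isNoetherianRing A _

section dim

variable [IsDomain A]

/-- `X_k ↦ μ_k X_k`. -/
noncomputable def scale (μ : κ → A) : MvPolynomial κ A →ₐ[A] MvPolynomial κ A :=
  aeval fun k => monomial (Finsupp.single k 1) (μ k)

theorem scale_monomial (μ : κ → A) (τ : κ →₀ ℕ) (a : A) :
    scale μ (monomial τ a) = monomial τ (a * ∏ k, μ k ^ τ k) := by
  classical
  rw [scale, aeval_monomial, algebraMap_eq, Finsupp.prod_fintype _ _ (by simp)]
  have : ∀ k, (monomial (Finsupp.single k 1) (μ k)) ^ τ k =
      monomial (Finsupp.single k (τ k)) (μ k ^ τ k) := by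
    intro k
    rw [monomial_pow]
    simp
  simp_rw [this]
  rw [← C_mul_monomial]
  congr 1
  have h2 : ∀ s : Finset κ, ∏ k ∈ s, monomial (Finsupp.single k (τ k)) (μ k ^ τ k) =
      monomial (∑ k ∈ s, Finsupp.single k (τ k)) (∏ k ∈ s, μ k ^ τ k) := by
    intro s
    induction s using Finset.induction with
    | empty => simp
    | insert k s hk ih =>
      rw [Finset.prod_insert hk, Finset.prod_insert hk, Finset.sum_insert hk, ih, monomial_mul]
  rw [h2 Finset.univ, Finsupp.univ_sum_single]

theorem coeff_scale (μ : κ → A) (f : MvPolynomial κ A) (τ : κ →₀ ℕ) :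
    (scale μ f).coeff τ = f.coeff τ * ∏ k, μ k ^ τ k := by
  classical
  induction f using MvPolynomial.induction_on' with
  | monomial σ a =>
    rw [scale_monomial, coeff_monomial, coeff_monomial]
    split_ifs with h
    · rw [h]
    · rw [zero_mul]
  | add p q hp hq => rw [map_add, coeff_add, coeff_add, hp, hq, add_mul]

theorem scale_injective {μ : κ → A} (hμ : ∀ k, μ k ≠ 0) : Function.Injective (scale μ) := by
  intro f g hfg
  ext τ
  have := congrArg (fun p => p.coeff τ) hfg
  simp only [coeff_scale] at this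
  exact mul_right_cancel₀ (Finset.prod_ne_zero_iff.2 fun k _ => pow_ne_zero _ (hμ k)) this

omit [Fintype κ] [IsNoetherianRing A] in
theorem isAlgebraic_of_mul_mem {L : Type*} [CommRing L] [IsDomain L] [Algebra A L]
    (S : Subalgebra A L) {s x : L} (hs : s ∈ S) (hs0 : s ≠ 0) (hx : s * x ∈ S) :
    IsAlgebraic S x := by
  refine ⟨Polynomial.C ⟨s, hs⟩ * Polynomial.X - Polynomial.C ⟨s * x, hx⟩, ?_, ?_⟩
  · intro h
    have h1 := congrArg (fun p => p.coeff 1) h
    simp only [Polynomial.coeff_sub, Polynomial.coeff_C_mul, Polynomial.coeff_X_one, mul_one,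
      Polynomial.coeff_C_succ, sub_zero, Polynomial.coeff_zero] at h1
    exact hs0 (congrArg Subtype.val h1)
  · simp only [map_sub, map_mul, Polynomial.aeval_C, Polynomial.aeval_X]
    exact sub_self _

omit [Fintype κ] [IsNoetherianRing A] [IsDomain A] in
theorem adjoin_le_of_subalgebra {L : Type*} [CommRing L] [Algebra A L]
    (S : Subalgebra A L) (F : Set L) {f : L} (hf : f ∈ Algebra.adjoin A F) :
    f ∈ Algebra.adjoin S F := by
  induction hf using Algebra.adjoin_induction with
  | mem x hx => exact Algebra.subset_adjoin hx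
  | algebraMap r => exact Subalgebra.algebraMap_mem (Algebra.adjoin S F) (algebraMap A S r)
  | add x y _ _ hx hy => exact add_mem hx hy
  | mul x y _ _ hx hy => exact mul_mem hx hy

omit [Fintype κ] [IsNoetherianRing A] [IsDomain A] in
theorem adjoin_subalgebra_le {L : Type*} [CommRing L] [Algebra A L]
    (S T : Subalgebra A L) (F : Set L) (hS : S ≤ T) (hF : F ⊆ T) {f : L}
    (hf : f ∈ Algebra.adjoin S F) : f ∈ T := by
  induction hf using Algebra.adjoin_induction with
  | mem x hx => exact hF hx
  | algebraMap r => exact hS r.2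
  | add x y _ _ hx hy => exact add_mem hx hy
  | mul x y _ _ hx hy => exact mul_mem hx hy

omit [Fintype κ] [IsNoetherianRing A] [IsDomain A] in
theorem ringKrullDim_le_adjoin {L : Type*} [CommRing L] [Algebra A L]
    (S T : Subalgebra A L) (F : Set L) (hS : S ≤ T) (hF : F ⊆ T)
    (hT : T = Algebra.adjoin A F) : ringKrullDim T ≤ ringKrullDim (Algebra.adjoin S F) := by
  let g : Algebra.adjoin S F →+* T :=
    { toFun := fun f => ⟨f.1, adjoin_subalgebra_le S T F hS hF f.2⟩
      map_one' := rfl
      map_mul' := fun _ _ => rfl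
      map_zero' := rfl
      map_add' := fun _ _ => rfl }
  refine ringKrullDim_le_of_surjective g fun f => ?_
  have h : f.1 ∈ Algebra.adjoin A F := by rw [← hT]; exact f.2
  exact ⟨⟨f.1, adjoin_le_of_subalgebra S F h⟩, rfl⟩

theorem range_scale_le {n : κ → Ideal A} {μ : κ → A} (hμ : ∀ k, μ k ∈ n k) :
    (scale μ).range ≤ Rees n := by
  rintro _ ⟨p, rfl⟩
  intro τ
  show ((scale μ) p).coeff τ ∈ _
  rw [coeff_scale]
  exact Ideal.mul_mem_left _ _ (Ideal.prod_mem_prod fun k _ => Ideal.pow_mem_pow (hμ k) _)

theorem ringKrullDim_Rees_le (n : κ → Ideal A) (hn : ∀ k, n k ≠ ⊥) :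
    ringKrullDim (Rees n) ≤ ringKrullDim A + Fintype.card κ := by
  classical
  have h : ∀ k, ∃ G : Finset A, Ideal.span (G : Set A) = n k := fun k =>
    (isNoetherianRing_iff_ideal_fg A).1 inferInstance (n k)
  choose G hG using h
  have h0 : ∀ k, ∃ μ ∈ n k, μ ≠ 0 := fun k => Submodule.exists_mem_ne_zero_of_ne_bot (hn k)
  choose μ hμ hμ0 using h0
  have hS : IsNoetherianRing (scale μ).range := by
    have : Function.Surjective (scale μ).rangeRestrict := (scale μ).rangeRestrict_surjective
    exact isNoetherianRing_of_surjective _ _ (scale μ).rangeRestrict.toRingHom this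
  have hdS : ringKrullDim (scale μ).range = ringKrullDim A + Fintype.card κ := by
    rw [← ringKrullDim_eq_of_ringEquiv
      (AlgEquiv.ofInjective (scale μ) (scale_injective hμ0)).toRingEquiv,
      MvPolynomial.ringKrullDim_of_isNoetherianRing, Nat.card_eq_fintype_card]
  let F : Finset (MvPolynomial κ A) := (gens_finite fun k => (G k).finite_toSet).toFinset
  have hF : (F : Set (MvPolynomial κ A)) = gens fun k => (G k : Set A) :=
    Set.Finite.coe_toFinset _
  have hFS : ∀ x ∈ F, IsAlgebraic (scale μ).range x := by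
    intro x hx
    obtain ⟨k, a, ha, rfl⟩ := (Set.Finite.mem_toFinset _).1 hx
    refine isAlgebraic_of_mul_mem (scale μ).range (s := C (μ k))
      (Subalgebra.algebraMap_mem _ (μ k)) (fun h => hμ0 k (C_injective _ _ (h.trans C_0.symm))) ?_
    refine ⟨C a * X k, ?_⟩
    show scale μ (C a * X k) = _
    rw [X, C_mul_monomial, mul_one, scale_monomial, C_mul_monomial]
    congr 1
    rw [Finset.prod_eq_single k (fun j _ hj => by simp [hj.symm])
      (fun h => absurd (Finset.mem_univ k) h)]
    simp [mul_comm]
  have h1 := ringKrullDim_adjoin_finset_le (S := (scale μ).range) F hFS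
  rw [hdS] at h1
  refine le_trans ?_ h1
  rw [hF]
  exact ringKrullDim_le_adjoin _ _ _ (range_scale_le hμ)
    (gens_subset_Rees (fun k => by rw [← hG k]; exact Ideal.subset_span))
    (Rees_eq_adjoin (G := fun k => (G k : Set A)) hG)

end dim

end Crest.Agent.R188.HB
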