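import Crest.Agent.R188.HB2
import Crest.Agent.R183.M1

/-!
# R188 (Serre positivity), block HB: Hilbert-Samuel growth at a maximal ideal

`growth_at_maximal` : `R` Noetherian, `dim R ≤ D`, `P` a maximal ideal with `A → R/P` onto,
`M` a finite `R`-module: `length_A (M/P^s M) ≤ C s^D`.
-/

set_option autoImplicit false
set_option linter.unusedSectionVars false

namespace Crest.Agent.R188.HB

open IsLocalRing Crest.Agent.R183.M

theorem length_quot_le_one {A R : Type*} [CommRing A] [CommRing R] [Algebra A R]
    (P : Ideal R) [P.IsMaximal] (hs : Function.Surjective (algebraMap A (R ⧸ P))) :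
    Module.length A (R ⧸ P) ≤ 1 := by
  have hsurj : Function.Surjective (Algebra.linearMap A (R ⧸ P)) := hs
  rw [← (LinearMap.quotKerEquivOfSurjective _ hsurj).length_eq]
  have hmax : IsCoatom (LinearMap.ker (Algebra.linearMap A (R ⧸ P))) := by
    let _ : Field (R ⧸ P) := Ideal.Quotient.field P
    have h6 : (RingHom.ker (algebraMap A (R ⧸ P))).IsMaximal :=
      RingHom.ker_isMaximal_of_surjective _ hs
    exact Ideal.isMaximal_def.1 h6
  have : IsSimpleModule A (A ⧸ (LinearMap.ker (Algebra.linearMap A (R ⧸ P)))) := by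
    rw [isSimpleModule_iff_isCoatom]
    exact hmax
  exact (Module.length_eq_one A _).le

theorem le_of_smul_eq_zero {R : Type*} [CommRing R]
    (P : Ideal R) [P.IsMaximal] {X : Type*} [AddCommGroup X] [Module R X]
    (s : ℕ) (hX : ∀ r ∈ P ^ s, ∀ x : X, r • x = 0) (I : Ideal R) (e : X ≃ₗ[R] R ⧸ I)
    [I.IsMaximal] : P = I := by
  have h3 : P ^ s ≤ I := by
    intro r hr
    have h4 : r • (e (e.symm (Ideal.Quotient.mk I 1))) = 0 := by
      rw [← map_smul, hX r hr, map_zero]
    rw [e.apply_symm_apply] at h4
    have h5 : Ideal.Quotient.mk I (r • (1 : R)) = 0 := h4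
    rw [smul_eq_mul, mul_one] at h5
    exact Ideal.Quotient.eq_zero_iff_mem.1 h5
  have hPI : P ≤ I := Ideal.IsPrime.le_of_pow_le h3
  exact Ideal.IsMaximal.eq_of_le inferInstance (Ideal.IsMaximal.ne_top inferInstance) hPI

theorem length_le_aux {A R : Type*} [CommRing A] [CommRing R] [Algebra A R]
    (P : Ideal R) [P.IsMaximal] (hs : Function.Surjective (algebraMap A (R ⧸ P)))
    (X : Type*) [AddCommGroup X] [Module R X] (s : ℕ) (hfl : IsFiniteLength R X) :
    ∀ [Module A X] [IsScalarTower A R X], (∀ r ∈ P ^ s, ∀ x : X, r • x = 0) →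
    Module.length A X ≤ Module.length R X := by
  induction hfl with
  | of_subsingleton =>
    intro _ _ hX
    rw [Module.length_eq_zero]
    exact zero_le
  | @of_simple_quotient M _ _ N hsim hN ih =>
    intro _ _ hX
    have h1 : Module.length A N ≤ Module.length R N :=
      ih fun r hr x => Subtype.ext (hX r hr x)
    have h2 : Module.length A (M ⧸ N) ≤ 1 := by
      obtain ⟨I, hI, ⟨e⟩⟩ := isSimpleModule_iff_quot_maximal.1 hsim
      have hX' : ∀ r ∈ P ^ s, ∀ x : M ⧸ N, r • x = 0 := by
        intro r hr x
        obtain ⟨m, rfl⟩ := N.mkQ_surjective x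
        rw [← map_smul, hX r hr m, map_zero]
      have hI' : P = I := le_of_smul_eq_zero P s hX' I e
      subst hI'
      rw [(e.restrictScalars A).length_eq]
      exact length_quot_le_one P hs
    have hA : Module.length A M = Module.length A N + Module.length A (M ⧸ N) :=
      Module.length_eq_add_of_exact (N.subtype.restrictScalars A) (N.mkQ.restrictScalars A)
        (fun x y h => N.subtype_injective h) (fun x => N.mkQ_surjective x)
        (fun x => (LinearMap.exact_subtype_mkQ N) x)
    have hR : Module.length R M = Module.length R N + Module.length R (M ⧸ N) :=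
      Module.length_eq_add_of_exact N.subtype N.mkQ
        (Submodule.subtype_injective _) (Submodule.mkQ_surjective _)
        (LinearMap.exact_subtype_mkQ N)
    rw [hA, hR, Module.length_eq_one R (M ⧸ N)]
    exact add_le_add h1 h2

/-- length over `A` is at most the length over `R` for modules killed by a power of the maximal
ideal `P`, if `A → R/P` is onto. -/
theorem length_le_of_surjective_residue {A R : Type*} [CommRing A] [CommRing R] [Algebra A R]
    (P : Ideal R) [P.IsMaximal] (hs : Function.Surjective (algebraMap A (R ⧸ P)))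
    (X : Type*) [AddCommGroup X] [Module R X] [Module A X] [IsScalarTower A R X]
    (s : ℕ) (hX : ∀ r ∈ P ^ s, ∀ x : X, r • x = 0) :
    Module.length A X ≤ Module.length R X := by
  by_cases htop : Module.length R X = ⊤
  · rw [htop]; exact le_top
  · exact length_le_aux P hs X s (Module.length_ne_top_iff.1 htop) hX

theorem mem_of_smul_mem_pow {R : Type*} [CommRing R] (P : Ideal R) [P.IsMaximal]
    {M : Type*} [AddCommGroup M] [Module R M] (s : ℕ) {v : R} (hv : v ∉ P) {m : M}
    (h3 : v • m ∈ (P ^ s • ⊤ : Submodule R M)) : m ∈ (P ^ s • ⊤ : Submodule R M) := by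
  have h5 : IsCoprime (Ideal.span {v}) (P ^ s) := by
    apply IsCoprime.pow_right
    rw [Ideal.isCoprime_iff_sup_eq]
    by_contra hne
    obtain ⟨Q, hQ, hle⟩ := Ideal.exists_le_maximal _ hne
    have h6 : P = Q := Ideal.IsMaximal.eq_of_le inferInstance hQ.ne_top (le_sup_right.trans hle)
    subst h6
    exact hv (hle (Submodule.mem_sup_left (Ideal.mem_span_singleton_self _)))
  obtain ⟨a, ha, z, hz, haz⟩ := Ideal.isCoprime_iff_exists.1 h5
  obtain ⟨w, rfl⟩ := Ideal.mem_span_singleton'.1 ha
  have : m = w • (v • m) + z • m := by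
    rw [smul_smul, ← add_smul, haz, one_smul]
  rw [this]
  exact Submodule.add_mem _ (Submodule.smul_mem _ _ h3)
    (Submodule.smul_mem_smul hz Submodule.mem_top)

/-- `M/P^s M` embeds into the localisation. -/
theorem length_le_lenQ_localization {R : Type*} [CommRing R] (P : Ideal R) [P.IsMaximal]
    (M : Type*) [AddCommGroup M] [Module R M] (s : ℕ) :
    Module.length R (M ⧸ (P ^ s • ⊤ : Submodule R M)) ≤
      lenQ (maximalIdeal (Localization.AtPrime P) ^ s) (LocalizedModule P.primeCompl M) := by
  set f : M →ₗ[R] LocalizedModule P.primeCompl M :=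
    LocalizedModule.mkLinearMap P.primeCompl M with hf
  set W : Submodule (Localization.AtPrime P) (LocalizedModule P.primeCompl M) :=
    maximalIdeal (Localization.AtPrime P) ^ s • ⊤ with hWdef
  have hI : (P ^ s : Ideal R).localized' (Localization.AtPrime P) P.primeCompl
      (Algebra.linearMap R (Localization.AtPrime P)) = maximalIdeal (Localization.AtPrime P) ^ s := by
    rw [← Localization.AtPrime.map_eq_maximalIdeal, ← Ideal.map_pow]
    apply le_antisymm
    · rintro _ ⟨r, hr, t, rfl⟩
      rw [← IsLocalization.mk'_eq_mk', IsLocalization.mk'_eq_mul_mk'_one]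
      exact Ideal.mul_mem_right _ _ (Ideal.mem_map_of_mem _ hr)
    · rw [Ideal.map_le_iff_le_comap]
      intro r hr
      exact ⟨r, hr, 1, by simp⟩
  have hW : W = (P ^ s • ⊤ : Submodule R M).localized' (Localization.AtPrime P)
      P.primeCompl f := by
    rw [Submodule.localized'_smul, Submodule.localized'_top, hI]
  have hker : LinearMap.ker ((W.mkQ.restrictScalars R).comp f) ≤ P ^ s • ⊤ := by
    intro m hm
    have h1 : f m ∈ W := by
      rw [LinearMap.mem_ker] at hm
      exact (Submodule.Quotient.mk_eq_zero W).1 hm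
    rw [hW] at h1
    obtain ⟨n, hn, t, hnt⟩ := h1
    have h2 : f ((t : R) • m) = f n := by
      rw [IsLocalizedModule.mk'_eq_iff] at hnt
      rw [hnt]
      exact map_smul f (t : R) m
    obtain ⟨u, hu⟩ := (IsLocalizedModule.eq_iff_exists P.primeCompl f).1 h2
    have h3 : ((u * t : P.primeCompl) : R) • m ∈ (P ^ s • ⊤ : Submodule R M) := by
      have : ((u * t : P.primeCompl) : R) • m = u • n := by
        rw [← hu]
        simp [Submonoid.smul_def, mul_smul]
      rw [this]
      exact Submodule.smul_mem _ _ hn
    exact mem_of_smul_mem_pow P s (u * t : P.primeCompl).2 h3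
  have h1 : Module.length R (M ⧸ (P ^ s • ⊤ : Submodule R M)) ≤
      Module.length R (LocalizedModule P.primeCompl M ⧸ W) := by
    refine (Module.length_le_of_surjective (Submodule.factor hker)
      (Submodule.factor_surjective hker)).trans ?_
    refine Module.length_le_of_injective
      ((LinearMap.ker ((W.mkQ.restrictScalars R).comp f)).liftQ _ le_rfl) ?_
    rw [← LinearMap.ker_eq_bot]
    exact Submodule.ker_liftQ_eq_bot _ _ _ le_rfl
  refine h1.trans ?_
  have hsurj : Function.Surjective (algebraMap R
      (Localization.AtPrime P ⧸ maximalIdeal (Localization.AtPrime P))) := by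
    intro x
    obtain ⟨r, hr⟩ := (IsLocalization.AtPrime.equivQuotMaximalIdeal P
      (Localization.AtPrime P)).surjective x
    obtain ⟨r, rfl⟩ := Ideal.Quotient.mk_surjective r
    refine ⟨r, ?_⟩
    rw [← hr, IsLocalization.AtPrime.equivQuotMaximalIdeal_apply_mk]
    rfl
  refine length_le_of_surjective_residue (maximalIdeal (Localization.AtPrime P)) hsurj _ s ?_
  intro r hr x
  obtain ⟨y, rfl⟩ := W.mkQ_surjective x
  rw [← map_smul, Submodule.mkQ_apply, Submodule.Quotient.mk_eq_zero]
  exact Submodule.smul_mem_smul hr Submodule.mem_top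

/-- Hilbert-Samuel growth at a maximal ideal, lengths over a subring with the same residue
field. -/
theorem growth_at_maximal {A R : Type*} [CommRing A] [CommRing R] [Algebra A R]
    [IsNoetherianRing R] (P : Ideal R) [P.IsMaximal]
    (hs : Function.Surjective (algebraMap A (R ⧸ P)))
    (M : Type*) [AddCommGroup M] [Module R M] [Module.Finite R M] [Module A M]
    [IsScalarTower A R M] (D : ℕ) (hD : ringKrullDim R ≤ D) :
    ∃ C : ℕ, ∀ s : ℕ, Module.length A (M ⧸ (P ^ s • ⊤ : Submodule R M)) ≤ C * (s : ℕ∞) ^ D := by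
  have hdim : Module.supportDim (Localization.AtPrime P) (LocalizedModule P.primeCompl M) ≤ D := by
    refine (Module.supportDim_le_ringKrullDim _ _).trans (le_trans ?_ hD)
    rw [IsLocalization.AtPrime.ringKrullDim_eq_height P (Localization.AtPrime P)]
    exact Ideal.height_le_ringKrullDim_of_ne_top (Ideal.IsMaximal.ne_top inferInstance)
  obtain ⟨C, hC⟩ := growth_module (Localization.AtPrime P) (LocalizedModule P.primeCompl M) D hdim
  refine ⟨C, fun s => ?_⟩
  refine le_trans ?_ (hC s)
  refine le_trans ?_ (length_le_lenQ_localization P M s)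
  refine length_le_of_surjective_residue P hs _ s ?_
  intro r hr x
  obtain ⟨y, rfl⟩ := (P ^ s • ⊤ : Submodule R M).mkQ_surjective x
  rw [← map_smul, Submodule.mkQ_apply, Submodule.Quotient.mk_eq_zero]
  exact Submodule.smul_mem_smul hr Submodule.mem_top

end Crest.Agent.R188.HB
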