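import Crest.Agent.R188.HB3

/-!
# R188 (Serre positivity), block HB: the total Hilbert bound for the multi-Rees algebra

`total_bound` : `A` Noetherian local domain, `dim A ≤ b`, ideals `n k ≠ 0`, `m^c ≤ q`, `J` an ideal:
`∑_{τ ∈ T} length (J E_τ / q^N J E_τ) ≤ C (t + N)^(b + |κ|)` for `T ⊆ {|τ| ≤ t}`.
-/

set_option autoImplicit false
set_option linter.unusedSectionVars false

namespace Crest.Agent.R188.HB

open MvPolynomial IsLocalRing Crest.Agent.R183.M

universe u v

variable {κ : Type v} [Fintype κ] {A : Type u} [CommRing A]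

/-- the multi-Rees algebra as a type. -/
def RR (n : κ → Ideal A) : Type (max u v) := ↥(Rees n)

noncomputable instance (n : κ → Ideal A) : CommRing (RR n) := inferInstanceAs (CommRing ↥(Rees n))

noncomputable instance (n : κ → Ideal A) : Algebra A (RR n) :=
  inferInstanceAs (Algebra A ↥(Rees n))

instance [IsNoetherianRing A] (n : κ → Ideal A) : IsNoetherianRing (RR n) :=
  inferInstanceAs (IsNoetherianRing ↥(Rees n))

variable {n : κ → Ideal A}

/-- coefficients -/
def cf (f : RR n) (τ : κ →₀ ℕ) : A := f.1.coeff τ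

theorem cf_mem (f : RR n) (τ : κ →₀ ℕ) : cf f τ ∈ E n τ := f.2 τ

theorem cf_ext {f g : RR n} (h : ∀ τ, cf f τ = cf g τ) : f = g :=
  Subtype.ext (MvPolynomial.ext _ _ h)

@[simp] theorem cf_add (f g : RR n) (τ : κ →₀ ℕ) : cf (f + g) τ = cf f τ + cf g τ :=
  coeff_add τ f.1 g.1

@[simp] theorem cf_zero (τ : κ →₀ ℕ) : cf (0 : RR n) τ = 0 := coeff_zero τ

@[simp] theorem cf_smul (a : A) (f : RR n) (τ : κ →₀ ℕ) : cf (a • f) τ = a * cf f τ :=
  coeff_smul τ a f.1

theorem cf_mul [DecidableEq κ] (f g : RR n) (τ : κ →₀ ℕ) :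
    cf (f * g) τ = ∑ x ∈ Finset.HasAntidiagonal.antidiagonal τ, cf f x.1 * cf g x.2 :=
  coeff_mul f.1 g.1 τ

/-- monomials -/
noncomputable def mon (τ : κ →₀ ℕ) (a : A) (ha : a ∈ E n τ) : RR n :=
  ⟨monomial τ a, monomial_mem_Rees ha⟩

theorem cf_mon [DecidableEq κ] (τ σ : κ →₀ ℕ) (a : A) (ha : a ∈ E n τ) :
    cf (mon τ a ha) σ = if τ = σ then a else 0 := coeff_monomial σ τ a

theorem mon_mul_mon (τ σ : κ →₀ ℕ) (a b : A) (ha : a ∈ E n τ) (hb : b ∈ E n σ)
    (hab : a * b ∈ E n (τ + σ)) :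
    mon τ a ha * mon σ b hb = mon (τ + σ) (a * b) hab := Subtype.ext monomial_mul

theorem cf_one (τ : κ →₀ ℕ) [DecidableEq κ] : cf (1 : RR n) τ = if 0 = τ then 1 else 0 :=
  coeff_one τ

theorem algebraMap_eq_smul (a : A) : algebraMap A (RR n) a = a • 1 := Algebra.algebraMap_eq_smul_one a

theorem cf_algebraMap [DecidableEq κ] (a : A) (τ : κ →₀ ℕ) :
    cf (algebraMap A (RR n) a) τ = if 0 = τ then a else 0 := by
  rw [algebraMap_eq_smul, cf_smul, cf_one]
  split_ifs <;> simp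

@[simp] theorem cf_sum {ι : Type*} (s : Finset ι) (f : ι → RR n) (τ : κ →₀ ℕ) :
    cf (∑ i ∈ s, f i) τ = ∑ i ∈ s, cf (f i) τ := by
  classical
  induction s using Finset.induction with
  | empty => simp
  | insert i s hi ih => rw [Finset.sum_insert hi, Finset.sum_insert hi, cf_add, ih]

variable (n)

/-- `{f | coeff τ f ∈ J τ}` as an ideal of the multi-Rees algebra. -/
def Fil (J : (κ →₀ ℕ) → Ideal A) (hJ : ∀ σ τ, E n σ * J τ ≤ J (σ + τ)) : Ideal (RR n) where
  carrier := {f | ∀ τ, cf f τ ∈ J τ}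
  add_mem' := by
    intro f g hf hg τ
    rw [cf_add]
    exact Ideal.add_mem _ (hf τ) (hg τ)
  zero_mem' := by
    intro τ
    rw [cf_zero]
    exact zero_mem _
  smul_mem' := by
    classical
    intro r f hf τ
    rw [smul_eq_mul, cf_mul]
    refine Ideal.sum_mem _ fun x hx => ?_
    rw [Finset.HasAntidiagonal.mem_antidiagonal] at hx
    rw [← hx]
    exact hJ _ _ (Ideal.mul_mem_mul (cf_mem r _) (hf _))

variable {n}

theorem mem_Fil {J : (κ →₀ ℕ) → Ideal A} {hJ : ∀ σ τ, E n σ * J τ ≤ J (σ + τ)}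
    {f : RR n} : f ∈ Fil n J hJ ↔ ∀ τ, cf f τ ∈ J τ := Iff.rfl

theorem mon_mem_Fil {J : (κ →₀ ℕ) → Ideal A}
    {hJ : ∀ σ τ, E n σ * J τ ≤ J (σ + τ)} {τ : κ →₀ ℕ} {a : A} (ha : a ∈ J τ) (ha' : a ∈ E n τ) :
    mon τ a ha' ∈ Fil n J hJ := by
  classical
  intro σ
  rw [cf_mon]
  split_ifs with h
  · rw [← h]; exact ha
  · exact zero_mem _

theorem hJmul (n : κ → Ideal A) (J : Ideal A) (σ τ : κ →₀ ℕ) :
    E n σ * (J * E n τ) ≤ J * E n (σ + τ) := by
  rw [E_add, mul_left_comm]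

variable (n)

/-- the ideal `⊕ J E_τ T^τ`. -/
def MJ (J : Ideal A) : Ideal (RR n) := Fil n (fun τ => J * E n τ) (hJmul n J)

variable {n}

theorem mem_MJ {J : Ideal A} {f : RR n} : f ∈ MJ n J ↔ ∀ τ, cf f τ ∈ J * E n τ := Iff.rfl

theorem mem_E_of_mem {J : Ideal A} {τ : κ →₀ ℕ} {a : A} (ha : a ∈ J * E n τ) : a ∈ E n τ :=
  (Ideal.mul_le_right : J * E n τ ≤ E n τ) ha

theorem mon_mem_MJ {J : Ideal A} {τ : κ →₀ ℕ} {a : A} (ha : a ∈ J * E n τ) :
    mon τ a (mem_E_of_mem ha) ∈ MJ n J := by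
  classical
  intro σ
  rw [cf_mon]
  split_ifs with h
  · rw [← h]; exact ha
  · exact zero_mem _

variable (n)

/-- the augmentation. -/
noncomputable def aug : RR n →+* A :=
  (constantCoeff (σ := κ) (R := A)).comp (Rees n).val.toRingHom

variable {n}

theorem aug_apply (f : RR n) : aug n f = cf f 0 := rfl

theorem aug_algebraMap (a : A) : aug n (algebraMap A (RR n) a) = a := by
  classical
  rw [aug_apply, cf_algebraMap, if_pos rfl]

section local_

variable [IsLocalRing A]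

variable (n)

/-- the graded maximal ideal. -/
noncomputable def Pm : Ideal (RR n) := (maximalIdeal A).comap (aug n)

instance : (Pm n).IsMaximal :=
  Ideal.comap_isMaximal_of_surjective (aug n) fun a => ⟨_, aug_algebraMap a⟩

theorem surj_Pm : Function.Surjective (algebraMap A (RR n ⧸ Pm n)) := by
  intro x
  obtain ⟨f, rfl⟩ := Ideal.Quotient.mk_surjective x
  refine ⟨aug n f, ?_⟩
  show Ideal.Quotient.mk (Pm n) (algebraMap A (RR n) (aug n f)) = _
  rw [Ideal.Quotient.eq]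
  show aug n (algebraMap A (RR n) (aug n f) - f) ∈ maximalIdeal A
  rw [map_sub, aug_algebraMap, sub_self]
  exact zero_mem _

theorem hJ_pow (J : Ideal A) (s : ℕ) (σ τ : κ →₀ ℕ) :
    E n σ * (maximalIdeal A ^ (s - τ.degree) * (J * E n τ)) ≤
      maximalIdeal A ^ (s - (σ + τ).degree) * (J * E n (σ + τ)) := by
  rw [mul_left_comm]
  refine Ideal.mul_mono (Ideal.pow_le_pow_right ?_) (hJmul n J σ τ)
  rw [map_add]
  omega

theorem Pm_pow_smul_le (J : Ideal A) (s : ℕ) (x : MJ n J)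
    (hx : x ∈ (Pm n ^ s • ⊤ : Submodule (RR n) (MJ n J))) :
    ∀ τ, cf x.1 τ ∈ maximalIdeal A ^ (s - τ.degree) * (J * E n τ) := by
  classical
  induction s generalizing x with
  | zero =>
    intro τ
    simp only [Nat.zero_sub, pow_zero, Ideal.one_eq_top, Ideal.top_mul]
    exact x.2 τ
  | succ s ih =>
    rw [pow_succ', mul_smul] at hx
    have key : x ∈ Submodule.comap (Submodule.subtype (MJ n J))
        (Fil n (fun τ => maximalIdeal A ^ (s + 1 - τ.degree) * (J * E n τ))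
        (hJ_pow n J (s + 1))) := by
      refine Submodule.smul_induction_on hx (fun r hr y hy => ?_) fun y z hy hz => ?_
      · intro τ
        show cf (r * y.1) τ ∈ _
        rw [cf_mul]
        refine Ideal.sum_mem _ fun p hp => ?_
        rw [Finset.HasAntidiagonal.mem_antidiagonal] at hp
        rw [← hp]
        have h1 := ih y hy p.2
        by_cases h0 : p.1 = 0
        · have h2 : cf r p.1 ∈ maximalIdeal A := by
            rw [h0]; exact hr
          have h3 := Ideal.mul_mem_mul h2 h1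
          rw [← mul_assoc, ← pow_succ'] at h3
          rw [h0, zero_add]
          rw [h0] at h3
          refine Ideal.mul_mono_left (Ideal.pow_le_pow_right ?_) h3
          omega
        · have h2 := Ideal.mul_mem_mul (cf_mem r p.1) h1
          rw [mul_left_comm] at h2
          refine Ideal.mul_mono (Ideal.pow_le_pow_right ?_) (hJmul n J p.1 p.2) h2
          rw [map_add]
          have : 0 < p.1.degree := by
            rw [pos_iff_ne_zero, Ne, Finsupp.degree_eq_zero_iff]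
            exact h0
          omega
      · exact Submodule.add_mem _ hy hz
    exact key

variable {n}

/-- the coefficient map. -/
noncomputable def coeffMap (J : Ideal A) (τ : κ →₀ ℕ) :
    MJ n J →ₗ[A] ↥(J * E n τ) where
  toFun := fun x => ⟨cf x.1 τ, x.2 τ⟩
  map_add' := fun x y => Subtype.ext (cf_add x.1 y.1 τ)
  map_smul' := fun a x => Subtype.ext (cf_smul a x.1 τ)

theorem mem_smul_top_of_mem_mul (I K : Ideal A) (x : K) (hx : x.1 ∈ I * K) :
    x ∈ (I • ⊤ : Submodule A K) := by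
  have h : (I • ⊤ : Submodule A K).map K.subtype = I * K := by
    rw [Submodule.map_smul'', Submodule.map_top, Submodule.range_subtype, smul_eq_mul]
  rw [← h] at hx
  obtain ⟨y, hy, hyx⟩ := hx
  have : y = x := Subtype.ext hyx
  rw [← this]
  exact hy

theorem total_le (J : Ideal A) (q : Ideal A) (c : ℕ)
    (hc : maximalIdeal A ^ c ≤ q) (T : Finset (κ →₀ ℕ)) (N t : ℕ) (hT : ∀ τ ∈ T, τ.degree ≤ t) :
    ∑ τ ∈ T, lenQ (q ^ N) ↥(J * E n τ) ≤
      Module.length A (MJ n J ⧸ (Pm n ^ (t + c * N) • ⊤ : Submodule (RR n) (MJ n J))) := by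
  classical
  let Φ : MJ n J →ₗ[A] ((τ : T) → (↥(J * E n τ.1) ⧸ (q ^ N • ⊤ : Submodule A ↥(J * E n τ.1)))) :=
    LinearMap.pi fun τ => (Submodule.mkQ _).comp (coeffMap J τ.1)
  have hsurj : Function.Surjective Φ := by
    intro z
    have h : ∀ τ : T, ∃ y : ↥(J * E n τ.1), Submodule.mkQ _ y = z τ := fun τ =>
      Submodule.mkQ_surjective _ (z τ)
    choose y hy using h
    refine ⟨⟨∑ τ : T, mon τ.1 (y τ).1 (mem_E_of_mem (y τ).2),
      Ideal.sum_mem _ fun τ _ => mon_mem_MJ (y τ).2⟩, ?_⟩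
    funext σ
    rw [LinearMap.pi_apply, LinearMap.comp_apply, ← hy σ]
    congr 1
    apply Subtype.ext
    show cf (∑ τ : T, mon τ.1 (y τ).1 (mem_E_of_mem (y τ).2)) σ.1 = _
    rw [cf_sum, Finset.sum_eq_single σ]
    · rw [cf_mon, if_pos rfl]
    · intro b _ hb
      rw [cf_mon, if_neg]
      intro h
      exact hb (Subtype.ext h)
    · intro h
      exact absurd (Finset.mem_univ _) h
  have hker : (Pm n ^ (t + c * N) • ⊤ : Submodule (RR n) (MJ n J)).restrictScalars A ≤
      LinearMap.ker Φ := by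
    intro x hx
    rw [LinearMap.mem_ker]
    funext τ
    rw [LinearMap.pi_apply, LinearMap.comp_apply, Pi.zero_apply, Submodule.mkQ_apply,
      Submodule.Quotient.mk_eq_zero]
    apply mem_smul_top_of_mem_mul
    have h1 := Pm_pow_smul_le n J _ x hx τ.1
    refine Ideal.mul_mono_left ?_ h1
    calc maximalIdeal A ^ (t + c * N - τ.1.degree) ≤ maximalIdeal A ^ (c * N) :=
          Ideal.pow_le_pow_right (by have := hT τ.1 τ.2; omega)
      _ = (maximalIdeal A ^ c) ^ N := pow_mul _ _ _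
      _ ≤ q ^ N := Ideal.pow_right_mono hc N
  have h2 : Function.Surjective (Submodule.liftQ _ Φ hker) := by
    rw [← LinearMap.range_eq_top, Submodule.range_liftQ, LinearMap.range_eq_top]
    exact hsurj
  have h3 := Module.length_le_of_surjective _ h2
  rw [Module.length_pi_of_fintype] at h3
  have h4 : ∑ τ ∈ T, lenQ (q ^ N) ↥(J * E n τ) = ∑ τ : T, lenQ (q ^ N) ↥(J * E n τ.1) :=
    (Finset.sum_coe_sort T fun τ => lenQ (q ^ N) ↥(J * E n τ)).symm
  rw [h4]
  refine h3.trans (le_of_eq ?_)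
  exact (Submodule.Quotient.restrictScalarsEquiv A
    (Pm n ^ (t + c * N) • ⊤ : Submodule (RR n) (MJ n J))).length_eq

theorem total_bound [IsNoetherianRing A] [IsDomain A] (hn : ∀ k, n k ≠ ⊥)
    (J : Ideal A) (q : Ideal A) (c : ℕ) (hc : maximalIdeal A ^ c ≤ q) (b : ℕ)
    (hb : ringKrullDim A ≤ b) :
    ∃ C : ℕ, ∀ (T : Finset (κ →₀ ℕ)) (N t : ℕ), (∀ τ ∈ T, τ.degree ≤ t) →
      ∑ τ ∈ T, lenQ (q ^ N) ↥(J * E n τ) ≤ C * ((t + N : ℕ) : ℕ∞) ^ (b + Fintype.card κ) := by
  have hdim : ringKrullDim (RR n) ≤ ((b + Fintype.card κ : ℕ) : WithBot ℕ∞) := by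
    refine (ringKrullDim_Rees_le n hn).trans ?_
    push_cast
    gcongr
  obtain ⟨C, hC⟩ := growth_at_maximal (A := A) (Pm n) (surj_Pm n) (MJ n J) _ hdim
  refine ⟨C * (c + 1) ^ (b + Fintype.card κ), fun T N t hT => ?_⟩
  refine (total_le J q c hc T N t hT).trans ((hC _).trans ?_)
  have h1 : (t + c * N : ℕ) ≤ (c + 1) * (t + N) := by nlinarith [Nat.zero_le (c * t)]
  calc (C : ℕ∞) * ((t + c * N : ℕ) : ℕ∞) ^ (b + Fintype.card κ)
      ≤ (C : ℕ∞) * (((c + 1) * (t + N) : ℕ) : ℕ∞) ^ (b + Fintype.card κ) := by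
        gcongr
    _ = _ := by
        push_cast
        rw [mul_pow, mul_assoc]

end local_

end Crest.Agent.R188.HB
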