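import Crest.Agent.R188.HB4

/-!
# R188 (Serre positivity), block HB: superficial elements in the multi-Rees algebra
-/

set_option autoImplicit false
set_option linter.unusedSectionVars false

namespace Crest.Agent.R188.HB

open MvPolynomial IsLocalRing Crest.Agent.R183.M

universe u v

section avoid

variable {A : Type*} [CommRing A] [IsLocalRing A] [Infinite (ResidueField A)]

theorem infinite_of_nontrivial (Q : Type*) [AddCommGroup Q] [Module A Q] [Module.Finite A Q]
    [Nontrivial Q] : Infinite Q := by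
  obtain ⟨c, hc, -⟩ := (eq_top_or_exists_le_coatom (⊥ : Submodule A Q)).resolve_left bot_ne_top
  have hsim : IsSimpleModule A (Q ⧸ c) := isSimpleModule_iff_isCoatom.2 hc
  obtain ⟨I, hI, ⟨e⟩⟩ := isSimpleModule_iff_quot_maximal.1 hsim
  have hI' : I = maximalIdeal A := eq_maximalIdeal hI
  subst hI'
  have : Infinite (A ⧸ maximalIdeal A) := inferInstanceAs (Infinite (ResidueField A))
  have : Infinite (Q ⧸ c) := e.toEquiv.infinite_iff.2 this
  exact Infinite.of_surjective _ c.mkQ_surjective

theorem exists_notMem_of_ne_top {M : Type*} [AddCommGroup M] [Module A M] [Module.Finite A M]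
    {ι : Type*} (s : Finset ι) (p : ι → Submodule A M) (hp : ∀ i ∈ s, p i ≠ ⊤) :
    ∃ x : M, ∀ i ∈ s, x ∉ p i := by
  by_contra! hcon
  have hcov : ⋃ i ∈ s, (p i : Set M) = Set.univ := by
    ext x
    simp only [Set.mem_iUnion, Set.mem_univ, iff_true]
    obtain ⟨i, hi, hx⟩ := hcon x
    exact ⟨i, hi, hx⟩
  obtain ⟨k, hk, hfi⟩ := Submodule.exists_finiteIndex_of_cover hcov
  have h1 : Finite (M ⧸ p k) := AddSubgroup.finite_quotient_of_finiteIndex
  have h2 : Nontrivial (M ⧸ p k) := Submodule.Quotient.nontrivial_iff.mpr (hp k hk)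
  have h3 : Infinite (M ⧸ p k) := infinite_of_nontrivial (A := A) _
  exact not_finite (M ⧸ p k)

end avoid

variable {κ : Type v} [Fintype κ] {A : Type u} [CommRing A] {n : κ → Ideal A}

theorem mon_add (τ : κ →₀ ℕ) {a b : A} (ha : a ∈ E n τ) (hb : b ∈ E n τ) :
    mon τ (a + b) (add_mem ha hb) = mon τ a ha + mon τ b hb :=
  Subtype.ext (map_add (monomial τ) a b)

theorem mon_eq {τ : κ →₀ ℕ} {a b : A} {ha : a ∈ E n τ} (h : a = b) {hb : b ∈ E n τ} :
    mon τ a ha = mon τ b hb := by
  subst h; rfl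

/-- membership in `K • ⊤ ⊆ L` for an ideal `L`. -/
theorem mem_smul_top_iff {R : Type*} [CommRing R] (K L : Ideal R) (x : L) :
    x ∈ (K • ⊤ : Submodule R L) ↔ x.1 ∈ K * L := by
  have h : (K • ⊤ : Submodule R L).map (Submodule.subtype L) = K * L := by
    rw [Submodule.map_smul'', Submodule.map_top, Submodule.range_subtype, smul_eq_mul]
  constructor
  · intro hx
    rw [← h]
    exact ⟨x, hx, rfl⟩
  · intro hx
    rw [← h] at hx
    obtain ⟨y, hy, hyx⟩ := hx
    have : y = x := Subtype.ext hyx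
    rw [← this]
    exact hy

/-- `I` extended to the multi-Rees algebra. -/
noncomputable abbrev ext (n : κ → Ideal A) (I : Ideal A) : Ideal (RR n) :=
  I.map (algebraMap A (RR n))

theorem cf_mem_of_mem_ext_mul {I J : Ideal A} {f : RR n} (hf : f ∈ ext n I * MJ n J)
    (τ : κ →₀ ℕ) : cf f τ ∈ I * (J * E n τ) := by
  classical
  have hJ : ∀ σ τ, E n σ * (I * (J * E n τ)) ≤ I * (J * E n (σ + τ)) := by
    intro σ τ
    rw [E_add, mul_left_comm, mul_left_comm (E n σ)]
  have h : ext n I * MJ n J ≤ Fil n (fun τ => I * (J * E n τ)) hJ := by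
    rw [Ideal.mul_le]
    intro r hr m hm
    induction hr using Submodule.span_induction with
    | mem r hr =>
      obtain ⟨a, ha, rfl⟩ := hr
      intro τ
      rw [algebraMap_eq_smul, smul_mul_assoc, one_mul, cf_smul]
      exact Ideal.mul_mem_mul ha (hm τ)
    | zero => rw [zero_mul]; exact zero_mem _
    | add x y _ _ hx hy => rw [add_mul]; exact add_mem hx hy
    | smul r x _ hx =>
      rw [smul_mul_assoc]
      exact Submodule.smul_mem _ r hx
  exact h hf τ

theorem mon_mem_ext_mul {I J : Ideal A} {τ : κ →₀ ℕ} {z : A} (hz : z ∈ I * (J * E n τ)) :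
    ∃ h : z ∈ E n τ, mon τ z h ∈ ext n I * MJ n J := by
  refine Submodule.mul_induction_on hz (fun x hx y hy => ?_) fun x y hx hy => ?_
  · have hy' : y ∈ E n τ := mem_E_of_mem hy
    refine ⟨Ideal.mul_mem_left _ x hy', ?_⟩
    have : mon τ (x * y) (Ideal.mul_mem_left _ x hy') =
        algebraMap A (RR n) x * mon τ y hy' := by
      rw [algebraMap_eq_smul, smul_mul_assoc, one_mul]
      apply Subtype.ext
      show monomial τ (x * y) = x • monomial τ y
      rw [smul_monomial, smul_eq_mul]
    rw [this]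
    exact Ideal.mul_mem_mul (Ideal.mem_map_of_mem _ hx) (mon_mem_MJ hy)
  · obtain ⟨h1, h1'⟩ := hx
    obtain ⟨h2, h2'⟩ := hy
    exact ⟨add_mem h1 h2, by rw [mon_add τ h1 h2]; exact add_mem h1' h2'⟩

variable (n) in
/-- `n k → Rees`, `a ↦ a T_k`. -/
noncomputable def lin (k : κ) : ↥(n k) →ₗ[A] RR n where
  toFun a := mon (Finsupp.single k 1) a.1 (by rw [E_single, pow_one]; exact a.2)
  map_add' a b := Subtype.ext (map_add (monomial _) a.1 b.1)
  map_smul' r a := Subtype.ext (by
    show monomial _ (r • a.1) = r • monomial _ a.1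
    rw [smul_monomial])

variable (n) in
/-- the ideal generated by `n_k T_k`. -/
noncomputable def aa (k : κ) : Ideal (RR n) := Ideal.span (Set.range (lin n k))

theorem mon_mem_aa_pow_mul {J : Ideal A} (k : κ) (t : ℕ) (τ : κ →₀ ℕ) {z : A}
    (hz : z ∈ J * E n (Finsupp.single k t + τ)) :
    ∃ h : z ∈ E n (Finsupp.single k t + τ),
      mon (Finsupp.single k t + τ) z h ∈ aa n k ^ t * MJ n J := by
  induction t generalizing z with
  | zero =>
    refine ⟨mem_E_of_mem hz, ?_⟩
    rw [pow_zero, one_mul]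
    exact mon_mem_MJ hz
  | succ t ih =>
    have hτ : Finsupp.single k (t + 1) + τ = Finsupp.single k 1 + (Finsupp.single k t + τ) := by
      rw [← add_assoc, ← Finsupp.single_add, add_comm 1 t]
    have h1 : J * E n (Finsupp.single k (t + 1) + τ) =
        n k * (J * E n (Finsupp.single k t + τ)) := by
      rw [hτ, E_add, E_single, pow_one, mul_left_comm]
    rw [h1] at hz
    refine Submodule.mul_induction_on hz (fun x hx y hy => ?_) fun x y hx hy => ?_
    · obtain ⟨h2, h3⟩ := ih hy
      have h4 : x * y ∈ E n (Finsupp.single k (t + 1) + τ) := by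
        rw [hτ, E_add, E_single, pow_one]
        exact Ideal.mul_mem_mul hx h2
      refine ⟨h4, ?_⟩
      have : mon (Finsupp.single k (t + 1) + τ) (x * y) h4 =
          lin n k ⟨x, hx⟩ * mon (Finsupp.single k t + τ) y h2 := by
        apply Subtype.ext
        show monomial _ (x * y) = monomial _ x * monomial _ y
        rw [monomial_mul, hτ]
      rw [this, pow_succ', mul_assoc]
      exact Ideal.mul_mem_mul (Ideal.subset_span ⟨_, rfl⟩) h3
    · obtain ⟨h1, h1'⟩ := hx
      obtain ⟨h2, h2'⟩ := hy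
      exact ⟨add_mem h1 h2, by rw [mon_add _ h1 h2]; exact add_mem h1' h2'⟩

variable [IsLocalRing A] [IsNoetherianRing A] [Infinite (ResidueField A)]

theorem exists_superficial (J I : Ideal A) (k : κ) :
    ∃ x ∈ n k, ∃ t₀ : ℕ, ∀ τ : κ →₀ ℕ, t₀ ≤ τ k → ∀ z ∈ J * E n τ,
      x * z ∈ I * (J * E n (Finsupp.single k 1 + τ)) → z ∈ I * (J * E n τ) := by
  classical
  let M := MJ n J
  let U : Submodule (RR n) M := ext n I • ⊤
  let G := M ⧸ U
  have hfin := associatedPrimes.finite (RR n) G
  let S : Finset (Ideal (RR n)) := hfin.toFinset.filter fun P => ¬ aa n k ≤ P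
  have hW : ∀ P ∈ S, Submodule.comap (lin n k) (P.restrictScalars A) ≠ ⊤ := by
    intro P hP htop
    rw [Finset.mem_filter] at hP
    refine hP.2 ?_
    rw [aa, Ideal.span_le]
    rintro _ ⟨a, rfl⟩
    have : a ∈ Submodule.comap (lin n k) (P.restrictScalars A) := by rw [htop]; trivial
    exact this
  obtain ⟨x, hx⟩ := exists_notMem_of_ne_top S _ hW
  let u : RR n := lin n k x
  let K : Submodule (RR n) G := LinearMap.ker (LinearMap.lsmul (RR n) G u)
  have hK : aa n k ≤ (Module.annihilator (RR n) K).radical := by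
    rw [← Ideal.sInf_minimalPrimes]
    refine le_sInf fun P hP => ?_
    have hPK : P ∈ associatedPrimes (RR n) K :=
      Module.associatedPrimes.minimalPrimes_annihilator_subset_associatedPrimes (RR n) K hP
    have hPG : P ∈ associatedPrimes (RR n) G :=
      associatedPrimes.subset_of_injective K.subtype_injective hPK
    by_contra hle
    have hPS : P ∈ S := by
      rw [Finset.mem_filter]
      exact ⟨hfin.mem_toFinset.2 hPG, hle⟩
    have huP : u ∈ P := by
      refine hP.1.2 ?_
      rw [Module.mem_annihilator]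
      intro g
      exact Subtype.ext g.2
    exact hx P hPS huP
  obtain ⟨c, hc⟩ := Ideal.exists_pow_le_of_le_radical_of_fg hK
    ((isNoetherianRing_iff_ideal_fg (RR n)).1 inferInstance _)
  obtain ⟨k0, hk0⟩ := Ideal.exists_pow_inf_eq_pow_smul (aa n k) K
  refine ⟨x.1, x.2, k0 + c, fun τ hτ z hz hxz => ?_⟩
  obtain ⟨σ, hσ⟩ : ∃ σ, τ = Finsupp.single k (k0 + c) + σ :=
    ⟨τ - Finsupp.single k (k0 + c), by
      rw [add_tsub_cancel_of_le]
      rwa [Finsupp.single_le_iff]⟩
  have hz' := hz
  rw [hσ] at hz'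
  obtain ⟨h1, h2⟩ := mon_mem_aa_pow_mul k (k0 + c) σ hz'
  let f : M := ⟨mon τ z (mem_E_of_mem hz), mon_mem_MJ hz⟩
  have hf : f ∈ (aa n k ^ (k0 + c) • ⊤ : Submodule (RR n) M) := by
    rw [mem_smul_top_iff]
    have : mon τ z (mem_E_of_mem hz) = mon (Finsupp.single k (k0 + c) + σ) z h1 := by
      apply Subtype.ext
      show monomial τ z = monomial _ z
      rw [hσ]
    show mon τ z (mem_E_of_mem hz) ∈ _
    rw [this]
    exact h2
  have hg1 : U.mkQ f ∈ (aa n k ^ (k0 + c) • ⊤ : Submodule (RR n) G) := by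
    have := Submodule.mem_map_of_mem (f := U.mkQ) hf
    rw [Submodule.map_smul''] at this
    exact Submodule.smul_mono le_rfl le_top this
  have hg2 : U.mkQ f ∈ K := by
    show u • U.mkQ f = 0
    rw [← map_smul, Submodule.mkQ_apply, Submodule.Quotient.mk_eq_zero, mem_smul_top_iff]
    obtain ⟨h3, h4⟩ := mon_mem_ext_mul hxz
    have : ((u • f : M) : RR n) = mon (Finsupp.single k 1 + τ) (x.1 * z) h3 := by
      apply Subtype.ext
      show monomial _ x.1 * monomial τ z = monomial _ _
      rw [monomial_mul]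
    rw [this]
    exact h4
  have hg3 : U.mkQ f = 0 := by
    have h5 : U.mkQ f ∈ aa n k ^ (k0 + c) • ⊤ ⊓ K := ⟨hg1, hg2⟩
    rw [hk0 (k0 + c) (by omega), Nat.add_sub_cancel_left] at h5
    have h6 : aa n k ^ c • (aa n k ^ k0 • ⊤ ⊓ K) ≤ (⊥ : Submodule (RR n) G) := by
      refine (Submodule.smul_mono le_rfl inf_le_right).trans ?_
      rw [Submodule.smul_le]
      intro r hr g hg
      have := Module.mem_annihilator.1 (hc hr) ⟨g, hg⟩
      rw [Submodule.mem_bot]
      exact congrArg Subtype.val this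
    exact (Submodule.mem_bot _).1 (h6 h5)
  rw [Submodule.mkQ_apply, Submodule.Quotient.mk_eq_zero, mem_smul_top_iff] at hg3
  have h7 := cf_mem_of_mem_ext_mul hg3 τ
  have h8 : cf (f : RR n) τ = z := by
    show cf (mon τ z (mem_E_of_mem hz)) τ = z
    rw [cf_mon, if_pos rfl]
  rw [h8] at h7
  exact h7

end Crest.Agent.R188.HB
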