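import Crest.Agent.R188.HB5

/-!
# R188 (Serre positivity), block HB: the Hilbert bound

`hilbert_bound` : `A` Noetherian local domain with infinite residue field, `dim A ≤ b`, `𝔠` an ideal,
`m^c ≤ q`: `∃ C, ∀ t N, length (𝔠^t / q^N 𝔠^t) ≤ C (t + N + 1)^b`.
-/

set_option autoImplicit false
set_option linter.unusedSectionVars false

namespace Crest.Agent.R188.HB

open MvPolynomial IsLocalRing Crest.Agent.R183.M

universe u v

variable {κ : Type v} [Fintype κ] {A : Type u} [CommRing A] {n : κ → Ideal A}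

/-- add one ideal. -/
def optI (n : κ → Ideal A) (q : Ideal A) : Option κ → Ideal A := fun o => o.elim q n

/-- the exponent `(τ, j)`. -/
noncomputable def optE (τ : κ →₀ ℕ) (j : ℕ) : Option κ →₀ ℕ :=
  Finsupp.equivFunOnFinite.symm fun o => o.elim j τ

theorem E_optE (n : κ → Ideal A) (q : Ideal A) (τ : κ →₀ ℕ) (j : ℕ) :
    E (optI n q) (optE τ j) = q ^ j * E n τ := by
  rw [E, Fintype.prod_option, E]
  rfl

theorem optE_add_single (τ : κ →₀ ℕ) (j : ℕ) (k : κ) :
    Finsupp.single (some k) 1 + optE τ j = optE (Finsupp.single k 1 + τ) j := by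
  classical
  ext o
  cases o with
  | none => simp [optE]
  | some i => simp [optE, Finsupp.single_apply]

/-- length of `K / q^N K` for an ideal `K`. -/
theorem lenQ_le_of_injective_mod {J K q : Ideal A} {x : A} (N : ℕ)
    (h1 : ∀ z ∈ J, x * z ∈ K) (h2 : ∀ z ∈ J, x * z ∈ q ^ N * K → z ∈ q ^ N * J) :
    lenQ (q ^ N) ↥J ≤ lenQ (q ^ N) ↥K := by
  let φ : ↥J →ₗ[A] ↥K :=
    { toFun := fun z => ⟨x * z.1, h1 z.1 z.2⟩
      map_add' := fun a b => Subtype.ext (mul_add x a.1 b.1)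
      map_smul' := fun r a => Subtype.ext (by
        show x * (r * a.1) = r * (x * a.1)
        ring) }
  let ψ := ((q ^ N • ⊤ : Submodule A ↥K).mkQ).comp φ
  have hker : LinearMap.ker ψ ≤ q ^ N • ⊤ := by
    intro z hz
    rw [LinearMap.mem_ker, LinearMap.comp_apply, Submodule.mkQ_apply,
      Submodule.Quotient.mk_eq_zero, mem_smul_top_iff] at hz
    rw [mem_smul_top_iff]
    exact h2 z.1 z.2 hz
  unfold lenQ
  refine (Module.length_le_of_surjective (Submodule.factor hker)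
    (Submodule.factor_surjective hker)).trans ?_
  refine Module.length_le_of_injective ((LinearMap.ker ψ).liftQ _ le_rfl) ?_
  rw [← LinearMap.ker_eq_bot]
  exact Submodule.ker_liftQ_eq_bot _ _ _ le_rfl

variable [IsLocalRing A] [IsNoetherianRing A] [Infinite (ResidueField A)]

/-- eventual monotonicity in each variable. -/
theorem exists_mono (n : κ → Ideal A) (J q : Ideal A) (k : κ) :
    ∃ t₀ : ℕ, ∀ (N : ℕ) (τ : κ →₀ ℕ), t₀ ≤ τ k →
      lenQ (q ^ N) ↥(J * E n τ) ≤ lenQ (q ^ N) ↥(J * E n (Finsupp.single k 1 + τ)) := by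
  obtain ⟨x, hx, t₀, h⟩ := exists_superficial (n := optI n q) J q (some k)
  have hx' : x ∈ n k := hx
  refine ⟨t₀, fun N τ hτ => ?_⟩
  refine lenQ_le_of_injective_mod (x := x) N (fun z hz => ?_) fun z hz hxz => ?_
  · rw [E_add, E_single, pow_one, mul_left_comm]
    exact Ideal.mul_mem_mul hx' hz
  · induction N with
    | zero => simpa using hz
    | succ N ih =>
      have h1 : z ∈ q ^ N * (J * E n τ) :=
        ih (Ideal.mul_mono_left (Ideal.pow_le_pow_right (Nat.le_succ N)) hxz)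
      have h2 : z ∈ J * E (optI n q) (optE τ N) := by
        rw [E_optE, mul_left_comm]; exact h1
      have h3 := h (optE τ N) hτ z h2 (by
        rw [optE_add_single, E_optE, mul_left_comm J, ← mul_assoc, ← pow_succ']
        exact hxz)
      rw [E_optE, mul_left_comm J, ← mul_assoc, ← pow_succ'] at h3
      exact h3

theorem enat_le_of_mul_le {m : ℕ} (hm : m ≠ 0) {a b : ℕ∞} (h : (m : ℕ∞) * a ≤ m * b) : a ≤ b := by
  induction b using ENat.recTopCoe with
  | top => exact le_top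
  | coe b =>
    induction a using ENat.recTopCoe with
    | top =>
      rw [ENat.mul_top (by exact_mod_cast hm)] at h
      exact absurd (top_le_iff.1 h) (by exact_mod_cast ENat.natCast_ne_top (m * b))
    | coe a =>
      have h' : m * a ≤ m * b := by exact_mod_cast h
      exact_mod_cast Nat.le_of_mul_le_mul_left h' (Nat.pos_of_ne_zero hm)

theorem growth_lenQ (M : Type*) [AddCommGroup M] [Module A M] [Module.Finite A M] (b : ℕ)
    (hb : ringKrullDim A ≤ b) (q : Ideal A) (c : ℕ) (hc : maximalIdeal A ^ c ≤ q) :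
    ∃ C : ℕ, ∀ N : ℕ, lenQ (q ^ N) M ≤ C * (N : ℕ∞) ^ b := by
  obtain ⟨C, hC⟩ := growth_module A M b ((Module.supportDim_le_ringKrullDim _ _).trans hb)
  refine ⟨C * c ^ b, fun N => ?_⟩
  have h1 : maximalIdeal A ^ (c * N) ≤ q ^ N := by
    rw [pow_mul]; exact Ideal.pow_right_mono hc N
  refine (lenQ_mono h1).trans ((hC _).trans (le_of_eq ?_))
  push_cast
  rw [mul_pow, mul_assoc]

/-- **The Hilbert bound** for one ideal. -/
theorem hilbert_bound [IsDomain A] (𝔠 q : Ideal A) (c b : ℕ) (hc : maximalIdeal A ^ c ≤ q)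
    (hb : ringKrullDim A ≤ b) :
    ∃ C : ℕ, ∀ t N : ℕ, lenQ (q ^ N) ↥(𝔠 ^ t) ≤ C * ((t + N + 1 : ℕ) : ℕ∞) ^ b := by
  classical
  -- small `t`
  have hsmall : ∀ t : ℕ, ∃ C : ℕ, ∀ N : ℕ, lenQ (q ^ N) ↥(𝔠 ^ t) ≤ C * (N : ℕ∞) ^ b :=
    fun t => growth_lenQ ↥(𝔠 ^ t) b hb q c hc
  choose Cs hCs using hsmall
  by_cases h0 : 𝔠 = ⊥
  · refine ⟨Cs 0, fun t N => ?_⟩
    rcases Nat.eq_zero_or_pos t with rfl | ht
    · refine (hCs 0 N).trans ?_
      gcongr
      omega
    · have : Subsingleton ↥(𝔠 ^ t) := by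
        rw [h0, Ideal.bot_pow ht.ne']
        infer_instance
      unfold lenQ
      rw [Module.length_eq_zero]
      exact zero_le
  let n : Unit → Ideal A := fun _ => 𝔠
  have hE : ∀ t : ℕ, ⊤ * E n (Finsupp.single () t) = 𝔠 ^ t := by
    intro t
    rw [Ideal.top_mul, E_single]
  obtain ⟨t₀, hmono⟩ := exists_mono n ⊤ q ()
  have hmono' : ∀ t N, t₀ ≤ t → lenQ (q ^ N) ↥(𝔠 ^ t) ≤ lenQ (q ^ N) ↥(𝔠 ^ (t + 1)) := by
    intro t N ht
    have := hmono N (Finsupp.single () t) (by simpa using ht)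
    rw [← Finsupp.single_add, hE, add_comm 1 t, hE] at this
    exact this
  have hmono2 : ∀ t N, t₀ ≤ t → ∀ i, lenQ (q ^ N) ↥(𝔠 ^ t) ≤ lenQ (q ^ N) ↥(𝔠 ^ (t + i)) := by
    intro t N ht i
    induction i with
    | zero => exact le_rfl
    | succ i ih => exact ih.trans (hmono' (t + i) N (by omega))
  obtain ⟨C, hC⟩ := total_bound (n := n) (fun _ => h0) ⊤ q c hc b hb
  let T : ℕ → ℕ → Finset (Unit →₀ ℕ) := fun t N =>
    (Finset.range (t + N + 1)).image fun i => Finsupp.single () (t + i)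
  have htot : ∀ t N, ∑ i ∈ Finset.range (t + N + 1), lenQ (q ^ N) ↥(𝔠 ^ (t + i)) ≤
      C * ((2 * t + 2 * N : ℕ) : ℕ∞) ^ (b + 1) := by
    intro t N
    have h1 := hC (T t N) N (2 * t + N) (by
      intro τ hτ
      obtain ⟨i, hi, rfl⟩ := Finset.mem_image.1 hτ
      rw [Finset.mem_range] at hi
      rw [Finsupp.degree_single]
      omega)
    rw [Finset.sum_image (by
      intro i _ j _ hij
      have := congrArg (fun f => f ()) hij
      simpa using this)] at h1
    have h2 : ∑ i ∈ Finset.range (t + N + 1), lenQ (q ^ N) ↥(𝔠 ^ (t + i)) =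
        ∑ i ∈ Finset.range (t + N + 1),
          lenQ (q ^ N) ↥(⊤ * E n (Finsupp.single () (t + i))) :=
      Finset.sum_congr rfl fun i _ => by rw [hE]
    rw [Fintype.card_unit] at h1
    rw [h2]
    refine h1.trans (le_of_eq ?_)
    congr 3
    omega
  refine ⟨C * 2 ^ (b + 1) + ∑ t ∈ Finset.range t₀, Cs t, fun t N => ?_⟩
  rcases lt_or_ge t t₀ with ht | ht
  · refine (hCs t N).trans ?_
    have h1 : Cs t ≤ C * 2 ^ (b + 1) + ∑ t ∈ Finset.range t₀, Cs t :=
      (Finset.single_le_sum (f := Cs) (fun _ _ => Nat.zero_le _) (Finset.mem_range.2 ht)).trans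
        (Nat.le_add_left _ _)
    gcongr
    omega
  · have h1 : ((t + N + 1 : ℕ) : ℕ∞) * lenQ (q ^ N) ↥(𝔠 ^ t) ≤
        ((t + N + 1 : ℕ) : ℕ∞) * ((C * 2 ^ (b + 1) : ℕ) * ((t + N + 1 : ℕ) : ℕ∞) ^ b) := by
      calc ((t + N + 1 : ℕ) : ℕ∞) * lenQ (q ^ N) ↥(𝔠 ^ t)
          = ∑ i ∈ Finset.range (t + N + 1), lenQ (q ^ N) ↥(𝔠 ^ t) := by
            rw [Finset.sum_const, Finset.card_range, nsmul_eq_mul]
        _ ≤ ∑ i ∈ Finset.range (t + N + 1), lenQ (q ^ N) ↥(𝔠 ^ (t + i)) :=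
            Finset.sum_le_sum fun i _ => hmono2 t N ht i
        _ ≤ C * ((2 * t + 2 * N : ℕ) : ℕ∞) ^ (b + 1) := htot t N
        _ ≤ C * ((2 * (t + N + 1) : ℕ) : ℕ∞) ^ (b + 1) := by
            gcongr
            omega
        _ = ((t + N + 1 : ℕ) : ℕ∞) *
              ((C * 2 ^ (b + 1) : ℕ) * ((t + N + 1 : ℕ) : ℕ∞) ^ b) := by
            generalize t + N + 1 = m
            push_cast
            rw [mul_pow, pow_succ (m : ℕ∞) b]
            ring
    refine (enat_le_of_mul_le (Nat.succ_ne_zero _) h1).trans ?_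
    gcongr
    exact Nat.le_add_right _ _

/-- `R/P` with `P` the maximal ideal of a local ring. -/
theorem length_le_lenQ_of_residue {B : Type*} [CommRing B] [Algebra B A]
    (hs : Function.Surjective (algebraMap B (ResidueField A))) (q : Ideal A) (c : ℕ)
    (hc : maximalIdeal A ^ c ≤ q) (M : Type*) [AddCommGroup M] [Module A M] [Module B M]
    [IsScalarTower B A M] (N : ℕ) :
    Module.length B (M ⧸ (q ^ N • ⊤ : Submodule A M)) ≤ lenQ (q ^ N) M := by
  unfold lenQ
  refine length_le_of_surjective_residue (maximalIdeal A) hs _ (c * N) ?_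
  intro r hr x
  obtain ⟨y, rfl⟩ := (q ^ N • ⊤ : Submodule A M).mkQ_surjective x
  have h1 : maximalIdeal A ^ (c * N) ≤ q ^ N := by
    rw [pow_mul]; exact Ideal.pow_right_mono hc N
  rw [← map_smul, Submodule.mkQ_apply, Submodule.Quotient.mk_eq_zero]
  exact Submodule.smul_mem_smul (h1 hr) Submodule.mem_top

/-- **The Hilbert bound** with lengths over `B`, `B → A` with the same residue field. -/
theorem hilbert_bound_over [IsDomain A] {B : Type*} [CommRing B] [Algebra B A]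
    (hs : Function.Surjective (algebraMap B (ResidueField A)))
    (𝔠 q : Ideal A) (c b : ℕ) (hc : maximalIdeal A ^ c ≤ q) (hb : ringKrullDim A ≤ b) :
    ∃ C : ℕ, ∀ t N : ℕ, Module.length B (↥(𝔠 ^ t) ⧸ (q ^ N • ⊤ : Submodule A ↥(𝔠 ^ t))) ≤
      C * ((t + N + 1 : ℕ) : ℕ∞) ^ b := by
  obtain ⟨C, hC⟩ := hilbert_bound 𝔠 q c b hc hb
  exact ⟨C, fun t N => (length_le_lenQ_of_residue hs q c hc _ N).trans (hC t N)⟩

end Crest.Agent.R188.HB
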