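import Mathlib
import Crest.Agent.R183.AddLen
import Crest.Agent.R188.ChiAdd

/-!
# R188, block A4 (helper546), part 1: additive length of subquotients; concrete complexes
-/

set_option autoImplicit false

namespace Crest.Agent.R188.Kos

open scoped ENNReal
open Crest.Agent.R183

universe u v

/-! ## Length of subquotients -/

section Sq

variable {A : Type u} [CommRing A] (Λ : AddLen.{u, v} A)
variable {M N Z : Type v} [AddCommGroup M] [Module A M] [AddCommGroup N] [Module A N]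
  [AddCommGroup Z] [Module A Z]

/-- The additive length of the subquotient `Q / (P ∩ Q)`. -/
noncomputable def sq (P Q : Submodule A M) : ℝ≥0∞ := Λ.L (Q.map P.mkQ)

/-- Computation of `sq` by a parametrisation of `Q` modulo `P`. -/
theorem sq_eq {P Q : Submodule A M} (α : Z →ₗ[A] M) (h1 : ∀ q ∈ Q, ∃ z, q - α z ∈ P)
    (h2 : ∀ z, ∃ q ∈ Q, q - α z ∈ P) : sq Λ P Q = Λ.L (Z ⧸ P.comap α) := by
  have hr : LinearMap.range (P.mkQ.comp α) = Q.map P.mkQ := by
    apply le_antisymm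
    · rintro _ ⟨z, rfl⟩
      obtain ⟨q, hq, hqz⟩ := h2 z
      refine ⟨q, hq, ?_⟩
      rw [LinearMap.comp_apply, Submodule.mkQ_apply, Submodule.mkQ_apply, Submodule.Quotient.eq]
      exact hqz
    · rintro _ ⟨q, hq, rfl⟩
      obtain ⟨z, hz⟩ := h1 q hq
      refine ⟨z, ?_⟩
      rw [LinearMap.comp_apply, Submodule.mkQ_apply, Submodule.mkQ_apply, eq_comm,
        Submodule.Quotient.eq]
      exact hz
  have hk : LinearMap.ker (P.mkQ.comp α) = P.comap α := by
    rw [LinearMap.ker_comp, Submodule.ker_mkQ]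
  unfold sq
  rw [← hr, ← hk]
  exact (Λ.L_congr (P.mkQ.comp α).quotKerEquivRange).symm

/-- Two subquotients in correspondence have the same length. -/
theorem sq_congr {P Q : Submodule A M} {P' Q' : Submodule A N} (α : Z →ₗ[A] M) (β : Z →ₗ[A] N)
    (h1 : ∀ q ∈ Q, ∃ z, q - α z ∈ P) (h2 : ∀ z, ∃ q ∈ Q, q - α z ∈ P)
    (h1' : ∀ q ∈ Q', ∃ z, q - β z ∈ P') (h2' : ∀ z, ∃ q ∈ Q', q - β z ∈ P')
    (h3 : ∀ z, α z ∈ P ↔ β z ∈ P') : sq Λ P Q = sq Λ P' Q' := by
  rw [sq_eq Λ α h1 h2, sq_eq Λ β h1' h2']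
  have : P.comap α = P'.comap β := by
    ext z
    exact h3 z
  rw [this]

theorem sq_add {P Q R : Submodule A M} (h1 : P ≤ Q) (h2 : Q ≤ R) :
    sq Λ P R = sq Λ P Q + sq Λ Q R := by
  have e1 : sq Λ P R = Λ.L (R ⧸ P.comap R.subtype) :=
    sq_eq Λ R.subtype (fun q hq => ⟨⟨q, hq⟩, by simp⟩) (fun z => ⟨z, z.2, by simp⟩)
  have e2 : sq Λ Q R = Λ.L (R ⧸ Q.comap R.subtype) :=
    sq_eq Λ R.subtype (fun q hq => ⟨⟨q, hq⟩, by simp⟩) (fun z => ⟨z, z.2, by simp⟩)
  rw [e1, e2, Λ.L_quotient_add (Q.comap R.subtype) (P.comap R.subtype)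
    (Submodule.comap_mono h1)]
  congr 1
  refine (sq_congr (M := M) (N := R) (Z := R.comap Q.subtype) Λ (P := P) (Q := Q)
    (P' := P.comap R.subtype) (Q' := Q.comap R.subtype) (Q.subtype ∘ₗ Submodule.subtype _)
    ((Q.subtype ∘ₗ Submodule.subtype _).codRestrict R fun z => z.2) ?_ ?_ ?_ ?_ ?_).symm
  · intro q hq
    exact ⟨⟨⟨q, hq⟩, h2 hq⟩, by simp⟩
  · intro z
    exact ⟨z.1, z.1.2, by simp⟩
  · intro q hq
    refine ⟨⟨⟨q.1, hq⟩, q.2⟩, ?_⟩
    rw [Submodule.mem_comap]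
    simp
  · intro z
    refine ⟨⟨z.1, z.2⟩, z.1.2, ?_⟩
    rw [Submodule.mem_comap]
    simp
  · intro z
    rfl

theorem sq_self (P : Submodule A M) : sq Λ P P = 0 := by
  have : sq Λ P P = Λ.L (P ⧸ P.comap P.subtype) :=
    sq_eq Λ P.subtype (fun q hq => ⟨⟨q, hq⟩, by simp⟩) (fun z => ⟨z, z.2, by simp⟩)
  rw [this]
  have : Subsingleton (P ⧸ P.comap P.subtype) := by
    rw [Submodule.Quotient.subsingleton_iff]
    simp
  exact Λ.L_subsingleton

theorem sq_eq_quot (P Q : Submodule A M) : sq Λ P Q = Λ.L (Q ⧸ P.comap Q.subtype) :=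
  sq_eq Λ Q.subtype (fun q hq => ⟨⟨q, hq⟩, by simp⟩) (fun z => ⟨z, z.2, by simp⟩)

theorem sq_mono_right (P : Submodule A M) {Q R : Submodule A M} (h : Q ≤ R) :
    sq Λ P Q ≤ sq Λ P R := by
  unfold sq
  exact Λ.L_le_of_injective (Submodule.inclusion (Submodule.map_mono h))
    (Submodule.inclusion_injective _)

theorem sq_anti_left {P P' : Submodule A M} (Q : Submodule A M) (h : P ≤ P') :
    sq Λ P' Q ≤ sq Λ P Q := by
  rw [sq_eq_quot, sq_eq_quot]
  exact Λ.L_le_of_surjective (Submodule.factor (Submodule.comap_mono h))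
    (Submodule.factor_surjective _)

end Sq

/-! ## Concrete complexes -/

/-- An `ℕ`-graded homological complex of `A`-modules. -/
structure Cx (A : Type u) [CommRing A] where
  X : ℕ → Type v
  [grp : ∀ n, AddCommGroup (X n)]
  [mod : ∀ n, Module A (X n)]
  d : ∀ n, X (n + 1) →ₗ[A] X n
  dd : ∀ n (x : X (n + 2)), d n (d (n + 1) x) = 0

attribute [instance] Cx.grp Cx.mod

variable {A : Type u} [CommRing A]

namespace Cx

variable (C : Cx.{u, v} A)

theorem isCx : Chi.IsCx C.d := C.dd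

/-- cycles -/
abbrev cyc (n : ℕ) : Submodule A (C.X n) := Chi.Z C.d n

/-- boundaries -/
abbrev bdy (n : ℕ) : Submodule A (C.X n) := Chi.B C.d n

theorem mem_cyc_zero (x : C.X 0) : x ∈ C.cyc 0 := trivial

@[simp] theorem mem_cyc_succ {n : ℕ} (x : C.X (n + 1)) : x ∈ C.cyc (n + 1) ↔ C.d n x = 0 := Iff.rfl

theorem mem_bdy {n : ℕ} (x : C.X n) : x ∈ C.bdy n ↔ ∃ y, C.d n y = x := Iff.rfl

theorem d_mem_bdy {n : ℕ} (y : C.X (n + 1)) : C.d n y ∈ C.bdy n := ⟨y, rfl⟩

theorem d_mem_cyc {n : ℕ} (y : C.X (n + 1)) : C.d n y ∈ C.cyc n := by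
  cases n with
  | zero => trivial
  | succ k => exact C.dd k y

theorem bdy_le_cyc (n : ℕ) : C.bdy n ≤ C.cyc n := by
  rintro _ ⟨y, rfl⟩
  exact C.d_mem_cyc y

/-- homology -/
abbrev H (n : ℕ) : Type v := Chi.H C.d n

/-- class of a cycle -/
abbrev toH (n : ℕ) : C.cyc n →ₗ[A] C.H n := Chi.cls C.d n

theorem toH_surjective (n : ℕ) : Function.Surjective (C.toH n) := Submodule.mkQ_surjective _

theorem toH_eq_zero {n : ℕ} (x : C.cyc n) : C.toH n x = 0 ↔ x.1 ∈ C.bdy n :=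
  Chi.cls_eq_zero_iff x

variable (Λ : AddLen.{u, v} A)

/-- additive length of the homology -/
noncomputable abbrev l (n : ℕ) : ℝ≥0∞ := Chi.h Λ C.d n

theorem l_eq_sq (n : ℕ) : C.l Λ n = sq Λ (C.bdy n) (C.cyc n) := by
  rw [sq_eq_quot]; rfl

theorem subsingleton_H_iff (n : ℕ) : Subsingleton (C.H n) ↔ C.cyc n ≤ C.bdy n := by
  constructor
  · intro h x hx
    have : C.toH n ⟨x, hx⟩ = 0 := Subsingleton.elim _ _
    rwa [toH_eq_zero] at this
  · intro h
    refine ⟨fun a b => ?_⟩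
    obtain ⟨x, rfl⟩ := C.toH_surjective n a
    obtain ⟨y, rfl⟩ := C.toH_surjective n b
    rw [← sub_eq_zero, ← map_sub, toH_eq_zero]
    exact h (x - y).2

/-- `H_0 = X_0 / d X_1`. -/
noncomputable def H0equiv : C.H 0 ≃ₗ[A] (C.X 0 ⧸ C.bdy 0) := by
  refine Submodule.Quotient.equiv _ _ (Submodule.topEquiv : (⊤ : Submodule A (C.X 0)) ≃ₗ[A] C.X 0) ?_
  ext x
  constructor
  · rintro ⟨y, hy, rfl⟩
    exact hy
  · intro hx
    exact ⟨⟨x, trivial⟩, hx, rfl⟩

end Cx

/-- Morphisms of complexes. -/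
structure Cx.Hom (C D : Cx.{u, v} A) where
  f : ∀ n, C.X n →ₗ[A] D.X n
  comm : ∀ n x, f n (C.d n x) = D.d n (f (n + 1) x)

namespace Cx.Hom

variable {C D E : Cx.{u, v} A}

theorem map_cyc (φ : C.Hom D) {n : ℕ} {x : C.X n} (hx : x ∈ C.cyc n) : φ.f n x ∈ D.cyc n := by
  cases n with
  | zero => trivial
  | succ k =>
    rw [mem_cyc_succ] at hx ⊢
    rw [← φ.comm, hx, map_zero]

theorem map_bdy (φ : C.Hom D) {n : ℕ} {x : C.X n} (hx : x ∈ C.bdy n) : φ.f n x ∈ D.bdy n := by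
  obtain ⟨y, rfl⟩ := hx
  exact ⟨φ.f _ y, (φ.comm n y).symm⟩

/-- induced map on homology -/
noncomputable abbrev mapH (φ : C.Hom D) (n : ℕ) : C.H n →ₗ[A] D.H n :=
  Chi.Hmap (d := C.d) (d' := D.d) (f := φ.f) φ.comm n

theorem mapH_toH (φ : C.Hom D) (n : ℕ) (x : C.cyc n) :
    φ.mapH n (C.toH n x) = D.toH n ⟨φ.f n x, φ.map_cyc x.2⟩ := rfl

/-- composition -/
def comp (ψ : D.Hom E) (φ : C.Hom D) : C.Hom E where
  f n := (ψ.f n).comp (φ.f n)
  comm n x := by
    rw [LinearMap.comp_apply, φ.comm, ψ.comm]; rfl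

/-- identity -/
protected def id (C : Cx.{u, v} A) : C.Hom C where
  f _ := LinearMap.id
  comm _ _ := rfl

/-- multiplication by a scalar -/
def smul (C : Cx.{u, v} A) (a : A) : C.Hom C where
  f _ := a • LinearMap.id
  comm n x := by simp

end Cx.Hom

/-- Isomorphisms of complexes. -/
structure Cx.Iso (C D : Cx.{u, v} A) where
  e : ∀ n, C.X n ≃ₗ[A] D.X n
  comm : ∀ n x, e n (C.d n x) = D.d n (e (n + 1) x)

namespace Cx.Iso

variable {C D E : Cx.{u, v} A}

/-- the underlying morphism -/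
def hom (φ : C.Iso D) : C.Hom D where
  f n := (φ.e n).toLinearMap
  comm := φ.comm

/-- inverse -/
def symm (φ : C.Iso D) : D.Iso C where
  e n := (φ.e n).symm
  comm n x := by
    apply (φ.e n).injective
    rw [φ.comm]
    simp

/-- identity -/
protected def refl (C : Cx.{u, v} A) : C.Iso C where
  e _ := LinearEquiv.refl A _
  comm _ _ := rfl

/-- composition -/
def trans (φ : C.Iso D) (ψ : D.Iso E) : C.Iso E where
  e n := (φ.e n).trans (ψ.e n)
  comm n x := by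
    show ψ.e n (φ.e n (C.d n x)) = _
    rw [φ.comm, ψ.comm]; rfl

/-- isomorphism on homology -/
noncomputable def mapH (φ : C.Iso D) (n : ℕ) : C.H n ≃ₗ[A] D.H n :=
  Chi.Hiso (d := C.d) (d' := D.d) φ.e φ.comm n

theorem l_eq (φ : C.Iso D) (Λ : AddLen.{u, v} A) (n : ℕ) : C.l Λ n = D.l Λ n :=
  Λ.L_congr (φ.mapH n)

end Cx.Iso

/-! ## Long exact sequence -/

/-- Degreewise short exact sequence of complexes. -/
structure Ses (C' C C'' : Cx.{u, v} A) where
  i : C'.Hom C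
  p : C.Hom C''
  inj : ∀ n, Function.Injective (i.f n)
  surj : ∀ n, Function.Surjective (p.f n)
  exact : ∀ n, Function.Exact (i.f n) (p.f n)

namespace Ses

variable {C' C C'' : Cx.{u, v} A} (S : Ses C' C C'') (Λ : AddLen.{u, v} A)

include S in
/-- Numerical form of the long exact sequence. -/
theorem les : ∃ k a b : ℕ → ℝ≥0∞, (∀ n, C'.l Λ n = k n + a n) ∧ (∀ n, C.l Λ n = a n + b n) ∧
    C''.l Λ 0 = b 0 ∧ ∀ n, C''.l Λ (n + 1) = b (n + 1) + k n := by
  classical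
  have hpi : ∀ n x, S.p.f n (S.i.f n x) = 0 := fun n x => (S.exact n _).2 ⟨x, rfl⟩
  -- `k n = L(ker (H_n C' → H_n C))`, `a n = L(image)`, `b n = L(image of H_n C in H_n C'')`
  refine ⟨fun n => sq Λ (C'.bdy n) ((C.bdy n).comap (S.i.f n)),
    fun n => sq Λ ((C.bdy n).comap (S.i.f n)) (C'.cyc n),
    fun n => sq Λ (C''.bdy n) ((C.cyc n).map (S.p.f n)), ?_, ?_, ?_, ?_⟩
  · intro n
    rw [Cx.l_eq_sq]
    refine sq_add Λ ?_ ?_
    · intro x hx
      exact S.i.map_bdy hx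
    · intro x hx
      rw [Submodule.mem_comap] at hx
      cases n with
      | zero => trivial
      | succ m =>
        rw [Cx.mem_cyc_succ]
        apply S.inj
        rw [S.i.comm, map_zero]
        exact C.bdy_le_cyc _ hx
  · intro n
    rw [Cx.l_eq_sq]
    -- middle term: `bdy + (im i ∩ cyc)`
    rw [sq_add Λ (Q := C.bdy n ⊔ (C'.cyc n).map (S.i.f n)) le_sup_left
      (sup_le (C.bdy_le_cyc n) (by
        rintro _ ⟨x, hx, rfl⟩
        exact S.i.map_cyc hx))]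
    congr 1
    · refine sq_congr (Z := C'.cyc n) Λ ((S.i.f n).comp (Submodule.subtype _))
        (Submodule.subtype _) ?_ ?_ ?_ ?_ ?_
      · intro q hq
        obtain ⟨x, hx, y, ⟨z, hz, rfl⟩, rfl⟩ := Submodule.mem_sup.1 hq
        exact ⟨⟨z, hz⟩, by simpa using hx⟩
      · intro z
        exact ⟨S.i.f n z, Submodule.mem_sup_right ⟨z, z.2, rfl⟩, by simp⟩
      · intro q hq
        exact ⟨⟨q, hq⟩, by simp⟩
      · intro z
        exact ⟨z, z.2, by simp⟩
      · intro z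
        rfl
    · refine sq_congr (Z := C.cyc n) Λ (Submodule.subtype _)
        ((S.p.f n).comp (Submodule.subtype _)) ?_ ?_ ?_ ?_ ?_
      · intro q hq
        exact ⟨⟨q, hq⟩, by simp⟩
      · intro z
        exact ⟨z, z.2, by simp⟩
      · rintro _ ⟨q, hq, rfl⟩
        exact ⟨⟨q, hq⟩, by simp⟩
      · intro z
        exact ⟨S.p.f n z, ⟨z, z.2, rfl⟩, by simp⟩
      · rintro ⟨z, hz⟩
        show z ∈ _ ↔ S.p.f n z ∈ _
        constructor
        · intro h
          obtain ⟨x, hx, y, ⟨w, hw, rfl⟩, rfl⟩ := Submodule.mem_sup.1 h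
          rw [map_add, hpi, add_zero]
          exact S.p.map_bdy hx
        · rintro ⟨y, hy⟩
          obtain ⟨y, rfl⟩ := S.surj _ y
          rw [← S.p.comm] at hy
          have h1 : S.p.f n (z - C.d n y) = 0 := by rw [map_sub, hy, sub_self]
          obtain ⟨w, hw⟩ := (S.exact n _).1 h1
          have hwc : w ∈ C'.cyc n := by
            cases n with
            | zero => trivial
            | succ m =>
              rw [Cx.mem_cyc_succ]
              apply S.inj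
              rw [S.i.comm, hw, map_zero, map_sub, C.dd, sub_zero]
              exact hz
          rw [← sub_add_cancel z (C.d n y), ← hw, add_comm]
          exact Submodule.add_mem_sup ⟨y, rfl⟩ ⟨w, hwc, rfl⟩
  · rw [Cx.l_eq_sq]
    congr 1
    apply le_antisymm
    · intro x _
      obtain ⟨y, rfl⟩ := S.surj _ x
      exact ⟨y, trivial, rfl⟩
    · exact le_top
  · intro n
    rw [Cx.l_eq_sq]
    rw [sq_add Λ (Q := (C.cyc (n + 1)).map (S.p.f (n + 1))) (by
        rintro _ ⟨y, rfl⟩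
        obtain ⟨y, rfl⟩ := S.surj _ y
        rw [← S.p.comm]
        exact ⟨C.d _ y, C.d_mem_cyc y, rfl⟩) (by
        rintro _ ⟨x, hx, rfl⟩
        exact S.p.map_cyc hx)]
    congr 1
    -- the connecting homomorphism
    let Z : Submodule A (C.X (n + 1) × C'.X n) :=
      LinearMap.eqLocus ((C.d n).comp (LinearMap.fst A _ _)) ((S.i.f n).comp (LinearMap.snd A _ _))
    have hZ : ∀ z : Z, C.d n z.1.1 = S.i.f n z.1.2 := fun z => z.2
    refine sq_congr (Z := Z) Λ ((S.p.f (n + 1)).comp ((LinearMap.fst A _ _).comp Z.subtype))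
      ((LinearMap.snd A _ _).comp Z.subtype) ?_ ?_ ?_ ?_ ?_
    · intro q hq
      obtain ⟨x, rfl⟩ := S.surj _ q
      rw [Cx.mem_cyc_succ, ← S.p.comm] at hq
      obtain ⟨w, hw⟩ := (S.exact n _).1 hq
      exact ⟨⟨(x, w), hw.symm⟩, by simp⟩
    · intro z
      refine ⟨S.p.f (n + 1) z.1.1, ?_, by simp⟩
      rw [Cx.mem_cyc_succ, ← S.p.comm, hZ, hpi]
    · intro q hq
      obtain ⟨x, hx⟩ := hq
      exact ⟨⟨(x, q), hx⟩, by simp⟩
    · intro z
      exact ⟨z.1.2, ⟨z.1.1, hZ z⟩, by simp⟩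
    · intro z
      show S.p.f (n + 1) z.1.1 ∈ _ ↔ z.1.2 ∈ _
      constructor
      · rintro ⟨c, hc, hcz⟩
        have h1 : S.p.f (n + 1) (z.1.1 - c) = 0 := by rw [map_sub, hcz, sub_self]
        obtain ⟨w, hw⟩ := (S.exact _ _).1 h1
        refine ⟨w, ?_⟩
        apply S.inj
        rw [S.i.comm, hw, map_sub, hZ, (C.mem_cyc_succ c).1 hc, sub_zero]
      · rintro ⟨w, hw⟩
        refine ⟨z.1.1 - S.i.f _ w, ?_, ?_⟩
        · show C.d n _ = 0
          rw [map_sub, hZ, ← hw, S.i.comm, sub_self]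
        · rw [map_sub, hpi, sub_zero]

include S in
theorem l_le (n : ℕ) : C.l Λ n ≤ C'.l Λ n + C''.l Λ n := by
  obtain ⟨k, a, b, h1, h2, h3, h4⟩ := S.les Λ
  have h5 : b n ≤ C''.l Λ n := by
    cases n with
    | zero => exact h3.ge
    | succ m => rw [h4]; exact le_self_add
  rw [h2, h1]
  exact add_le_add le_add_self h5

include S in
theorem l_left_le (n : ℕ) : C'.l Λ n ≤ C.l Λ n + C''.l Λ (n + 1) := by
  obtain ⟨k, a, b, h1, h2, h3, h4⟩ := S.les Λ
  rw [h2, h1, h4, add_comm]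
  exact add_le_add le_self_add le_add_self

include S in
theorem l_right_le (n : ℕ) : C''.l Λ (n + 1) ≤ C.l Λ (n + 1) + C'.l Λ n := by
  obtain ⟨k, a, b, h1, h2, h3, h4⟩ := S.les Λ
  rw [h2, h1, h4]
  exact add_le_add le_add_self le_self_add

include S in
theorem l_right_zero_le : C''.l Λ 0 ≤ C.l Λ 0 := by
  obtain ⟨k, a, b, h1, h2, h3, h4⟩ := S.les Λ
  rw [h2, h3]
  exact le_add_self

end Ses

end Crest.Agent.R188.Kos
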