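import Crest.Agent.R188.Kos1

/-!
# R188, block A4 (helper546), part 2: cones of multiplications, null-homotopy ideal, Koszul
complexes of lists
-/

set_option autoImplicit false

namespace Crest.Agent.R188.Kos

open scoped ENNReal
open Crest.Agent.R183

universe u v

variable {A : Type u} [CommRing A]

namespace Cx

/-- terms of the cone -/
def coneX (C : Cx.{u, v} A) : ℕ → Type v
  | 0 => C.X 0
  | (n + 1) => C.X (n + 1) × C.X n

instance coneGrp (C : Cx.{u, v} A) : ∀ n, AddCommGroup (C.coneX n)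
  | 0 => C.grp 0
  | (n + 1) => inferInstanceAs (AddCommGroup (C.X (n + 1) × C.X n))

instance coneMod (C : Cx.{u, v} A) : ∀ n, Module A (C.coneX n)
  | 0 => C.mod 0
  | (n + 1) => inferInstanceAs (Module A (C.X (n + 1) × C.X n))

/-- differential of the cone: `(x, y) ↦ (d x + b y, - d y)`. -/
def coned (C : Cx.{u, v} A) (b : A) : ∀ n, C.coneX (n + 1) →ₗ[A] C.coneX n
  | 0 => (LinearMap.coprod (C.d 0) (b • LinearMap.id) : C.X 1 × C.X 0 →ₗ[A] C.X 0)
  | (n + 1) => (LinearMap.prod (LinearMap.coprod (C.d (n + 1)) (b • LinearMap.id))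
      (-(C.d n ∘ₗ LinearMap.snd A _ _)) :
      C.X (n + 2) × C.X (n + 1) →ₗ[A] C.X (n + 1) × C.X n)

/-- The cone of the multiplication by `b`, i.e. `K(b) ⊗ C`. -/
def cone (C : Cx.{u, v} A) (b : A) : Cx.{u, v} A where
  X := C.coneX
  d := C.coned b
  dd := by
    intro n
    cases n with
    | zero =>
      rintro ⟨x, y⟩
      show C.d 0 (C.d 1 x + b • y) + b • (-(C.d 0 y)) = 0
      rw [map_add, C.dd, map_smul]
      simp
    | succ n =>
      rintro ⟨x, y⟩
      refine Prod.ext ?_ ?_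
      · show C.d (n + 1) (C.d (n + 2) x + b • y) + b • (-(C.d (n + 1) y)) = 0
        rw [map_add, C.dd, map_smul]
        simp
      · show -(C.d n (-(C.d (n + 1) y))) = 0
        rw [map_neg, C.dd]
        simp

variable (C : Cx.{u, v} A) (b : A)

theorem cone_d_zero (x : C.X 1) (y : C.X 0) : (C.cone b).d 0 (x, y) = C.d 0 x + b • y := rfl

theorem cone_d_succ (n : ℕ) (x : C.X (n + 2)) (y : C.X (n + 1)) :
    (C.cone b).d (n + 1) (x, y) = (C.d (n + 1) x + b • y, -(C.d n y)) := rfl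

theorem mem_cone_bdy_zero (x : C.X 0) :
    x ∈ (C.cone b).bdy 0 ↔ ∃ u w, C.d 0 u + b • w = x := by
  constructor
  · rintro ⟨⟨u, w⟩, h⟩
    exact ⟨u, w, h⟩
  · rintro ⟨u, w, h⟩
    exact ⟨(u, w), h⟩

theorem mem_cone_bdy_succ (n : ℕ) (x : C.X (n + 1)) (y : C.X n) :
    (show (C.cone b).X (n + 1) from (x, y)) ∈ (C.cone b).bdy (n + 1) ↔
      ∃ u w, C.d (n + 1) u + b • w = x ∧ -(C.d n w) = y := by
  constructor
  · rintro ⟨⟨u, w⟩, h⟩
    exact ⟨u, w, congrArg Prod.fst h, congrArg Prod.snd h⟩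
  · rintro ⟨u, w, h, h'⟩
    exact ⟨(u, w), Prod.ext h h'⟩

theorem mem_cone_cyc_succ (n : ℕ) (x : C.X (n + 1)) (y : C.X n) :
    (show (C.cone b).X (n + 1) from (x, y)) ∈ (C.cone b).cyc (n + 1) ↔
      C.d n x + b • y = 0 ∧ y ∈ C.cyc n := by
  cases n with
  | zero =>
    constructor
    · intro h
      exact ⟨h, trivial⟩
    · intro h
      exact h.1
  | succ n =>
    constructor
    · intro h
      exact ⟨congrArg Prod.fst h, neg_eq_zero.1 (congrArg Prod.snd h)⟩
    · intro h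
      exact Prod.ext h.1 (neg_eq_zero.2 h.2)

variable (Λ : AddLen.{u, v} A)

/-- length of `H_n / b H_n` -/
noncomputable def cok (n : ℕ) : ℝ≥0∞ :=
  Λ.L (C.H n ⧸ LinearMap.range (b • (LinearMap.id : C.H n →ₗ[A] C.H n)))

/-- length of `H_n[b]` -/
noncomputable def kr (n : ℕ) : ℝ≥0∞ :=
  Λ.L (LinearMap.ker (b • (LinearMap.id : C.H n →ₗ[A] C.H n)))

theorem cok_eq (n : ℕ) : C.cok b Λ n =
    sq Λ (C.bdy n ⊔ (C.cyc n).map (b • LinearMap.id)) (C.cyc n) := by
  rw [sq_eq Λ (Z := C.cyc n) (C.cyc n).subtype (fun q hq => ⟨⟨q, hq⟩, by simp⟩)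
    (fun z => ⟨z, z.2, by simp⟩)]
  unfold cok
  set R := LinearMap.range (b • (LinearMap.id : C.H n →ₗ[A] C.H n)) with hR
  have h1 : LinearMap.ker (R.mkQ ∘ₗ C.toH n) =
      (C.bdy n ⊔ (C.cyc n).map (b • LinearMap.id)).comap (C.cyc n).subtype := by
    ext x
    rw [LinearMap.mem_ker, LinearMap.comp_apply, Submodule.mkQ_apply,
      Submodule.Quotient.mk_eq_zero, hR, LinearMap.mem_range, Submodule.mem_comap]
    constructor
    · rintro ⟨y, hy⟩
      obtain ⟨y, rfl⟩ := C.toH_surjective n y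
      have h2 : C.toH n (x - b • y) = 0 := by
        rw [map_sub, map_smul, ← hy]; simp
      rw [toH_eq_zero] at h2
      have h3 : (x : C.X n) = (x - b • y : C.cyc n) + b • (y : C.X n) := by simp
      rw [Submodule.subtype_apply, h3]
      exact Submodule.add_mem_sup h2 ⟨y, y.2, rfl⟩
    · intro h
      obtain ⟨w, hw, y, ⟨z, hz, rfl⟩, hy⟩ := Submodule.mem_sup.1 h
      refine ⟨C.toH n ⟨z, hz⟩, ?_⟩
      show b • C.toH n ⟨z, hz⟩ = C.toH n x
      rw [← map_smul, ← sub_eq_zero, ← map_sub, toH_eq_zero]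
      have h4 : ((b • (⟨z, hz⟩ : C.cyc n) - x : C.cyc n) : C.X n) = -w := by
        have h5 : w + b • z = (x : C.X n) := hy
        show b • z - (x : C.X n) = -w
        rw [← h5]; abel
      rw [h4]
      exact neg_mem hw
  rw [← h1]
  have h6 : Function.Surjective (R.mkQ ∘ₗ C.toH n) := by
    rw [LinearMap.coe_comp]
    exact (Submodule.mkQ_surjective R).comp (C.toH_surjective n)
  exact (Λ.L_congr (LinearMap.quotKerEquivOfSurjective _ h6)).symm

theorem kr_eq (n : ℕ) : C.kr b Λ n =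
    sq Λ (C.bdy n) (C.cyc n ⊓ (C.bdy n).comap (b • LinearMap.id)) := by
  have h0 : C.kr b Λ n = sq Λ ⊥ (LinearMap.ker (b • (LinearMap.id : C.H n →ₗ[A] C.H n))) := by
    unfold kr sq
    exact Λ.L_congr (Submodule.equivMapOfInjective _
      (by rw [← LinearMap.ker_eq_bot, Submodule.ker_mkQ]) _)
  rw [h0]
  set Z : Submodule A (C.X n) := C.cyc n ⊓ (C.bdy n).comap (b • LinearMap.id) with hZ
  refine sq_congr (Z := Z) Λ (C.toH n ∘ₗ Submodule.inclusion inf_le_left) Z.subtype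
    ?_ ?_ ?_ ?_ ?_
  · intro q hq
    obtain ⟨x, rfl⟩ := C.toH_surjective n q
    have h1 : b • C.toH n x = 0 := hq
    rw [← map_smul, toH_eq_zero] at h1
    refine ⟨⟨x, x.2, h1⟩, ?_⟩
    rw [Submodule.mem_bot, sub_eq_zero]
    rfl
  · intro z
    refine ⟨C.toH n ⟨z, z.2.1⟩, ?_, ?_⟩
    · show b • C.toH n ⟨z, z.2.1⟩ = 0
      rw [← map_smul, toH_eq_zero]
      exact z.2.2
    · rw [Submodule.mem_bot, sub_eq_zero]
      rfl
  · intro q hq
    exact ⟨⟨q, hq⟩, by simp⟩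
  · intro z
    exact ⟨z, z.2, by simp⟩
  · intro z
    rw [Submodule.mem_bot]
    exact toH_eq_zero _ _

/-- `L(H) = L(H/bH) + L(bH)`. -/
theorem l_eq_cok_add (n : ℕ) : C.l Λ n = C.cok b Λ n +
    Λ.L (LinearMap.range (b • (LinearMap.id : C.H n →ₗ[A] C.H n))) := by
  rw [add_comm]
  exact Λ.L_eq_add_quotient _

/-- `L(H) = L(H[b]) + L(bH)`. -/
theorem l_eq_kr_add (n : ℕ) : C.l Λ n = C.kr b Λ n +
    Λ.L (LinearMap.range (b • (LinearMap.id : C.H n →ₗ[A] C.H n))) :=
  Λ.L_ker_add_range _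

theorem cok_le (n : ℕ) : C.cok b Λ n ≤ C.l Λ n := by
  rw [C.l_eq_cok_add b Λ n]; exact le_self_add

theorem kr_le (n : ℕ) : C.kr b Λ n ≤ C.l Λ n := by
  rw [C.l_eq_kr_add b Λ n]; exact le_self_add

theorem cok_eq_kr (n : ℕ) (h : C.l Λ n ≠ ⊤) : C.cok b Λ n = C.kr b Λ n := by
  have h1 := C.l_eq_cok_add b Λ n
  rw [C.l_eq_kr_add b Λ n] at h1
  have h2 : Λ.L (LinearMap.range (b • (LinearMap.id : C.H n →ₗ[A] C.H n))) ≠ ⊤ := by
    refine ne_top_of_le_ne_top h ?_
    rw [C.l_eq_kr_add b Λ n]; exact le_add_self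
  exact ((ENNReal.add_left_inj h2).1 h1).symm

theorem l_cone_zero : (C.cone b).l Λ 0 = C.cok b Λ 0 := by
  rw [l_eq_sq, cok_eq]
  let idL : C.X 0 →ₗ[A] (C.cone b).X 0 := (LinearMap.id : C.X 0 →ₗ[A] C.X 0)
  have hid : ∀ z : C.X 0, (show (C.cone b).X 0 from z) - idL z = 0 := fun z => sub_self z
  refine sq_congr (Z := C.X 0) Λ idL (LinearMap.id : C.X 0 →ₗ[A] C.X 0) ?_ ?_ ?_ ?_ ?_
  · intro q _
    refine ⟨(show C.X 0 from q), ?_⟩
    have h := hid q
    exact h.symm ▸ Submodule.zero_mem _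
  · intro z
    refine ⟨(show (C.cone b).X 0 from z), trivial, ?_⟩
    exact (hid z).symm ▸ Submodule.zero_mem _
  · intro q _
    exact ⟨q, by simp⟩
  · intro z
    exact ⟨z, trivial, by simp⟩
  · intro z
    refine (C.mem_cone_bdy_zero b z).trans ?_
    rw [LinearMap.id_apply]
    rw [Submodule.mem_sup]
    constructor
    · rintro ⟨u, w, h⟩
      exact ⟨C.d 0 u, ⟨u, rfl⟩, b • w, ⟨w, trivial, rfl⟩, h⟩
    · rintro ⟨_, ⟨u, rfl⟩, _, ⟨w, _, rfl⟩, h⟩
      exact ⟨u, w, h⟩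

theorem l_cone_succ (n : ℕ) : (C.cone b).l Λ (n + 1) = C.cok b Λ (n + 1) + C.kr b Λ n := by
  let fstL : (C.cone b).X (n + 1) →ₗ[A] C.X (n + 1) :=
    (LinearMap.fst A _ _ : C.X (n + 1) × C.X n →ₗ[A] C.X (n + 1))
  let sndL : (C.cone b).X (n + 1) →ₗ[A] C.X n :=
    (LinearMap.snd A _ _ : C.X (n + 1) × C.X n →ₗ[A] C.X n)
  let inlL : C.X (n + 1) →ₗ[A] (C.cone b).X (n + 1) :=
    (LinearMap.inl A _ _ : C.X (n + 1) →ₗ[A] C.X (n + 1) × C.X n)
  rw [l_eq_sq, sq_add Λ (Q := (C.cone b).cyc (n + 1) ⊓ (C.bdy n).comap sndL) ?_ inf_le_left]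
  · rw [cok_eq, kr_eq]
    congr 1
    · refine sq_congr (Z := C.cyc (n + 1)) Λ (inlL ∘ₗ (C.cyc (n + 1)).subtype)
        (C.cyc (n + 1)).subtype ?_ ?_ ?_ ?_ ?_
      · rintro ⟨x, y⟩ ⟨h1, h2⟩
        obtain ⟨h1, h1'⟩ := (C.mem_cone_cyc_succ b n x y).1 h1
        obtain ⟨w, hw⟩ : y ∈ C.bdy n := h2
        refine ⟨⟨x + b • w, ?_⟩, ?_⟩
        · rw [mem_cyc_succ, map_add, map_smul, hw]
          exact h1
        · show (x - (x + b • w), y - 0) ∈ (C.cone b).bdy (n + 1)
          refine (C.mem_cone_bdy_succ b n _ _).2 ⟨0, -w, ?_, ?_⟩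
          · simp
          · rw [map_neg, neg_neg, hw, sub_zero]
      · intro z
        refine ⟨(z.1, 0), ⟨(C.mem_cone_cyc_succ b n _ _).2 ⟨?_, zero_mem _⟩,
          (show (0 : C.X n) ∈ C.bdy n from zero_mem _)⟩, ?_⟩
        · rw [smul_zero, add_zero]
          exact z.2
        · have : (show (C.cone b).X (n + 1) from (z.1, 0)) -
            (inlL ∘ₗ (C.cyc (n + 1)).subtype) z = 0 := sub_self _
          rw [this]
          exact zero_mem _
      · intro q hq
        exact ⟨⟨q, hq⟩, by simp⟩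
      · intro z
        exact ⟨z, z.2, by simp⟩
      · rintro ⟨z, hz⟩
        show (show (C.cone b).X (n + 1) from (z, 0)) ∈ (C.cone b).bdy (n + 1) ↔ z ∈ _
        rw [mem_cone_bdy_succ, Submodule.mem_sup]
        constructor
        · rintro ⟨u, w, h, h'⟩
          exact ⟨C.d (n + 1) u, ⟨u, rfl⟩, b • w, ⟨w, neg_eq_zero.1 h', rfl⟩, h⟩
        · rintro ⟨_, ⟨u, rfl⟩, _, ⟨w, hw, rfl⟩, h⟩
          refine ⟨u, w, h, ?_⟩
          have : C.d n w = 0 := hw
          rw [this, neg_zero]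
    · refine sq_congr (Z := (C.cone b).cyc (n + 1)) Λ ((C.cone b).cyc (n + 1)).subtype
        (sndL ∘ₗ ((C.cone b).cyc (n + 1)).subtype) ?_ ?_ ?_ ?_ ?_
      · intro q hq
        refine ⟨⟨q, hq⟩, ?_⟩
        rw [Submodule.subtype_apply, sub_self]
        exact zero_mem _
      · intro z
        refine ⟨z, z.2, ?_⟩
        rw [Submodule.subtype_apply, sub_self]
        exact zero_mem _
      · rintro y ⟨h1, u, hu⟩
        have hu' : C.d n u = b • y := hu
        refine ⟨⟨(-u, y), (C.mem_cone_cyc_succ b n _ _).2 ⟨?_, h1⟩⟩, ?_⟩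
        · rw [map_neg, hu', neg_add_cancel]
        · show y - y ∈ _
          rw [sub_self]
          exact zero_mem _
      · rintro ⟨⟨x, y⟩, hz⟩
        obtain ⟨h1, h1'⟩ := (C.mem_cone_cyc_succ b n x y).1 hz
        refine ⟨y, ⟨h1', -x, ?_⟩, ?_⟩
        · show C.d n (-x) = b • y
          rw [map_neg]
          exact neg_eq_of_add_eq_zero_right h1
        · show y - y ∈ _
          rw [sub_self]
          exact zero_mem _
      · rintro ⟨⟨x, y⟩, hz⟩
        show _ ∈ (C.cone b).cyc (n + 1) ⊓ (C.bdy n).comap sndL ↔ y ∈ C.bdy n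
        constructor
        · intro h
          exact h.2
        · intro h
          exact ⟨hz, h⟩
  · rintro x hx
    refine ⟨(C.cone b).bdy_le_cyc _ hx, ?_⟩
    obtain ⟨x, y⟩ := x
    obtain ⟨u, w, h, h'⟩ := (C.mem_cone_bdy_succ b n x y).1 hx
    show y ∈ C.bdy n
    rw [← h']
    exact neg_mem ⟨w, rfl⟩

theorem l_cone_succ_le (n : ℕ) : (C.cone b).l Λ (n + 1) ≤ C.l Λ (n + 1) + C.l Λ n := by
  rw [l_cone_succ]
  exact add_le_add (C.cok_le b Λ _) (C.kr_le b Λ _)

theorem l_cone_zero_le : (C.cone b).l Λ 0 ≤ C.l Λ 0 := by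
  rw [l_cone_zero]
  exact C.cok_le b Λ _

/-! ### The null-homotopy ideal -/

/-- The ideal of elements whose multiplication is null-homotopic. -/
def Nh : Ideal A where
  carrier := {a | ∃ s : ∀ n, C.X n →ₗ[A] C.X (n + 1), (∀ x, C.d 0 (s 0 x) = a • x) ∧
    ∀ n x, C.d (n + 1) (s (n + 1) x) + s n (C.d n x) = a • x}
  zero_mem' := ⟨fun _ => 0, by simp, by simp⟩
  add_mem' := by
    rintro a a' ⟨s, h0, h1⟩ ⟨s', h0', h1'⟩
    refine ⟨fun n => s n + s' n, ?_, ?_⟩
    · intro x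
      rw [LinearMap.add_apply, map_add, h0, h0', add_smul]
    · intro n x
      rw [LinearMap.add_apply, LinearMap.add_apply, map_add, add_smul, ← h1, ← h1']
      abel
  smul_mem' := by
    rintro c a ⟨s, h0, h1⟩
    refine ⟨fun n => c • s n, ?_, ?_⟩
    · intro x
      rw [LinearMap.smul_apply, map_smul, h0, smul_eq_mul, mul_smul]
    · intro n x
      rw [LinearMap.smul_apply, LinearMap.smul_apply, map_smul, ← smul_add, h1, smul_eq_mul,
        mul_smul]

theorem mem_Nh {a : A} : a ∈ C.Nh ↔ ∃ s : ∀ n, C.X n →ₗ[A] C.X (n + 1),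
    (∀ x, C.d 0 (s 0 x) = a • x) ∧
      ∀ n x, C.d (n + 1) (s (n + 1) x) + s n (C.d n x) = a • x := Iff.rfl

/-- scalars killing the complex are null-homotopic -/
theorem mem_Nh_of_smul_eq_zero {a : A} (h : ∀ n (x : C.X n), a • x = 0) : a ∈ C.Nh :=
  ⟨fun _ => 0, fun x => by simp [h], fun n x => by simp [h]⟩

theorem Nh_le_cone : C.Nh ≤ (C.cone b).Nh := by
  rintro a ⟨s, h0, h1⟩
  refine ⟨fun n => match n with
    | 0 => (LinearMap.prod (s 0) 0 : C.X 0 →ₗ[A] C.X 1 × C.X 0)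
    | (n + 1) => (LinearMap.prodMap (s (n + 1)) (-(s n)) :
        C.X (n + 1) × C.X n →ₗ[A] C.X (n + 2) × C.X (n + 1)), ?_, ?_⟩
  · intro (x : C.X 0)
    show C.d 0 (s 0 x) + b • (0 : C.X 0) = a • x
    rw [h0, smul_zero, add_zero]
  · intro n
    cases n with
    | zero =>
      rintro ⟨x, y⟩
      refine Prod.ext ?_ ?_
      · show (C.d 1 (s 1 x) + b • (-(s 0 y))) + s 0 (C.d 0 x + b • y) = a • x
        rw [map_add, map_smul, ← h1]
        simp only [smul_neg]
        abel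
      · show -(C.d 0 (-(s 0 y))) + 0 = a • y
        rw [map_neg, neg_neg, h0, add_zero]
    | succ n =>
      rintro ⟨x, y⟩
      refine Prod.ext ?_ ?_
      · show (C.d (n + 2) (s (n + 2) x) + b • (-(s (n + 1) y))) +
          s (n + 1) (C.d (n + 1) x + b • y) = a • x
        rw [map_add, map_smul, ← h1]
        simp only [smul_neg]
        abel
      · show -(C.d (n + 1) (-(s (n + 1) y))) + (-(s n (-(C.d n y)))) = a • y
        rw [map_neg, neg_neg, map_neg, neg_neg, h1]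

theorem mem_Nh_cone : b ∈ (C.cone b).Nh := by
  refine ⟨fun n => match n with
    | 0 => (LinearMap.inr A (C.X 1) (C.X 0) : C.X 0 →ₗ[A] C.X 1 × C.X 0)
    | (n + 1) => (LinearMap.inr A _ _ ∘ₗ LinearMap.fst A _ _ :
        C.X (n + 1) × C.X n →ₗ[A] C.X (n + 2) × C.X (n + 1)), ?_, ?_⟩
  · intro (x : C.X 0)
    show C.d 0 (0 : C.X 1) + b • x = b • x
    rw [map_zero, zero_add]
  · intro n
    cases n with
    | zero =>
      rintro ⟨(x : C.X 1), (y : C.X 0)⟩
      refine Prod.ext ?_ ?_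
      · show (C.d 1 (0 : C.X 2) + b • x) + 0 = b • x
        rw [map_zero, zero_add, add_zero]
      · show -(C.d 0 x) + (C.d 0 x + b • y) = b • y
        rw [neg_add_cancel_left]
    | succ n =>
      rintro ⟨x, y⟩
      refine Prod.ext ?_ ?_
      · show (C.d (n + 2) (0 : C.X (n + 3)) + b • x) + 0 = b • x
        rw [map_zero, zero_add, add_zero]
      · show -(C.d (n + 1) x) + (C.d (n + 1) x + b • y) = b • y
        rw [neg_add_cancel_left]

variable {C b}

theorem smul_mem_bdy_of_mem_Nh {a : A} (ha : a ∈ C.Nh) {n : ℕ} {x : C.X n} (hx : x ∈ C.cyc n) :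
    a • x ∈ C.bdy n := by
  obtain ⟨s, h0, h1⟩ := ha
  cases n with
  | zero => exact ⟨s 0 x, h0 x⟩
  | succ n =>
    refine ⟨s (n + 1) x, ?_⟩
    have h2 : C.d n x = 0 := hx
    rw [← h1 n x, h2, map_zero, add_zero]

theorem smul_H_eq_zero_of_mem_Nh {a : A} (ha : a ∈ C.Nh) {n : ℕ} (x : C.H n) : a • x = 0 := by
  obtain ⟨x, rfl⟩ := C.toH_surjective n x
  rw [← map_smul, toH_eq_zero]
  exact smul_mem_bdy_of_mem_Nh ha x.2

theorem cok_of_mem_Nh {a : A} (ha : a ∈ C.Nh) (n : ℕ) : C.cok a Λ n = C.l Λ n := by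
  have h : a • (LinearMap.id : C.H n →ₗ[A] C.H n) = 0 := by
    refine LinearMap.ext fun x => ?_
    exact smul_H_eq_zero_of_mem_Nh ha x
  have h1 : LinearMap.range (a • (LinearMap.id : C.H n →ₗ[A] C.H n)) = ⊥ := by
    rw [h, LinearMap.range_zero]
  rw [C.l_eq_cok_add a Λ n, h1, Λ.L_subsingleton, add_zero]

theorem kr_of_mem_Nh {a : A} (ha : a ∈ C.Nh) (n : ℕ) : C.kr a Λ n = C.l Λ n := by
  have h : a • (LinearMap.id : C.H n →ₗ[A] C.H n) = 0 := by
    refine LinearMap.ext fun x => ?_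
    exact smul_H_eq_zero_of_mem_Nh ha x
  have h1 : LinearMap.range (a • (LinearMap.id : C.H n →ₗ[A] C.H n)) = ⊥ := by
    rw [h, LinearMap.range_zero]
  rw [C.l_eq_kr_add a Λ n, h1, Λ.L_subsingleton, add_zero]

theorem l_cone_succ_of_mem_Nh {a : A} (ha : a ∈ C.Nh) (n : ℕ) :
    (C.cone a).l Λ (n + 1) = C.l Λ (n + 1) + C.l Λ n := by
  rw [l_cone_succ, cok_of_mem_Nh Λ ha, kr_of_mem_Nh Λ ha]

theorem l_cone_zero_of_mem_Nh {a : A} (ha : a ∈ C.Nh) : (C.cone a).l Λ 0 = C.l Λ 0 := by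
  rw [l_cone_zero, cok_of_mem_Nh Λ ha]

end Cx

/-! ### Isomorphisms -/

namespace Cx.Iso

variable {C D : Cx.{u, v} A}

/-- functoriality of the cone -/
def cone (φ : C.Iso D) (b : A) : (C.cone b).Iso (D.cone b) where
  e n := match n with
    | 0 => φ.e 0
    | (n + 1) => (LinearEquiv.prodCongr (φ.e (n + 1)) (φ.e n) :
        (C.X (n + 1) × C.X n) ≃ₗ[A] (D.X (n + 1) × D.X n))
  comm n := by
    cases n with
    | zero =>
      rintro ⟨x, y⟩
      show φ.e 0 (C.d 0 x + b • y) = D.d 0 (φ.e 1 x) + b • φ.e 0 y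
      rw [map_add, φ.comm, map_smul]
    | succ n =>
      rintro ⟨x, y⟩
      refine Prod.ext ?_ ?_
      · show φ.e (n + 1) (C.d (n + 1) x + b • y) = D.d (n + 1) (φ.e (n + 2) x) + b • φ.e (n + 1) y
        rw [map_add, φ.comm, map_smul]
      · show φ.e n (-(C.d n y)) = -(D.d n (φ.e (n + 1) y))
        rw [map_neg, φ.comm]

/-- `cone_b (cone_a C) ≅ cone_a (cone_b C)`. -/
def coneCone (C : Cx.{u, v} A) (a b : A) : ((C.cone a).cone b).Iso ((C.cone b).cone a) where
  e n := match n with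
    | 0 => LinearEquiv.refl A (C.X 0)
    | 1 =>
      { toFun := fun x : (C.X 1 × C.X 0) × C.X 0 => (((x.1.1, x.2), x.1.2) :
          (C.X 1 × C.X 0) × C.X 0)
        map_add' := fun _ _ => rfl
        map_smul' := fun _ _ => rfl
        invFun := fun x : (C.X 1 × C.X 0) × C.X 0 => (((x.1.1, x.2), x.1.2) :
          (C.X 1 × C.X 0) × C.X 0)
        left_inv := fun _ => rfl
        right_inv := fun _ => rfl }
    | (n + 2) =>
      { toFun := fun x : (C.X (n + 2) × C.X (n + 1)) × (C.X (n + 1) × C.X n) =>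
          (((x.1.1, x.2.1), (x.1.2, -x.2.2)) :
            (C.X (n + 2) × C.X (n + 1)) × (C.X (n + 1) × C.X n))
        map_add' := fun x y => Prod.ext rfl (Prod.ext rfl (neg_add _ _))
        map_smul' := fun a x => Prod.ext rfl (Prod.ext rfl (smul_neg a x.2.2).symm)
        invFun := fun x : (C.X (n + 2) × C.X (n + 1)) × (C.X (n + 1) × C.X n) =>
          (((x.1.1, x.2.1), (x.1.2, -x.2.2)) :
            (C.X (n + 2) × C.X (n + 1)) × (C.X (n + 1) × C.X n))
        left_inv := fun x => Prod.ext rfl (Prod.ext rfl (neg_neg _))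
        right_inv := fun x => Prod.ext rfl (Prod.ext rfl (neg_neg _)) }
  comm n := by
    match n with
    | 0 =>
      rintro ⟨⟨(x : C.X 1), (y : C.X 0)⟩, (z : C.X 0)⟩
      show C.d 0 x + a • y + b • z = C.d 0 x + b • z + a • y
      abel
    | 1 =>
      rintro ⟨⟨x, y⟩, ⟨z, w⟩⟩
      refine Prod.ext (Prod.ext ?_ ?_) ?_
      · show C.d 1 x + a • y + b • z = C.d 1 x + b • z + a • y
        abel
      · show -(C.d 0 z + a • w) = -(C.d 0 z) + a • (-w)
        rw [smul_neg]; abel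
      · show -(C.d 0 y) + b • w = -(C.d 0 y + b • (-w))
        rw [smul_neg]; abel
    | (n + 2) =>
      rintro ⟨⟨x, y⟩, ⟨z, w⟩⟩
      refine Prod.ext (Prod.ext ?_ ?_) (Prod.ext ?_ ?_)
      · show C.d (n + 2) x + a • y + b • z = C.d (n + 2) x + b • z + a • y
        abel
      · show -(C.d (n + 1) z + a • w) = -(C.d (n + 1) z) + a • (-w)
        rw [smul_neg]; abel
      · show -(C.d (n + 1) y) + b • w = -(C.d (n + 1) y + b • (-w))
        rw [smul_neg]; abel
      · show -(-(-(C.d n w))) = -(-(C.d n (-w)))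
        rw [map_neg]

/-- Changing `b` by a null-homotopic element does not change the cone. -/
theorem cone_add_of_mem_Nh {c : A} (hc : c ∈ C.Nh) (b : A) :
    Nonempty ((C.cone (b + c)).Iso (C.cone b)) := by
  obtain ⟨s, h0, h1⟩ := hc
  refine ⟨⟨fun n => match n with
    | 0 => LinearEquiv.refl A (C.X 0)
    | (n + 1) =>
      { toFun := fun x : C.X (n + 1) × C.X n => ((x.1 + s n x.2, x.2) : C.X (n + 1) × C.X n)
        map_add' := fun x y => Prod.ext (by
          show x.1 + y.1 + s n (x.2 + y.2) = (x.1 + s n x.2) + (y.1 + s n y.2)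
          rw [map_add]; abel) rfl
        map_smul' := fun a x => Prod.ext (by
          show a • x.1 + s n (a • x.2) = a • (x.1 + s n x.2)
          rw [map_smul, smul_add]) rfl
        invFun := fun x : C.X (n + 1) × C.X n => ((x.1 - s n x.2, x.2) : C.X (n + 1) × C.X n)
        left_inv := fun x => Prod.ext (by
          show x.1 + s n x.2 - s n x.2 = x.1
          abel) rfl
        right_inv := fun x => Prod.ext (by
          show x.1 - s n x.2 + s n x.2 = x.1
          abel) rfl }, ?_⟩⟩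
  intro n
  cases n with
  | zero =>
    rintro ⟨x, y⟩
    show C.d 0 x + (b + c) • y = C.d 0 (x + s 0 y) + b • y
    rw [map_add, h0, add_smul]; abel
  | succ n =>
    rintro ⟨x, y⟩
    refine Prod.ext ?_ rfl
    show C.d (n + 1) x + (b + c) • y + s n (-(C.d n y)) = C.d (n + 1) (x + s (n + 1) y) + b • y
    rw [map_add, map_neg, add_smul, ← h1 n y]; abel

end Cx.Iso

end Crest.Agent.R188.Kos
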