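import Crest.Agent.R188.Kos2

/-!
# R188, block A4 (helper546), part 3: Koszul complexes of lists, products and powers, Euler
characteristics
-/

set_option autoImplicit false

namespace Crest.Agent.R188.Kos

open scoped ENNReal
open Crest.Agent.R183

universe u v

variable {A : Type u} [CommRing A]

/-! ### `kos` of a list -/

/-- `K(l) ⊗ C`, the iterated cone. -/
def kos (l : List A) (C : Cx.{u, v} A) : Cx.{u, v} A := l.foldr (fun b D => D.cone b) C

@[simp] theorem kos_nil (C : Cx.{u, v} A) : kos [] C = C := rfl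

@[simp] theorem kos_cons (b : A) (l : List A) (C : Cx.{u, v} A) :
    kos (b :: l) C = (kos l C).cone b := rfl

theorem kos_append (l l' : List A) (C : Cx.{u, v} A) : kos (l ++ l') C = kos l (kos l' C) := by
  unfold kos
  rw [List.foldr_append]

theorem Nh_le_kos (l : List A) (C : Cx.{u, v} A) : C.Nh ≤ (kos l C).Nh := by
  induction l with
  | nil => exact le_rfl
  | cons b l ih => exact ih.trans (Cx.Nh_le_cone _ b)

theorem mem_Nh_kos {l : List A} (C : Cx.{u, v} A) {b : A} (hb : b ∈ l) : b ∈ (kos l C).Nh := by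
  induction l with
  | nil => simp at hb
  | cons c l ih =>
    rcases List.mem_cons.1 hb with rfl | hb
    · exact Cx.mem_Nh_cone _ _
    · exact Cx.Nh_le_cone _ _ (ih hb)

theorem ofList_le_Nh_kos (l : List A) (C : Cx.{u, v} A) : Ideal.ofList l ≤ (kos l C).Nh := by
  unfold Ideal.ofList
  rw [Ideal.span_le]
  intro b hb
  exact mem_Nh_kos C hb

/-- functoriality of `kos` in isomorphisms -/
def Cx.Iso.kos {C D : Cx.{u, v} A} (φ : C.Iso D) : ∀ l : List A, (kos l C).Iso (kos l D)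
  | [] => φ
  | (b :: l) => (Cx.Iso.kos φ l).cone b

theorem kos_perm {l l' : List A} (h : l.Perm l') (C : Cx.{u, v} A) :
    Nonempty ((kos l C).Iso (kos l' C)) := by
  induction h with
  | nil => exact ⟨Cx.Iso.refl _⟩
  | cons b _ ih => exact ⟨ih.some.cone b⟩
  | swap a b l => exact ⟨Cx.Iso.coneCone _ a b⟩
  | trans _ _ ih1 ih2 => exact ⟨ih1.some.trans ih2.some⟩

/-- `K(l) ⊗ K(l') ⊗ C ≅ K(l') ⊗ K(l) ⊗ C`. -/
theorem kos_comm (l l' : List A) (C : Cx.{u, v} A) :
    Nonempty ((kos l (kos l' C)).Iso (kos l' (kos l C))) := by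
  rw [← kos_append, ← kos_append]
  exact kos_perm List.perm_append_comm C

theorem kos_cone_comm (l : List A) (b : A) (C : Cx.{u, v} A) :
    Nonempty ((kos l (C.cone b)).Iso ((kos l C).cone b)) :=
  kos_comm l [b] C

/-! ### Binomial transforms of sequences -/

/-- `h ↦ h_n + h_{n-1}` -/
noncomputable def sh (h : ℕ → ℝ≥0∞) : ℕ → ℝ≥0∞
  | 0 => h 0
  | (n + 1) => h (n + 1) + h n

theorem sh_mono {h h' : ℕ → ℝ≥0∞} (H : ∀ n, h n ≤ h' n) (n : ℕ) : sh h n ≤ sh h' n := by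
  cases n with
  | zero => exact H 0
  | succ n => exact add_le_add (H _) (H _)

theorem sh_iterate_mono {h h' : ℕ → ℝ≥0∞} (H : ∀ n, h n ≤ h' n) (e n : ℕ) :
    sh^[e] h n ≤ sh^[e] h' n := by
  induction e generalizing n with
  | zero => exact H n
  | succ e ih =>
    rw [Function.iterate_succ_apply', Function.iterate_succ_apply']
    exact sh_mono ih n

/-- explicit form of the iterated transform -/
theorem sh_iterate (h : ℕ → ℝ≥0∞) (e n : ℕ) :
    sh^[e] h n = ∑ j ∈ Finset.range (n + 1), (e.choose j : ℝ≥0∞) * h (n - j) := by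
  induction e generalizing n with
  | zero =>
    rw [Function.iterate_zero, id_eq, Finset.sum_eq_single 0]
    · simp
    · intro b _ hb
      rw [Nat.choose_eq_zero_of_lt (Nat.pos_of_ne_zero hb)]
      simp
    · intro h0
      exact absurd (Finset.mem_range.2 (Nat.succ_pos n)) h0
  | succ e ih =>
    rw [Function.iterate_succ_apply']
    cases n with
    | zero =>
      show sh^[e] h 0 = _
      rw [ih]
      simp
    | succ n =>
      show sh^[e] h (n + 1) + sh^[e] h n = _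
      rw [ih, ih, Finset.sum_range_succ' _ (n + 1), Finset.sum_range_succ' _ (n + 1)]
      simp only [Nat.choose_zero_right, Nat.cast_one, one_mul, Nat.choose_succ_succ', Nat.cast_add,
        add_mul, Finset.sum_add_distrib, Nat.sub_zero, Nat.add_sub_add_right]
      ring

theorem le_sh (h : ℕ → ℝ≥0∞) (n : ℕ) : h n ≤ sh h n := by
  cases n with
  | zero => exact le_rfl
  | succ n => exact le_self_add

theorem le_sh_succ (h : ℕ → ℝ≥0∞) (n : ℕ) : h n ≤ sh h (n + 1) := le_add_self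

/-- the top term of the binomial transform -/
theorem le_sh_iterate_add (h : ℕ → ℝ≥0∞) (e n : ℕ) : h n ≤ sh^[e] h (n + e) := by
  induction e with
  | zero => exact le_rfl
  | succ e ih =>
    rw [Function.iterate_succ_apply']
    exact ih.trans (le_sh_succ _ _)

theorem le_sh_iterate (h : ℕ → ℝ≥0∞) (e n : ℕ) : h n ≤ sh^[e] h n := by
  induction e with
  | zero => exact le_rfl
  | succ e ih =>
    rw [Function.iterate_succ_apply']
    exact ih.trans (le_sh _ _)

/-- a uniform bound -/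
theorem sh_iterate_le {h : ℕ → ℝ≥0∞} {c : ℝ≥0∞} {e n : ℕ} (H : ∀ m, n ≤ m + e → m ≤ n → h m ≤ c) :
    sh^[e] h n ≤ 2 ^ e * c := by
  induction e generalizing n with
  | zero => simpa using H n le_rfl le_rfl
  | succ e ih =>
    rw [Function.iterate_succ_apply']
    cases n with
    | zero =>
      show sh^[e] h 0 ≤ _
      refine (ih (n := 0) fun m h1 h2 => H m (by omega) h2).trans ?_
      gcongr
      · norm_num
      · omega
    | succ n =>
      show sh^[e] h (n + 1) + sh^[e] h n ≤ _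
      have h1 := ih (n := n + 1) fun m h1 h2 => H m (by omega) h2
      have h2 := ih (n := n) fun m h1 h2 => H m (by omega) (by omega)
      calc _ ≤ 2 ^ e * c + 2 ^ e * c := add_le_add h1 h2
        _ = 2 ^ (e + 1) * c := by ring

theorem sh_iterate_ne_top {h : ℕ → ℝ≥0∞} (H : ∀ m, h m ≠ ⊤) (e n : ℕ) : sh^[e] h n ≠ ⊤ := by
  induction e generalizing n with
  | zero => exact H n
  | succ e ih =>
    rw [Function.iterate_succ_apply']
    cases n with
    | zero => exact ih 0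
    | succ n => exact ENNReal.add_ne_top.2 ⟨ih _, ih _⟩

theorem sh_iterate_eq_zero {h : ℕ → ℝ≥0∞} {m : ℕ} (H : ∀ i, m < i → h i = 0) (e : ℕ) :
    ∀ i, m + e < i → sh^[e] h i = 0 := by
  induction e with
  | zero => exact H
  | succ e ih =>
    intro i hi
    rw [Function.iterate_succ_apply']
    cases i with
    | zero => omega
    | succ i =>
      show sh^[e] h (i + 1) + sh^[e] h i = 0
      rw [ih _ (by omega), ih _ (by omega), add_zero]

/-! ### Lengths of Koszul homology -/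

variable (Λ : AddLen.{u, v} A)

theorem l_cone_le_sh (C : Cx.{u, v} A) (b : A) (n : ℕ) : (C.cone b).l Λ n ≤ sh (C.l Λ) n := by
  cases n with
  | zero => exact C.l_cone_zero_le b Λ
  | succ n => exact C.l_cone_succ_le b Λ n

theorem l_cone_eq_sh {C : Cx.{u, v} A} {b : A} (hb : b ∈ C.Nh) (n : ℕ) :
    (C.cone b).l Λ n = sh (C.l Λ) n := by
  cases n with
  | zero => exact Cx.l_cone_zero_of_mem_Nh Λ hb
  | succ n => exact Cx.l_cone_succ_of_mem_Nh Λ hb n

theorem l_kos_le_sh (l : List A) (C : Cx.{u, v} A) (n : ℕ) :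
    (kos l C).l Λ n ≤ sh^[l.length] (C.l Λ) n := by
  induction l generalizing n with
  | nil => exact le_rfl
  | cons b l ih =>
    rw [kos_cons, List.length_cons, Function.iterate_succ_apply']
    exact (l_cone_le_sh Λ _ b n).trans (sh_mono ih n)

/-- THE BINOMIAL FORMULA. -/
theorem l_kos_eq_sh {l : List A} {C : Cx.{u, v} A} (hl : ∀ b ∈ l, b ∈ C.Nh) (n : ℕ) :
    (kos l C).l Λ n = sh^[l.length] (C.l Λ) n := by
  induction l generalizing n with
  | nil => rfl
  | cons b l ih =>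
    rw [kos_cons, List.length_cons, Function.iterate_succ_apply']
    have h1 : (kos l C).l Λ = sh^[l.length] (C.l Λ) :=
      funext (ih fun c hc => hl c (List.mem_cons_of_mem _ hc))
    rw [l_cone_eq_sh Λ (Nh_le_kos l C (hl b List.mem_cons_self)), h1]

theorem l_kos_le (l : List A) (C : Cx.{u, v} A) (n : ℕ) :
    (kos l C).l Λ n ≤
      ∑ j ∈ Finset.range (n + 1), (l.length.choose j : ℝ≥0∞) * C.l Λ (n - j) := by
  rw [← sh_iterate]
  exact l_kos_le_sh Λ l C n

theorem l_kos_eq {l : List A} {C : Cx.{u, v} A} (hl : ∀ b ∈ l, b ∈ C.Nh) (n : ℕ) :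
    (kos l C).l Λ n =
      ∑ j ∈ Finset.range (n + 1), (l.length.choose j : ℝ≥0∞) * C.l Λ (n - j) := by
  rw [← sh_iterate]
  exact l_kos_eq_sh Λ hl n

theorem l_kos_ne_top (l : List A) {C : Cx.{u, v} A} (h : ∀ n, C.l Λ n ≠ ⊤) (n : ℕ) :
    (kos l C).l Λ n ≠ ⊤ :=
  ne_top_of_le_ne_top (sh_iterate_ne_top h _ _) (l_kos_le_sh Λ l C n)

/-- vanishing above the length of the list -/
theorem l_kos_eq_zero (l : List A) {C : Cx.{u, v} A} {m : ℕ} (h : ∀ i, m < i → C.l Λ i = 0)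
    (i : ℕ) (hi : m + l.length < i) : (kos l C).l Λ i = 0 :=
  le_antisymm ((l_kos_le_sh Λ l C i).trans (sh_iterate_eq_zero h _ i hi).le) zero_le

/-- THE NULL-HOMOTOPY TRICK: if all `w ∈ lw` are null-homotopic on `K(z) ⊗ C`, then
`H_i(z; C)` is bounded by the homology of `K(w) ⊗ C`. -/
theorem l_kos_le_of_Nh {lz lw : List A} {C : Cx.{u, v} A} (hw : ∀ w ∈ lw, w ∈ (kos lz C).Nh)
    (i : ℕ) : (kos lz C).l Λ i ≤ sh^[lz.length] ((kos lw C).l Λ) (i + lw.length) := by
  calc (kos lz C).l Λ i ≤ sh^[lw.length] ((kos lz C).l Λ) (i + lw.length) :=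
        le_sh_iterate_add _ _ _
    _ = (kos lw (kos lz C)).l Λ (i + lw.length) := (l_kos_eq_sh Λ hw _).symm
    _ = (kos lz (kos lw C)).l Λ (i + lw.length) := (kos_comm lw lz C).some.l_eq Λ _
    _ ≤ _ := l_kos_le_sh Λ lz _ _

/-- bound by the homology in degrees `≥ i + |w| - |z|`. -/
theorem l_kos_le_of_Nh_bound {lz lw : List A} {C : Cx.{u, v} A}
    (hw : ∀ w ∈ lw, w ∈ (kos lz C).Nh) (i : ℕ) {c : ℝ≥0∞}
    (hc : ∀ m, i + lw.length ≤ m + lz.length → m ≤ i + lw.length → (kos lw C).l Λ m ≤ c) :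
    (kos lz C).l Λ i ≤ 2 ^ lz.length * c :=
  (l_kos_le_of_Nh Λ hw i).trans (sh_iterate_le hc)

/-- the same for the same degree: `H_i(z; C)` is also bounded through the degree `i` part. -/
theorem l_kos_le_of_Nh' {lz lw : List A} {C : Cx.{u, v} A} (hw : ∀ w ∈ lw, w ∈ (kos lz C).Nh)
    (i : ℕ) : (kos lz C).l Λ i ≤ sh^[lz.length] ((kos lw C).l Λ) i := by
  calc (kos lz C).l Λ i ≤ sh^[lw.length] ((kos lz C).l Λ) i := le_sh_iterate _ _ _
    _ = (kos lw (kos lz C)).l Λ i := (l_kos_eq_sh Λ hw _).symm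
    _ = (kos lz (kos lw C)).l Λ i := (kos_comm lw lz C).some.l_eq Λ _
    _ ≤ _ := l_kos_le_sh Λ lz _ _

theorem l_kos_le_of_Nh_bound' {lz lw : List A} {C : Cx.{u, v} A}
    (hw : ∀ w ∈ lw, w ∈ (kos lz C).Nh) (i : ℕ) {c : ℝ≥0∞}
    (hc : ∀ m, m ≤ i → i ≤ m + lz.length → (kos lw C).l Λ m ≤ c) :
    (kos lz C).l Λ i ≤ 2 ^ lz.length * c :=
  (l_kos_le_of_Nh' Λ hw i).trans (sh_iterate_le fun m h1 h2 => hc m h2 h1)

/-! ### Products -/

section herbrand

variable {H : Type v} [AddCommGroup H] [Module A H]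

/-- multiplication -/
abbrev mulL (H : Type v) [AddCommGroup H] [Module A H] (a : A) : H →ₗ[A] H :=
  a • (LinearMap.id : H →ₗ[A] H)

theorem mulL_apply (a : A) (x : H) : mulL H a x = a • x := rfl

/-- Lengths of kernels and cokernels of a product. -/
theorem herbrand (a b : A) : ∃ x y z : ℝ≥0∞,
    Λ.L (LinearMap.ker (mulL H (a * b))) = Λ.L (LinearMap.ker (mulL H a)) + x ∧
    Λ.L (LinearMap.ker (mulL H b)) = x + y ∧
    Λ.L (H ⧸ LinearMap.range (mulL H a)) = y + z ∧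
    Λ.L (H ⧸ LinearMap.range (mulL H (a * b))) = z + Λ.L (H ⧸ LinearMap.range (mulL H b)) := by
  set ka := LinearMap.ker (mulL H a)
  set kb := LinearMap.ker (mulL H b)
  set kab := LinearMap.ker (mulL H (a * b)) with hkab
  set ra := LinearMap.range (mulL H a) with hra
  set rb := LinearMap.range (mulL H b) with hrb
  set rab := LinearMap.range (mulL H (a * b)) with hrab
  refine ⟨Λ.L (kb ⊓ ra : Submodule A H), Λ.L (kb.map ra.mkQ), Λ.L (H ⧸ (ra ⊔ kb)), ?_, ?_, ?_, ?_⟩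
  · rw [Λ.L_ker_add_range ((mulL H a) ∘ₗ kab.subtype)]
    congr 1
    · have h1 : (LinearMap.ker ((mulL H a) ∘ₗ kab.subtype)).map kab.subtype = ka := by
        ext x
        constructor
        · rintro ⟨y, hy, rfl⟩
          exact hy
        · intro hx
          refine ⟨⟨x, ?_⟩, hx, rfl⟩
          have h2 : a • x = 0 := hx
          show (a * b) • x = 0
          rw [mul_comm, mul_smul, h2, smul_zero]
      rw [← h1]
      exact Λ.L_congr (Submodule.equivMapOfInjective _ kab.subtype_injective _)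
    · have h1 : LinearMap.range ((mulL H a) ∘ₗ kab.subtype) = kb ⊓ ra := by
        ext x
        constructor
        · rintro ⟨⟨y, hy⟩, rfl⟩
          refine ⟨?_, y, rfl⟩
          show b • (a • y) = 0
          rw [← mul_smul, mul_comm]
          exact hy
        · rintro ⟨h2, y, rfl⟩
          refine ⟨⟨y, ?_⟩, rfl⟩
          have h3 : b • (a • y) = 0 := h2
          show (a * b) • y = 0
          rw [mul_comm, mul_smul, h3]
      rw [h1]
  · rw [Λ.L_ker_add_range (ra.mkQ ∘ₗ kb.subtype)]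
    congr 1
    · have h1 : (LinearMap.ker (ra.mkQ ∘ₗ kb.subtype)).map kb.subtype = kb ⊓ ra := by
        ext x
        constructor
        · rintro ⟨y, hy, rfl⟩
          refine ⟨y.2, ?_⟩
          rw [SetLike.mem_coe, LinearMap.mem_ker, LinearMap.comp_apply, Submodule.mkQ_apply,
            Submodule.Quotient.mk_eq_zero] at hy
          exact hy
        · rintro ⟨h2, h3⟩
          refine ⟨⟨x, h2⟩, ?_, rfl⟩
          rw [SetLike.mem_coe, LinearMap.mem_ker, LinearMap.comp_apply, Submodule.mkQ_apply,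
            Submodule.Quotient.mk_eq_zero]
          exact h3
      rw [← h1]
      exact Λ.L_congr (Submodule.equivMapOfInjective _ kb.subtype_injective _)
    · rw [LinearMap.range_comp, Submodule.range_subtype]
  · rw [Λ.L_quotient_add (ra ⊔ kb) ra le_sup_left, Submodule.map_sup]
    congr 1
    have h1 : ra.map ra.mkQ = ⊥ := by
      rw [eq_bot_iff, Submodule.map_le_iff_le_comap]
      intro x hx
      rw [Submodule.mem_comap, Submodule.mem_bot, Submodule.mkQ_apply,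
        Submodule.Quotient.mk_eq_zero]
      exact hx
    rw [h1, bot_sup_eq]
  · have h0 : rab ≤ rb := by
      rintro _ ⟨x, rfl⟩
      refine ⟨a • x, ?_⟩
      show b • a • x = (a * b) • x
      rw [← mul_smul, mul_comm]
    rw [Λ.L_quotient_add rb rab h0]
    congr 1
    have h1 : LinearMap.range (rab.mkQ ∘ₗ mulL H b) = rb.map rab.mkQ := by
      rw [LinearMap.range_comp]
    have h2 : LinearMap.ker (rab.mkQ ∘ₗ mulL H b) = ra ⊔ kb := by
      ext x
      rw [LinearMap.mem_ker, LinearMap.comp_apply, Submodule.mkQ_apply,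
        Submodule.Quotient.mk_eq_zero, Submodule.mem_sup]
      constructor
      · rintro ⟨y, hy⟩
        have hy' : (a * b) • y = b • x := hy
        refine ⟨a • y, ⟨y, rfl⟩, x - a • y, ?_, by abel⟩
        show b • (x - a • y) = 0
        rw [smul_sub, ← hy', ← mul_smul, mul_comm, sub_self]
      · rintro ⟨_, ⟨y, rfl⟩, w, hw, rfl⟩
        refine ⟨y, ?_⟩
        have hw' : b • w = 0 := hw
        show (a * b) • y = b • (a • y + w)
        rw [smul_add, hw', add_zero, ← mul_smul, mul_comm]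
    rw [← h1, ← h2]
    exact (Λ.L_congr (rab.mkQ ∘ₗ mulL H b).quotKerEquivRange).symm

end herbrand

namespace Cx

variable (C : Cx.{u, v} A) (a b : A)

theorem herbrand (n : ℕ) : ∃ x y z : ℝ≥0∞, C.kr (a * b) Λ n = C.kr a Λ n + x ∧
    C.kr b Λ n = x + y ∧ C.cok a Λ n = y + z ∧ C.cok (a * b) Λ n = z + C.cok b Λ n :=
  Kos.herbrand Λ a b

theorem cok_mul_le (n : ℕ) : C.cok (a * b) Λ n ≤ C.cok a Λ n + C.cok b Λ n := by
  obtain ⟨x, y, z, h1, h2, h3, h4⟩ := C.herbrand Λ a b n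
  rw [h3, h4]
  exact add_le_add le_add_self le_rfl

theorem kr_mul_le (n : ℕ) : C.kr (a * b) Λ n ≤ C.kr a Λ n + C.kr b Λ n := by
  obtain ⟨x, y, z, h1, h2, h3, h4⟩ := C.herbrand Λ a b n
  rw [h1, h2]
  exact add_le_add le_rfl le_self_add

theorem l_cone_mul_le (n : ℕ) :
    (C.cone (a * b)).l Λ n ≤ (C.cone a).l Λ n + (C.cone b).l Λ n := by
  cases n with
  | zero =>
    rw [l_cone_zero, l_cone_zero, l_cone_zero]
    exact C.cok_mul_le Λ a b 0
  | succ n =>
    rw [l_cone_succ, l_cone_succ, l_cone_succ]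
    calc _ ≤ (C.cok a Λ (n + 1) + C.cok b Λ (n + 1)) + (C.kr a Λ n + C.kr b Λ n) :=
          add_le_add (C.cok_mul_le Λ a b _) (C.kr_mul_le Λ a b _)
      _ = _ := by ring

theorem cok_one (n : ℕ) : C.cok 1 Λ n = 0 := by
  unfold cok
  rw [one_smul, LinearMap.range_id]
  exact Λ.L_subsingleton

theorem kr_one (n : ℕ) : C.kr 1 Λ n = 0 := by
  unfold kr
  rw [one_smul, LinearMap.ker_id]
  exact Λ.L_subsingleton

theorem l_cone_one (n : ℕ) : (C.cone 1).l Λ n = 0 := by
  cases n with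
  | zero => rw [l_cone_zero, cok_one]
  | succ n => rw [l_cone_succ, cok_one, kr_one, add_zero]

theorem l_cone_pow_le (k n : ℕ) : (C.cone (a ^ k)).l Λ n ≤ k * (C.cone a).l Λ n := by
  induction k with
  | zero =>
    rw [pow_zero, l_cone_one]
    exact zero_le
  | succ k ih =>
    rw [pow_succ]
    refine (C.l_cone_mul_le Λ _ _ n).trans ?_
    push_cast
    rw [add_mul, one_mul]
    exact add_le_add ih le_rfl

/-- `cok - kr`, as a real number (for finite values). -/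
noncomputable def hb (n : ℕ) : ℝ := (C.cok a Λ n).toReal - (C.kr a Λ n).toReal

theorem hb_mul (n : ℕ) (h1 : C.cok a Λ n ≠ ⊤) (h2 : C.cok b Λ n ≠ ⊤) (h3 : C.kr a Λ n ≠ ⊤)
    (h4 : C.kr b Λ n ≠ ⊤) : C.hb Λ (a * b) n = C.hb Λ a n + C.hb Λ b n := by
  obtain ⟨x, y, z, e1, e2, e3, e4⟩ := C.herbrand Λ a b n
  rw [e2, ENNReal.add_ne_top] at h4
  rw [e3, ENNReal.add_ne_top] at h1
  unfold hb
  rw [e1, e2, e3, e4, ENNReal.toReal_add h3 h4.1, ENNReal.toReal_add h4.1 h4.2,
    ENNReal.toReal_add h1.1 h1.2, ENNReal.toReal_add h1.2 h2]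
  ring

theorem hb_one (n : ℕ) : C.hb Λ 1 n = 0 := by
  unfold hb
  rw [cok_one, kr_one]
  simp

theorem hb_pow (n k : ℕ) (h1 : C.cok a Λ n ≠ ⊤) (h3 : C.kr a Λ n ≠ ⊤) :
    C.cok (a ^ k) Λ n ≠ ⊤ ∧ C.kr (a ^ k) Λ n ≠ ⊤ ∧ C.hb Λ (a ^ k) n = k * C.hb Λ a n := by
  induction k with
  | zero =>
    rw [pow_zero, cok_one, kr_one, hb_one]
    simp
  | succ k ih =>
    obtain ⟨i1, i2, i3⟩ := ih
    refine ⟨?_, ?_, ?_⟩
    · rw [pow_succ]
      exact ne_top_of_le_ne_top (ENNReal.add_ne_top.2 ⟨i1, h1⟩) (C.cok_mul_le Λ _ _ n)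
    · rw [pow_succ]
      exact ne_top_of_le_ne_top (ENNReal.add_ne_top.2 ⟨i2, h3⟩) (C.kr_mul_le Λ _ _ n)
    · rw [pow_succ, C.hb_mul Λ _ _ n i1 h1 i2 h3, i3]
      push_cast
      ring

theorem hb_eq_zero (n : ℕ) (h : C.l Λ n ≠ ⊤) : C.hb Λ a n = 0 := by
  unfold hb
  rw [C.cok_eq_kr a Λ n h, sub_self]

/-- Euler characteristic of the first `N` homology modules -/
noncomputable abbrev chi (N : ℕ) : ℝ := Chi.chi Λ C.d N

theorem chi_def (N : ℕ) : C.chi Λ N = ∑ i ∈ Finset.range N, (-1) ^ i * (C.l Λ i).toReal := rfl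

/-- truncated Euler characteristic of a cone -/
theorem chi_cone_error (N : ℕ) (h1 : ∀ i ≤ N, C.cok a Λ i ≠ ⊤) (h2 : ∀ i ≤ N, C.kr a Λ i ≠ ⊤) :
    (C.cone a).chi Λ (N + 1) = ∑ i ∈ Finset.range (N + 1), (-1) ^ i * C.hb Λ a i +
      (-1) ^ N * (C.kr a Λ N).toReal := by
  induction N with
  | zero =>
    rw [chi_def, Finset.sum_range_one, Finset.sum_range_one, l_cone_zero]
    unfold hb
    ring
  | succ N ih =>
    rw [chi_def, Finset.sum_range_succ, ← chi_def, ih (fun i hi => h1 i (by omega))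
      (fun i hi => h2 i (by omega)), Finset.sum_range_succ _ (N + 1), l_cone_succ,
      ENNReal.toReal_add (h1 _ le_rfl) (h2 _ (by omega))]
    unfold hb
    rw [pow_succ (-1 : ℝ) N]
    ring

theorem chi_cone (N : ℕ) (h1 : ∀ i ≤ N, C.cok a Λ i ≠ ⊤) (h2 : ∀ i ≤ N, C.kr a Λ i ≠ ⊤)
    (h3 : C.kr a Λ N = 0) :
    (C.cone a).chi Λ (N + 1) = ∑ i ∈ Finset.range (N + 1), (-1) ^ i * C.hb Λ a i := by
  rw [C.chi_cone_error Λ a N h1 h2, h3]
  simp

/-- The Euler characteristic of a cone vanishes if the complex has finite lengths. -/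
theorem chi_cone_eq_zero (N : ℕ) (h : ∀ i ≤ N, C.l Λ i ≠ ⊤) (h3 : C.l Λ N = 0) :
    (C.cone a).chi Λ (N + 1) = 0 := by
  rw [C.chi_cone Λ a N (fun i hi => ne_top_of_le_ne_top (h i hi) (C.cok_le a Λ i))
    (fun i hi => ne_top_of_le_ne_top (h i hi) (C.kr_le a Λ i))
    (le_antisymm ((C.kr_le a Λ N).trans h3.le) zero_le)]
  refine Finset.sum_eq_zero fun i hi => ?_
  rw [C.hb_eq_zero Λ a i (h i (by rw [Finset.mem_range] at hi; omega)), mul_zero]

theorem cok_le_cone (n : ℕ) : C.cok a Λ n ≤ (C.cone a).l Λ n := by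
  cases n with
  | zero => rw [l_cone_zero]
  | succ n => rw [l_cone_succ]; exact le_self_add

theorem kr_le_cone (n : ℕ) : C.kr a Λ n ≤ (C.cone a).l Λ (n + 1) := by
  rw [l_cone_succ]; exact le_add_self

theorem chi_cone_mul (N : ℕ) (h1 : ∀ i ≤ N + 1, (C.cone a).l Λ i ≠ ⊤)
    (h2 : ∀ i ≤ N + 1, (C.cone b).l Λ i ≠ ⊤) (h3 : (C.cone a).l Λ (N + 1) = 0)
    (h4 : (C.cone b).l Λ (N + 1) = 0) :
    (C.cone (a * b)).chi Λ (N + 1) = (C.cone a).chi Λ (N + 1) + (C.cone b).chi Λ (N + 1) := by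
  have a1 : ∀ i ≤ N, C.cok a Λ i ≠ ⊤ := fun i hi =>
    ne_top_of_le_ne_top (h1 i (by omega)) (C.cok_le_cone Λ a i)
  have a2 : ∀ i ≤ N, C.kr a Λ i ≠ ⊤ := fun i hi =>
    ne_top_of_le_ne_top (h1 (i + 1) (by omega)) (C.kr_le_cone Λ a i)
  have b1 : ∀ i ≤ N, C.cok b Λ i ≠ ⊤ := fun i hi =>
    ne_top_of_le_ne_top (h2 i (by omega)) (C.cok_le_cone Λ b i)
  have b2 : ∀ i ≤ N, C.kr b Λ i ≠ ⊤ := fun i hi =>
    ne_top_of_le_ne_top (h2 (i + 1) (by omega)) (C.kr_le_cone Λ b i)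
  have a3 : C.kr a Λ N = 0 := le_antisymm ((C.kr_le_cone Λ a N).trans h3.le) zero_le
  have b3 : C.kr b Λ N = 0 := le_antisymm ((C.kr_le_cone Λ b N).trans h4.le) zero_le
  have c3 : C.kr (a * b) Λ N = 0 :=
    le_antisymm ((C.kr_mul_le Λ a b N).trans (by rw [a3, b3, add_zero])) zero_le
  rw [C.chi_cone Λ (a * b) N
    (fun i hi => ne_top_of_le_ne_top (ENNReal.add_ne_top.2 ⟨a1 i hi, b1 i hi⟩)
      (C.cok_mul_le Λ a b i))
    (fun i hi => ne_top_of_le_ne_top (ENNReal.add_ne_top.2 ⟨a2 i hi, b2 i hi⟩)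
      (C.kr_mul_le Λ a b i)) c3, C.chi_cone Λ a N a1 a2 a3, C.chi_cone Λ b N b1 b2 b3,
    ← Finset.sum_add_distrib]
  refine Finset.sum_congr rfl fun i hi => ?_
  rw [Finset.mem_range] at hi
  rw [C.hb_mul Λ a b i (a1 i (by omega)) (b1 i (by omega)) (a2 i (by omega)) (b2 i (by omega)),
    mul_add]

theorem chi_cone_pow (N k : ℕ) (h1 : ∀ i ≤ N + 1, (C.cone a).l Λ i ≠ ⊤)
    (h3 : (C.cone a).l Λ (N + 1) = 0) :
    (C.cone (a ^ k)).chi Λ (N + 1) = k * (C.cone a).chi Λ (N + 1) := by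
  have a1 : ∀ i ≤ N, C.cok a Λ i ≠ ⊤ := fun i hi =>
    ne_top_of_le_ne_top (h1 i (by omega)) (C.cok_le_cone Λ a i)
  have a2 : ∀ i ≤ N, C.kr a Λ i ≠ ⊤ := fun i hi =>
    ne_top_of_le_ne_top (h1 (i + 1) (by omega)) (C.kr_le_cone Λ a i)
  have a3 : C.kr a Λ N = 0 := le_antisymm ((C.kr_le_cone Λ a N).trans h3.le) zero_le
  have c3 : C.kr (a ^ k) Λ N = 0 := by
    have h := (C.kr_le_cone Λ (a ^ k) N).trans (C.l_cone_pow_le Λ a k (N + 1))
    rw [h3, mul_zero] at h
    exact le_antisymm h zero_le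
  rw [C.chi_cone Λ (a ^ k) N (fun i hi => (C.hb_pow Λ a i k (a1 i hi) (a2 i hi)).1)
    (fun i hi => (C.hb_pow Λ a i k (a1 i hi) (a2 i hi)).2.1) c3, C.chi_cone Λ a N a1 a2 a3,
    Finset.mul_sum]
  refine Finset.sum_congr rfl fun i hi => ?_
  rw [Finset.mem_range] at hi
  rw [(C.hb_pow Λ a i k (a1 i (by omega)) (a2 i (by omega))).2.2]
  ring

theorem chi_congr_iso {C D : Cx.{u, v} A} (φ : C.Iso D) (N : ℕ) : C.chi Λ N = D.chi Λ N :=
  Chi.chi_congr Λ fun i _ => φ.l_eq Λ i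

end Cx

/-! ### Powers -/

theorem l_kos_pow_le (l : List A) (C : Cx.{u, v} A) (k n : ℕ) :
    (kos (l.map (· ^ k)) C).l Λ n ≤ (k : ℝ≥0∞) ^ l.length * (kos l C).l Λ n := by
  induction l generalizing C n with
  | nil => simp
  | cons a l ih =>
    rw [List.map_cons, kos_cons, kos_cons, List.length_cons]
    calc ((kos (l.map (· ^ k)) C).cone (a ^ k)).l Λ n
        ≤ k * ((kos (l.map (· ^ k)) C).cone a).l Λ n := Cx.l_cone_pow_le Λ _ _ _ _
      _ = k * (kos (l.map (· ^ k)) (C.cone a)).l Λ n := by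
          rw [(kos_cone_comm (l.map (· ^ k)) a C).some.l_eq]
      _ ≤ k * (k ^ l.length * (kos l (C.cone a)).l Λ n) := by gcongr; exact ih _ _
      _ = k * (k ^ l.length * ((kos l C).cone a).l Λ n) := by
          rw [(kos_cone_comm l a C).some.l_eq]
      _ = _ := by ring

theorem chi_kos_pow (l : List A) (C : Cx.{u, v} A) (k N : ℕ)
    (h1 : ∀ i ≤ N + 1, (kos l C).l Λ i ≠ ⊤) (h3 : (kos l C).l Λ (N + 1) = 0) :
    (kos (l.map (· ^ k)) C).chi Λ (N + 1) = (k : ℝ) ^ l.length * (kos l C).chi Λ (N + 1) := by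
  induction l generalizing C with
  | nil => simp
  | cons a l ih =>
    rw [List.map_cons, kos_cons, kos_cons, List.length_cons]
    have e1 : ∀ n, (kos l (C.cone a)).l Λ n = (kos (a :: l) C).l Λ n := fun n =>
      (kos_cone_comm l a C).some.l_eq Λ n
    have e2 : ∀ n, ((kos (l.map (· ^ k)) C).cone a).l Λ n =
        (kos (l.map (· ^ k)) (C.cone a)).l Λ n := fun n =>
      ((kos_cone_comm (l.map (· ^ k)) a C).some.l_eq Λ n).symm
    have f1 : ∀ i ≤ N + 1, ((kos (l.map (· ^ k)) C).cone a).l Λ i ≠ ⊤ := by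
      intro i hi
      rw [e2]
      refine ne_top_of_le_ne_top ?_ (l_kos_pow_le Λ l (C.cone a) k i)
      rw [e1]
      exact ENNReal.mul_ne_top (ENNReal.pow_ne_top (ENNReal.natCast_ne_top k)) (h1 i hi)
    have f2 : ((kos (l.map (· ^ k)) C).cone a).l Λ (N + 1) = 0 := by
      rw [e2]
      have := l_kos_pow_le Λ l (C.cone a) k (N + 1)
      rw [e1, h3, mul_zero] at this
      exact le_antisymm this zero_le
    rw [Cx.chi_cone_pow Λ _ a N k f1 f2,
      Cx.chi_congr_iso Λ (kos_cone_comm (l.map (· ^ k)) a C).some.symm,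
      ih (C.cone a) (fun i hi => by rw [e1]; exact h1 i hi) (by rw [e1]; exact h3),
      Cx.chi_congr_iso Λ (kos_cone_comm l a C).some]
    ring

end Crest.Agent.R188.Kos
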