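import Mathlib
import Crest.Agent.R183.AddLen

/-!
# R188 (Serre positivity), block A4: concrete graded complexes, cones, homology lengths.
helper415

A complex of `A`-modules is a total module `T` with submodules `gr i` (`i : ℤ`) and `D : T → T`,
`D (gr i) ⊆ gr (i-1)`, `D ∘ D = 0`.
-/

set_option autoImplicit false

namespace Crest.Agent.R188.KosG

open Crest.Agent.R183
open scoped ENNReal

universe u v

/-- Concrete graded complexes. -/
structure GCx (A : Type u) [CommRing A] where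
  /-- total module -/
  T : Type v
  [acg : AddCommGroup T]
  [mod : Module A T]
  /-- graded pieces -/
  gr : ℤ → Submodule A T
  /-- differential -/
  D : T →ₗ[A] T
  D_gr : ∀ (i : ℤ) (x : T), x ∈ gr i → D x ∈ gr (i - 1)
  DD : ∀ x : T, D (D x) = 0

attribute [instance] GCx.acg GCx.mod

namespace GCx

variable {A : Type u} [CommRing A] (K K' K'' : GCx.{u, v} A)

/-- cycles -/
def Z (i : ℤ) : Submodule A K.T := K.gr i ⊓ LinearMap.ker K.D

/-- boundaries -/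
def B (i : ℤ) : Submodule A K.T := (K.gr (i + 1)).map K.D

theorem mem_Z {i : ℤ} {x : K.T} : x ∈ K.Z i ↔ x ∈ K.gr i ∧ K.D x = 0 := Iff.rfl

theorem mem_B {i : ℤ} {x : K.T} : x ∈ K.B i ↔ ∃ y ∈ K.gr (i + 1), K.D y = x := Iff.rfl

theorem B_le_Z (i : ℤ) : K.B i ≤ K.Z i := by
  rintro _ ⟨y, hy, rfl⟩
  refine ⟨?_, K.DD y⟩
  have := K.D_gr _ _ hy
  rwa [add_sub_cancel_right] at this

/-- The homology as a submodule of `T ⧸ B i`. -/
def H (i : ℤ) : Submodule A (K.T ⧸ K.B i) := (K.Z i).map (K.B i).mkQ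

theorem mem_H {i : ℤ} {x : K.T ⧸ K.B i} : x ∈ K.H i ↔ ∃ z ∈ K.Z i, (K.B i).mkQ z = x := Iff.rfl

theorem mkQ_eq_zero {i : ℤ} {x : K.T} : (K.B i).mkQ x = 0 ↔ x ∈ K.B i := by
  rw [Submodule.mkQ_apply, Submodule.Quotient.mk_eq_zero]

/-- class of a cycle -/
def cls (i : ℤ) : K.Z i →ₗ[A] K.H i := (K.B i).mkQ.submoduleMap (K.Z i)

theorem cls_surj (i : ℤ) : Function.Surjective (K.cls i) :=
  LinearMap.submoduleMap_surjective _ _

@[simp] theorem cls_val (i : ℤ) (z : K.Z i) : ((K.cls i z : K.H i) : K.T ⧸ K.B i) = (K.B i).mkQ z :=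
  rfl

theorem cls_eq_zero {i : ℤ} {z : K.Z i} : K.cls i z = 0 ↔ (z : K.T) ∈ K.B i := by
  rw [← K.mkQ_eq_zero, ← cls_val, ZeroMemClass.coe_eq_zero]

theorem cls_eq_iff {i : ℤ} {z w : K.Z i} : K.cls i z = K.cls i w ↔ (z : K.T) - w ∈ K.B i := by
  rw [← sub_eq_zero, ← map_sub, K.cls_eq_zero, Submodule.coe_sub]

/-- homology lengths -/
noncomputable def h (Λ : AddLen.{u, v} A) (i : ℤ) : ℝ≥0∞ := Λ.L (K.H i)

theorem h_eq_zero_of_gr (Λ : AddLen.{u, v} A) {i : ℤ} (hi : K.gr i = ⊥) : K.h Λ i = 0 := by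
  have : Subsingleton (K.H i) := by
    refine ⟨fun x y => ?_⟩
    obtain ⟨⟨x, hx⟩, rfl⟩ := K.cls_surj i x
    obtain ⟨⟨y, hy⟩, rfl⟩ := K.cls_surj i y
    have hx' : x = 0 := by
      have : x ∈ K.gr i := hx.1
      rwa [hi, Submodule.mem_bot] at this
    have hy' : y = 0 := by
      have : y ∈ K.gr i := hy.1
      rwa [hi, Submodule.mem_bot] at this
    subst hx'
    subst hy'
    rfl
  exact Λ.L_subsingleton

/-- chain maps -/
structure Hom where
  /-- underlying map -/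
  f : K.T →ₗ[A] K'.T
  gr : ∀ (i : ℤ) (x : K.T), x ∈ K.gr i → f x ∈ K'.gr i
  comm : ∀ x : K.T, f (K.D x) = K'.D (f x)

variable {K K' K''}

/-- map on cycles -/
def Hom.mapZ (φ : Hom K K') (i : ℤ) : K.Z i →ₗ[A] K'.Z i :=
  φ.f.restrict (fun x hx => ⟨φ.gr i x hx.1, by
    change K'.D (φ.f x) = 0
    rw [← φ.comm, show K.D x = 0 from hx.2, map_zero]⟩)

theorem Hom.mapB (φ : Hom K K') {i : ℤ} {x : K.T} (hx : x ∈ K.B i) : φ.f x ∈ K'.B i := by
  obtain ⟨y, hy, rfl⟩ := hx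
  exact ⟨φ.f y, φ.gr _ _ hy, (φ.comm y).symm⟩

/-- map on homology -/
def Hom.map (φ : Hom K K') (i : ℤ) : K.H i →ₗ[A] K'.H i :=
  (Submodule.mapQ (K.B i) (K'.B i) φ.f (fun _ hx => φ.mapB hx)).restrict (by
    rintro _ ⟨z, hz, rfl⟩
    exact ⟨φ.f z, (φ.mapZ i ⟨z, hz⟩).2, rfl⟩)

theorem Hom.map_cls (φ : Hom K K') (i : ℤ) (z : K.Z i) :
    φ.map i (K.cls i z) = K'.cls i (φ.mapZ i z) := rfl

/-- isomorphisms -/
structure Iso (K K' : GCx.{u, v} A) where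
  /-- underlying equivalence -/
  e : K.T ≃ₗ[A] K'.T
  gr : ∀ (i : ℤ) (x : K.T), e x ∈ K'.gr i ↔ x ∈ K.gr i
  comm : ∀ x : K.T, e (K.D x) = K'.D (e x)

/-- identity -/
def Iso.refl (K : GCx.{u, v} A) : Iso K K := ⟨LinearEquiv.refl A _, fun _ _ => Iff.rfl, fun _ => rfl⟩

/-- inverse -/
def Iso.symm (φ : Iso K K') : Iso K' K where
  e := φ.e.symm
  gr := fun i x => by
    rw [← φ.gr, LinearEquiv.apply_symm_apply]
  comm := fun x => by
    apply φ.e.injective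
    rw [φ.comm, LinearEquiv.apply_symm_apply, LinearEquiv.apply_symm_apply]

/-- composition -/
def Iso.trans (φ : Iso K K') (ψ : Iso K' K'') : Iso K K'' where
  e := φ.e.trans ψ.e
  gr := fun i x => by
    rw [LinearEquiv.trans_apply, ψ.gr, φ.gr]
  comm := fun x => by
    rw [LinearEquiv.trans_apply, LinearEquiv.trans_apply, φ.comm, ψ.comm]

/-- the chain map of an isomorphism -/
def Iso.hom (φ : Iso K K') : Hom K K' :=
  ⟨φ.e, fun i x hx => (φ.gr i x).2 hx, φ.comm⟩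

/-- homology of isomorphic complexes -/
noncomputable def Iso.H (φ : Iso K K') (i : ℤ) : K.H i ≃ₗ[A] K'.H i := by
  refine LinearEquiv.ofBijective (φ.hom.map i) ⟨?_, ?_⟩
  · rw [injective_iff_map_eq_zero]
    intro x hx
    obtain ⟨z, rfl⟩ := K.cls_surj i x
    rw [Hom.map_cls, cls_eq_zero] at hx
    obtain ⟨y, hy, hyz⟩ := hx
    rw [cls_eq_zero]
    refine ⟨φ.e.symm y, (φ.symm.gr _ _).2 hy, ?_⟩
    apply φ.e.injective
    rw [φ.comm, LinearEquiv.apply_symm_apply]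
    exact hyz
  · intro y
    obtain ⟨w, rfl⟩ := K'.cls_surj i y
    refine ⟨K.cls i (φ.symm.hom.mapZ i w), ?_⟩
    rw [Hom.map_cls]
    congr 1
    apply Subtype.ext
    exact φ.e.apply_symm_apply _

theorem Iso.h_eq (φ : Iso K K') (Λ : AddLen.{u, v} A) (i : ℤ) : K.h Λ i = K'.h Λ i :=
  Λ.L_congr (φ.H i)

/-! ### cones -/

/-- The cone of multiplication by `b`. -/
def cone (b : A) (K : GCx.{u, v} A) : GCx.{u, v} A where
  T := K.T × K.T
  gr := fun i => (K.gr i).prod (K.gr (i - 1))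
  D := (K.D.coprod (LinearMap.lsmul A K.T b)).prod (-(K.D.comp (LinearMap.snd A K.T K.T)))
  D_gr := by
    rintro i ⟨x, y⟩ ⟨hx, hy⟩
    refine ⟨?_, ?_⟩
    · exact (K.gr (i - 1)).add_mem (K.D_gr _ _ hx) ((K.gr (i - 1)).smul_mem b hy)
    · exact (K.gr (i - 1 - 1)).neg_mem (K.D_gr _ _ hy)
  DD := by
    rintro ⟨x, y⟩
    refine Prod.ext ?_ ?_
    · change K.D (K.D x + b • y) + b • (-(K.D y)) = 0
      rw [map_add, K.DD, map_smul, zero_add, smul_neg, add_neg_cancel]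
    · change -(K.D (-(K.D y))) = 0
      rw [map_neg, K.DD, neg_zero, neg_zero]

theorem cone_D (b : A) (K : GCx.{u, v} A) (x y : K.T) :
    (cone b K).D (x, y) = (K.D x + b • y, -(K.D y)) := rfl

theorem cone_gr (b : A) (K : GCx.{u, v} A) (i : ℤ) (x y : K.T) :
    ((x, y) : K.T × K.T) ∈ (cone b K).gr i ↔ x ∈ K.gr i ∧ y ∈ K.gr (i - 1) := Iff.rfl

/-- Cones respect isomorphisms. -/
def Iso.cone (b : A) (φ : Iso K K') : Iso (GCx.cone b K) (GCx.cone b K') where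
  e := φ.e.prodCongr φ.e
  gr := by
    rintro i ⟨x, y⟩
    change (φ.e x ∈ K'.gr i ∧ φ.e y ∈ K'.gr (i - 1)) ↔ (x ∈ K.gr i ∧ y ∈ K.gr (i - 1))
    rw [φ.gr, φ.gr]
  comm := by
    rintro ⟨x, y⟩
    refine Prod.ext ?_ ?_
    · change φ.e (K.D x + b • y) = K'.D (φ.e x) + b • φ.e y
      rw [map_add, map_smul, φ.comm]
    · change φ.e (-(K.D y)) = -(K'.D (φ.e y))
      rw [map_neg, φ.comm]

/-- Cones commute. -/
def coneSwap (a b : A) (K : GCx.{u, v} A) : Iso (cone a (cone b K)) (cone b (cone a K)) where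
  e := 
    { toFun := fun p => ((p.1.1, p.2.1), (p.1.2, -p.2.2))
      map_add' := by
        rintro ⟨⟨x, y⟩, ⟨z, w⟩⟩ ⟨⟨x', y'⟩, ⟨z', w'⟩⟩
        refine Prod.ext rfl (Prod.ext rfl ?_)
        change -(w + w') = -w + -w'
        rw [neg_add]
      map_smul' := by
        rintro c ⟨⟨x, y⟩, ⟨z, w⟩⟩
        refine Prod.ext rfl (Prod.ext rfl ?_)
        change -(c • w) = c • (-w)
        rw [smul_neg]
      invFun := fun p => ((p.1.1, p.2.1), (p.1.2, -p.2.2))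
      left_inv := by
        rintro ⟨⟨x, y⟩, ⟨z, w⟩⟩
        refine Prod.ext rfl (Prod.ext rfl ?_)
        change - -w = w
        rw [neg_neg]
      right_inv := by
        rintro ⟨⟨x, y⟩, ⟨z, w⟩⟩
        refine Prod.ext rfl (Prod.ext rfl ?_)
        change - -w = w
        rw [neg_neg] }
  gr := by
    rintro i ⟨⟨x, y⟩, ⟨z, w⟩⟩
    change ((x ∈ K.gr i ∧ z ∈ K.gr (i - 1)) ∧ (y ∈ K.gr (i - 1) ∧ -w ∈ K.gr (i - 1 - 1))) ↔
      ((x ∈ K.gr i ∧ y ∈ K.gr (i - 1)) ∧ (z ∈ K.gr (i - 1) ∧ w ∈ K.gr (i - 1 - 1)))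
    rw [neg_mem_iff]
    tauto
  comm := by
    rintro ⟨⟨x, y⟩, ⟨z, w⟩⟩
    refine Prod.ext (Prod.ext ?_ ?_) (Prod.ext ?_ ?_)
    · change K.D x + b • y + a • z = K.D x + a • z + b • y
      abel
    · change -(K.D z + b • w) = -(K.D z) + b • (-w)
      rw [neg_add, smul_neg]
    · change -(K.D y) + a • w = -(K.D y + a • (-w))
      rw [neg_add, smul_neg, neg_neg]
    · change -(-(-(K.D w))) = -(-(K.D (-w)))
      rw [map_neg]

end GCx

end Crest.Agent.R188.KosG
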