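import Crest.Agent.R188.KosA

/-!
# R188 (Serre positivity), block A4: homology of cones, null-homotopies.
helper415
-/

set_option autoImplicit false

namespace Crest.Agent.R188.KosG

open Crest.Agent.R183
open scoped ENNReal

universe u v

/-- `L (X / b X)` -/
noncomputable def co {A : Type u} [CommRing A] (Λ : AddLen.{u, v} A) (b : A) (X : Type v)
    [AddCommGroup X] [Module A X] : ℝ≥0∞ := Λ.L (X ⧸ LinearMap.range (LinearMap.lsmul A X b))

/-- `L (Ann_X b)` -/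
noncomputable def an {A : Type u} [CommRing A] (Λ : AddLen.{u, v} A) (b : A) (X : Type v)
    [AddCommGroup X] [Module A X] : ℝ≥0∞ := Λ.L (LinearMap.ker (LinearMap.lsmul A X b))

namespace GCx

variable {A : Type u} [CommRing A] {K : GCx.{u, v} A}

/-! ### null homotopies -/

/-- `a` is null-homotopic on `K`. -/
def NH (K : GCx.{u, v} A) (a : A) : Prop :=
  ∃ s : K.T →ₗ[A] K.T, (∀ (i : ℤ) (x : K.T), x ∈ K.gr i → s x ∈ K.gr (i + 1)) ∧
    ∀ x : K.T, K.D (s x) + s (K.D x) = a • x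

theorem NH.zero (K : GCx.{u, v} A) : K.NH 0 :=
  ⟨0, fun i x _ => (K.gr (i + 1)).zero_mem, fun x => by simp⟩

theorem NH.add {a b : A} (ha : K.NH a) (hb : K.NH b) : K.NH (a + b) := by
  obtain ⟨s, hs, hs'⟩ := ha
  obtain ⟨t, ht, ht'⟩ := hb
  refine ⟨s + t, fun i x hx => (K.gr (i + 1)).add_mem (hs i x hx) (ht i x hx), fun x => ?_⟩
  rw [LinearMap.add_apply, LinearMap.add_apply, map_add, add_smul, ← hs', ← ht']
  abel

theorem NH.mul {a : A} (c : A) (ha : K.NH a) : K.NH (c * a) := by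
  obtain ⟨s, hs, hs'⟩ := ha
  refine ⟨c • s, fun i x hx => (K.gr (i + 1)).smul_mem c (hs i x hx), fun x => ?_⟩
  rw [LinearMap.smul_apply, LinearMap.smul_apply, map_smul, ← smul_add, hs', smul_smul]

/-- The ideal of null-homotopic elements. -/
def NHI (K : GCx.{u, v} A) : Ideal A where
  carrier := {a | K.NH a}
  zero_mem' := NH.zero K
  add_mem' := fun ha hb => NH.add ha hb
  smul_mem' := fun c _ ha => NH.mul c ha

theorem mem_NHI {a : A} : a ∈ K.NHI ↔ K.NH a := Iff.rfl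

theorem NH.of_smul {a : A} (h : ∀ x : K.T, a • x = 0) : K.NH a :=
  ⟨0, fun i x _ => (K.gr (i + 1)).zero_mem, fun x => by
    rw [LinearMap.zero_apply, LinearMap.zero_apply, map_zero, h, add_zero]⟩

theorem NH.self (K : GCx.{u, v} A) (a : A) : (cone a K).NH a := by
  refine ⟨(0 : K.T × K.T →ₗ[A] K.T).prod (LinearMap.fst A K.T K.T), ?_, ?_⟩
  · rintro i ⟨x, y⟩ ⟨hx, hy⟩
    refine ⟨(K.gr (i + 1)).zero_mem, ?_⟩
    change x ∈ K.gr (i + 1 - 1)
    rw [add_sub_cancel_right]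
    exact hx
  · rintro ⟨x, y⟩
    refine Prod.ext ?_ ?_
    · change K.D 0 + a • x + 0 = a • x
      rw [map_zero, zero_add, add_zero]
    · change -(K.D x) + (K.D x + a • y) = a • y
      abel

theorem NH.cone {a : A} (ha : K.NH a) (b : A) : (GCx.cone b K).NH a := by
  obtain ⟨s, hs, hs'⟩ := ha
  refine ⟨(s.comp (LinearMap.fst A K.T K.T)).prod (-(s.comp (LinearMap.snd A K.T K.T))), ?_, ?_⟩
  · rintro i ⟨x, y⟩ ⟨hx, hy⟩
    refine ⟨hs i x hx, ?_⟩
    have := hs _ _ hy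
    change -(s y) ∈ K.gr (i + 1 - 1)
    rw [add_sub_cancel_right]
    change s y ∈ K.gr (i - 1 + 1) at this
    rw [sub_add_cancel] at this
    exact (K.gr i).neg_mem this
  · rintro ⟨x, y⟩
    refine Prod.ext ?_ ?_
    · change K.D (s x) + b • (-(s y)) + s (K.D x + b • y) = a • x
      rw [map_add, map_smul, smul_neg, ← hs']
      abel
    · change -(K.D (-(s y))) + -(s (-(K.D y))) = a • y
      rw [map_neg, map_neg, neg_neg, neg_neg, hs']

theorem NHI_le_cone (K : GCx.{u, v} A) (b : A) : K.NHI ≤ (GCx.cone b K).NHI :=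
  fun _ ha => NH.cone ha b

theorem Iso.NH {K' : GCx.{u, v} A} (φ : Iso K K') {a : A} (ha : K.NH a) : K'.NH a := by
  obtain ⟨s, hs, hs'⟩ := ha
  refine ⟨(φ.e : K.T →ₗ[A] K'.T) ∘ₗ s ∘ₗ (φ.e.symm : K'.T →ₗ[A] K.T), ?_, ?_⟩
  · intro i x hx
    exact (φ.gr _ _).2 (hs _ _ ((φ.symm.gr _ _).2 hx))
  · intro x
    change K'.D (φ.e (s (φ.e.symm x))) + φ.e (s (φ.e.symm (K'.D x))) = a • x
    have h1 : φ.e.symm (K'.D x) = K.D (φ.e.symm x) := φ.symm.comm x
    rw [h1, ← φ.comm, ← map_add, hs', map_smul, LinearEquiv.apply_symm_apply]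

/-- If `a` is null-homotopic then `cone a K ≅ cone 0 K`. -/
theorem cone_iso_zero {a : A} (ha : K.NH a) : Nonempty (Iso (GCx.cone 0 K) (GCx.cone a K)) := by
  obtain ⟨s, hs, hs'⟩ := ha
  refine ⟨⟨
    { toFun := fun p => (p.1 - s p.2, p.2)
      map_add' := ?_
      map_smul' := ?_
      invFun := fun p => (p.1 + s p.2, p.2)
      left_inv := ?_
      right_inv := ?_ }, ?_, ?_⟩⟩
  · rintro ⟨x, y⟩ ⟨x', y'⟩
    refine Prod.ext ?_ rfl
    change x + x' - s (y + y') = x - s y + (x' - s y')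
    rw [map_add]; abel
  · rintro c ⟨x, y⟩
    refine Prod.ext ?_ rfl
    change c • x - s (c • y) = c • (x - s y)
    rw [map_smul, smul_sub]
  · rintro ⟨x, y⟩
    refine Prod.ext ?_ rfl
    change x - s y + s y = x
    abel
  · rintro ⟨x, y⟩
    refine Prod.ext ?_ rfl
    change x + s y - s y = x
    abel
  · rintro i ⟨x, y⟩
    change (x - s y ∈ K.gr i ∧ y ∈ K.gr (i - 1)) ↔ (x ∈ K.gr i ∧ y ∈ K.gr (i - 1))
    constructor
    · rintro ⟨h1, h2⟩
      have h3 := hs _ _ h2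
      rw [sub_add_cancel] at h3
      refine ⟨?_, h2⟩
      have := (K.gr i).add_mem h1 h3
      rwa [sub_add_cancel] at this
    · rintro ⟨h1, h2⟩
      have h3 := hs _ _ h2
      rw [sub_add_cancel] at h3
      exact ⟨(K.gr i).sub_mem h1 h3, h2⟩
  · rintro ⟨x, y⟩
    refine Prod.ext ?_ rfl
    change K.D x + (0 : A) • y - s (-(K.D y)) = K.D (x - s y) + a • y
    rw [zero_smul, add_zero, map_neg, map_sub, ← hs']
    abel

/-! ### homology of a cone -/

/-- `H_i(K) → H_i(cone b K)` -/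
def inl (b : A) (K : GCx.{u, v} A) : Hom K (GCx.cone b K) where
  f := LinearMap.inl A K.T K.T
  gr := fun i x hx => ⟨hx, (K.gr (i - 1)).zero_mem⟩
  comm := fun x => by
    refine Prod.ext ?_ ?_
    · change K.D x = K.D x + b • (0 : K.T)
      rw [smul_zero, add_zero]
    · change (0 : K.T) = -(K.D 0)
      rw [map_zero, neg_zero]

/-- cycles of the cone, second component -/
def sndZ (b : A) (K : GCx.{u, v} A) (i : ℤ) : (GCx.cone b K).Z i →ₗ[A] K.Z (i - 1) :=
  (LinearMap.snd A K.T K.T).restrict (by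
    rintro ⟨x, y⟩ ⟨h1, h2⟩
    refine ⟨h1.2, ?_⟩
    have h3 : -(K.D y) = 0 := congrArg Prod.snd h2
    change K.D y = 0
    rwa [neg_eq_zero] at h3)

/-- `H_i(cone b K) → H_{i-1}(K)` -/
def snd (b : A) (K : GCx.{u, v} A) (i : ℤ) : (GCx.cone b K).H i →ₗ[A] K.H (i - 1) :=
  (Submodule.mapQ ((GCx.cone b K).B i) (K.B (i - 1)) (LinearMap.snd A K.T K.T) (by
    rintro _ ⟨⟨x, y⟩, ⟨hx, hy⟩, rfl⟩
    refine ⟨-y, ?_, ?_⟩
    · rw [sub_add_cancel]
      change y ∈ K.gr (i + 1 - 1) at hy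
      rw [add_sub_cancel_right] at hy
      exact (K.gr i).neg_mem hy
    · change K.D (-y) = -(K.D y)
      rw [map_neg])).restrict (by
    rintro _ ⟨z, hz, rfl⟩
    exact ⟨z.2, (sndZ b K i ⟨z, hz⟩).2, rfl⟩)

theorem snd_cls (b : A) (K : GCx.{u, v} A) (i : ℤ) (z : (GCx.cone b K).Z i) :
    snd b K i ((GCx.cone b K).cls i z) = K.cls (i - 1) (sndZ b K i z) := rfl

theorem ker_inl (b : A) (K : GCx.{u, v} A) (i : ℤ) :
    LinearMap.ker ((inl b K).map i) = LinearMap.range (LinearMap.lsmul A (K.H i) b) := by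
  ext x
  obtain ⟨⟨x, hx⟩, rfl⟩ := K.cls_surj i x
  rw [LinearMap.mem_ker, Hom.map_cls, cls_eq_zero]
  constructor
  · rintro ⟨⟨z, w⟩, ⟨hz, hw⟩, hzw⟩
    have h1 : K.D z + b • w = x := congrArg Prod.fst hzw
    have h2 : -(K.D w) = 0 := congrArg Prod.snd hzw
    change w ∈ K.gr (i + 1 - 1) at hw
    rw [add_sub_cancel_right] at hw
    rw [neg_eq_zero] at h2
    refine ⟨K.cls i ⟨w, hw, h2⟩, ?_⟩
    rw [LinearMap.lsmul_apply, ← map_smul, cls_eq_iff]
    refine ⟨-z, (K.gr (i + 1)).neg_mem hz, ?_⟩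
    change K.D (-z) = b • w - x
    rw [map_neg, ← h1]
    abel
  · rintro ⟨w, hw⟩
    obtain ⟨⟨w, hw1⟩, rfl⟩ := K.cls_surj i w
    rw [LinearMap.lsmul_apply, ← map_smul, cls_eq_iff] at hw
    obtain ⟨z, hz, hz'⟩ := hw
    change K.D z = b • w - x at hz'
    refine ⟨(-z, w), ⟨(K.gr (i + 1)).neg_mem hz, ?_⟩, ?_⟩
    · change w ∈ K.gr (i + 1 - 1)
      rw [add_sub_cancel_right]
      exact hw1.1
    · refine Prod.ext ?_ ?_
      · change K.D (-z) + b • w = x
        rw [map_neg, hz']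
        abel
      · change -(K.D w) = 0
        rw [show K.D w = 0 from hw1.2, neg_zero]

theorem range_inl (b : A) (K : GCx.{u, v} A) (i : ℤ) :
    LinearMap.range ((inl b K).map i) = LinearMap.ker (snd b K i) := by
  ext x
  obtain ⟨⟨⟨x, y⟩, hx⟩, rfl⟩ := (GCx.cone b K).cls_surj i x
  rw [LinearMap.mem_ker, snd_cls, cls_eq_zero]
  have hx1 : x ∈ K.gr i := hx.1.1
  have hx2 : K.D x + b • y = 0 := congrArg Prod.fst hx.2
  constructor
  · rintro ⟨z, hz⟩
    obtain ⟨⟨z, hz1⟩, rfl⟩ := K.cls_surj i z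
    rw [Hom.map_cls, cls_eq_iff] at hz
    obtain ⟨⟨u, w⟩, ⟨hu, hw⟩, huw⟩ := hz
    have h2 : -(K.D w) = 0 - y := congrArg Prod.snd huw
    change w ∈ K.gr (i + 1 - 1) at hw
    rw [add_sub_cancel_right] at hw
    refine ⟨w, by rwa [sub_add_cancel], ?_⟩
    change K.D w = y
    rw [zero_sub] at h2
    exact neg_injective h2
  · rintro ⟨w, hw, hwy⟩
    change K.D w = y at hwy
    rw [sub_add_cancel] at hw
    refine ⟨K.cls i ⟨x + b • w, (K.gr i).add_mem hx1 ((K.gr i).smul_mem b hw), ?_⟩, ?_⟩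
    · change K.D (x + b • w) = 0
      rw [map_add, map_smul, hwy, hx2]
    · rw [Hom.map_cls, cls_eq_iff]
      refine ⟨(0, w), ⟨(K.gr (i + 1)).zero_mem, ?_⟩, ?_⟩
      · change w ∈ K.gr (i + 1 - 1)
        rw [add_sub_cancel_right]
        exact hw
      · refine Prod.ext ?_ ?_
        · change K.D 0 + b • w = x + b • w - x
          rw [map_zero]
          abel
        · change -(K.D w) = 0 - y
          rw [hwy, zero_sub]

theorem range_snd (b : A) (K : GCx.{u, v} A) (i : ℤ) :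
    LinearMap.range (snd b K i) = LinearMap.ker (LinearMap.lsmul A (K.H (i - 1)) b) := by
  ext y
  obtain ⟨⟨y, hy⟩, rfl⟩ := K.cls_surj (i - 1) y
  rw [LinearMap.mem_ker, LinearMap.lsmul_apply, ← map_smul, cls_eq_zero]
  constructor
  · rintro ⟨z, hz⟩
    obtain ⟨⟨⟨x, y'⟩, hx⟩, rfl⟩ := (GCx.cone b K).cls_surj i z
    rw [snd_cls, cls_eq_iff] at hz
    have hx1 : x ∈ K.gr i := hx.1.1
    have hx2 : K.D x + b • y' = 0 := congrArg Prod.fst hx.2
    obtain ⟨u, hu, huy⟩ := hz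
    change K.D u = y' - y at huy
    rw [sub_add_cancel] at hu
    refine ⟨-x - b • u, ?_, ?_⟩
    · rw [sub_add_cancel]
      exact (K.gr i).sub_mem ((K.gr i).neg_mem hx1) ((K.gr i).smul_mem b hu)
    · change K.D (-x - b • u) = b • y
      rw [map_sub, map_neg, map_smul, huy, smul_sub]
      have : -(K.D x) = b • y' := by
        rw [neg_eq_iff_add_eq_zero]
        exact hx2
      rw [this]
      abel
  · rintro ⟨u, hu, huy⟩
    change K.D u = b • y at huy
    rw [sub_add_cancel] at hu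
    have hz : (((-u, y) : K.T × K.T) : (GCx.cone b K).T) ∈ (GCx.cone b K).Z i := by
      refine ⟨⟨(K.gr i).neg_mem hu, hy.1⟩, ?_⟩
      refine Prod.ext ?_ ?_
      · change K.D (-u) + b • y = 0
        rw [map_neg, huy, neg_add_cancel]
      · change -(K.D y) = 0
        rw [show K.D y = 0 from hy.2, neg_zero]
    refine ⟨(GCx.cone b K).cls i ⟨(-u, y), hz⟩, ?_⟩
    rw [snd_cls]
    rfl

/-- **Homology of a cone.** -/
theorem h_cone (Λ : AddLen.{u, v} A) (b : A) (K : GCx.{u, v} A) (i : ℤ) :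
    (GCx.cone b K).h Λ i = co Λ b (K.H i) + an Λ b (K.H (i - 1)) := by
  unfold h co an
  rw [Λ.L_ker_add_range (snd b K i), ← range_inl, range_snd,
    ← Λ.L_congr ((inl b K).map i).quotKerEquivRange, ker_inl]

theorem co_le (Λ : AddLen.{u, v} A) (b : A) (X : Type v) [AddCommGroup X] [Module A X] :
    co Λ b X ≤ Λ.L X := Λ.L_quotient_le _

theorem an_le (Λ : AddLen.{u, v} A) (b : A) (X : Type v) [AddCommGroup X] [Module A X] :
    an Λ b X ≤ Λ.L X := Λ.L_submodule_le _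

theorem h_cone_le (Λ : AddLen.{u, v} A) (b : A) (K : GCx.{u, v} A) (i : ℤ) :
    (GCx.cone b K).h Λ i ≤ K.h Λ i + K.h Λ (i - 1) := by
  rw [h_cone]
  exact add_le_add (co_le Λ b _) (an_le Λ b _)

theorem h_cone_zero (Λ : AddLen.{u, v} A) (K : GCx.{u, v} A) (i : ℤ) :
    (GCx.cone 0 K).h Λ i = K.h Λ i + K.h Λ (i - 1) := by
  rw [h_cone]
  unfold co an h
  congr 1
  · have : LinearMap.range (LinearMap.lsmul A (K.H i) 0) = ⊥ := by
      rw [map_zero, LinearMap.range_zero]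
    rw [this]
    exact Λ.L_congr (Submodule.quotEquivOfEqBot _ rfl)
  · have : LinearMap.ker (LinearMap.lsmul A (K.H (i - 1)) 0) = ⊤ := by
      rw [map_zero, LinearMap.ker_zero]
    rw [this]
    exact Λ.L_congr Submodule.topEquiv

theorem h_cone_NH (Λ : AddLen.{u, v} A) {b : A} (hb : K.NH b) (i : ℤ) :
    (GCx.cone b K).h Λ i = K.h Λ i + K.h Λ (i - 1) := by
  obtain ⟨φ⟩ := cone_iso_zero hb
  rw [← φ.h_eq, h_cone_zero]

/-- A null-homotopic element kills the homology. -/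
theorem NH.smul_H {a : A} (ha : K.NH a) (i : ℤ) (x : K.H i) : a • x = 0 := by
  obtain ⟨s, hs, hs'⟩ := ha
  obtain ⟨⟨x, hx⟩, rfl⟩ := K.cls_surj i x
  rw [← map_smul, cls_eq_zero]
  refine ⟨s x, hs i x hx.1, ?_⟩
  have := hs' x
  rw [show K.D x = 0 from hx.2, map_zero, add_zero] at this
  exact this

end GCx

end Crest.Agent.R188.KosG
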