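import Crest.Agent.R188.KosC

/-!
# R188 (Serre positivity), block A4: the long exact sequence in length form, `H_0`, functoriality
in the module, additivity of `χ`, regular sequences.
helper415
-/

set_option autoImplicit false

namespace Crest.Agent.R188.KosG

open Crest.Agent.R183
open scoped ENNReal

universe u v

namespace GCx

variable {A : Type u} [CommRing A] {K' K K'' : GCx.{u, v} A}

/-- Graded short exact sequences of complexes. -/
structure SES (K' K K'' : GCx.{u, v} A) where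
  /-- the injection -/
  i : Hom K' K
  /-- the surjection -/
  p : Hom K K''
  inj : Function.Injective i.f
  zero : ∀ x, p.f (i.f x) = 0
  surj : ∀ (n : ℤ) (x : K''.T), x ∈ K''.gr n → ∃ y ∈ K.gr n, p.f y = x
  exact : ∀ (n : ℤ) (x : K.T), x ∈ K.gr n → p.f x = 0 → ∃ y ∈ K'.gr n, i.f y = x

namespace SES

variable (S : SES K' K K'')

/-- `x ∈ gr n` whose image in `K''` is a cycle. -/
def W (n : ℤ) : Submodule A K.T := K.gr n ⊓ (K''.Z n).comap S.p.f

/-- cycles plus the image of `K'`. -/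
def N (n : ℤ) : Submodule A K.T := K.Z n ⊔ (K'.gr n).map S.i.f

/-- the "rank" of the connecting map `H_n(K'') → H_{n-1}(K')` -/
noncomputable def r (Λ : AddLen.{u, v} A) (n : ℤ) : ℝ≥0∞ :=
  Λ.L (S.W n ⧸ (S.N n).submoduleOf (S.W n))

theorem mem_W {n : ℤ} {x : K.T} : x ∈ S.W n ↔ x ∈ K.gr n ∧ K''.D (S.p.f x) = 0 := by
  constructor
  · rintro ⟨h1, h2⟩
    exact ⟨h1, h2.2⟩
  · rintro ⟨h1, h2⟩
    exact ⟨h1, S.p.gr _ _ h1, h2⟩

theorem mem_N {n : ℤ} {x : K.T} : x ∈ S.N n ↔ ∃ y ∈ K'.gr n, x - S.i.f y ∈ K.Z n := by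
  constructor
  · intro hx
    obtain ⟨z, hz, _, ⟨y, hy, rfl⟩, rfl⟩ := Submodule.mem_sup.1 hx
    exact ⟨y, hy, by rwa [add_sub_cancel_right]⟩
  · rintro ⟨y, hy, hz⟩
    exact Submodule.mem_sup.2 ⟨_, hz, _, ⟨y, hy, rfl⟩, sub_add_cancel _ _⟩

/-- exactness at `H_n(K)` -/
theorem range_i (n : ℤ) : LinearMap.range (S.i.map n) = LinearMap.ker (S.p.map n) := by
  ext x
  obtain ⟨⟨x, hx⟩, rfl⟩ := K.cls_surj n x
  rw [LinearMap.mem_ker, Hom.map_cls, cls_eq_zero]
  constructor
  · rintro ⟨y, hy⟩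
    obtain ⟨⟨y, hy1⟩, rfl⟩ := K'.cls_surj n y
    rw [Hom.map_cls, cls_eq_iff] at hy
    obtain ⟨u, hu, hu'⟩ := hy
    change K.D u = S.i.f y - x at hu'
    refine ⟨-(S.p.f u), (K''.gr _).neg_mem (S.p.gr _ _ hu), ?_⟩
    change K''.D (-(S.p.f u)) = S.p.f x
    rw [map_neg, ← S.p.comm, hu', map_sub, S.zero, zero_sub, neg_neg]
  · rintro ⟨u, hu, hu'⟩
    change K''.D u = S.p.f x at hu'
    obtain ⟨w, hw, rfl⟩ := S.surj _ _ hu
    rw [← S.p.comm] at hu'
    have h1 : S.p.f (x - K.D w) = 0 := by rw [map_sub, hu', sub_self]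
    have h2 : x - K.D w ∈ K.gr n := by
      refine (K.gr n).sub_mem hx.1 ?_
      have := K.D_gr _ _ hw
      rwa [add_sub_cancel_right] at this
    obtain ⟨y, hy, hy'⟩ := S.exact n _ h2 h1
    have hyZ : y ∈ K'.Z n := by
      refine ⟨hy, ?_⟩
      apply S.inj
      rw [S.i.comm, hy', map_sub, K.DD, show K.D x = 0 from hx.2, sub_zero, map_zero]
    refine ⟨K'.cls n ⟨y, hyZ⟩, ?_⟩
    rw [Hom.map_cls, cls_eq_iff]
    refine ⟨-w, (K.gr _).neg_mem hw, ?_⟩
    change K.D (-w) = S.i.f y - x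
    rw [hy', map_neg]
    abel

/-- cokernel of `H_n(K) → H_n(K'')` -/
theorem L_coker (Λ : AddLen.{u, v} A) (n : ℤ) :
    Λ.L (K''.H n ⧸ LinearMap.range (S.p.map n)) = S.r Λ n := by
  let f0 : S.W n →ₗ[A] K''.Z n := S.p.f.restrict (fun x hx => hx.2)
  let f : S.W n →ₗ[A] (K''.H n ⧸ LinearMap.range (S.p.map n)) :=
    (LinearMap.range (S.p.map n)).mkQ ∘ₗ (K''.cls n) ∘ₗ f0
  have hf : Function.Surjective f := by
    intro y
    obtain ⟨y, rfl⟩ := (LinearMap.range (S.p.map n)).mkQ_surjective y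
    obtain ⟨⟨y, hy⟩, rfl⟩ := K''.cls_surj n y
    obtain ⟨x, hx, hxy⟩ := S.surj n y hy.1
    have hxW : x ∈ S.W n := S.mem_W.2 ⟨hx, by rw [hxy]; exact hy.2⟩
    refine ⟨⟨x, hxW⟩, ?_⟩
    change (LinearMap.range (S.p.map n)).mkQ (K''.cls n (f0 ⟨x, hxW⟩)) = _
    congr 2
    exact Subtype.ext hxy
  have hk : LinearMap.ker f = (S.N n).submoduleOf (S.W n) := by
    ext ⟨x, hx⟩
    rw [LinearMap.mem_ker]
    change (LinearMap.range (S.p.map n)).mkQ (K''.cls n (f0 ⟨x, hx⟩)) = 0 ↔ x ∈ S.N n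
    rw [Submodule.mkQ_apply, Submodule.Quotient.mk_eq_zero, S.mem_N]
    constructor
    · rintro ⟨z, hz⟩
      obtain ⟨⟨z, hz1⟩, rfl⟩ := K.cls_surj n z
      rw [Hom.map_cls, cls_eq_iff] at hz
      obtain ⟨u, hu, hu'⟩ := hz
      change K''.D u = S.p.f z - S.p.f x at hu'
      obtain ⟨w, hw, rfl⟩ := S.surj _ _ hu
      rw [← S.p.comm, ← map_sub] at hu'
      have h1 : S.p.f (x - z + K.D w) = 0 := by
        rw [map_add, hu', ← map_add]
        have : x - z + (z - x) = 0 := by abel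
        rw [this, map_zero]
      have h2 : K.D w ∈ K.gr n := by
        have := K.D_gr _ _ hw
        rwa [add_sub_cancel_right] at this
      have h3 : x - z + K.D w ∈ K.gr n :=
        (K.gr n).add_mem ((K.gr n).sub_mem (S.mem_W.1 hx).1 hz1.1) h2
      obtain ⟨y, hy, hy'⟩ := S.exact n _ h3 h1
      refine ⟨y, hy, ?_⟩
      have h4 : x - S.i.f y = z - K.D w := by rw [hy']; abel
      rw [h4]
      exact (K.Z n).sub_mem hz1 ⟨h2, K.DD w⟩
    · rintro ⟨y, hy, hz⟩
      refine ⟨K.cls n ⟨_, hz⟩, ?_⟩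
      rw [Hom.map_cls]
      congr 1
      apply Subtype.ext
      change S.p.f (x - S.i.f y) = S.p.f x
      rw [map_sub, S.zero, sub_zero]
  unfold r
  rw [← hk]
  exact (Λ.L_congr (f.quotKerEquivOfSurjective hf)).symm

theorem exists_g0 (n : ℤ) : ∃ g0 : S.W n →ₗ[A] K'.Z (n - 1),
    ∀ x : S.W n, S.i.f (g0 x : K'.T) = K.D (x : K.T) := by
  have key : ∀ x : S.W n, ∃ y ∈ K'.Z (n - 1), S.i.f y = K.D x := by
    rintro ⟨x, hx⟩
    obtain ⟨h1, h2⟩ := S.mem_W.1 hx
    have h3 : S.p.f (K.D x) = 0 := by rw [S.p.comm]; exact h2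
    obtain ⟨y, hy, hy'⟩ := S.exact (n - 1) _ (K.D_gr _ _ h1) h3
    refine ⟨y, ⟨hy, ?_⟩, hy'⟩
    apply S.inj
    rw [S.i.comm, hy', K.DD, map_zero]
  choose g hg hg' using key
  exact ⟨
    { toFun := fun x => ⟨g x, hg x⟩
      map_add' := fun x y => Subtype.ext (S.inj (by
        change S.i.f (g (x + y)) = S.i.f (g x + g y)
        rw [map_add, hg', hg', hg', Submodule.coe_add, map_add]))
      map_smul' := fun c x => Subtype.ext (S.inj (by
        change S.i.f (g (c • x)) = S.i.f (c • g x)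
        rw [map_smul, hg', hg', Submodule.coe_smul, map_smul])) }, fun x => hg' x⟩

/-- kernel of `H_{n-1}(K') → H_{n-1}(K)` -/
theorem exists_f (n : ℤ) : ∃ f : S.W n →ₗ[A] LinearMap.ker (S.i.map (n - 1)),
    Function.Surjective f ∧ LinearMap.ker f = (S.N n).submoduleOf (S.W n) := by
  obtain ⟨g0, hg'⟩ := S.exists_g0 n
  have hr : ∀ x : S.W n, K'.cls (n - 1) (g0 x) ∈ LinearMap.ker (S.i.map (n - 1)) := by
    intro x
    rw [LinearMap.mem_ker, Hom.map_cls, cls_eq_zero]
    refine ⟨x, ?_, (hg' x).symm⟩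
    rw [sub_add_cancel]
    exact (S.mem_W.1 x.2).1
  refine ⟨((K'.cls (n - 1)) ∘ₗ g0).codRestrict _ hr, ?_, ?_⟩
  · rintro ⟨y, hy⟩
    obtain ⟨⟨y, hy1⟩, rfl⟩ := K'.cls_surj (n - 1) y
    rw [LinearMap.mem_ker, Hom.map_cls, cls_eq_zero] at hy
    obtain ⟨x, hx, hx'⟩ := hy
    change K.D x = S.i.f y at hx'
    rw [sub_add_cancel] at hx
    have hxW : x ∈ S.W n := S.mem_W.2 ⟨hx, by rw [← S.p.comm, hx', S.zero]⟩
    refine ⟨⟨x, hxW⟩, ?_⟩
    apply Subtype.ext
    change K'.cls (n - 1) (g0 ⟨x, hxW⟩) = K'.cls (n - 1) ⟨y, hy1⟩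
    congr 1
    apply Subtype.ext
    apply S.inj
    rw [hg']
    exact hx'
  · ext x
    have e1 : x ∈ LinearMap.ker (((K'.cls (n - 1)) ∘ₗ g0).codRestrict _ hr) ↔
        K'.cls (n - 1) (g0 x) = 0 := by
      rw [LinearMap.mem_ker]
      exact ⟨fun h => congrArg Subtype.val h, fun h => Subtype.ext h⟩
    have e2 : x ∈ (S.N n).submoduleOf (S.W n) ↔ (x : K.T) ∈ S.N n := Iff.rfl
    rw [e1, e2, cls_eq_zero, S.mem_N]
    constructor
    · rintro ⟨y, hy, hy'⟩
      rw [sub_add_cancel] at hy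
      refine ⟨y, hy, (K.gr n).sub_mem (S.mem_W.1 x.2).1 (S.i.gr _ _ hy), ?_⟩
      change K.D (x - S.i.f y) = 0
      rw [map_sub, ← S.i.comm, hy', hg', sub_self]
    · rintro ⟨y, hy, hz⟩
      refine ⟨y, by rwa [sub_add_cancel], ?_⟩
      apply S.inj
      rw [hg', S.i.comm]
      have := hz.2
      change K.D (x - S.i.f y) = 0 at this
      rw [map_sub, sub_eq_zero] at this
      exact this.symm

theorem _root_.Crest.Agent.R188.KosG.L_of_surj (Λ : AddLen.{u, v} A) {W X : Type v}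
    [AddCommGroup W] [Module A W] [AddCommGroup X] [Module A X] (f : W →ₗ[A] X)
    (hf : Function.Surjective f) (N : Submodule A W) (hk : LinearMap.ker f = N) :
    Λ.L (W ⧸ N) = Λ.L X := by
  subst hk
  exact Λ.L_congr (f.quotKerEquivOfSurjective hf)

theorem L_ker (Λ : AddLen.{u, v} A) (n : ℤ) :
    Λ.L (LinearMap.ker (S.i.map (n - 1))) = S.r Λ n := by
  obtain ⟨f, hf, hk⟩ := S.exists_f n
  exact (L_of_surj Λ f hf _ hk).symm

/-- **The long exact sequence in length form.** -/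
theorem les (Λ : AddLen.{u, v} A) (n : ℤ) :
    K'.h Λ n + K''.h Λ n = K.h Λ n + S.r Λ (n + 1) + S.r Λ n := by
  have h1 : K'.h Λ n = S.r Λ (n + 1) + Λ.L (LinearMap.range (S.i.map n)) := by
    have := S.L_ker Λ (n + 1)
    rw [add_sub_cancel_right] at this
    rw [← this]
    exact Λ.L_ker_add_range _
  have h2 : K''.h Λ n = Λ.L (LinearMap.range (S.p.map n)) + S.r Λ n := by
    rw [← S.L_coker Λ n]
    exact Λ.L_eq_add_quotient _
  have h3 : K.h Λ n = Λ.L (LinearMap.range (S.i.map n)) + Λ.L (LinearMap.range (S.p.map n)) := by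
    rw [S.range_i]
    exact Λ.L_ker_add_range _
  rw [h1, h2, h3]
  ring

theorem r_le_right (Λ : AddLen.{u, v} A) (n : ℤ) : S.r Λ n ≤ K''.h Λ n := by
  rw [← S.L_coker Λ n]
  exact Λ.L_quotient_le _

theorem r_le_left (Λ : AddLen.{u, v} A) (n : ℤ) : S.r Λ (n + 1) ≤ K'.h Λ n := by
  have := S.L_ker Λ (n + 1)
  rw [add_sub_cancel_right] at this
  rw [← this]
  exact Λ.L_submodule_le _

include S

theorem h_mid_le (Λ : AddLen.{u, v} A) (n : ℤ) : K.h Λ n ≤ K'.h Λ n + K''.h Λ n := by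
  rw [S.les, add_assoc]
  exact le_self_add

theorem h_left_le (Λ : AddLen.{u, v} A) (n : ℤ) : K'.h Λ n ≤ K.h Λ n + K''.h Λ (n + 1) := by
  have h1 : K'.h Λ n = S.r Λ (n + 1) + Λ.L (LinearMap.range (S.i.map n)) := by
    have := S.L_ker Λ (n + 1)
    rw [add_sub_cancel_right] at this
    rw [← this]
    exact Λ.L_ker_add_range _
  rw [h1, add_comm]
  exact add_le_add (Λ.L_submodule_le _) (S.r_le_right Λ _)

theorem h_right_le (Λ : AddLen.{u, v} A) (n : ℤ) : K''.h Λ n ≤ K.h Λ n + K'.h Λ (n - 1) := by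
  have h2 : K''.h Λ n = Λ.L (LinearMap.range (S.p.map n)) + S.r Λ n := by
    rw [← S.L_coker Λ n]
    exact Λ.L_eq_add_quotient _
  rw [h2]
  have h3 := S.r_le_left Λ (n - 1)
  rw [sub_add_cancel] at h3
  refine add_le_add ?_ h3
  rw [show K.h Λ n = Λ.L (LinearMap.ker (S.p.map n)) + Λ.L (LinearMap.range (S.p.map n)) from
    Λ.L_ker_add_range _]
  exact le_add_self

omit S

/-- cones of short exact sequences -/
def cone (b : A) : SES (GCx.cone b K') (GCx.cone b K) (GCx.cone b K'') where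
  i := 
    { f := S.i.f.prodMap S.i.f
      gr := by
        rintro i ⟨x, y⟩ ⟨hx, hy⟩
        exact ⟨S.i.gr _ _ hx, S.i.gr _ _ hy⟩
      comm := by
        rintro ⟨x, y⟩
        refine Prod.ext ?_ ?_
        · change S.i.f (K'.D x + b • y) = K.D (S.i.f x) + b • S.i.f y
          rw [map_add, map_smul, S.i.comm]
        · change S.i.f (-(K'.D y)) = -(K.D (S.i.f y))
          rw [map_neg, S.i.comm] }
  p := 
    { f := S.p.f.prodMap S.p.f
      gr := by
        rintro i ⟨x, y⟩ ⟨hx, hy⟩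
        exact ⟨S.p.gr _ _ hx, S.p.gr _ _ hy⟩
      comm := by
        rintro ⟨x, y⟩
        refine Prod.ext ?_ ?_
        · change S.p.f (K.D x + b • y) = K''.D (S.p.f x) + b • S.p.f y
          rw [map_add, map_smul, S.p.comm]
        · change S.p.f (-(K.D y)) = -(K''.D (S.p.f y))
          rw [map_neg, S.p.comm] }
  inj := by
    rintro ⟨x, y⟩ ⟨x', y'⟩ h
    have h1 : S.i.f x = S.i.f x' := congrArg Prod.fst h
    have h2 : S.i.f y = S.i.f y' := congrArg Prod.snd h
    exact Prod.ext (S.inj h1) (S.inj h2)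
  zero := by
    rintro ⟨x, y⟩
    exact Prod.ext (S.zero x) (S.zero y)
  surj := by
    rintro n ⟨x, y⟩ ⟨hx, hy⟩
    obtain ⟨u, hu, hu'⟩ := S.surj _ _ hx
    obtain ⟨w, hw, hw'⟩ := S.surj _ _ hy
    exact ⟨(u, w), ⟨hu, hw⟩, Prod.ext hu' hw'⟩
  exact := by
    rintro n ⟨x, y⟩ ⟨hx, hy⟩ h
    have h1 : S.p.f x = 0 := congrArg Prod.fst h
    have h2 : S.p.f y = 0 := congrArg Prod.snd h
    obtain ⟨u, hu, hu'⟩ := S.exact _ _ hx h1
    obtain ⟨w, hw, hw'⟩ := S.exact _ _ hy h2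
    exact ⟨(u, w), ⟨hu, hw⟩, Prod.ext hu' hw'⟩

/-- iterated cones of short exact sequences -/
def cones : (l : List A) → SES (KosG.cones l K') (KosG.cones l K) (KosG.cones l K'')
  | [] => S
  | (a :: l) => (cones l).cone a

end SES

end GCx

variable {A : Type u} [CommRing A]

theorem co_le' (Λ : AddLen.{u, v} A) (b : A) (X : Type v) [AddCommGroup X] [Module A X] :
    co Λ b X ≤ Λ.L X := Λ.L_quotient_le _

theorem an_le' (Λ : AddLen.{u, v} A) (b : A) (X : Type v) [AddCommGroup X] [Module A X] :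
    an Λ b X ≤ Λ.L X := Λ.L_submodule_le _

theorem an_congr (Λ : AddLen.{u, v} A) (b : A) {X Y : Type v} [AddCommGroup X] [Module A X]
    [AddCommGroup Y] [Module A Y] (e : X ≃ₗ[A] Y) : an Λ b X = an Λ b Y := by
  unfold an
  refine Λ.L_congr (e.submoduleMap _ |>.trans (LinearEquiv.ofEq _ _ ?_))
  ext y
  constructor
  · rintro ⟨x, hx, rfl⟩
    change b • x = 0 at hx
    change b • e x = 0
    rw [← map_smul, hx, map_zero]
  · intro hy
    change b • y = 0 at hy
    refine ⟨e.symm y, ?_, e.apply_symm_apply y⟩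
    change b • e.symm y = 0
    rw [← map_smul, hy, map_zero]

theorem co_congr (Λ : AddLen.{u, v} A) (b : A) {X Y : Type v} [AddCommGroup X] [Module A X]
    [AddCommGroup Y] [Module A Y] (e : X ≃ₗ[A] Y) : co Λ b X = co Λ b Y := by
  unfold co
  refine Λ.L_congr (Submodule.Quotient.equiv _ _ e ?_)
  ext y
  constructor
  · rintro ⟨_, ⟨x, rfl⟩, rfl⟩
    exact ⟨e x, (map_smul e b x).symm⟩
  · rintro ⟨y, rfl⟩
    refine ⟨b • e.symm y, ⟨e.symm y, rfl⟩, ?_⟩
    change e (b • e.symm y) = b • y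
    rw [map_smul, e.apply_symm_apply]

section ses

variable {C' C C'' : Type v} [AddCommGroup C'] [Module A C'] [AddCommGroup C] [Module A C]
  [AddCommGroup C''] [Module A C'']

/-- short exact sequences of modules -/
def SESone (f : C' →ₗ[A] C) (g : C →ₗ[A] C'') (hf : Function.Injective f)
    (hg : Function.Surjective g) (h : Function.Exact f g) :
    GCx.SES (one A C') (one A C) (one A C'') where
  i :=
    { f := f
      gr := by
        intro i (x : C') hx
        change x ∈ (if i = 0 then (⊤ : Submodule A C') else ⊥) at hx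
        change f x ∈ (if i = 0 then (⊤ : Submodule A C) else ⊥)
        split_ifs at hx ⊢ with h0
        · trivial
        · rw [Submodule.mem_bot] at hx ⊢
          rw [hx, map_zero]
      comm := fun x => map_zero f }
  p :=
    { f := g
      gr := by
        intro i (x : C) hx
        change x ∈ (if i = 0 then (⊤ : Submodule A C) else ⊥) at hx
        change g x ∈ (if i = 0 then (⊤ : Submodule A C'') else ⊥)
        split_ifs at hx ⊢ with h0
        · trivial
        · rw [Submodule.mem_bot] at hx ⊢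
          rw [hx, map_zero]
      comm := fun x => map_zero g }
  inj := hf
  zero := fun x => (h (f x)).2 ⟨x, rfl⟩
  surj := by
    intro i (x : C'') hx
    change x ∈ (if i = 0 then (⊤ : Submodule A C'') else ⊥) at hx
    change ∃ y ∈ (if i = 0 then (⊤ : Submodule A C) else ⊥), g y = x
    split_ifs at hx ⊢ with h0
    · obtain ⟨y, hy⟩ := hg x
      exact ⟨y, trivial, hy⟩
    · rw [Submodule.mem_bot] at hx
      exact ⟨0, Submodule.zero_mem _, by rw [hx, map_zero]⟩
  exact := by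
    intro i (x : C) hx hgx
    change x ∈ (if i = 0 then (⊤ : Submodule A C) else ⊥) at hx
    change ∃ y ∈ (if i = 0 then (⊤ : Submodule A C') else ⊥), f y = x
    split_ifs at hx ⊢ with h0
    · obtain ⟨y, hy⟩ := (h x).1 hgx
      exact ⟨y, trivial, hy⟩
    · rw [Submodule.mem_bot] at hx
      exact ⟨0, Submodule.zero_mem _, by rw [hx, map_zero]⟩

/-- short exact sequence of Koszul complexes -/
def SESkos (f : C' →ₗ[A] C) (g : C →ₗ[A] C'') (hf : Function.Injective f)
    (hg : Function.Surjective g) (h : Function.Exact f g) (l : List A) :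
    GCx.SES (kos l C') (kos l C) (kos l C'') := (SESone f g hf hg h).cones l

variable (Λ : AddLen.{u, v} A)

theorem kh_les (f : C' →ₗ[A] C) (g : C →ₗ[A] C'') (hf : Function.Injective f)
    (hg : Function.Surjective g) (h : Function.Exact f g) (l : List A) :
    ∃ r : ℤ → ℝ≥0∞, (∀ n, kh Λ l C' n + kh Λ l C'' n = kh Λ l C n + r (n + 1) + r n) ∧
      (∀ n, r n ≤ kh Λ l C'' n) ∧ (∀ n, r (n + 1) ≤ kh Λ l C' n) :=
  ⟨(SESkos f g hf hg h l).r Λ, (SESkos f g hf hg h l).les Λ, (SESkos f g hf hg h l).r_le_right Λ,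
    (SESkos f g hf hg h l).r_le_left Λ⟩

theorem kh_mid_le (f : C' →ₗ[A] C) (g : C →ₗ[A] C'') (hf : Function.Injective f)
    (hg : Function.Surjective g) (h : Function.Exact f g) (l : List A) (n : ℤ) :
    kh Λ l C n ≤ kh Λ l C' n + kh Λ l C'' n := (SESkos f g hf hg h l).h_mid_le Λ n

theorem kh_left_le (f : C' →ₗ[A] C) (g : C →ₗ[A] C'') (hf : Function.Injective f)
    (hg : Function.Surjective g) (h : Function.Exact f g) (l : List A) (n : ℤ) :
    kh Λ l C' n ≤ kh Λ l C n + kh Λ l C'' (n + 1) := (SESkos f g hf hg h l).h_left_le Λ n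

theorem kh_right_le (f : C' →ₗ[A] C) (g : C →ₗ[A] C'') (hf : Function.Injective f)
    (hg : Function.Surjective g) (h : Function.Exact f g) (l : List A) (n : ℤ) :
    kh Λ l C'' n ≤ kh Λ l C n + kh Λ l C' (n - 1) := (SESkos f g hf hg h l).h_right_le Λ n

/-- **Additivity of `χ`.** -/
theorem chi_add (f : C' →ₗ[A] C) (g : C →ₗ[A] C'') (hf : Function.Injective f)
    (hg : Function.Surjective g) (h : Function.Exact f g) (l : List A)
    (h1 : KFin Λ C' l) (h2 : KFin Λ C'' l) :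
    KFin Λ C l ∧ chi Λ C l = chi Λ C' l + chi Λ C'' l := by
  obtain ⟨r, hr, hr1, hr2⟩ := kh_les Λ f g hf hg h l
  have h3 : KFin Λ C l := fun n => ne_top_of_le_ne_top (ENNReal.add_ne_top.2 ⟨h1 n, h2 n⟩)
    (kh_mid_le Λ f g hf hg h l n)
  refine ⟨h3, ?_⟩
  have hrf : ∀ n, r n ≠ ⊤ := fun n => ne_top_of_le_ne_top (h2 n) (hr1 n)
  have hr0 : r 0 = 0 := by
    have := hr2 (-1)
    rw [kh_eq_zero Λ C' l (-1) (Or.inl (by norm_num))] at this
    simpa using this
  have hrd : r (l.length + 1 : ℕ) = 0 := by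
    have := hr1 (l.length + 1 : ℕ)
    rw [kh_eq_zero Λ C'' l _ (Or.inr (by push_cast; omega))] at this
    simpa using this
  have hre : ∀ n : ℤ, (kh Λ l C n).toReal = (kh Λ l C' n).toReal + (kh Λ l C'' n).toReal -
      (r (n + 1)).toReal - (r n).toReal := by
    intro n
    have := congrArg ENNReal.toReal (hr n)
    rw [ENNReal.toReal_add (h1 n) (h2 n), ENNReal.toReal_add (ENNReal.add_ne_top.2
      ⟨h3 n, hrf _⟩) (hrf _), ENNReal.toReal_add (h3 n) (hrf _)] at this
    linarith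
  unfold chi
  rw [← Finset.sum_add_distrib]
  have tele : ∀ N : ℕ, ∑ i ∈ Finset.range N, (-1 : ℝ) ^ i * ((r ((i : ℤ) + 1)).toReal + (r i).toReal) =
      (r 0).toReal - (-1) ^ N * (r N).toReal := by
    intro N
    induction N with
    | zero => simp
    | succ N ih =>
      rw [Finset.sum_range_succ, ih]
      push_cast
      ring
  have h4 := tele (l.length + 1)
  rw [hrd, hr0] at h4
  simp only [ENNReal.toReal_zero, mul_zero, sub_zero] at h4
  rw [← sub_eq_zero, ← Finset.sum_sub_distrib, ← neg_eq_zero, ← Finset.sum_neg_distrib, ← h4]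
  refine Finset.sum_congr rfl fun i _ => ?_
  rw [hre]
  ring

end ses

/-! ### `H_0` -/

section H0

variable (C : Type v) [AddCommGroup C] [Module A C]

theorem exists_H0 (l : List A) : ∃ φ : C →ₗ[A] (kos l C).H 0, Function.Surjective φ ∧
    LinearMap.ker φ = Ideal.span {x | x ∈ l} • (⊤ : Submodule A C) := by
  induction l with
  | nil =>
    have hZ : ∀ x : C, x ∈ (one A C).Z 0 := by
      intro x
      refine ⟨?_, rfl⟩
      change x ∈ (if (0 : ℤ) = 0 then (⊤ : Submodule A C) else ⊥)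
      rw [if_pos rfl]
      trivial
    let φ : C →ₗ[A] (kos ([] : List A) C).H 0 :=
      ((one A C).cls 0) ∘ₗ ((LinearMap.id : C →ₗ[A] C).codRestrict ((one A C).Z 0) hZ)
    refine ⟨φ, ?_, ?_⟩
    · intro y
      obtain ⟨⟨y, hy⟩, rfl⟩ := (one A C).cls_surj 0 y
      exact ⟨y, rfl⟩
    · have : Ideal.span {x : A | x ∈ ([] : List A)} = ⊥ := by
        simp
      rw [this, Submodule.bot_smul, eq_bot_iff]
      intro x hx
      have h1 : (one A C).cls 0 ⟨x, hZ x⟩ = 0 := hx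
      rw [GCx.cls_eq_zero] at h1
      obtain ⟨y, _, hy⟩ := h1
      exact hy.symm
  | cons a l ih =>
    obtain ⟨φ, hφ, hk⟩ := ih
    let ψ : C →ₗ[A] (kos (a :: l) C).H 0 := ((GCx.inl a (kos l C)).map 0) ∘ₗ φ
    refine ⟨ψ, ?_, ?_⟩
    · have h1 : LinearMap.range ((GCx.inl a (kos l C)).map 0) = ⊤ := by
        rw [GCx.range_inl, eq_top_iff]
        intro x _
        rw [LinearMap.mem_ker]
        have := H_subsingleton C l (0 - 1) (Or.inl (by norm_num))
        exact Subsingleton.elim _ _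
      exact (LinearMap.range_eq_top.1 h1).comp hφ
    · ext x
      rw [LinearMap.mem_ker]
      change (GCx.inl a (kos l C)).map 0 (φ x) = 0 ↔ _
      rw [← LinearMap.mem_ker, GCx.ker_inl]
      have hs : Ideal.span {x | x ∈ a :: l} = Ideal.span {a} ⊔ Ideal.span {x | x ∈ l} := by
        rw [← Ideal.span_union]
        congr 1
        ext y
        simp
      rw [hs, Submodule.sup_smul, Submodule.mem_sup]
      constructor
      · rintro ⟨y, hy⟩
        obtain ⟨y, rfl⟩ := hφ y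
        rw [LinearMap.lsmul_apply, ← map_smul, ← sub_eq_zero, ← map_sub, ← LinearMap.mem_ker,
          hk] at hy
        refine ⟨a • y, Submodule.smul_mem_smul (Ideal.mem_span_singleton_self a) trivial,
          -(a • y - x), Submodule.neg_mem _ hy, ?_⟩
        abel
      · rintro ⟨u, hu, w, hw, rfl⟩
        rw [← hk, LinearMap.mem_ker] at hw
        rw [map_add, hw, add_zero]
        refine Submodule.smul_induction_on hu ?_ ?_
        · intro c hc y _
          obtain ⟨c, rfl⟩ := Ideal.mem_span_singleton'.1 hc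
          refine ⟨c • φ y, ?_⟩
          rw [LinearMap.lsmul_apply, smul_smul, mul_comm, map_smul]
        · rintro u w ⟨y, hy⟩ ⟨z, hz⟩
          exact ⟨y + z, by rw [map_add, map_add, hy, hz]⟩

theorem kh_zero (Λ : AddLen.{u, v} A) (l : List A) :
    kh Λ l C 0 = Λ.L (C ⧸ (Ideal.span {x | x ∈ l} • (⊤ : Submodule A C))) := by
  obtain ⟨φ, hφ, hk⟩ := exists_H0 C l
  rw [← hk]
  exact (Λ.L_congr (φ.quotKerEquivOfSurjective hφ)).symm

/-- If `l` is `L`-almost regular and `a` is `L`-almost regular on `C/(l)C` then `a :: l` is. -/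
theorem kh_cons_eq_zero (Λ : AddLen.{u, v} A) (a : A) (l : List A)
    (hl : ∀ i : ℤ, 0 < i → kh Λ l C i = 0)
    (ha : an Λ a (C ⧸ (Ideal.span {x | x ∈ l} • (⊤ : Submodule A C))) = 0) (i : ℤ) (hi : 0 < i) :
    kh Λ (a :: l) C i = 0 := by
  rw [kh_cons]
  have h1 : co Λ a ((kos l C).H i) = 0 := le_antisymm ((co_le' Λ a _).trans (hl i hi).le) zero_le
  rw [h1, zero_add]
  rcases (show i = 1 ∨ 1 < i by omega) with rfl | hi1
  · obtain ⟨φ, hφ, hk⟩ := exists_H0 C l
    rw [← hk] at ha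
    rw [← ha]
    have e : (C ⧸ LinearMap.ker φ) ≃ₗ[A] (kos l C).H 0 := φ.quotKerEquivOfSurjective hφ
    exact an_congr Λ a e.symm
  · exact le_antisymm ((an_le' Λ a _).trans (hl (i - 1) (by omega)).le) zero_le

end H0

end Crest.Agent.R188.KosG
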