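import Crest.Agent.R188.KosC

/-!
# R188 (Serre positivity), block A4: the two counting theorems (vanishing / positivity of `χ(q; C)`).
helper415
-/

set_option autoImplicit false

namespace Crest.Agent.R188.KosG

open Crest.Agent.R183
open scoped ENNReal

universe u v

variable {A : Type u} [CommRing A]

section

variable (Λ : AddLen.{u, v} A) (C : Type v) [AddCommGroup C] [Module A C]

theorem le_pas (g : ℤ → ℝ≥0∞) (n : ℕ) (i : ℤ) : g i ≤ pas g n i := by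
  unfold pas
  have : g i = ((n.choose 0 : ℕ) : ℝ≥0∞) * g (i - ((0 : ℕ) : ℤ)) := by
    simp
  rw [this]
  exact Finset.single_le_sum (f := fun j : ℕ => ((n.choose j : ℕ) : ℝ≥0∞) * g (i - (j : ℤ)))
    (fun _ _ => zero_le) (Finset.mem_range.2 (Nat.succ_pos n))

theorem le_pas_last (g : ℤ → ℝ≥0∞) (n : ℕ) (i : ℤ) : g (i - n) ≤ pas g n i := by
  unfold pas
  have : g (i - n) = ((n.choose n : ℕ) : ℝ≥0∞) * g (i - (n : ℤ)) := by
    simp
  rw [this]
  exact Finset.single_le_sum (f := fun j : ℕ => ((n.choose j : ℕ) : ℝ≥0∞) * g (i - (j : ℤ)))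
    (fun _ _ => zero_le) (Finset.mem_range.2 (Nat.lt_succ_self n))

theorem pas_le_of_le (g : ℤ → ℝ≥0∞) (n : ℕ) (i : ℤ) (c : ℝ≥0∞)
    (h : ∀ j ∈ Finset.range (n + 1), g (i - (j : ℤ)) ≤ c) : pas g n i ≤ (2 : ℝ≥0∞) ^ n * c := by
  unfold pas
  have h1 : ∑ j ∈ Finset.range (n + 1), ((n.choose j : ℕ) : ℝ≥0∞) * g (i - (j : ℤ)) ≤
      ∑ j ∈ Finset.range (n + 1), ((n.choose j : ℕ) : ℝ≥0∞) * c :=
    Finset.sum_le_sum fun j hj => by gcongr; exact h j hj
  refine h1.trans (le_of_eq ?_)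
  rw [← Finset.sum_mul, ← Nat.cast_sum, Nat.sum_range_choose]
  push_cast
  rfl

/-- Comparison: if the entries of `a` are null-homotopic on `K(l; C)` then
`h_i(l; C) ≤ pas (h(a; C)) |l| i`, and `h_i(l; C) ≤ pas (h (a; C)) |l| (i + |a|)`. -/
theorem kh_le_pas {l a : List A} (ha : ∀ x ∈ a, x ∈ (kos l C).NHI) (i : ℤ) :
    kh Λ l C i ≤ pas (kh Λ a C) l.length i := by
  refine (le_pas (kh Λ l C) a.length i).trans ?_
  rw [← kh_append_NHI Λ C a l ha, kh_perm Λ C List.perm_append_comm]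
  exact kh_append_le Λ C l a i

theorem kh_le_pas_last {l a : List A} (ha : ∀ x ∈ a, x ∈ (kos l C).NHI) (i : ℤ) :
    kh Λ l C i ≤ pas (kh Λ a C) l.length (i + a.length) := by
  have h1 := le_pas_last (kh Λ l C) a.length (i + a.length)
  rw [add_sub_cancel_right] at h1
  refine h1.trans ?_
  rw [← kh_append_NHI Λ C a l ha, kh_perm Λ C List.perm_append_comm]
  exact kh_append_le Λ C l a _

/-- A real number `x` with `n^d |x| ≤ K n^k` for arbitrarily large `n`, `k < d`, is `0`. -/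
theorem eq_zero_of_growth {x K : ℝ} {d k : ℕ} (hk : k < d)
    (h : ∀ N : ℕ, ∃ n : ℕ, N ≤ n ∧ (n : ℝ) ^ d * |x| ≤ K * (n : ℝ) ^ k) : x = 0 := by
  by_contra hx
  have hx0 : 0 < |x| := abs_pos.2 hx
  obtain ⟨N, hN⟩ := exists_nat_gt (|K| / |x| + 1)
  obtain ⟨n, hn, hle⟩ := h N
  have hnN : (N : ℝ) ≤ n := by exact_mod_cast hn
  have hn1 : (1 : ℝ) < n := by
    have : 0 ≤ |K| / |x| := by positivity
    linarith
  have hnp : (0 : ℝ) < (n : ℝ) ^ k := by positivity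
  have h1 : (n : ℝ) ^ (k + 1) ≤ (n : ℝ) ^ d := pow_le_pow_right₀ hn1.le hk
  have h2 : (n : ℝ) ^ (k + 1) * |x| ≤ K * (n : ℝ) ^ k :=
    (mul_le_mul_of_nonneg_right h1 hx0.le).trans hle
  rw [pow_succ, mul_assoc, mul_comm K] at h2
  have h3 : (n : ℝ) * |x| ≤ K := le_of_mul_le_mul_left h2 hnp
  have h4 : |K| / |x| < n := by linarith
  rw [div_lt_iff₀ hx0] at h4
  have := le_abs_self K
  linarith

theorem pos_of_growth {x K c : ℝ} {d : ℕ} (hc : 0 < c)
    (h : ∀ N : ℕ, ∃ n : ℕ, N ≤ n ∧ c * (n : ℝ) ^ (d + 1) - K * (n : ℝ) ^ d ≤ (n : ℝ) ^ (d + 1) * x) :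
    0 < x := by
  obtain ⟨N, hN⟩ := exists_nat_gt (|K| / c + 1)
  obtain ⟨n, hn, hle⟩ := h N
  have hnN : (N : ℝ) ≤ n := by exact_mod_cast hn
  have h4 : |K| / c < n := by linarith
  rw [div_lt_iff₀ hc] at h4
  have hn1 : (1 : ℝ) < n := by
    have : 0 ≤ |K| / c := by positivity
    linarith
  have hnp : (0 : ℝ) < (n : ℝ) ^ d := by positivity
  have hKa := le_abs_self K
  have h5 : 0 < (c * n - K) * (n : ℝ) ^ d := by
    apply mul_pos _ hnp
    linarith
  have h6 : (c * n - K) * (n : ℝ) ^ d = c * (n : ℝ) ^ (d + 1) - K * (n : ℝ) ^ d := by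
    rw [pow_succ]; ring
  rw [h6] at h5
  have h7 : 0 < (n : ℝ) ^ (d + 1) * x := h5.trans_le hle
  exact (mul_pos_iff_of_pos_left (by positivity : (0 : ℝ) < (n : ℝ) ^ (d + 1))).1 h7

/-- **Vanishing.** -/
theorem chi_eq_zero (q : List A) (hq : KFin Λ C q) (k : ℕ) (hk : k < q.length) (K : ℝ)
    (h : ∀ N : ℕ, ∃ n : ℕ, N ≤ n ∧ ∃ a : List A,
      (∀ x ∈ a, x ∈ (kos (q.map (· ^ n)) C).NHI) ∧
      (∀ i : ℤ, kh Λ a C i ≤ ENNReal.ofReal (K * (n : ℝ) ^ k))) :
    chi Λ C q = 0 := by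
  refine eq_zero_of_growth (K := (q.length + 1) * (2 ^ q.length * |K|)) hk ?_
  intro N
  obtain ⟨n, hn, a, ha, hb⟩ := h N
  refine ⟨n, hn, ?_⟩
  obtain ⟨h1, h2⟩ := chi_map_pow Λ C q hq n
  have h3 : (n : ℝ) ^ q.length * |chi Λ C q| = |chi Λ C (q.map (· ^ n))| := by
    rw [h2, abs_mul, abs_of_nonneg (by positivity : (0 : ℝ) ≤ (n : ℝ) ^ q.length)]
  rw [h3]
  have h4 : ∀ i : ℤ, (kh Λ (q.map (· ^ n)) C i).toReal ≤ 2 ^ q.length * |K| * (n : ℝ) ^ k := by
    intro i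
    have h5 := kh_le_pas Λ C ha i
    have h6 := pas_le_of_le (kh Λ a C) (q.map (· ^ n)).length i _ (fun j _ => hb (i - j))
    have h7 := h5.trans h6
    rw [List.length_map] at h7
    have h8 : (2 : ℝ≥0∞) ^ q.length * ENNReal.ofReal (K * (n : ℝ) ^ k) ≤
        ENNReal.ofReal (2 ^ q.length * |K| * (n : ℝ) ^ k) := by
      have e1 : (2 : ℝ≥0∞) ^ q.length = ENNReal.ofReal (2 ^ q.length) := by
        rw [ENNReal.ofReal_pow (by norm_num)]
        norm_num
      rw [e1, ← ENNReal.ofReal_mul (by positivity)]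
      apply ENNReal.ofReal_le_ofReal
      rw [mul_assoc]
      have := le_abs_self K
      gcongr
    exact ENNReal.toReal_le_of_le_ofReal (by positivity) (h7.trans h8)
  unfold chi
  rw [List.length_map]
  refine (Finset.abs_sum_le_sum_abs _ _).trans ?_
  have h9 : ∀ i ∈ Finset.range (q.length + 1),
      |(-1 : ℝ) ^ i * (kh Λ (q.map (· ^ n)) C i).toReal| ≤ 2 ^ q.length * |K| * (n : ℝ) ^ k := by
    intro i _
    rw [abs_mul, abs_pow, abs_neg, abs_one, one_pow, one_mul, abs_of_nonneg ENNReal.toReal_nonneg]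
    exact h4 i
  refine (Finset.sum_le_sum h9).trans ?_
  rw [Finset.sum_const, Finset.card_range, nsmul_eq_mul]
  push_cast
  exact le_of_eq (by ring)

/-- **Positivity.** -/
theorem chi_pos (q : List A) (hq : KFin Λ C q) (K c : ℝ) (hc : 0 < c) (hlen : q ≠ [])
    (h : ∀ N : ℕ, ∃ n : ℕ, N ≤ n ∧ ∃ a : List A, a.length = q.length ∧
      (∀ x ∈ a, x ∈ (kos (q.map (· ^ n)) C).NHI) ∧
      (∀ i : ℤ, 1 ≤ i → kh Λ a C i ≤ ENNReal.ofReal (K * (n : ℝ) ^ (q.length - 1))) ∧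
      ENNReal.ofReal (c * (n : ℝ) ^ q.length) ≤ kh Λ (q.map (· ^ n)) C 0) :
    0 < chi Λ C q := by
  obtain ⟨d, hd⟩ : ∃ d, q.length = d + 1 := ⟨q.length - 1, by
    have := List.length_pos_iff.2 hlen
    omega⟩
  refine pos_of_growth (K := (q.length) * (2 ^ q.length * |K|)) (d := d) hc ?_
  intro N
  obtain ⟨n, hn, a, hal, ha, hb, hb0⟩ := h N
  refine ⟨n, hn, ?_⟩
  obtain ⟨h1, h2⟩ := chi_map_pow Λ C q hq n
  rw [← hd, ← h2]
  have h4 : ∀ i : ℤ, 1 ≤ i →
      (kh Λ (q.map (· ^ n)) C i).toReal ≤ 2 ^ q.length * |K| * (n : ℝ) ^ d := by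
    intro i hi
    have h5 := kh_le_pas_last Λ C ha i
    have h6 := pas_le_of_le (kh Λ a C) (q.map (· ^ n)).length (i + a.length) _
      (fun j hj => hb (i + a.length - j) (by
        rw [List.length_map, Finset.mem_range] at hj
        rw [hal]
        have : (j : ℤ) ≤ q.length := by exact_mod_cast Nat.lt_succ_iff.1 hj
        omega))
    have h7 := h5.trans h6
    rw [List.length_map, show q.length - 1 = d from by omega] at h7
    have h8 : (2 : ℝ≥0∞) ^ q.length * ENNReal.ofReal (K * (n : ℝ) ^ d) ≤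
        ENNReal.ofReal (2 ^ q.length * |K| * (n : ℝ) ^ d) := by
      have e1 : (2 : ℝ≥0∞) ^ q.length = ENNReal.ofReal (2 ^ q.length) := by
        rw [ENNReal.ofReal_pow (by norm_num)]
        norm_num
      rw [e1, ← ENNReal.ofReal_mul (by positivity)]
      apply ENNReal.ofReal_le_ofReal
      rw [mul_assoc]
      have := le_abs_self K
      gcongr
    exact ENNReal.toReal_le_of_le_ofReal (by positivity) (h7.trans h8)
  have h0 : c * (n : ℝ) ^ q.length ≤ (kh Λ (q.map (· ^ n)) C 0).toReal :=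
    (ENNReal.ofReal_le_iff_le_toReal (h1 0)).1 hb0
  unfold chi
  rw [List.length_map, Finset.sum_range_succ', pow_zero, one_mul]
  have h9 : ∀ i ∈ Finset.range q.length, -(2 ^ q.length * |K| * (n : ℝ) ^ d) ≤
      (-1 : ℝ) ^ (i + 1) * (kh Λ (q.map (· ^ n)) C ((i + 1 : ℕ) : ℤ)).toReal := by
    intro i _
    have h10 := h4 ((i + 1 : ℕ) : ℤ) (by push_cast; omega)
    have h11 : |(-1 : ℝ) ^ (i + 1) * (kh Λ (q.map (· ^ n)) C ((i + 1 : ℕ) : ℤ)).toReal| ≤
        2 ^ q.length * |K| * (n : ℝ) ^ d := by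
      rw [abs_mul, abs_pow, abs_neg, abs_one, one_pow, one_mul,
        abs_of_nonneg ENNReal.toReal_nonneg]
      exact h10
    exact (abs_le.1 h11).1
  have h12 := Finset.sum_le_sum h9
  rw [Finset.sum_const, Finset.card_range, nsmul_eq_mul] at h12
  have h13 : ((0 : ℕ) : ℤ) = 0 := rfl
  rw [h13]
  have h14 : ((q.length : ℝ)) * -(2 ^ q.length * |K| * (n : ℝ) ^ d) =
    -((q.length : ℝ) * (2 ^ q.length * |K|) * (n : ℝ) ^ d) := by ring
  rw [h14] at h12
  linarith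

end

end Crest.Agent.R188.KosG
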