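import Crest.Agent.R188.KosD
import Crest.Agent.R188.KosPos
import Crest.Agent.R188.Kos3

/-!
# R188 (Serre positivity), block A4: the bridge between the complexes `Kos.Cx` (ℕ-graded,
helper546, on top of helper876's `Chi`) and the concrete graded complexes `GCx` of `KosA`.
helper415
-/

set_option autoImplicit false

namespace Crest.Agent.R188.KosG

open Crest.Agent.R183
open scoped ENNReal

universe u v

variable {A : Type u} [CommRing A]

/-- The concrete graded complex of an `ℕ`-graded complex. -/
def toG (C : Kos.Cx.{u, v} A) : GCx.{u, v} A where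
  T := ∀ n, C.X n
  gr := fun i =>
    { carrier := {f | ∀ n : ℕ, (n : ℤ) ≠ i → f n = 0}
      zero_mem' := fun _ _ => rfl
      add_mem' := fun {f g} hf hg n hn => by
        rw [Pi.add_apply, hf n hn, hg n hn, add_zero]
      smul_mem' := fun c f hf n hn => by
        rw [Pi.smul_apply, hf n hn, smul_zero] }
  D := LinearMap.pi (fun n => C.d n ∘ₗ LinearMap.proj (n + 1))
  D_gr := fun i f hf n hn => by
    change C.d n (f (n + 1)) = 0
    rw [hf (n + 1) (by push_cast; omega), map_zero]
  DD := fun f => by
    funext n
    exact C.dd n (f (n + 2))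

variable (C : Kos.Cx.{u, v} A)

theorem toG_mem_gr {i : ℤ} {f : ∀ n, C.X n} :
    (show (toG C).T from f) ∈ (toG C).gr i ↔ ∀ n : ℕ, (n : ℤ) ≠ i → f n = 0 := Iff.rfl

theorem toG_D (f : ∀ n, C.X n) (n : ℕ) : (toG C).D f n = C.d n (f (n + 1)) := rfl

/-- an element supported in degree `n` -/
noncomputable def sing (n : ℕ) (x : C.X n) : ∀ m, C.X m := Pi.single n x

theorem sing_same (n : ℕ) (x : C.X n) : sing C n x n = x := Pi.single_eq_same n x

theorem sing_ne {n m : ℕ} (h : m ≠ n) (x : C.X n) : sing C n x m = 0 := Pi.single_eq_of_ne h x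

theorem sing_mem (n : ℕ) (x : C.X n) : (show (toG C).T from sing C n x) ∈ (toG C).gr n := by
  intro m hm
  exact sing_ne C (by rintro rfl; exact hm rfl) x

theorem eq_sing {n : ℕ} {f : ∀ m, C.X m} (hf : (show (toG C).T from f) ∈ (toG C).gr n) :
    f = sing C n (f n) := by
  funext m
  by_cases hm : m = n
  · subst hm
    rw [sing_same]
  · rw [sing_ne C hm, hf m (by exact_mod_cast hm)]

theorem D_sing_succ (n : ℕ) (x : C.X (n + 1)) :
    (toG C).D (sing C (n + 1) x) = sing C n (C.d n x) := by
  funext m
  rw [toG_D]
  by_cases hm : m = n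
  · subst hm
    rw [sing_same, sing_same]
  · rw [sing_ne C hm, sing_ne C (by omega), map_zero]

theorem D_sing_zero (x : C.X 0) : (toG C).D (sing C 0 x) = 0 := by
  funext m
  rw [toG_D, sing_ne C (by omega), map_zero]
  rfl

theorem mem_Z_toG {n : ℕ} {x : C.X n} : (show (toG C).T from sing C n x) ∈ (toG C).Z n ↔
    x ∈ C.cyc n := by
  cases n with
  | zero =>
    exact ⟨fun _ => trivial, fun _ => ⟨sing_mem C 0 x, D_sing_zero C x⟩⟩
  | succ n =>
    rw [Kos.Cx.mem_cyc_succ]
    constructor
    · rintro ⟨_, h⟩
      have h1 : (toG C).D (sing C (n + 1) x) n = 0 := by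
        have h2 : (toG C).D (sing C (n + 1) x) = 0 := h
        rw [h2]
        rfl
      rwa [D_sing_succ, sing_same] at h1
    · intro h
      refine ⟨sing_mem C (n + 1) x, ?_⟩
      change (toG C).D (sing C (n + 1) x) = 0
      rw [D_sing_succ, h]
      funext m
      by_cases hm : m = n
      · subst hm
        rw [sing_same]
        rfl
      · rw [sing_ne C hm]
        rfl

theorem mem_B_toG {n : ℕ} {x : C.X n} : (show (toG C).T from sing C n x) ∈ (toG C).B n ↔
    x ∈ C.bdy n := by
  rw [Kos.Cx.mem_bdy, GCx.mem_B]
  constructor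
  · rintro ⟨f, _, hf'⟩
    have h1 : C.d n ((show ∀ m, C.X m from f) (n + 1)) = sing C n x n := congrFun hf' n
    rw [sing_same] at h1
    exact ⟨_, h1⟩
  · rintro ⟨y, rfl⟩
    refine ⟨sing C (n + 1) y, ?_, ?_⟩
    · have := sing_mem C (n + 1) y
      push_cast at this
      exact this
    · exact D_sing_succ C n y

/-- The homology of `toG C`. -/
theorem exists_HtoG (n : ℕ) : Nonempty ((toG C).H n ≃ₗ[A] C.H n) := by
  have hg : ∀ f : (toG C).Z n, (show ∀ m, C.X m from f.1) n ∈ C.cyc n := by
    rintro ⟨f, hf⟩
    have h1 := eq_sing C (f := f) hf.1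
    rw [← mem_Z_toG]
    change (show (toG C).T from sing C n ((show ∀ m, C.X m from f) n)) ∈ (toG C).Z n
    rw [← h1]
    exact hf
  let g : (toG C).Z n →ₗ[A] C.cyc n :=
    { toFun := fun f => ⟨(show ∀ m, C.X m from f.1) n, hg f⟩
      map_add' := fun f g => rfl
      map_smul' := fun c f => rfl }
  let p : (toG C).Z n →ₗ[A] C.H n := (C.toH n) ∘ₗ g
  have hp : Function.Surjective p := by
    intro y
    obtain ⟨⟨y, hy⟩, rfl⟩ := C.toH_surjective n y
    refine ⟨⟨sing C n y, (mem_Z_toG C).2 hy⟩, ?_⟩
    change C.toH n (g _) = _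
    congr 1
    exact Subtype.ext (sing_same C n y)
  have hk : LinearMap.ker p = LinearMap.ker ((toG C).cls n) := by
    ext f
    rw [LinearMap.mem_ker, LinearMap.mem_ker, GCx.cls_eq_zero]
    change C.toH n (g f) = 0 ↔ _
    rw [Kos.Cx.toH_eq_zero]
    change (show ∀ m, C.X m from f.1) n ∈ C.bdy n ↔ _
    rw [← mem_B_toG]
    have h1 := eq_sing C (f := f.1) f.2.1
    rw [← h1]
  exact ⟨(((toG C).cls n).quotKerEquivOfSurjective ((toG C).cls_surj n)).symm.trans
    ((Submodule.quotEquivOfEq _ _ hk.symm).trans (p.quotKerEquivOfSurjective hp))⟩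

theorem h_toG (Λ : AddLen.{u, v} A) (n : ℕ) : (toG C).h Λ n = C.l Λ n := by
  obtain ⟨e⟩ := exists_HtoG C n
  exact Λ.L_congr e

theorem gr_toG_neg {i : ℤ} (hi : i < 0) : (toG C).gr i = ⊥ := by
  rw [eq_bot_iff]
  intro f hf
  change f = 0
  funext n
  exact hf n (by omega)

theorem h_toG_neg (Λ : AddLen.{u, v} A) {i : ℤ} (hi : i < 0) : (toG C).h Λ i = 0 :=
  (toG C).h_eq_zero_of_gr Λ (gr_toG_neg C hi)

/-- `toG` commutes with cones. -/
def coneIso (b : A) : GCx.Iso (toG (C.cone b)) (GCx.cone b (toG C)) where
  e :=
    { toFun := fun f => (fun n => match n with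
        | 0 => f 0
        | (n + 1) => (f (n + 1)).1, fun n => (f (n + 1)).2)
      map_add' := fun f g => by
        refine Prod.ext ?_ rfl
        funext n
        cases n <;> rfl
      map_smul' := fun c f => by
        refine Prod.ext ?_ rfl
        funext n
        cases n <;> rfl
      invFun := fun p n => match n with
        | 0 => p.1 0
        | (n + 1) => (p.1 (n + 1), p.2 n)
      left_inv := fun f => by
        funext n
        cases n <;> rfl
      right_inv := fun p => by
        refine Prod.ext ?_ rfl
        funext n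
        cases n <;> rfl }
  gr := by
    intro i f
    constructor
    · rintro ⟨h1, h2⟩ n hn
      cases n with
      | zero => exact h1 0 hn
      | succ n =>
        refine Prod.ext (h1 (n + 1) hn) (h2 n ?_)
        push_cast at hn
        omega
    · intro h
      refine ⟨fun n hn => ?_, fun n hn => ?_⟩
      · cases n with
        | zero => exact h 0 hn
        | succ n => exact congrArg Prod.fst (h (n + 1) hn)
      · exact congrArg Prod.snd (h (n + 1) (by push_cast; omega))
  comm := by
    intro f
    refine Prod.ext ?_ ?_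
    · funext n
      cases n <;> rfl
    · funext n
      rfl

/-- `toG` commutes with iterated cones. -/
theorem kosIso (l : List A) : Nonempty (GCx.Iso (toG (Kos.kos l C)) (cones l (toG C))) := by
  induction l with
  | nil => exact ⟨GCx.Iso.refl _⟩
  | cons b l ih =>
    obtain ⟨φ⟩ := ih
    exact ⟨(coneIso (Kos.kos l C) b).trans (φ.cone b)⟩

theorem l_kos (Λ : AddLen.{u, v} A) (l : List A) (n : ℕ) :
    (Kos.kos l C).l Λ n = (cones l (toG C)).h Λ n := by
  obtain ⟨φ⟩ := kosIso C l
  rw [← h_toG, φ.h_eq]

theorem toG_NH {a : A} : (toG C).NH a ↔ a ∈ C.Nh := by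
  rw [Kos.Cx.mem_Nh]
  constructor
  · rintro ⟨s, hs, hs'⟩
    have key : ∀ n (x : C.X n), s (sing C n x) = sing C (n + 1) ((show ∀ m, C.X m from
        s (sing C n x)) (n + 1)) := by
      intro n x
      refine eq_sing C ?_
      have := hs n _ (sing_mem C n x)
      push_cast
      exact this
    refine ⟨fun n => 
      { toFun := fun x => (show ∀ m, C.X m from s (sing C n x)) (n + 1)
        map_add' := fun x y => by
          have : sing C n (x + y) = sing C n x + sing C n y := Pi.single_add n x y
          rw [this]
          have h2 : s (sing C n x + sing C n y) = s (sing C n x) + s (sing C n y) := map_add s _ _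
          rw [h2]
          rfl
        map_smul' := fun c x => by
          have : sing C n (c • x) = c • sing C n x := Pi.single_smul n c x
          rw [this]
          have h2 : s (c • sing C n x) = c • s (sing C n x) := map_smul s _ _
          rw [h2]
          rfl }, ?_, ?_⟩
    · intro x
      have h1 := congrFun (hs' (sing C 0 x)) 0
      rw [D_sing_zero, map_zero] at h1
      have h2 : C.d 0 ((show ∀ m, C.X m from s (sing C 0 x)) (0 + 1)) + 0 =
        a • (sing C 0 x 0) := h1
      rw [sing_same, add_zero] at h2
      exact h2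
    · intro n x
      have h1 := congrFun (hs' (sing C (n + 1) x)) (n + 1)
      rw [D_sing_succ] at h1
      have h2 : C.d (n + 1) ((show ∀ m, C.X m from s (sing C (n + 1) x)) (n + 1 + 1)) +
        (show ∀ m, C.X m from s (sing C n (C.d n x))) (n + 1) = a • (sing C (n + 1) x (n + 1)) := h1
      rw [sing_same] at h2
      exact h2
  · rintro ⟨s, hs0, hs1⟩
    let t : (∀ m, C.X m) →ₗ[A] (∀ m, C.X m) :=
      { toFun := fun f n => match n with
          | 0 => 0
          | (n + 1) => s n (f n)
        map_add' := fun f g => by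
          funext n
          cases n with
          | zero => exact (add_zero 0).symm
          | succ n => exact map_add (s n) _ _
        map_smul' := fun c f => by
          funext n
          cases n with
          | zero => exact (smul_zero c).symm
          | succ n => exact map_smul (s n) _ _ }
    refine ⟨t, ?_, ?_⟩
    · intro i f hf n hn
      cases n with
      | zero => rfl
      | succ n =>
        change s n ((show ∀ m, C.X m from f) n) = 0
        rw [hf n (by push_cast at hn; omega), map_zero]
    · intro f
      funext n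
      cases n with
      | zero =>
        change C.d 0 (s 0 ((show ∀ m, C.X m from f) 0)) + 0 = a • (show ∀ m, C.X m from f) 0
        rw [hs0, add_zero]
      | succ n => exact hs1 n _

end Crest.Agent.R188.KosG
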