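import Crest.Agent.R188.KosE
import Crest.Agent.R188.ChiMat

/-!
# R188 (Serre positivity), block A4: quasi-isomorphism lemmas in length form and the SWAP LEMMA
`H_n(F ⊗ T/(q)T) = H_n(q; H_0(F ⊗ T))` (in length) for `q` weakly regular on `T` and `F ⊗ T`
acyclic in positive degrees.
helper415
-/

set_option autoImplicit false

namespace Crest.Agent.R188.KosG

open Crest.Agent.R183
open scoped ENNReal Pointwise

universe u v w

variable {A : Type u} [CommRing A]

namespace GCx

variable {K' K K'' : GCx.{u, v} A}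

theorem h_eq_zero_of_NH_one (Λ : AddLen.{u, v} A) (h : K.NH 1) (n : ℤ) : K.h Λ n = 0 := by
  have : Subsingleton (K.H n) := by
    refine ⟨fun x y => ?_⟩
    rw [← one_smul A x, ← one_smul A y, h.smul_H, h.smul_H]
  exact Λ.L_subsingleton

theorem h_cone_one (Λ : AddLen.{u, v} A) (K : GCx.{u, v} A) (n : ℤ) : (cone 1 K).h Λ n = 0 :=
  h_eq_zero_of_NH_one Λ (NH.self K 1) n

theorem h_cones_zero (Λ : AddLen.{u, v} A) (h : ∀ n, K.h Λ n = 0) (l : List A) (n : ℤ) :
    (cones l K).h Λ n = 0 := by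
  induction l generalizing n with
  | nil => exact h n
  | cons a l ih =>
    refine le_antisymm ((h_cone_le Λ a (cones l K) n).trans ?_) zero_le
    rw [ih, ih, add_zero]

namespace SES

variable (S : SES K' K K'')

include S

theorem h_eq_of_left (Λ : AddLen.{u, v} A) (h : ∀ n, K'.h Λ n = 0) (n : ℤ) :
    K.h Λ n = K''.h Λ n := by
  have h1 := S.les Λ n
  have h2 : S.r Λ (n + 1) = 0 := le_antisymm ((S.r_le_left Λ n).trans (h n).le) zero_le
  have h3 : S.r Λ n = 0 := by
    have := S.r_le_left Λ (n - 1)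
    rw [sub_add_cancel, h] at this
    exact le_antisymm this zero_le
  rw [h, h2, h3, zero_add, add_zero, add_zero] at h1
  exact h1.symm

theorem h_eq_of_right (Λ : AddLen.{u, v} A) (h : ∀ n, K''.h Λ n = 0) (n : ℤ) :
    K.h Λ n = K'.h Λ n := by
  have h1 := S.les Λ n
  have h2 : S.r Λ (n + 1) = 0 := le_antisymm ((S.r_le_right Λ _).trans (h _).le) zero_le
  have h3 : S.r Λ n = 0 := le_antisymm ((S.r_le_right Λ _).trans (h _).le) zero_le
  rw [h, h2, h3, add_zero, add_zero, add_zero] at h1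
  exact h1.symm

theorem h_cones_eq_of_left (Λ : AddLen.{u, v} A) (h : ∀ n, K'.h Λ n = 0) (l : List A) (n : ℤ) :
    (KosG.cones l K).h Λ n = (KosG.cones l K'').h Λ n :=
  (S.cones l).h_eq_of_left Λ (h_cones_zero Λ h l) n

theorem h_cones_eq_of_right (Λ : AddLen.{u, v} A) (h : ∀ n, K''.h Λ n = 0) (l : List A) (n : ℤ) :
    (KosG.cones l K).h Λ n = (KosG.cones l K').h Λ n :=
  (S.cones l).h_eq_of_right Λ (h_cones_zero Λ h l) n

end SES

/-- Data for `K'' = K / b K`, `b` regular. -/
structure RegQuot (b : A) (K K'' : GCx.{u, v} A) where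
  /-- the projection -/
  p : Hom K K''
  inj : ∀ x : K.T, b • x = 0 → x = 0
  zero : ∀ x : K.T, p.f (b • x) = 0
  surj : ∀ (n : ℤ) (x : K''.T), x ∈ K''.gr n → ∃ y ∈ K.gr n, p.f y = x
  exact : ∀ (n : ℤ) (x : K.T), x ∈ K.gr n → p.f x = 0 → ∃ y ∈ K.gr n, b • y = x

/-- the short exact sequence `0 → cone 1 K → cone b K → K/bK → 0` -/
def RegQuot.ses {b : A} (Q : RegQuot b K K'') : SES (GCx.cone 1 K) (GCx.cone b K) K'' where
  i :=
    { f := (LinearMap.lsmul A K.T b).prodMap LinearMap.id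
      gr := by
        rintro i ⟨x, y⟩ ⟨hx, hy⟩
        exact ⟨(K.gr i).smul_mem b hx, hy⟩
      comm := by
        rintro ⟨x, y⟩
        refine Prod.ext ?_ rfl
        change b • (K.D x + (1 : A) • y) = K.D (b • x) + b • y
        rw [one_smul, smul_add, map_smul] }
  p :=
    { f := Q.p.f ∘ₗ LinearMap.fst A K.T K.T
      gr := by
        rintro i ⟨x, y⟩ ⟨hx, _⟩
        exact Q.p.gr i x hx
      comm := by
        rintro ⟨x, y⟩
        change Q.p.f (K.D x + b • y) = K''.D (Q.p.f x)
        rw [map_add, Q.zero, add_zero, Q.p.comm] }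
  inj := by
    rintro ⟨x, y⟩ ⟨x', y'⟩ h
    have h1 : b • x = b • x' := congrArg Prod.fst h
    have h2 : y = y' := congrArg Prod.snd h
    refine Prod.ext ?_ h2
    rw [← sub_eq_zero, ← smul_sub] at h1
    exact sub_eq_zero.1 (Q.inj _ h1)
  zero := by
    rintro ⟨x, y⟩
    exact Q.zero x
  surj := by
    intro n x hx
    obtain ⟨y, hy, hy'⟩ := Q.surj n x hx
    exact ⟨(y, 0), ⟨hy, (K.gr (n - 1)).zero_mem⟩, hy'⟩
  exact := by
    rintro n ⟨x, y⟩ ⟨hx, hy⟩ h
    obtain ⟨z, hz, hz'⟩ := Q.exact n x hx h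
    exact ⟨(z, y), ⟨hz, hy⟩, Prod.ext hz' rfl⟩

theorem RegQuot.h_cones {b : A} (Q : RegQuot b K K'') (Λ : AddLen.{u, v} A) (l : List A) (n : ℤ) :
    (cones l (cone b K)).h Λ n = (cones l K'').h Λ n :=
  Q.ses.h_cones_eq_of_left Λ (h_cone_one Λ K) l n

theorem RegQuot.h_cones_cons {b : A} (Q : RegQuot b K K'') (Λ : AddLen.{u, v} A) (l : List A)
    (n : ℤ) : (cones (b :: l) K).h Λ n = (cones l K'').h Λ n := by
  obtain ⟨φ⟩ := cones_perm (List.perm_append_singleton b l).symm K
  rw [φ.h_eq, cones_append]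
  exact Q.h_cones Λ l n

/-! ### kernels of surjections -/

/-- the kernel complex -/
def kerC (p : Hom K K'') : GCx.{u, v} A where
  T := LinearMap.ker p.f
  gr := fun i => (K.gr i).comap (LinearMap.ker p.f).subtype
  D := K.D.restrict (fun x hx => by
    rw [LinearMap.mem_ker] at hx ⊢
    rw [p.comm, hx, map_zero])
  D_gr := fun i x hx => K.D_gr i x.1 hx
  DD := fun x => Subtype.ext (K.DD x.1)

/-- the short exact sequence of a (graded) surjection -/
def kerSES (p : Hom K K'')
    (surj : ∀ (n : ℤ) (x : K''.T), x ∈ K''.gr n → ∃ y ∈ K.gr n, p.f y = x) :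
    SES (kerC p) K K'' where
  i :=
    { f := (LinearMap.ker p.f).subtype
      gr := fun _ _ hx => hx
      comm := fun _ => rfl }
  p := p
  inj := Subtype.val_injective
  zero := fun x => x.2
  surj := surj
  exact := fun _ x hx h => ⟨⟨x, h⟩, hx, rfl⟩

/-- Surjections inducing isomorphisms on homology up to `Λ`-null modules. -/
theorem h_cones_of_surj (Λ : AddLen.{u, v} A) (p : Hom K K'')
    (surj : ∀ (n : ℤ) (x : K''.T), x ∈ K''.gr n → ∃ y ∈ K.gr n, p.f y = x)
    (hk : ∀ n, Λ.L (LinearMap.ker (p.map n)) = 0)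
    (hc : ∀ n, Λ.L (K''.H n ⧸ LinearMap.range (p.map n)) = 0) (l : List A) (n : ℤ) :
    (cones l K).h Λ n = (cones l K'').h Λ n := by
  refine (kerSES p surj).h_cones_eq_of_left Λ (fun m => ?_) l n
  have h1 : (kerC p).h Λ m = (kerSES p surj).r Λ (m + 1) +
      Λ.L (LinearMap.range ((kerSES p surj).i.map m)) := by
    have := (kerSES p surj).L_ker Λ (m + 1)
    rw [add_sub_cancel_right] at this
    rw [← this]
    exact Λ.L_ker_add_range _
  rw [h1, (kerSES p surj).range_i, ← (kerSES p surj).L_coker Λ (m + 1)]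
  have h2 : Λ.L (K''.H (m + 1) ⧸ LinearMap.range ((kerSES p surj).p.map (m + 1))) = 0 := hc (m + 1)
  have h3 : Λ.L (LinearMap.ker ((kerSES p surj).p.map m)) = 0 := hk m
  rw [h2, h3, add_zero]

end GCx

/-! ### functoriality of `toG` -/

/-- `toG` on morphisms -/
def toGHom {C D : Kos.Cx.{u, v} A} (φ : C.Hom D) : GCx.Hom (toG C) (toG D) where
  f := LinearMap.pi (fun n => φ.f n ∘ₗ LinearMap.proj n)
  gr := fun i f hf n hn => by
    change φ.f n ((show ∀ m, C.X m from f) n) = 0
    rw [hf n hn, map_zero]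
  comm := fun f => by
    funext n
    exact φ.comm n _

/-- `C'' = C / bC` with `b` regular, `ℕ`-graded version -/
def regQuotG {C C'' : Kos.Cx.{u, v} A} (b : A) (p : C.Hom C'')
    (inj : ∀ n (x : C.X n), b • x = 0 → x = 0)
    (surj : ∀ n, Function.Surjective (p.f n))
    (ker : ∀ n (x : C.X n), p.f n x = 0 ↔ ∃ y, b • y = x) :
    GCx.RegQuot b (toG C) (toG C'') where
  p := toGHom p
  inj := fun f hf => funext fun n => inj n _ (congrFun hf n)
  zero := fun f => funext fun n => (ker n _).2 ⟨(show ∀ m, C.X m from f) n, rfl⟩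
  surj := fun n f hf => by
    have hs : ∀ m, ∃ y : C.X m, p.f m y = (show ∀ m, C''.X m from f) m ∧
        ((show ∀ m, C''.X m from f) m = 0 → y = 0) := by
      intro m
      by_cases hm : (show ∀ m, C''.X m from f) m = 0
      · exact ⟨0, by rw [hm, map_zero], fun _ => rfl⟩
      · obtain ⟨y, hy⟩ := surj m ((show ∀ m, C''.X m from f) m)
        exact ⟨y, hy, fun h => absurd h hm⟩
    choose y hy1 hy2 using hs
    exact ⟨y, fun m hm => hy2 m (hf m hm), funext hy1⟩
  exact := fun n f hf h => by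
    have hs : ∀ m, ∃ y : C.X m, b • y = (show ∀ m, C.X m from f) m ∧
        ((show ∀ m, C.X m from f) m = 0 → y = 0) := by
      intro m
      by_cases hm : (show ∀ m, C.X m from f) m = 0
      · exact ⟨0, by rw [hm, smul_zero], fun _ => rfl⟩
      · obtain ⟨y, hy⟩ := (ker m ((show ∀ m, C.X m from f) m)).1 (congrFun h m)
        exact ⟨y, hy, fun h => absurd h hm⟩
    choose y hy1 hy2 using hs
    exact ⟨y, fun m hm => hy2 m (hf m hm), funext hy1⟩

/-! ### the augmentation -/

/-- the augmentation `C → H_0(C)` -/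
noncomputable def aug (C : Kos.Cx.{u, v} A) : GCx.Hom (toG C) (one A (C.H 0)) where
  f := (C.toH 0) ∘ₗ (Submodule.topEquiv (R := A) (M := C.X 0)).symm.toLinearMap ∘ₗ
    (LinearMap.proj 0 : (∀ n, C.X n) →ₗ[A] C.X 0)
  gr := by
    intro i f hf
    change C.toH 0 ⟨(show ∀ m, C.X m from f) 0, trivial⟩ ∈
      (if i = 0 then (⊤ : Submodule A (C.H 0)) else ⊥)
    split_ifs with h
    · trivial
    · have h1 : (show ∀ m, C.X m from f) 0 = 0 := hf 0 (fun h' => h h'.symm)
      rw [Submodule.mem_bot]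
      have h2 : (⟨(show ∀ m, C.X m from f) 0, trivial⟩ : C.cyc 0) = 0 := Subtype.ext h1
      rw [h2, map_zero]
  comm := by
    intro f
    change C.toH 0 ⟨C.d 0 ((show ∀ m, C.X m from f) 1), trivial⟩ = 0
    rw [Kos.Cx.toH_eq_zero]
    exact ⟨_, rfl⟩

theorem aug_apply (C : Kos.Cx.{u, v} A) (f : ∀ n, C.X n) :
    (aug C).f f = C.toH 0 ⟨f 0, trivial⟩ := rfl

theorem h_cones_aug (Λ : AddLen.{u, v} A) (C : Kos.Cx.{u, v} A) (h0 : ∀ n, 1 ≤ n → C.l Λ n = 0)
    (l : List A) (n : ℤ) : (cones l (toG C)).h Λ n = kh Λ l (C.H 0) n := by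
  refine GCx.h_cones_of_surj Λ (aug C) ?_ ?_ ?_ l n
  · intro n x hx
    change x ∈ (if n = 0 then (⊤ : Submodule A (C.H 0)) else ⊥) at hx
    split_ifs at hx with h
    · subst h
      obtain ⟨⟨y, hy⟩, hyx⟩ := C.toH_surjective 0 x
      have h1 : (⟨sing C 0 y 0, trivial⟩ : C.cyc 0) = ⟨y, hy⟩ := Subtype.ext (sing_same C 0 y)
      exact ⟨sing C 0 y, sing_mem C 0 y, (congrArg (C.toH 0) h1).trans hyx⟩
    · have hx0 : x = 0 := hx
      subst hx0
      exact ⟨0, Submodule.zero_mem _, map_zero _⟩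
  · intro m
    by_cases hm : m = 0
    · subst hm
      have : Subsingleton (LinearMap.ker ((aug C).map 0)) := by
        rw [Submodule.subsingleton_iff_eq_bot, LinearMap.ker_eq_bot']
        intro x hx
        obtain ⟨⟨f, hf⟩, rfl⟩ := (toG C).cls_surj 0 x
        rw [GCx.Hom.map_cls, GCx.cls_eq_zero] at hx
        obtain ⟨y, _, hy⟩ := hx
        have hy' : (0 : C.H 0) = C.toH 0 ⟨(show ∀ m, C.X m from f) 0, trivial⟩ := hy
        have h1 := (C.toH_eq_zero _).1 hy'.symm
        rw [GCx.cls_eq_zero]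
        have h2 := eq_sing C (n := 0) hf.1
        change (show (toG C).T from f) ∈ (toG C).B 0
        rw [show f = sing C 0 ((show ∀ m, C.X m from f) 0) from h2]
        exact (mem_B_toG C (n := 0)).2 h1
      exact Λ.L_subsingleton
    · have h1 : (toG C).h Λ m = 0 := by
        rcases lt_or_ge m 0 with h | h
        · exact h_toG_neg C Λ h
        · obtain ⟨k, rfl⟩ := Int.eq_ofNat_of_zero_le h
          have hk : 1 ≤ k := by
            rcases Nat.eq_zero_or_pos k with h | h
            · exact absurd (by exact_mod_cast h) hm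
            · exact h
          exact (h_toG C Λ k).trans (h0 k hk)
      exact le_antisymm ((Λ.L_submodule_le _).trans h1.le) zero_le
  · intro m
    by_cases hm : m = 0
    · subst hm
      have : LinearMap.range ((aug C).map 0) = ⊤ := by
        rw [LinearMap.range_eq_top]
        intro x
        obtain ⟨⟨x, hx⟩, rfl⟩ := (one A (C.H 0)).cls_surj 0 x
        obtain ⟨⟨y, hy⟩, hyx⟩ := C.toH_surjective 0 x
        refine ⟨(toG C).cls 0 ⟨sing C 0 y, (mem_Z_toG C (n := 0)).2 hy⟩, ?_⟩
        rw [GCx.Hom.map_cls]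
        congr 1
        apply Subtype.ext
        have h1 : (⟨sing C 0 y 0, trivial⟩ : C.cyc 0) = ⟨y, hy⟩ :=
          Subtype.ext (sing_same C 0 y)
        exact (congrArg (C.toH 0) h1).trans hyx
      rw [this]
      have : Subsingleton ((one A (C.H 0)).H 0 ⧸ (⊤ : Submodule A ((one A (C.H 0)).H 0))) :=
        Submodule.Quotient.subsingleton_iff.2 rfl
      exact Λ.L_subsingleton
    · refine le_antisymm ((Λ.L_quotient_le _).trans ?_) zero_le
      refine ((one A (C.H 0)).h_eq_zero_of_gr Λ ?_).le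
      change (if m = 0 then (⊤ : Submodule A (C.H 0)) else ⊥) = ⊥
      rw [if_neg hm]

/-! ### the swap lemma -/

section swap

variable {R : Type w} [CommRing R]

/-- `F ⊗ X` as a bundled complex -/
def FT (F : Res.MCx R) (A : Type u) [CommRing A] (X : Type v) [AddCommGroup X] [Module A X]
    [Module R X] [SMulCommClass R A X] : Kos.Cx.{u, v} A where
  X := fun n => F.ι n → X
  d := fun n => F.dA A X n
  dd := fun n x => Chi.isCx_dA A F X n x

variable (F : Res.MCx R)

section general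

variable {X Y : Type v} [AddCommGroup X] [Module A X] [Module R X] [SMulCommClass R A X]
  [AddCommGroup Y] [Module A Y] [Module R Y] [SMulCommClass R A Y]

theorem l_FT (Λ : AddLen.{u, v} A) (n : ℕ) : (FT F A X).l Λ n = Chi.hX Λ F X n := rfl

/-- functoriality in the module -/
def FThom (g : X →ₗ[A] Y) (hg : Chi.RLin R g) : (FT F A X).Hom (FT F A Y) where
  f := Chi.pmap F g
  comm := Chi.isMap_pmap F hg

/-- isomorphisms -/
def FTiso (e : X ≃ₗ[A] Y) (he : Chi.RLin R (e : X →ₗ[A] Y)) : (FT F A X).Iso (FT F A Y) where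
  e := fun n => LinearEquiv.piCongrRight (fun _ : F.ι n => e)
  comm := Chi.isMap_pmap F he

/-- `toG` on isomorphisms -/
def toGIso {C D : Kos.Cx.{u, v} A} (φ : C.Iso D) : GCx.Iso (toG C) (toG D) where
  e := LinearEquiv.piCongrRight φ.e
  gr := fun i f => by
    constructor
    · intro h n hn
      have := h n hn
      exact (φ.e n).map_eq_zero_iff.1 this
    · intro h n hn
      change φ.e n ((show ∀ m, C.X m from f) n) = 0
      rw [h n hn, map_zero]
  comm := fun f => by
    funext n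
    exact φ.comm n _

theorem cones_iso {K K' : GCx.{u, v} A} (φ : GCx.Iso K K') (l : List A) :
    Nonempty (GCx.Iso (cones l K) (cones l K')) := by
  induction l with
  | nil => exact ⟨φ⟩
  | cons a l ih =>
    obtain ⟨ψ⟩ := ih
    exact ⟨ψ.cone a⟩

theorem h_cones_FT_congr (Λ : AddLen.{u, v} A) (e : X ≃ₗ[A] Y) (he : Chi.RLin R (e : X →ₗ[A] Y))
    (l : List A) (n : ℤ) : (cones l (toG (FT F A X))).h Λ n = (cones l (toG (FT F A Y))).h Λ n := by
  obtain ⟨φ⟩ := cones_iso (toGIso (FTiso F e he)) l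
  exact φ.h_eq Λ n

/-- one regular element -/
theorem h_cones_FT_cons (Λ : AddLen.{u, v} A) (b : A) (l : List A) (g : X →ₗ[A] Y)
    (hg : Chi.RLin R g) (inj : ∀ x : X, b • x = 0 → x = 0) (surj : Function.Surjective g)
    (ker : ∀ x, g x = 0 ↔ ∃ y, b • y = x) (n : ℤ) :
    (cones (b :: l) (toG (FT F A X))).h Λ n = (cones l (toG (FT F A Y))).h Λ n := by
  refine (regQuotG b (FThom F g hg) ?_ ?_ ?_).h_cones_cons Λ l n
  · intro n x hx
    funext a
    exact inj _ (congrFun hx a)
  · intro n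
    exact Res.post_surjective _ surj
  · intro n x
    constructor
    · intro h
      have : ∀ a, ∃ y, b • y = x a := fun a => (ker _).1 (congrFun h a)
      choose y hy using this
      exact ⟨y, funext hy⟩
    · rintro ⟨y, rfl⟩
      funext a
      exact (ker _).2 ⟨y a, rfl⟩

end general

section tower

variable [Algebra R A]

theorem h_cones_FT_regular (Λ : AddLen.{u, v} A) (q : List A) (X : Type v) [AddCommGroup X]
    [Module A X] [Module R X] [IsScalarTower R A X]
    (hq : RingTheory.Sequence.IsWeaklyRegular X q) (Y : Type v) [AddCommGroup Y]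
    [Module A Y] [Module R Y] [IsScalarTower R A Y] (g : X →ₗ[A] Y) (hg : Function.Surjective g)
    (hk : LinearMap.ker g = Ideal.ofList q • (⊤ : Submodule A X)) (l : List A) (n : ℤ) :
    (cones (q ++ l) (toG (FT F A X))).h Λ n = (cones l (toG (FT F A Y))).h Λ n := by
  induction q generalizing X with
  | nil =>
    rw [Ideal.ofList_nil, Submodule.bot_smul] at hk
    let e : X ≃ₗ[A] Y := LinearEquiv.ofBijective g ⟨LinearMap.ker_eq_bot.1 hk, hg⟩
    exact h_cones_FT_congr F Λ e (Chi.RLin.of_tower (e : X →ₗ[A] Y)) l n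
  | cons b q ih =>
    rw [RingTheory.Sequence.isWeaklyRegular_cons_iff] at hq
    let X1 := QuotSMulTop b X
    have h1 : ∀ x : X, (Submodule.mkQ (b • (⊤ : Submodule A X))) x = 0 ↔ ∃ y, b • y = x := by
      intro x
      rw [Submodule.mkQ_apply, Submodule.Quotient.mk_eq_zero, Submodule.mem_smul_pointwise_iff_exists]
      exact ⟨fun ⟨y, _, hy⟩ => ⟨y, hy⟩, fun ⟨y, hy⟩ => ⟨y, trivial, hy⟩⟩
    rw [List.cons_append]
    rw [h_cones_FT_cons F Λ b (q ++ l) (Y := X1) (Submodule.mkQ (b • (⊤ : Submodule A X)))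
      (Chi.RLin.of_tower _) (fun x hx => hq.1 (by simpa using hx)) (Submodule.mkQ_surjective _) h1 n]
    have h2 : b • (⊤ : Submodule A X) ≤ LinearMap.ker g := by
      rw [hk, Ideal.ofList_cons_smul]
      exact le_sup_left
    refine ih X1 hq.2 ((b • (⊤ : Submodule A X)).liftQ g h2) ?_ ?_
    · intro y
      obtain ⟨x, rfl⟩ := hg y
      exact ⟨Submodule.Quotient.mk x, rfl⟩
    · rw [Submodule.ker_liftQ, hk, Ideal.ofList_cons_smul, Submodule.map_sup]
      have h3 : Submodule.map (b • (⊤ : Submodule A X)).mkQ (b • (⊤ : Submodule A X)) = ⊥ := by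
        rw [eq_bot_iff]
        rintro _ ⟨x, hx, rfl⟩
        exact (Submodule.Quotient.mk_eq_zero _).2 hx
      rw [h3, bot_sup_eq, Submodule.map_smul'', Submodule.map_top, Submodule.range_mkQ]

/-- **SWAP LEMMA.** -/
theorem hX_eq_kh (Λ : AddLen.{u, v} A) (q : List A) (X : Type v) [AddCommGroup X]
    [Module A X] [Module R X] [IsScalarTower R A X]
    (hq : RingTheory.Sequence.IsWeaklyRegular X q) (Y : Type v) [AddCommGroup Y]
    [Module A Y] [Module R Y] [IsScalarTower R A Y] (g : X →ₗ[A] Y) (hg : Function.Surjective g)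
    (hk : LinearMap.ker g = Ideal.ofList q • (⊤ : Submodule A X))
    (h0 : ∀ n, 1 ≤ n → Chi.hX Λ F X n = 0) (n : ℕ) :
    Chi.hX Λ F Y n = kh Λ q (Chi.HX A F X 0) n := by
  have h1 := h_cones_FT_regular F Λ q X hq Y g hg hk [] n
  rw [List.append_nil] at h1
  have h2 : (cones [] (toG (FT F A Y))).h Λ n = Chi.hX Λ F Y n := h_toG (FT F A Y) Λ n
  rw [← h2, ← h1]
  exact h_cones_aug Λ (FT F A X) h0 q n

/-- Swap lemma for Euler characteristics. -/
theorem chiX_eq_chi (Λ : AddLen.{u, v} A) (q : List A) (X : Type v) [AddCommGroup X]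
    [Module A X] [Module R X] [IsScalarTower R A X]
    (hq : RingTheory.Sequence.IsWeaklyRegular X q) (Y : Type v) [AddCommGroup Y]
    [Module A Y] [Module R Y] [IsScalarTower R A Y] (g : X →ₗ[A] Y) (hg : Function.Surjective g)
    (hk : LinearMap.ker g = Ideal.ofList q • (⊤ : Submodule A X))
    (h0 : ∀ n, 1 ≤ n → Chi.hX Λ F X n = 0) (N : ℕ) (hN : q.length < N) :
    Chi.chiX Λ F Y N = chi Λ (Chi.HX A F X 0) q := by
  rw [Chi.chiX_eq, chi]
  have h1 : ∀ i : ℕ, Chi.hX Λ F Y i = kh Λ q (Chi.HX A F X 0) i :=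
    hX_eq_kh F Λ q X hq Y g hg hk h0
  have h2 : Finset.range (q.length + 1) ⊆ Finset.range N := Finset.range_mono hN
  rw [← Finset.sum_subset h2]
  · exact Finset.sum_congr rfl fun i _ => by rw [h1]
  · intro i _ hi
    rw [Finset.mem_range, not_lt] at hi
    rw [h1, kh_eq_zero Λ _ q i (Or.inr (by exact_mod_cast hi))]
    simp

end tower

end swap

end Crest.Agent.R188.KosG
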