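/-
R188, block (LEFT): `Asm.LeftSide W`.   helper111
-/
import Crest.Agent.R188.PerfC3

set_option autoImplicit false
set_option linter.unusedSectionVars false

namespace Crest.Agent.R188.PerfC

open scoped ENNReal Pointwise TensorProduct
open IsLocalRing
open WittVector Crest.Agent.R183 Crest.Agent.R188.Chi Crest.Agent.R188.KosG
open Crest.Agent.R183.Res Crest.Agent.R183.Cohen
open Crest.Agent.R188.Wit Crest.Agent.R188.Prf Crest.Agent.R188.Asm Crest.Agent.R188.PerfB

universe u w

/-! ### the quotient `(Ω/J)^r` -/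

section quot

variable {Ω A : Type u} [CommRing Ω] [CommRing A] [Algebra Ω A]
variable {V : Type u} [AddCommGroup V] [Module Ω V] [Module A V] [IsScalarTower Ω A V] {r : ℕ}

/-- `V/JV ≃ (Ω/J)^r` -/
noncomputable def quotEquiv (b : V ≃ₗ[Ω] (Fin r → Ω)) (J : Ideal Ω) :
    (V ⧸ Flg.JV A b J) ≃ₗ[Ω] (Fin r → Ω ⧸ J) :=
  (Submodule.Quotient.restrictScalarsEquiv Ω (Flg.JV A b J)).symm ≪≫ₗ
    (Submodule.quotEquivOfEq _ _ (by
      ext x
      rw [LinearMap.mem_ker]
      constructor
      · intro hx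
        funext c
        exact (Submodule.Quotient.mk_eq_zero _).2 (hx c)
      · intro hx c
        exact (Submodule.Quotient.mk_eq_zero _).1 (congrFun hx c))) ≪≫ₗ
    (LinearMap.quotKerEquivOfSurjective
      ((LinearMap.pi fun c => J.mkQ ∘ₗ LinearMap.proj c : (Fin r → Ω) →ₗ[Ω] (Fin r → Ω ⧸ J)) ∘ₗ
        (b : V →ₗ[Ω] (Fin r → Ω))) (by
      intro y
      have h : ∀ c, ∃ x : Ω, J.mkQ x = y c := fun c => Submodule.mkQ_surjective _ _
      choose x hx using h
      refine ⟨b.symm x, ?_⟩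
      funext c
      show J.mkQ (b (b.symm x) c) = y c
      rw [b.apply_symm_apply, hx]))

lemma quotEquiv_mk (b : V ≃ₗ[Ω] (Fin r → Ω)) (J : Ideal Ω) (x : V) (c : Fin r) :
    quotEquiv (A := A) b J (Submodule.Quotient.mk x) c = Submodule.Quotient.mk (b x c) := rfl

variable {R : Type w} [CommRing R] {B : Type w} [CommRing B] [IsRegularLocalRing B] [Algebra B Ω]
variable {N : Type w} [AddCommGroup N] [Module R N] [Module B N] [SMulCommClass R B N]
variable (Λ : AddLen.{u, u} Ω)

/-- `χ(s; X) = 0` if `b₀ ≠ 0` kills `X` -/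
theorem chi_eq_zero_of_smul {s : List B} (hd : ringKrullDim B = s.length)
    (hsm : Ideal.ofList s = maximalIdeal B) {X : Type u} [AddCommGroup X] [Module Ω X] [Module B X]
    [IsScalarTower B Ω X] {b₀ : B} (hb₀ : b₀ ≠ 0) (hX : ∀ x : X, b₀ • x = 0)
    (hXf : KFin Λ X (s.map (algebraMap B Ω))) :
    KosG.chi Λ X (s.map (algebraMap B Ω)) = 0 := by
  obtain ⟨K, ε, hK, -, hKl⟩ := exists_res_len hd (B ⧸ maximalIdeal B)
  have hs := isWeaklyRegular_of_ofList hd hsm
  have hB : ∀ (b : B) (x : X), b • x = algebraMap B Ω b • x := fun b x =>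
    (algebraMap_smul Ω b x).symm
  have c3 : SMulCommClass B Ω X := ⟨fun a x y => by
    rw [hB, hB, smul_smul, smul_smul, mul_comm]⟩
  rw [← chiX_residue_eq_chi Λ X hs hsm hK hKl (algebraMap B Ω) hB (Nat.lt_succ_self _)]
  refine chiX_residue_eq_zero Λ X hd hK hKl (fun i => ?_) hb₀ hX
  rw [hX_residue_eq_kh Λ X hs hsm hK (algebraMap B Ω) hB]
  exact hXf i

/-- **the quotient `(Ω/J)^r` has value `0`** -/
theorem val_quot {s : List B} (hd : ringKrullDim B = s.length)
    (hsm : Ideal.ofList s = maximalIdeal B) (F : MCx R) {D : ℕ} (hF : F.Len D) (φ : R →+* A)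
    (ρ : R →+* Matrix (Fin r) (Fin r) B) (eN : N ≃ₗ[B] (Fin r → B))
    (heN : ∀ a x c, eN (a • x) c = ∑ t, ρ a c t • eN x t)
    (hN : ∀ i, hX (AddLen.ofLength.{w, w} B) F N i ≠ ⊤)
    (b : V ≃ₗ[Ω] (Fin r → Ω))
    (hb : ∀ a x c, b (φ a • x) c = ∑ t, algebraMap B Ω (ρ a c t) * b x t)
    (J : Ideal Ω) {b₀ : B} (hb₀ : b₀ ≠ 0) (hbJ : algebraMap B Ω b₀ ∈ J)
    (hJ : KFin Λ (Ω ⧸ J) (s.map (algebraMap B Ω))) :
    (∀ i, hX (Λ.restrict (algebraMap Ω A)) (F.map φ) (V ⧸ Flg.JV A b J) i ≠ ⊤) ∧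
    chiX (Λ.restrict (algebraMap Ω A)) (F.map φ) (V ⧸ Flg.JV A b J) (D + 1) = 0 := by
  obtain ⟨h1, h2⟩ := val_push (A := A) Λ hd hsm F hF φ ρ eN heN hN (W := V ⧸ Flg.JV A b J)
    (X := Ω ⧸ J) (quotEquiv b J) (fun a x c => by
      obtain ⟨x, rfl⟩ := Submodule.Quotient.mk_surjective _ x
      rw [← Submodule.Quotient.mk_smul, quotEquiv_mk, hb]
      have h3 : (Submodule.Quotient.mk (∑ t, algebraMap B Ω (ρ a c t) * b x t) : Ω ⧸ J) =
          ∑ t, Submodule.Quotient.mk (algebraMap B Ω (ρ a c t) * b x t) :=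
        map_sum J.mkQ _ _
      rw [h3]
      refine Finset.sum_congr rfl fun t _ => ?_
      rw [quotEquiv_mk, ← Submodule.Quotient.mk_smul, Algebra.smul_def]) hJ
  refine ⟨h1, ?_⟩
  rw [h2, chi_eq_zero_of_smul Λ hd hsm hb₀ (fun x => ?_) hJ, mul_zero]
  obtain ⟨y, rfl⟩ := Submodule.Quotient.mk_surjective _ x
  rw [← Submodule.Quotient.mk_smul, Submodule.Quotient.mk_eq_zero, Algebra.smul_def]
  exact J.mul_mem_right _ hbJ

end quot

/-! ### `LeftSide` -/

section left

variable {p : ℕ} [hp : Fact p.Prime] {k : Type} [Field k] [CharP k p] [IsAlgClosed k] {b : ℕ}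

variable {R A M : Type} [CommRing R] [IsRegularLocalRing R] [CommRing A] [Algebra R A]
  [Algebra (BB p k b) A] [AddCommGroup M] [Module R M] {d a : ℕ}

lemma isLocalRing_A (s : Sit p k b R A M d a) : IsLocalRing A := by
  have := s.ntA
  exact IsLocalRing.of_surjective' (algebraMap R A) s.surjA

/-- `B → A/𝔪` is onto -/
lemma residue_A [IsLocalRing A] (s : Sit p k b R A M d a) (x : A) :
    ∃ y : BB p k b, x - algebraMap (BB p k b) A y ∈ maximalIdeal A := by
  have := s.ntA
  obtain ⟨r, rfl⟩ := s.surjA x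
  obtain ⟨z, rfl⟩ := s.π_surj r
  refine ⟨MvPowerSeries.C (MvPowerSeries.constantCoeff z), ?_⟩
  rw [s.comm, ← map_sub, ← map_sub]
  have hσ : Function.Surjective ((algebraMap R A).comp s.π) := s.surjA.comp s.π_surj
  have hloc : IsLocalHom ((algebraMap R A).comp s.π) := IsLocalHom.of_surjective _ hσ
  rw [mem_maximalIdeal, mem_nonunits_iff]
  intro hu
  have h1 : IsUnit (z - MvPowerSeries.C (MvPowerSeries.constantCoeff z)) :=
    isUnit_of_map_unit ((algebraMap R A).comp s.π) _ hu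
  rw [MvPowerSeries.isUnit_iff_constantCoeff, map_sub, MvPowerSeries.constantCoeff_C, sub_self] at h1
  exact not_isUnit_zero h1

variable (N : Type) [AddCommGroup N] [Module A N] [Module R N] [IsScalarTower R A N]
    [Module (BB p k b) N] [IsScalarTower (BB p k b) A N]

/-- actions through `A` commute -/
lemma smulComm_of_tower {R A C N : Type} [CommRing R] [CommRing A] [CommRing C] [Algebra R A]
    [Algebra C A] [AddCommGroup N] [Module A N] [Module R N] [IsScalarTower R A N]
    [Module C N] [IsScalarTower C A N] : SMulCommClass R C N := ⟨fun x y n => by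
  rw [← algebraMap_smul A x (y • n), ← algebraMap_smul A y n, ← algebraMap_smul A x n,
    ← algebraMap_smul A y (algebraMap R A x • n), smul_smul, smul_smul, mul_comm]⟩

/-- finiteness of the lengths over `B` and comparison with `R` -/
lemma length_B_R (s : Sit p k b R A M d a) [SMulCommClass R (BB p k b) N] (F : MCx R) (i : ℕ) :
    hX (AddLen.ofLength.{0, 0} (BB p k b)) F N i = hX (AddLen.ofLength.{0, 0} R) F N i := by
  have := isLocalRing_A s
  have c1 : SMulCommClass R A N := ⟨fun x y n => by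
    rw [← algebraMap_smul A x, ← algebraMap_smul A x n, smul_smul, smul_smul, mul_comm]⟩
  rw [hX_eq, hX_eq, AddLen.ofLength_L, AddLen.ofLength_L,
    length_HX_local' (T := A) s.surjA (residue_A s) F i]

lemma finite_R_N (s : Sit p k b R A M d a) {r : ℕ} (e : Module.Basis (Fin r) (BB p k b) N) :
    Module.Finite R N := by
  have h1 : Module.Finite (BB p k b) N := Module.Finite.of_basis e
  have h2 : Module.Finite A N := Module.Finite.of_restrictScalars_finite (BB p k b) A N
  have h3 : Module.Finite R A :=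
    Module.Finite.of_surjective (Algebra.linearMap R A) s.surjA
  exact Module.Finite.trans A N

lemma isFiniteLength_N [Module.Finite R M] (s : Sit p k b R A M d a) [Module.Finite R N] :
    IsFiniteLength R (N ⊗[R] M) := by
  have h3 : Module.Finite R A :=
    Module.Finite.of_surjective (Algebra.linearMap R A) s.surjA
  have h1 : Top.Proper R M A := Top.proper_iff.2 s.proper
  have h2 : Top.Proper R M N := h1.mono le_rfl (fun x hx => by
    rw [Module.mem_annihilator] at hx ⊢
    intro n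
    have h4 := hx 1
    rw [Algebra.smul_def, mul_one] at h4
    rw [← algebraMap_smul A x n, h4, zero_smul])
  exact Top.proper_iff.1 h2.symm

/-- **`LeftSide`** -/
theorem leftSide (W : World p k b) : LeftSide W := by
  intro R A M _ _ _ _ _ _ _ hfM d a s F ε hF hFl N _ _ _ _ _ _ r e
  have hreg := regBB p k b
  have hd := dimBB' p k b
  have hsm := maxBB p k b
  have cRB : SMulCommClass R (BB p k b) N := smulComm_of_tower (A := A)
  have hfN := finite_R_N N s e
  have hlen := isFiniteLength_N N s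
  have hN : ∀ i, hX (AddLen.ofLength.{0, 0} (BB p k b)) F N i ≠ ⊤ := fun i => by
    rw [length_B_R N s F i]
    exact hX_length_ne_top hlen hF i
  have hchi : chiX (AddLen.ofLength.{0, 0} (BB p k b)) F N (d + 1) = Top.pair R d M N := by
    rw [Top.pair_eq hF, chiX_eq, chiX_eq]
    exact Finset.sum_congr rfl fun i _ => by rw [length_B_R N s F i]
  -- the matrices
  let ρ : R →+* Matrix (Fin r) (Fin r) (BB p k b) :=
    ((Tri.actMatrix (A := A) e : A →ₐ[BB p k b] Matrix (Fin r) (Fin r) (BB p k b)) :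
      A →+* Matrix (Fin r) (Fin r) (BB p k b)).comp (algebraMap R A)
  have heN : ∀ (x : R) (n : N) (c : Fin r), e.equivFun (x • n) c =
      ∑ t, ρ x c t • e.equivFun n t := by
    intro x n c
    rw [← algebraMap_smul A x n, ← Tri.actMatrix_mulVec e (algebraMap R A x) n]
    rfl
  have hb : ∀ (x : R) (v : Tri.OmV (Om W.ξ) (Tri.actMatrix (A := A) e)) (c : Fin r),
      Tri.OmV.coord (Om W.ξ) (Tri.actMatrix (A := A) e) (rA W A x • v) c =
        ∑ t, algebraMap (BB p k b) (Om W.ξ) (ρ x c t) *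
          Tri.OmV.coord (Om W.ξ) (Tri.actMatrix (A := A) e) v t := by
    intro x v c
    rw [Tri.OmV.coord_smul]
    have h1 : rA W A x = (1 : Om W.ξ) ⊗ₜ[BB p k b] (algebraMap R A x) := rfl
    rw [h1, Tri.matHom_tmul, one_smul]
    rfl
  refine ⟨?_, ?_⟩
  · have hK : KFin (LOm W.ξ W.Λ) (Om W.ξ)
        ((List.ofFn (tB p k b)).map (algebraMap (BB p k b) (Om W.ξ))) := by
      rw [map_tB]; exact kfin_tOm W
    obtain ⟨h1, h2⟩ := val_push (A := AO W A) (LOm W.ξ W.Λ) hd hsm F hFl (rA W A) ρ e.equivFun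
      heN hN (W := Tri.OmV (Om W.ξ) (Tri.actMatrix (A := A) e)) (X := Om W.ξ)
      (Tri.OmV.coord (Om W.ξ) (Tri.actMatrix (A := A) e)) (fun x v c => by
        rw [hb]
        exact Finset.sum_congr rfl fun t _ => (Algebra.smul_def _ _).symm) hK
    refine ⟨h1, ?_⟩
    rw [map_tB, chi_tOm, hchi] at h2
    exact h2
  · rintro J ⟨c, hc, hcJ⟩ hJ
    have hK : KFin (LOm W.ξ W.Λ) (Om W.ξ ⧸ J)
        ((List.ofFn (tB p k b)).map (algebraMap (BB p k b) (Om W.ξ))) := by
      rw [map_tB]; exact hJ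
    exact val_quot (A := AO W A) (LOm W.ξ W.Λ) hd hsm F hFl (rA W A) ρ e.equivFun heN hN
      (Tri.OmV.coord (Om W.ξ) (Tri.actMatrix (A := A) e)) hb J hc hcJ hK

end left

end Crest.Agent.R188.PerfC
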