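import Crest.Agent.R188.Tay7

/-!
# R188 (Serre positivity), S-level (e) for a general finitely generated module `M`: final form.
helper415
-/

set_option autoImplicit false
set_option linter.unusedSectionVars false

namespace Crest.Agent.R188.Tay

open Crest.Agent.R183 Crest.Agent.R183.Res TensorProduct IsLocalRing
open scoped ENNReal

noncomputable section

universe u v w

section final

variable {d : ℕ} {W : Type u} [CommRing W] [IsLocalRing W] [IsNoetherianRing W]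
  {Γ : Type u} [CommRing Γ] [Algebra W Γ] {φ : MvPowerSeries (Fin d) W →+* Γ}

/-- **Lower bound (e)** for a general module. -/
theorem lower_bound_M {n : ℕ} (Λ : AddLen.{u, u} Γ) {ϖ : W}
    (hϖ : IsLocalRing.maximalIdeal W = Ideal.span {ϖ})
    (hφ : ∀ w, φ (MvPowerSeries.C w) = algebraMap W Γ w)
    {𝔞 : Ideal (MvPowerSeries (Fin d) W)} {𝔟 : Ideal Γ} {h k : ℕ} (hn : 2 * h ≤ n)
    (hx : ∀ i : Fin d, (MvPowerSeries.X i) ^ h ∈ 𝔞)
    (hk : (MvPowerSeries.C ϖ) ^ k ∈ 𝔞)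
    (hx' : ∀ i : Fin d, φ (MvPowerSeries.X i) ^ h ∈ 𝔟 ⊔ Ideal.span {algebraMap W Γ ϖ ^ k})
    (M : Type u) [AddCommGroup M] [Module (MvPowerSeries (Fin d) W) M]
    (hfin : IsFiniteLength (MvPowerSeries (Fin d) W)
      (M ⧸ (𝔞 • (⊤ : Submodule (MvPowerSeries (Fin d) W) M))))
    (htor : Λ.L (tor Γ (Γ ⧸ 𝔟) ϖ) = 0)
    (F : MCx (MvPowerSeries (Fin d) W))
    (ε : (F.ι 0 → MvPowerSeries (Fin d) W) →ₗ[MvPowerSeries (Fin d) W] M)
    (hε : Function.Surjective ε)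
    (hd : ∀ y, ε (F.dM (MvPowerSeries (Fin d) W) 0 y) = 0) :
    ∃ N : ℕ, Module.length (MvPowerSeries (Fin d) W)
        (M ⧸ (𝔞 • (⊤ : Submodule (MvPowerSeries (Fin d) W) M))) = N ∧
      N * Λ.L (modϖ Γ (Γ ⧸ 𝔟) ϖ) ≤
        Chi.hX (Λ.restrict (algebraMap Γ (Q d n Γ))) (F.map (tau n φ)) (Q d n Γ) 0 := by
  have hmem : ∀ s : MvPowerSeries (Fin d) W, s ∈ IsLocalRing.maximalIdeal (MvPowerSeries (Fin d) W) ↔
      ϖ ∣ MvPowerSeries.constantCoeff s := by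
    intro s
    rw [IsLocalRing.mem_maximalIdeal, mem_nonunits_iff, MvPowerSeries.isUnit_iff_constantCoeff,
      ← mem_nonunits_iff, ← IsLocalRing.mem_maximalIdeal, hϖ, Ideal.mem_span_singleton]
  let iW : Module W (M ⧸ (𝔞 • (⊤ : Submodule (MvPowerSeries (Fin d) W) M))) :=
    Module.compHom _ (MvPowerSeries.C (σ := Fin d) (R := W))
  have iT : IsScalarTower W (MvPowerSeries (Fin d) W)
      (M ⧸ (𝔞 • (⊤ : Submodule (MvPowerSeries (Fin d) W) M))) := by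
    refine ⟨fun w s x => ?_⟩
    have h1 : w • s = (MvPowerSeries.C w) * s := MvPowerSeries.smul_eq_C_mul _ _
    rw [h1, mul_smul]
    rfl
  have iT2 : IsScalarTower W (MvPowerSeries (Fin d) W ⧸ 𝔞)
      (M ⧸ (𝔞 • (⊤ : Submodule (MvPowerSeries (Fin d) W) M))) := by
    refine ⟨fun w s x => ?_⟩
    obtain ⟨s, rfl⟩ := Ideal.Quotient.mk_surjective s
    obtain ⟨x, rfl⟩ := Submodule.mkQ_surjective _ x
    change Submodule.mkQ _ ((w • s) • x) = w • (Submodule.mkQ _ (s • x))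
    rw [map_smul, map_smul, smul_assoc]
  obtain ⟨N, hN, hN'⟩ := L_tensor (S := MvPowerSeries (Fin d) W) (Y := Γ ⧸ 𝔟) Λ (ϖ := ϖ)
    (fun w => by
      rw [hmem]
      change ϖ ∣ MvPowerSeries.constantCoeff (MvPowerSeries.C w) ↔ _
      rw [MvPowerSeries.constantCoeff_C])
    (fun s => ⟨MvPowerSeries.constantCoeff s, by
      rw [hmem, map_sub]
      change ϖ ∣ MvPowerSeries.constantCoeff s -
        MvPowerSeries.constantCoeff (MvPowerSeries.C (MvPowerSeries.constantCoeff s))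
      rw [MvPowerSeries.constantCoeff_C, sub_self]
      exact dvd_zero ϖ⟩) htor hfin iW iT
  refine ⟨N, hN, ?_⟩
  rw [← hN']
  have e1 : ∀ i : Fin d, (algebraMap (MvPowerSeries (Fin d) W) (MvPowerSeries (Fin d) W ⧸ 𝔞)
      (MvPowerSeries.X i)) ^ h = 0 := fun i => by
    rw [← map_pow]
    exact Ideal.Quotient.eq_zero_iff_mem.2 (hx i)
  have e2 : algebraMap W (MvPowerSeries (Fin d) W ⧸ 𝔞) ϖ ^ k = 0 := by
    rw [← map_pow]
    refine Ideal.Quotient.eq_zero_iff_mem.2 ?_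
    change MvPowerSeries.C (ϖ ^ k) ∈ 𝔞
    rw [map_pow]
    exact hk
  have e3 : ∀ i : Fin d, algebraMap Γ (Γ ⧸ 𝔟) (φ (MvPowerSeries.X i)) ^ h ∈
      Ideal.span {algebraMap W (Γ ⧸ 𝔟) ϖ ^ k} := fun i => by
    have h1 := Ideal.mem_map_of_mem (Ideal.Quotient.mk 𝔟) (hx' i)
    rw [Ideal.map_sup, Ideal.map_quotient_self, bot_sup_eq, Ideal.map_span, Set.image_singleton,
      map_pow, map_pow] at h1
    exact h1
  have hq : ∀ i : Fin d, (tq φ (Γ ⧸ 𝔟) (MvPowerSeries (Fin d) W ⧸ 𝔞) i :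
      (Γ ⧸ 𝔟) ⊗[W] (MvPowerSeries (Fin d) W ⧸ 𝔞)) ^ n = 0 := fun i =>
    sub_pow_zero (ta_pow e1 i) (tb_pow e2 e3 i) hn
  refine L_le_hX (B₂ := MvPowerSeries (Fin d) W ⧸ 𝔞) Λ hq hφ e1 Ideal.Quotient.mk_surjective
    Ideal.Quotient.mk_surjective F
    ((Submodule.mkQ (𝔞 • (⊤ : Submodule (MvPowerSeries (Fin d) W) M))) ∘ₗ ε)
    ((Submodule.mkQ_surjective _).comp hε) ?_
  intro y
  rw [LinearMap.comp_apply, hd, map_zero]

variable [IsNoetherianRing (MvPowerSeries (Fin d) W)]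

/-- **(e)** for a general module: the asymptotic lower bound. -/
theorem lower_asymp_M (Λ : AddLen.{u, u} Γ) {ϖ : W}
    (hϖ : maximalIdeal W = Ideal.span {ϖ})
    (hφ : ∀ w, φ (MvPowerSeries.C w) = algebraMap W Γ w)
    (M : Type u) [AddCommGroup M] [Module (MvPowerSeries (Fin d) W) M]
    [Module.Finite (MvPowerSeries (Fin d) W) M]
    {F : MCx (MvPowerSeries (Fin d) W)}
    {ε : (F.ι 0 → MvPowerSeries (Fin d) W) →ₗ[MvPowerSeries (Fin d) W] M} (hF : Chi.IsRes F ε)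
    (t : List (MvPowerSeries (Fin d) W))
    (ht : ∀ a ∈ t, a ∈ maximalIdeal (MvPowerSeries (Fin d) W))
    (hM : ∃ N : ℕ, maximalIdeal (MvPowerSeries (Fin d) W) ^ N ≤
      Module.annihilator (MvPowerSeries (Fin d) W) M ⊔ Ideal.ofList t)
    (hdim : Module.supportDim (MvPowerSeries (Fin d) W) M = (t.length : ℕ))
    (v : List Γ) (hv : ∃ K : ℕ, ∀ i : Fin d,
      φ (MvPowerSeries.X i) ^ K ∈ Ideal.span {algebraMap W Γ ϖ} ⊔ Ideal.ofList v)
    (hreg : ∀ i : ℤ, 1 ≤ i → KosG.kh Λ (algebraMap W Γ ϖ :: v) Γ i = 0)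
    (htop : KosG.kh Λ (algebraMap W Γ ϖ :: v) Γ 0 ≠ ⊤) :
    ∃ C : ℕ, 0 < C ∧ ∀ n : ℕ, C ≤ n →
      (n : ℝ≥0∞) ^ (t.length + v.length) * KosG.kh Λ (algebraMap W Γ ϖ :: v) Γ 0 ≤
        (C : ℝ≥0∞) ^ (t.length + v.length) *
          Chi.hX (Λ.restrict (algebraMap Γ (Q d n Γ))) (F.map (tau n φ)) (Q d n Γ) 0 := by
  obtain ⟨N, hN⟩ := hM
  obtain ⟨K, hK⟩ := hv
  obtain ⟨H, hH⟩ := exists_exps φ (ϖ := ϖ)
    (by rw [hϖ]; exact Ideal.mem_span_singleton_self ϖ) t hN v hK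
  have hgood : Eq.Good t M := ⟨inferInstance, N, hN⟩
  -- the bound for each `m`
  have key : ∀ m n : ℕ, 0 < m → 2 * H * m ≤ n →
      (m : ℝ≥0∞) ^ (t.length + v.length) * KosG.kh Λ (algebraMap W Γ ϖ :: v) Γ 0 ≤
        Chi.hX (Λ.restrict (algebraMap Γ (Q d n Γ))) (F.map (tau n φ)) (Q d n Γ) 0 := by
    intro m n hm hn
    obtain ⟨h, k, hh, h1, h2, h3⟩ := hH m hm
    obtain ⟨h4, h5⟩ := pow_le_length t ht M hgood hdim m hm
    have hsm : (Module.annihilator (MvPowerSeries (Fin d) W) M ⊔ Ideal.ofList (t.map (· ^ m))) •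
        (⊤ : Submodule (MvPowerSeries (Fin d) W) M) = Ideal.ofList (t.map (· ^ m)) • ⊤ := by
      have h0 : Module.annihilator (MvPowerSeries (Fin d) W) M •
          (⊤ : Submodule (MvPowerSeries (Fin d) W) M) = ⊥ := by
        rw [eq_bot_iff, Submodule.smul_le]
        intro r hr x _
        exact (Submodule.mem_bot _).2 (Module.mem_annihilator.1 hr x)
      rw [Submodule.sup_smul, h0, bot_sup_eq]
    rw [← hsm] at h4 h5
    obtain ⟨h6, h7⟩ := KosG.quot_map_pow Λ Γ (algebraMap W Γ ϖ) v hreg htop m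
    have h8 : (Ideal.ofList (v.map (· ^ m)) • (⊤ : Submodule Γ Γ)) = Ideal.ofList (v.map (· ^ m)) := by
      rw [smul_eq_mul, Ideal.mul_top]
    rw [h8] at h6 h7
    obtain ⟨N', hN', hle⟩ := lower_bound_M (φ := φ) Λ hϖ hφ
      (𝔞 := Module.annihilator (MvPowerSeries (Fin d) W) M ⊔ Ideal.ofList (t.map (· ^ m)))
      (𝔟 := Ideal.ofList (v.map (· ^ m))) (h := h) (k := k) (n := n)
      (by nlinarith) h1 h2 (fun i => by
        have := h3 i
        rwa [← map_pow] at this ⊢) M (Module.length_ne_top_iff.1 h4) h6 F ε hF.surj hF.ε_d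
    refine le_trans ?_ hle
    rw [hN', ENat.toNat_natCast] at h5
    have h9 : Λ.L (modϖ Γ (Γ ⧸ Ideal.ofList (v.map (· ^ m))) ϖ) =
      (m : ℝ≥0∞) ^ v.length * KosG.kh Λ (algebraMap W Γ ϖ :: v) Γ 0 := h7
    rw [h9, pow_add, mul_assoc]
    gcongr
    exact_mod_cast h5
  refine ⟨2 * (2 * H + 1), by omega, fun n hn => ?_⟩
  have hm : 0 < n / (2 * H + 1) := Nat.div_pos (by omega) (by omega)
  have h1 := key (n / (2 * H + 1)) n hm (by
    have := Nat.mul_div_le n (2 * H + 1)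
    nlinarith)
  refine le_trans ?_ (mul_le_mul_right h1 _)
  rw [← mul_assoc, ← mul_pow]
  gcongr
  have h2 : n ≤ 2 * (2 * H + 1) * (n / (2 * H + 1)) := by
    have h3 := Nat.div_add_mod n (2 * H + 1)
    have h4 := Nat.mod_lt n (show 0 < 2 * H + 1 by omega)
    nlinarith
  exact_mod_cast h2

/-- **(e)** for a general module, helper546's form. -/
theorem lower_asymp_M' (Λ : AddLen.{u, u} Γ) {ϖ : W}
    (hϖ : maximalIdeal W = Ideal.span {ϖ})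
    (hφ : ∀ w, φ (MvPowerSeries.C w) = algebraMap W Γ w)
    (M : Type u) [AddCommGroup M] [Module (MvPowerSeries (Fin d) W) M]
    [Module.Finite (MvPowerSeries (Fin d) W) M]
    {F : MCx (MvPowerSeries (Fin d) W)}
    {ε : (F.ι 0 → MvPowerSeries (Fin d) W) →ₗ[MvPowerSeries (Fin d) W] M} (hF : Chi.IsRes F ε)
    (t : List (MvPowerSeries (Fin d) W))
    (ht : ∀ a ∈ t, a ∈ maximalIdeal (MvPowerSeries (Fin d) W))
    (hM : ∃ N : ℕ, maximalIdeal (MvPowerSeries (Fin d) W) ^ N ≤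
      Module.annihilator (MvPowerSeries (Fin d) W) M ⊔ Ideal.ofList t)
    (hdim : Module.supportDim (MvPowerSeries (Fin d) W) M = (t.length : ℕ))
    (v : List Γ) (hv : ∃ K : ℕ, ∀ i : Fin d,
      φ (MvPowerSeries.X i) ^ K ∈ Ideal.span {algebraMap W Γ ϖ} ⊔ Ideal.ofList v)
    (hreg : ∀ i : ℤ, 1 ≤ i → KosG.kh Λ (algebraMap W Γ ϖ :: v) Γ i = 0)
    (htop : KosG.kh Λ (algebraMap W Γ ϖ :: v) Γ 0 ≠ ⊤)
    (hpos : KosG.kh Λ (algebraMap W Γ ϖ :: v) Γ 0 ≠ 0) (hd : t.length + v.length = d) :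
    ∃ c : ℝ, 0 < c ∧ ∃ n₀ : ℕ, ∀ n : ℕ, n₀ ≤ n →
      ENNReal.ofReal (c * (n : ℝ) ^ d) ≤
          Chi.hX (Λ.restrict (algebraMap Γ (Q d n Γ))) (F.map (tau n φ)) (Q d n Γ) 0 := by
  obtain ⟨C, hC, h⟩ := lower_asymp_M Λ hϖ hφ M hF t ht hM hdim v hv hreg htop
  rw [hd] at h
  have hC0 : ((C : ℝ≥0∞) ^ d) ≠ 0 := by
    have : (C : ℝ≥0∞) ≠ 0 := by exact_mod_cast hC.ne'
    exact pow_ne_zero _ this
  have hC1 : ((C : ℝ≥0∞) ^ d) ≠ ⊤ := by simp
  refine ⟨((KosG.kh Λ (algebraMap W Γ ϖ :: v) Γ 0) / (C : ℝ≥0∞) ^ d).toReal,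
    ENNReal.toReal_pos (ENNReal.div_ne_zero.2 ⟨hpos, hC1⟩) (ENNReal.div_ne_top htop hC0), C,
    fun n hn => ?_⟩
  rw [ENNReal.ofReal_mul ENNReal.toReal_nonneg, ENNReal.ofReal_pow (Nat.cast_nonneg n),
    ENNReal.ofReal_natCast, ENNReal.ofReal_toReal (ENNReal.div_ne_top htop hC0),
    ENNReal.div_eq_inv_mul, mul_assoc]
  refine (mul_le_mul_right (?_ : _ ≤ _) _).trans ((ENNReal.inv_mul_le_iff hC0 hC1).2 (h n hn))
  rw [mul_comm]

end final

end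

end Crest.Agent.R188.Tay
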