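import Crest.Agent.R188.SX9
import Crest.Agent.R188.Tay8

/-!
# R188, S-level (helper546), part 10: `Asm.SPositive`
-/

set_option autoImplicit false

namespace Crest.Agent.R188.SX

open scoped ENNReal Pointwise
open IsLocalRing
open Crest.Agent.R183 Crest.Agent.R183.Res
open Crest.Agent.R188.Kos Crest.Agent.R188.Chi

universe u v w v₁ v₂ v₃

section bridge

variable {d : ℕ} {W : Type u} [CommRing W] [IsNoetherianRing W] {Γ : Type u} [CommRing Γ]
  {Λ : AddLen.{u, u} Γ} {φ : MvPowerSeries (Fin d) W →+* Γ} {n : ℕ}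

/-- the lower bound of helper415 in terms of the tower -/
theorem hX_Q_le (T : Tow Λ Γ n ((xsL d W).map φ)) (G : MCx (Tay.Q d n Γ)) :
    hX (Λ.restrict (algebraMap Γ (Tay.Q d n Γ))) G (Tay.Q d n Γ) 0 ≤
      hX (Λ.restrict T.ι) (G.map (qB φ T)) T.E 0 := by
  obtain ⟨β, h1, h2⟩ := T.lift (Tay.Q d n Γ) (algebraMap Γ (Tay.Q d n Γ))
    (List.ofFn fun i : Fin d => (Tay.q i : Tay.Q d n Γ))
    (by rw [List.length_ofFn, List.length_map, List.length_ofFn])
    (by
      intro x hx
      rw [List.mem_ofFn] at hx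
      obtain ⟨i, rfl⟩ := hx
      exact Tay.q_pow i)
  have h3 : β.comp (qB φ T) = RingHom.id _ := by
    apply Tay.Q_hom_ext
    · intro c
      rw [RingHom.comp_apply, qB_algebraMap]
      exact RingHom.congr_fun h1 c
    · intro i
      rw [RingHom.comp_apply, qB_q, RingHom.id_apply]
      have hl := q_length T
      have h4 : (T.q.map β).get (Fin.cast (by rw [List.length_map, hl]) i) = Tay.q i := by
        have h5 : ∀ (l : List (Tay.Q d n Γ)) (hl : d = l.length)
            (_ : l = List.ofFn fun i : Fin d => (Tay.q i : Tay.Q d n Γ)),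
            l.get (Fin.cast hl i) = Tay.q i := by
          intro l hl h
          subst h
          simp
        exact h5 _ _ h2
      rw [← h4]
      simp
  let iQ : Module T.B (Tay.Q d n Γ) := Module.compHom _ β
  have hQ : ∀ (b : T.B) (x : Tay.Q d n Γ), b • x = β b • x := fun _ _ => rfl
  have hc : SMulCommClass T.B (Tay.Q d n Γ) (Tay.Q d n Γ) :=
    ⟨fun a b x => by rw [hQ, hQ, smul_comm]⟩
  have e1 : hX (Λ.restrict (algebraMap Γ (Tay.Q d n Γ))) G (Tay.Q d n Γ) 0 =
      hX (Λ.restrict T.ι) (G.map (qB φ T)) (Tay.Q d n Γ) 0 := by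
    rw [hX_restrict (f := β) (G.map (qB φ T)) hQ (Λ.restrict T.ι) 0, restrict_restrict, h1,
      hX_map (Λ.restrict (algebraMap Γ (Tay.Q d n Γ))) (G.map (qB φ T)) β hQ 0]
    congr 1
    have e2 : (G.map (qB φ T)).map β = G.map (β.comp (qB φ T)) := rfl
    rw [e2, h3, MCx_map_id]
  rw [e1]
  obtain ⟨g', hg'⟩ := T.ext (Tay.Q d n Γ) (algebraMap Γ (Tay.Q d n Γ)).toAddMonoidHom (by
    intro a x
    show algebraMap Γ (Tay.Q d n Γ) (a • x) = T.ι a • algebraMap Γ (Tay.Q d n Γ) x
    rw [hQ, smul_eq_mul, smul_eq_mul, map_mul]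
    congr 1
    exact (RingHom.congr_fun h1 a).symm)
  have hs : Function.Surjective g' := by
    intro x
    refine ⟨qB φ T x • T.η 1, ?_⟩
    rw [map_smul, hg', hQ]
    show β (qB φ T x) • algebraMap Γ (Tay.Q d n Γ) 1 = x
    rw [map_one, smul_eq_mul, mul_one]
    exact RingHom.congr_fun h3 x
  exact hX_right_le_zero (Λ.restrict T.ι) (f := (LinearMap.ker g').subtype) (g := g')
    (G.map (qB φ T)) (fun a x => rfl) (fun a x => map_smul g' a x)
    (Submodule.subtype_injective _) hs (LinearMap.exact_subtype_ker_map g')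

end bridge

section zero

variable {S : Type w} [CommRing S] {Γ : Type u} [CommRing Γ] {Λ : AddLen.{u, v} Γ}
  {D : Type v} [AddCommGroup D] [Module Γ D] {s0 : S} {φ : S →+* Γ}
  [IsNoetherianRing S] [IsLocalRing S]
  (hs : RingTheory.Sequence.IsWeaklyRegular S [s0])
  (hsm : Ideal.ofList [s0] = maximalIdeal S)
  {M : Type v₁} [AddCommGroup M] [Module S M] [Module.Finite S M]
  {F : MCx S} {ε : (F.ι 0 → S) →ₗ[S] M} (hF : IsRes F ε)
  (hM : ∃ N : ℕ, maximalIdeal S ^ N ≤ Module.annihilator S M)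

include hs hsm hF hM in
/-- the case without variables: higher homology vanishes -/
theorem hX_eq_zero_of_reg [Module S D] [SMulCommClass S Γ D]
    (hφ : ∀ (s : S) (x : D), s • x = φ s • x)
    (hreg : ∀ j, 1 ≤ j → h0 Λ [φ s0] D j = 0) (hne : h0 Λ [φ s0] D 0 ≠ ⊤) (i : ℕ) (hi : 1 ≤ i) :
    hX Λ F D i = 0 := by
  obtain ⟨C, m₀, H⟩ := bd_main.{u, v} hs hsm [] M (by
    obtain ⟨N, hN⟩ := hM
    exact ⟨N, by rw [Ideal.ofList_nil, sup_bot_eq]; exact hN⟩)
  have hb : ∀ j, bn φ Λ [s0] [] D j = h0 Λ [φ s0] D j := fun j => by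
    rw [bn_eq]
    rfl
  by_contra hne0
  have hfin : ∀ j, h0 Λ [φ s0] D j ≠ ⊤ := by
    intro j
    rcases Nat.eq_zero_or_pos j with rfl | hj
    · exact hne
    · rw [hreg j hj]; exact ENNReal.zero_ne_top
  have hB : (C : ℝ≥0∞) * ∑ j ∈ Finset.range i, h0 Λ [φ s0] D j ≠ ⊤ :=
    ENNReal.mul_ne_top (ENNReal.natCast_ne_top _) (ENNReal.sum_ne_top.2 fun j _ => hfin j)
  obtain ⟨n, hn⟩ := ENNReal.exists_nat_mul_gt hne0 hB
  have h1 := H (max n m₀) (le_max_right _ _) Γ φ Λ D hφ [] F ε hF i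
  rw [hb, hreg i hi, mul_zero, zero_add, List.length_nil, pow_zero, one_mul] at h1
  have h2 : hK Λ (([] : List S).map (fun x => φ x ^ (max n m₀)) ++ []) F D i = hX Λ F D i := rfl
  rw [h2] at h1
  simp only [hb] at h1
  have h3 : (n : ℝ≥0∞) * hX Λ F D i ≤ ((max n m₀ : ℕ) : ℝ≥0∞) * hX Λ F D i := by
    gcongr
    exact le_max_left _ _
  exact absurd (h3.trans h1) (not_le.2 hn)

end zero

section witt

variable {p : ℕ} [hp : Fact p.Prime] {k : Type} [Field k] [CharP k p] [IsAlgClosed k]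

/-- **`Asm.SPositive`** -/
theorem spositive : Asm.SPositive p k := by
  intro d M _ _ _ F ε hF D₀ hD₀ Γ _ φ Λ t v hM htm hφm hvK hφv hdim hab hreg hpos htop
  have hregW : IsRegularLocalRing (WittVector p k) :=
    (Cohen.isCohen_witt p k).isRegularLocalRing
  let iD : Module (MvPowerSeries (Fin d) (WittVector p k)) Γ := Module.compHom Γ φ
  have hD : ∀ (s : MvPowerSeries (Fin d) (WittVector p k)) (x : Γ), s • x = φ s • x :=
    fun _ _ => rfl
  have hc : SMulCommClass (MvPowerSeries (Fin d) (WittVector p k)) Γ Γ :=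
    ⟨fun a b x => by rw [hD, hD, smul_comm]⟩
  obtain ⟨K₁, hK₁⟩ := exists_uniform _ v hvK
  obtain ⟨K₂, hK₂⟩ := exists_uniform ((Module.annihilator
    (MvPowerSeries (Fin d) (WittVector p k)) M).map φ) (t.map φ) (by
      intro x hx
      rw [List.mem_map] at hx
      obtain ⟨y, hy, rfl⟩ := hx
      exact hφm y (htm y hy))
  have hv : ∀ x ∈ v, x ^ (K₁ + K₂) ∈ (Module.annihilator
      (MvPowerSeries (Fin d) (WittVector p k)) M).map φ := fun x hx => by
    rw [pow_add]; exact Ideal.mul_mem_right _ _ (hK₁ x hx)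
  have ht : ∀ x ∈ t, φ x ^ (K₁ + K₂) ∈ (Module.annihilator
      (MvPowerSeries (Fin d) (WittVector p k)) M).map φ := fun x hx => by
    rw [pow_add]; exact Ideal.mul_mem_left _ _ (hK₂ _ (List.mem_map_of_mem hx))
  have hM' : ∃ N : ℕ, maximalIdeal (MvPowerSeries (Fin d) (WittVector p k)) ^ N ≤
      Module.annihilator (MvPowerSeries (Fin d) (WittVector p k)) M ⊔ Ideal.ofList t := by
    rw [← mB_eq]; exact hM
  have hp0 : φ (MvPowerSeries.C (p : WittVector p k)) = (p : Γ) := by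
    rw [map_natCast, map_natCast]
  have hperm : ((p : Γ) :: v).Perm (v ++ [(p : Γ)]) := (List.perm_append_singleton _ _).symm
  have hkhperm : ∀ j, KosG.kh Λ ((p : Γ) :: v) Γ j = KosG.kh Λ (v ++ [(p : Γ)]) Γ j := fun j =>
    KosG.kh_perm Λ Γ hperm j
  have hkh0 : KosG.kh Λ (v ++ [(p : Γ)]) Γ 0 = Λ.L (Γ ⧸ Ideal.ofList (v ++ [(p : Γ)])) := by
    have h1 := KosG.kh_zero (C := Γ) Λ (v ++ [(p : Γ)])
    rw [h1]
    have h2 : (Ideal.ofList (v ++ [(p : Γ)]) • (⊤ : Submodule Γ Γ)) =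
        Ideal.ofList (v ++ [(p : Γ)]) := by
      rw [smul_eq_mul, Ideal.mul_top]
    rw [h2]
  have hr1 : ∀ j, 1 ≤ j → h0 Λ (φ (MvPowerSeries.C (p : WittVector p k)) :: v) Γ j = 0 := by
    intro j hj
    rw [hp0, h0_eq_kh, hkhperm]
    exact hreg j (by exact_mod_cast hj)
  have hn1 : h0 Λ (φ (MvPowerSeries.C (p : WittVector p k)) :: v) Γ 0 ≠ ⊤ := by
    rw [hp0, h0_eq_kh, hkhperm]
    rw [Nat.cast_zero, hkh0]
    exact htop
  -- finiteness
  have hfin : ∀ i, hX Λ F Γ i ≠ ⊤ := by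
    refine hX_finite sys_reg sys_max hF hM' hv ht hD (fun m hm j => ?_)
    refine ne_top_of_le_ne_top ?_ (h0_pow_le Λ v _ m j)
    refine ENNReal.mul_ne_top (ENNReal.pow_ne_top (ENNReal.natCast_ne_top _)) ?_
    rcases Nat.eq_zero_or_pos j with rfl | hj
    · exact hn1
    · rw [hr1 j hj]; exact ENNReal.zero_ne_top
  -- the lower bound
  let iW : Algebra (WittVector p k) Γ := (φ.comp MvPowerSeries.C).toAlgebra
  have halg : ∀ w, φ (MvPowerSeries.C w) = algebraMap (WittVector p k) Γ w := fun _ => rfl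
  have halgp : algebraMap (WittVector p k) Γ (p : WittVector p k) = (p : Γ) := map_natCast _ _
  have hlow := Tay.lower_asymp_M' (φ := φ) Λ (ϖ := (p : WittVector p k))
    (Cohen.maximalIdeal_witt p k) halg M hF t (fun a ha => by
      rw [← mB_eq]; exact htm a ha) hM' hdim v (by
      obtain ⟨K, hK⟩ := exists_uniform (Ideal.ofList (v ++ [(p : Γ)]))
        ((xsL d (WittVector p k)).map φ) (by
          intro x hx
          rw [List.mem_map] at hx
          obtain ⟨y, hy, rfl⟩ := hx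
          rw [List.mem_ofFn] at hy
          obtain ⟨i, rfl⟩ := hy
          refine hφv _ ?_
          rw [mB_eq, ← sys_max]
          refine Ideal.subset_span ?_
          refine List.mem_cons_of_mem _ ?_
          rw [List.mem_ofFn]
          exact ⟨i, rfl⟩)
      refine ⟨K, fun i => ?_⟩
      have h1 := hK (φ (MvPowerSeries.X i)) (List.mem_map_of_mem (by
        rw [List.mem_ofFn]
        exact ⟨i, rfl⟩))
      rw [Ideal.ofList_append, Ideal.ofList_singleton, sup_comm] at h1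
      rw [halgp]
      exact h1)
    (fun i hi => by rw [halgp, hkhperm]; exact hreg i hi)
    (by rw [halgp, hkhperm, hkh0]; exact htop)
    (by rw [halgp, hkhperm, hkh0]; exact hpos) hab
  obtain ⟨c, hc0, n₀, hlow⟩ := hlow
  have hlow' : ∀ n, n₀ ≤ n → ∀ hn : 1 ≤ n, ENNReal.ofReal (c * (n : ℝ) ^ d) ≤
      hX (tdata Λ Γ φ (p : WittVector p k) hn).ΛB ((tdata Λ Γ φ (p : WittVector p k) hn).G F)
        (tdata Λ Γ φ (p : WittVector p k) hn).T.E 0 := by
    intro n hn0 hn
    exact (hlow n hn0).trans (hX_Q_le (tow Λ Γ n hn ((xsL d (WittVector p k)).map φ))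
      (F.map (Tay.tau n φ)))
  refine ⟨fun i => ?_, ?_⟩
  · rw [← hX_map Λ F φ hD]
    exact hfin i
  · rw [← chiX_map Λ F φ hD]
    rcases Nat.eq_zero_or_pos d with hd0 | hd1
    · -- no variables
      subst hd0
      have ht0 : t = [] := List.eq_nil_of_length_eq_zero (by omega)
      have hv0 : v = [] := List.eq_nil_of_length_eq_zero (by omega)
      subst ht0 hv0
      have hz : ∀ i, 1 ≤ i → hX Λ F Γ i = 0 := by
        have hx0 : xsL 0 (WittVector p k) = [] := List.ofFn_zero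
        have hsr := sys_reg (p := p) (k := k) (d := 0)
        have hsm := sys_max (p := p) (k := k) (d := 0)
        rw [hx0] at hsr hsm
        obtain ⟨N, hN⟩ := hM'
        rw [Ideal.ofList_nil, sup_bot_eq] at hN
        exact hX_eq_zero_of_reg hsr hsm hF ⟨N, hN⟩ hD hr1 hn1
      have h1 : chiX Λ F Γ (D₀ + 1) = (hX Λ F Γ 0).toReal := by
        rw [chiX_eq, Finset.sum_range_succ', pow_zero, one_mul, Finset.sum_eq_zero, zero_add]
        intro i _
        rw [hz (i + 1) (by omega)]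
        simp
      rw [h1]
      refine ENNReal.toReal_pos ?_ (hfin 0)
      have h2 := hlow' (max n₀ 1) (le_max_left _ _) (le_max_right _ _)
      have h3 := (tdata Λ Γ φ (p : WittVector p k) (le_max_right n₀ 1)).T.hXle
        ((tdata Λ Γ φ (p : WittVector p k) (le_max_right n₀ 1)).G F) 0
      have e : ((tdata Λ Γ φ (p : WittVector p k) (le_max_right n₀ 1)).G F).map
          (tdata Λ Γ φ (p : WittVector p k) (le_max_right n₀ 1)).T.ρ = F.map φ := by
        rw [TData.G, MCx_map_map, (tdata Λ Γ φ (p : WittVector p k) (le_max_right n₀ 1)).τρ]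
      rw [e, ← hX_map Λ F φ hD] at h3
      intro h4
      rw [h4, mul_zero] at h3
      have h5 := h2.trans h3
      rw [pow_zero, mul_one, nonpos_iff_eq_zero, ENNReal.ofReal_eq_zero] at h5
      linarith
    · obtain ⟨d', rfl⟩ : ∃ d', d = d' + 1 := ⟨d - 1, by omega⟩
      refine positive sys_reg sys_max hF hM' hv ht
        (fun n hn => tdata Λ Γ φ (p : WittVector p k) hn) hD hD₀ (Nat.lt_succ_self D₀) hr1 hn1
        (d' := d') List.length_ofFn (by rw [List.length_ofFn]; exact hab) hc0 (fun N₁ => ?_)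
      refine ⟨max N₁ n₀, le_max_left _ _, fun hn => ?_⟩
      rw [List.length_ofFn]
      exact hlow' _ (le_max_right _ _) hn

end witt

end Crest.Agent.R188.SX
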