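/-
R188 (Serre positivity), S-level translation, part 1: from `R = S/E`, `Ω = Γ/ξ` to `S`, `Γ`
(abstract version).   helper622
-/
import Crest.Agent.R188.ChiLift

set_option autoImplicit false
set_option linter.unusedSectionVars false

namespace Crest.Agent.R188.Slt

open scoped ENNReal
open Crest.Agent.R183 Crest.Agent.R183.Res Crest.Agent.R188.Chi

universe u v

section ideal

variable {Γ : Type u} [CommRing Γ]

/-- the almost closure of an ideal `𝔟` with respect to a system `c` -/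
def K (c : ℕ → Γ) (𝔟 : Ideal Γ) : Ideal Γ where
  carrier := {x | ∀ n, c n * x ∈ 𝔟}
  add_mem' := fun {x y} hx hy n => by rw [mul_add]; exact add_mem (hx n) (hy n)
  zero_mem' := fun n => by rw [mul_zero]; exact zero_mem _
  smul_mem' := fun a x hx n => by
    rw [smul_eq_mul, mul_left_comm]; exact Ideal.mul_mem_left _ _ (hx n)

lemma mem_K {c : ℕ → Γ} {𝔟 : Ideal Γ} {x : Γ} : x ∈ K c 𝔟 ↔ ∀ n, c n * x ∈ 𝔟 := Iff.rfl

lemma le_K (c : ℕ → Γ) (𝔟 : Ideal Γ) : 𝔟 ≤ K c 𝔟 := fun _ hx n => Ideal.mul_mem_left _ _ hx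

/-- `ξ` is regular modulo the almost closure -/
lemma mem_K_of_mul {c : ℕ → Γ} {𝔟 : Ideal Γ} {p : ℕ} (hp : 2 ≤ p) (hc : ∀ n, c (n + 1) ^ p = c n)
    {ξ : Γ} (hξ : ∀ z, ξ * z ∈ 𝔟 → ∀ n, c n * z ∈ 𝔟) {z : Γ} (hz : ξ * z ∈ K c 𝔟) :
    z ∈ K c 𝔟 := by
  intro n
  have h1 : ξ * (c (n + 1) * z) ∈ 𝔟 := by
    rw [mul_left_comm]; exact hz (n + 1)
  have h2 := hξ _ h1 (n + 1)
  obtain ⟨q, rfl⟩ := Nat.exists_eq_add_of_le' hp
  have h3 : c n * z = c (n + 1) ^ q * (c (n + 1) * (c (n + 1) * z)) := by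
    rw [← hc n, pow_add]; ring
  rw [h3]
  exact Ideal.mul_mem_left _ _ h2

end ideal

section lift

variable {S R : Type u} [CommRing S] [CommRing R] {φ : S →+* R} {E : S}
  {Γ Ω : Type u} [CommRing Γ] [CommRing Ω] [Algebra Γ Ω] [Algebra S Γ] [Algebra R Ω] {ξ : Γ}

/-- `Γ → Ω = Γ/ξ` -/
lemma liftData_top (hs : Function.Surjective (algebraMap Γ Ω))
    (hk : RingHom.ker (algebraMap Γ Ω) = Ideal.span {ξ}) (hreg : ∀ x : Γ, ξ * x = 0 → x = 0)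
    (hcomp : ∀ s, algebraMap Γ Ω (algebraMap S Γ s) = algebraMap R Ω (φ s))
    {u : Γˣ} (hE : algebraMap S Γ E = ξ * u) :
    LiftData φ E (A := Γ) (X' := Γ) (X := Ω) (Algebra.linearMap Γ Ω) where
  lin s x := by
    rw [Algebra.linearMap_apply, Algebra.linearMap_apply, Algebra.smul_def, Algebra.smul_def,
      map_mul, hcomp]
  surj := hs
  ker x hx := by
    have h1 : x ∈ RingHom.ker (algebraMap Γ Ω) := hx
    rw [hk, Ideal.mem_span_singleton] at h1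
    obtain ⟨y, rfl⟩ := h1
    refine ⟨↑u⁻¹ * y, ?_⟩
    rw [Algebra.smul_def, hE, mul_assoc, Units.mul_inv_cancel_left]
  zero y := by
    have h1 : E • y ∈ RingHom.ker (algebraMap Γ Ω) := by
      rw [hk, Algebra.smul_def, hE, mul_assoc]
      exact Ideal.mul_mem_right _ _ (Ideal.mem_span_singleton_self ξ)
    exact h1
  reg y hy := by
    rw [Algebra.smul_def, hE, mul_assoc] at hy
    have h1 := hreg _ hy
    exact (Units.mul_right_eq_zero u).1 h1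

/-- `K → θ(K)` -/
noncomputable def idMap (𝔎 : Ideal Γ) : ↥𝔎 →ₗ[Γ] ↥(𝔎.map (algebraMap Γ Ω)) where
  toFun x := ⟨algebraMap Γ Ω x.1, Ideal.mem_map_of_mem _ x.2⟩
  map_add' x y := Subtype.ext (map_add _ _ _)
  map_smul' a x := Subtype.ext (by
    show algebraMap Γ Ω (a * x.1) = a • algebraMap Γ Ω x.1
    rw [map_mul, Algebra.smul_def])

lemma liftData_ideal (hs : Function.Surjective (algebraMap Γ Ω))
    (hk : RingHom.ker (algebraMap Γ Ω) = Ideal.span {ξ}) (hreg : ∀ x : Γ, ξ * x = 0 → x = 0)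
    (hcomp : ∀ s, algebraMap Γ Ω (algebraMap S Γ s) = algebraMap R Ω (φ s))
    {u : Γˣ} (hE : algebraMap S Γ E = ξ * u) (𝔎 : Ideal Γ) (h𝔎 : ∀ z, ξ * z ∈ 𝔎 → z ∈ 𝔎) :
    LiftData φ E (A := Γ) (X' := ↥𝔎) (X := ↥(𝔎.map (algebraMap Γ Ω))) (idMap 𝔎) where
  lin s x := by
    apply Subtype.ext
    show algebraMap Γ Ω (s • x.1) = φ s • algebraMap Γ Ω x.1
    rw [Algebra.smul_def, Algebra.smul_def, map_mul, hcomp]
  surj := by
    rintro ⟨y, hy⟩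
    obtain ⟨x, hx, hxy⟩ := (Ideal.mem_map_iff_of_surjective _ hs).1 hy
    exact ⟨⟨x, hx⟩, Subtype.ext hxy⟩
  ker x hx := by
    have h1 : x.1 ∈ RingHom.ker (algebraMap Γ Ω) := congrArg Subtype.val hx
    rw [hk, Ideal.mem_span_singleton] at h1
    obtain ⟨y, hy⟩ := h1
    have h2 : ξ * y ∈ 𝔎 := by rw [← hy]; exact x.2
    refine ⟨⟨↑u⁻¹ * y, Ideal.mul_mem_left _ _ (h𝔎 _ h2)⟩, Subtype.ext ?_⟩
    show x.1 = E • (↑u⁻¹ * y)
    rw [Algebra.smul_def, hE, mul_assoc, Units.mul_inv_cancel_left, hy]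
  zero y := by
    apply Subtype.ext
    have h1 : E • y.1 ∈ RingHom.ker (algebraMap Γ Ω) := by
      rw [hk, Algebra.smul_def, hE, mul_assoc]
      exact Ideal.mul_mem_right _ _ (Ideal.mem_span_singleton_self ξ)
    exact h1
  reg y hy := by
    have h0 : E • y.1 = 0 := congrArg Subtype.val hy
    rw [Algebra.smul_def, hE, mul_assoc] at h0
    have h1 := hreg _ h0
    exact Subtype.ext ((Units.mul_right_eq_zero u).1 h1)

end lift

section chi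

variable {S : Type u} [CommRing S] {Γ : Type u} [CommRing Γ] [Algebra S Γ]
  (Λ : AddLen.{u, u} Γ) (G : MCx S)

lemma rlin {X Y : Type u} [AddCommGroup X] [Module Γ X] [Module S X] [IsScalarTower S Γ X]
    [AddCommGroup Y] [Module Γ Y] [Module S Y] [IsScalarTower S Γ Y] (f : X →ₗ[Γ] Y) :
    RLin S f := fun s x => by
  rw [← algebraMap_smul Γ s x, map_smul, algebraMap_smul]

/-- `𝔟 ≤ 𝔎` with `L(H_i(G ⊗ 𝔎/𝔟)) = 0`: the same homology for `Γ/𝔟` and `Γ/𝔎` -/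
theorem hX_quot_eq {𝔟 𝔎 : Ideal Γ} (hle : 𝔟 ≤ 𝔎)
    (hnull : ∀ (Y : Submodule Γ (Γ ⧸ 𝔟)),
      (∀ y ∈ Y, ∃ x ∈ 𝔎, Ideal.Quotient.mk 𝔟 x = y) → ∀ i, hX Λ G ↥Y i = 0) (i : ℕ) :
    hX Λ G (Γ ⧸ 𝔎) i = hX Λ G (Γ ⧸ 𝔟) i := by
  let g : (Γ ⧸ 𝔟) →ₗ[Γ] (Γ ⧸ 𝔎) := Submodule.mapQ 𝔟 𝔎 LinearMap.id hle
  have hg : Function.Surjective g := by
    intro y
    obtain ⟨x, rfl⟩ := Submodule.mkQ_surjective _ y
    exact ⟨Submodule.Quotient.mk x, rfl⟩
  have hk := hnull (LinearMap.ker g) (by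
    intro y hy
    obtain ⟨x, rfl⟩ := Ideal.Quotient.mk_surjective y
    refine ⟨x, ?_, rfl⟩
    have h1 : g (Submodule.Quotient.mk x) = 0 := hy
    have h2 : (Submodule.Quotient.mk x : Γ ⧸ 𝔎) = 0 := h1
    exact (Submodule.Quotient.mk_eq_zero _).1 h2)
  have hex : Function.Exact (LinearMap.ker g).subtype g := LinearMap.exact_subtype_ker_map g
  apply le_antisymm
  · cases i with
    | zero => exact hX_right_le_zero Λ G (rlin _) (rlin _) (Submodule.subtype_injective _) hg hex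
    | succ i =>
      have := hX_right_le_succ Λ G (rlin _) (rlin _) (Submodule.subtype_injective _) hg hex i
      rwa [hk i, add_zero] at this
  · have := hX_mid_le Λ G (rlin _) (rlin _) (Submodule.subtype_injective _) hg hex i
    rwa [hk i, zero_add] at this

/-- finiteness and equality of `χ` for an ideal with `χ(Γ/𝔎) = 0` -/
theorem ideal_fin_chi {D : ℕ} (hG : G.Len D) (𝔎 : Ideal Γ) (h1 : ∀ i, hX Λ G Γ i ≠ ⊤)
    (h2 : ∀ i, hX Λ G (Γ ⧸ 𝔎) i ≠ ⊤) :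
    (∀ i, hX Λ G ↥𝔎 i ≠ ⊤) ∧
      ∀ N, D < N → chiX Λ G Γ N = chiX Λ G ↥𝔎 N + chiX Λ G (Γ ⧸ 𝔎) N := by
  have hi := Submodule.subtype_injective 𝔎
  have hs := Submodule.mkQ_surjective 𝔎
  have hex := LinearMap.exact_subtype_mkQ 𝔎
  have hfin : ∀ i, hX Λ G ↥𝔎 i ≠ ⊤ := fun i =>
    ne_top_of_le_ne_top (ENNReal.add_ne_top.2 ⟨h1 i, h2 (i + 1)⟩)
      (hX_left_le Λ G (rlin 𝔎.subtype) (rlin 𝔎.mkQ) hi hs hex i)
  refine ⟨hfin, fun N hN => ?_⟩
  exact chiX_add_of_len Λ G hG (rlin 𝔎.subtype) (rlin 𝔎.mkQ) hi hs hex hN (fun i _ => hfin i)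
    (fun i _ => h2 i)

end chi

end Crest.Agent.R188.Slt
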