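/-
R188 (Serre positivity), S-level translation, part 2: from `F ⊗_R (A'-module)` to
`G ⊗_S (Γ-module)`, abstract version.   helper622
-/
import Crest.Agent.R188.Slt1
import Crest.Agent.R188.Asm2

set_option autoImplicit false
set_option linter.unusedSectionVars false

namespace Crest.Agent.R188.Slt

open scoped ENNReal
open Crest.Agent.R183 Crest.Agent.R183.Res Crest.Agent.R188.Chi Crest.Agent.R188.Asm

section trans

variable {S R Γ Ω A' M : Type} [CommRing S] [CommRing R] [CommRing Γ] [CommRing Ω] [CommRing A']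
  [AddCommGroup M] [Module R M] [Module S M]
  {π : S →+* R} (hπ : Function.Surjective π) {E : S} (hker : RingHom.ker π = Ideal.span {E})
  (hE : E ∈ nonZeroDivisors S) {F : MCx R} {ε : (F.ι 0 → R) →ₗ[R] M} (hF : IsRes F ε)
  (hM : ∀ (s : S) (m : M), s • m = π s • m) {G : MCx S} {εG : (G.ι 0 → S) →ₗ[S] M}
  (hG : IsRes G εG)
  {φ : S →+* Γ} [Algebra Γ Ω] (hs : Function.Surjective (algebraMap Γ Ω)) {ξ : Γ}
  (hk : RingHom.ker (algebraMap Γ Ω) = Ideal.span {ξ}) (hreg : ∀ x : Γ, ξ * x = 0 → x = 0)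
  {u : Γˣ} (hu : φ E = ξ * u)
  [Algebra Ω A'] (ψ : R →+* A') {χ : A' →+* Ω} (hχ : ∀ x : Ω, χ (algebraMap Ω A' x) = x)
  (hcomp : ∀ s, algebraMap Γ Ω (φ s) = χ (ψ (π s)))
  (Λ : AddLen.{0, 0} Γ)

include hπ hker hE hF hM hG hs hk hreg hu hχ hcomp

/-- **translation**, general form -/
theorem hX_tr {X' X : Type} [AddCommGroup X'] [Module Γ X'] [AddCommGroup X] [Module Ω X]
    (g : X' →+ X) (hg : ∀ (a : Γ) (x : X'), g (a • x) = algebraMap Γ Ω a • g x)
    (hgs : Function.Surjective g) (hgk : ∀ x, g x = 0 → ∃ y, x = ξ • y)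
    (hgr : ∀ y : X', ξ • y = 0 → y = 0)
    {X₂ : Type} [AddCommGroup X₂] [Module A' X₂] (e : X ≃+ X₂)
    (he : ∀ (a : A') (x : X), e (χ a • x) = a • e x) (i : ℕ) :
    hX ((Λ.restrict (algebraMap Γ Ω)).restrict (algebraMap Ω A')) (F.map ψ) X₂ i =
      hX Λ (G.map φ) X' i := by
  let _ : Module R X := Module.compHom X (χ.comp ψ)
  let _ : Module Γ X := Module.compHom X (algebraMap Γ Ω)
  let _ : Module S X' := Module.compHom X' φ
  have : SMulCommClass R Ω X := ⟨fun r x y => smul_comm (χ (ψ r)) x y⟩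
  have : SMulCommClass R Γ X := ⟨fun r x y => smul_comm (χ (ψ r)) (algebraMap Γ Ω x) y⟩
  have : SMulCommClass S Γ X' := ⟨fun r x y => smul_comm (φ r) x y⟩
  have h1 : hX ((Λ.restrict (algebraMap Γ Ω)).restrict (algebraMap Ω A')) (F.map ψ) X₂ i =
      hX (Λ.restrict (algebraMap Γ Ω)) F X i :=
    hX_change ψ F (algebraMap Ω A') (Λ.restrict (algebraMap Γ Ω)) e
      (fun r x => he (ψ r) x) (fun a x => by
        have := he (algebraMap Ω A' a) x
        rwa [hχ] at this) i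
  have h2 : hX (Λ.restrict (algebraMap Γ Ω)) F X i = hX Λ F X i :=
    hX_restrict F (algebraMap Γ Ω) Λ (fun _ _ => rfl) i
  let gl : X' →ₗ[Γ] X := { g with map_smul' := hg }
  have hL : LiftData π E gl :=
    { lin := fun s x => by
        show g (φ s • x) = χ (ψ (π s)) • g x
        rw [hg, hcomp]
      surj := hgs
      ker := fun x hx => by
        obtain ⟨y, hy⟩ := hgk x hx
        refine ⟨(↑u⁻¹ : Γ) • y, ?_⟩
        show x = φ E • (↑u⁻¹ : Γ) • y
        rw [hu, smul_smul, mul_assoc, Units.mul_inv, mul_one, hy]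
      zero := fun y => by
        show g (φ E • y) = 0
        have h0 : algebraMap Γ Ω ξ = 0 := by
          have : ξ ∈ RingHom.ker (algebraMap Γ Ω) := by
            rw [hk]; exact Ideal.mem_span_singleton_self ξ
          exact this
        rw [hg, hu, map_mul, h0, zero_mul, zero_smul]
      reg := fun y hy => by
        have h0 : φ E • y = 0 := hy
        rw [hu, mul_smul] at h0
        have h3 := hgr _ h0
        have h4 : y = (↑u⁻¹ : Γ) • (u : Γ) • y := by
          rw [smul_smul, Units.inv_mul, one_smul]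
        rw [h4, h3, smul_zero] }
  have h3 : hX Λ G X' i = hX Λ F X i := hX_lift_eq Λ hπ hker hE hF hM hG hL i
  have h4 : hX Λ (G.map φ) X' i = hX Λ G X' i := hX_mapψ φ G Λ (fun _ _ => rfl) i
  rw [h1, h2, ← h3, h4]

/-- **translation for `Γ → Ω`** -/
theorem hX_tr_top {X₂ : Type} [AddCommGroup X₂] [Module A' X₂] (e : Ω ≃+ X₂)
    (he : ∀ (a : A') (x : Ω), e (χ a * x) = a • e x) (i : ℕ) :
    hX ((Λ.restrict (algebraMap Γ Ω)).restrict (algebraMap Ω A')) (F.map ψ) X₂ i =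
      hX Λ (G.map φ) Γ i := by
  refine hX_tr hπ hker hE hF hM hG hs hk hreg hu ψ hχ hcomp Λ
    (g := (algebraMap Γ Ω : Γ →+ Ω)) (fun a x => ?_) hs (fun x hx => ?_) hreg e he i
  · exact map_mul (algebraMap Γ Ω) a x
  · have h1 : x ∈ RingHom.ker (algebraMap Γ Ω) := hx
    rw [hk, Ideal.mem_span_singleton] at h1
    exact h1

/-- **translation for an ideal `𝔎` of `Γ` with `ξ` regular modulo `𝔎`** -/
theorem hX_tr_ideal {𝔎 : Ideal Γ} (h𝔎 : ∀ z, ξ * z ∈ 𝔎 → z ∈ 𝔎)
    {X₂ : Type} [AddCommGroup X₂] [Module A' X₂] (e : ↥(𝔎.map (algebraMap Γ Ω)) ≃+ X₂)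
    (he : ∀ (a : A') (x : ↥(𝔎.map (algebraMap Γ Ω))), e (χ a • x) = a • e x) (i : ℕ) :
    hX ((Λ.restrict (algebraMap Γ Ω)).restrict (algebraMap Ω A')) (F.map ψ) X₂ i =
      hX Λ (G.map φ) ↥𝔎 i := by
  refine hX_tr hπ hker hE hF hM hG hs hk hreg hu ψ hχ hcomp Λ
    (g := { toFun := fun x => ⟨algebraMap Γ Ω x.1, Ideal.mem_map_of_mem _ x.2⟩
            map_zero' := Subtype.ext (map_zero _)
            map_add' := fun x y => Subtype.ext (map_add _ _ _) }) (fun a x => ?_) ?_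
    (fun x hx => ?_) (fun y hy => ?_) e he i
  · exact Subtype.ext (map_mul (algebraMap Γ Ω) a x.1)
  · rintro ⟨y, hy⟩
    obtain ⟨x, hx, hxy⟩ := (Ideal.mem_map_iff_of_surjective _ hs).1 hy
    exact ⟨⟨x, hx⟩, Subtype.ext hxy⟩
  · have h1 : x.1 ∈ RingHom.ker (algebraMap Γ Ω) := congrArg Subtype.val hx
    rw [hk, Ideal.mem_span_singleton] at h1
    obtain ⟨y, hy⟩ := h1
    exact ⟨⟨y, h𝔎 _ (by rw [← hy]; exact x.2)⟩, Subtype.ext hy⟩
  · exact Subtype.ext (hreg _ (congrArg Subtype.val hy))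

end trans

end Crest.Agent.R188.Slt
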