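/-
R188 (Serre positivity), S-level translation, part 3: the Euler functional over `Γ = W(P)`.
helper622
-/
import Crest.Agent.R188.Slt2
import Crest.Agent.R188.Asm3
import Crest.Agent.R188.AsmG3

set_option autoImplicit false
set_option linter.unusedSectionVars false

namespace Crest.Agent.R188.Slt

open scoped ENNReal
open WittVector Crest.Agent.R183 Crest.Agent.R183.Res Crest.Agent.R188.Chi Crest.Agent.R188.Asm
open Crest.Agent.R188.Prf Crest.Agent.R188.Wit Crest.Agent.R188.Flg Crest.Agent.R188.Cmp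
open Crest.Agent.R188.KosG

attribute [local instance] World.ringP

section gamma

variable {p : ℕ} [hp : Fact p.Prime] {k : Type} [Field k] [CharP k p] {b : ℕ} (W : World p k b)

/-- the almost ideal of `W(P)` -/
noncomputable def aG (h : W.P) : Ideal (WittVector p W.P) :=
  Ideal.span (Set.range fun n => teichmuller p (W.perf.rtn n h))

variable {S : Type} [CommRing S] {G : MCx S} {φ : S →+* WittVector p W.P} {J : Ideal S}
  (hJ : ∀ a ∈ J, G.NHom a) {c : ℕ} (hcp : (p : WittVector p W.P) ^ c ∈ J.map φ)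
  (hct : ∀ i, teichmuller p (W.t i) ^ c ∈ J.map φ)
  {h₀ : W.P} {r₀ : ℕ → BPlus p k b} (hs : SharpPair W.perf W.ι h₀ r₀) (hr₀ : r₀ 0 ≠ 0)

include hJ hcp hct hs hr₀

/-- null modules over `W(P)` -/
theorem gamma_null (Y : Type) [AddCommGroup Y] [Module (WittVector p W.P) Y]
    (hY : ∀ a ∈ aG W h₀, ∀ y : Y, a • y = 0)
    (hN : ∀ a, (G.map φ).NHom a → ∀ y : Y, a • y = 0) : W.Λ.L Y = 0 := by
  have h1 : J.map φ ≤ Module.annihilator (WittVector p W.P) Y := by
    rw [Ideal.map_le_iff_le_comap]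
    intro a ha
    rw [Ideal.mem_comap, Module.mem_annihilator]
    exact hN _ ((hJ a ha).map φ)
  have h2 : ∀ a ∈ J.map φ, ∀ y : Y, a • y = 0 := fun a ha => Module.mem_annihilator.1 (h1 ha)
  exact W.null h₀ r₀ hs hr₀ Y (fun y => ⟨c, h2 _ hcp y, fun i => h2 _ (hct i) y⟩)
    (fun n y => hY _ (Ideal.subset_span ⟨n, rfl⟩) y)

/-- **the Euler functional over `W(P)`** -/
noncomputable def eulerG {D : ℕ} (hD : G.Len D) :
    EulerFun (WittVector p W.P) (WittVector p W.P) (aG W h₀) :=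
  Chi.eulerFun W.Λ (G.map φ) D (fun n hn => hD n hn)
    (fun Y _ _ hY hN => gamma_null W hJ hcp hct hs hr₀ Y hY hN)

/-- **main computation over `W(P)`**: `χ(𝔎) = χ(W(P))` -/
theorem gamma_main {D : ℕ} (hD : G.Len D) {I : Ideal W.P}
    (h1 : ∀ i, hX W.Λ (G.map φ) (WittVector p W.P) i ≠ ⊤)
    (h2 : ∀ i, hX W.Λ (G.map φ) (WittVector p W.P ⧸ WtI W I) i ≠ ⊤)
    (h3 : chiX W.Λ (G.map φ) (WittVector p W.P ⧸ WtI W I) (D + 1) = 0) :
    (∀ i, hX W.Λ (G.map φ) ↥(K (fun n => teichmuller p (W.perf.rtn n h₀)) (WtI W I)) i ≠ ⊤) ∧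
      chiX W.Λ (G.map φ) ↥(K (fun n => teichmuller p (W.perf.rtn n h₀)) (WtI W I)) (D + 1) =
        chiX W.Λ (G.map φ) (WittVector p W.P) (D + 1) := by
  let E := eulerG W hJ hcp hct hs hr₀ hD
  have e1 : E.Fn (WittVector p W.P) := h1
  have e2 : E.Fn (WittVector p W.P ⧸ WtI W I) := h2
  have e3 : E.val (WittVector p W.P ⧸ WtI W I) = 0 := h3
  have e4 : E.Fn ↥(WtI W I) := E.fn_submodule _ e1 e2
  have e5 : E.val (WittVector p W.P) = E.val ↥(WtI W I) := by
    rw [E.val_quot _ e4 e2, e3, add_zero]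
  have hle : WtI W I ≤ K (fun n => teichmuller p (W.perf.rtn n h₀)) (WtI W I) := le_K _ _
  have halm : ∀ a ∈ aG W h₀, ∀ x ∈ K (fun n => teichmuller p (W.perf.rtn n h₀)) (WtI W I),
      algebraMap (WittVector p W.P) (WittVector p W.P) a • x ∈ WtI W I := by
    intro a ha x hx
    have h5 : aG W h₀ ≤ Submodule.comap (LinearMap.mulRight (WittVector p W.P) x) (WtI W I) := by
      rw [aG, Ideal.span_le]
      rintro _ ⟨n, rfl⟩
      exact hx n
    exact h5 ha
  have e6 := E.fn_alm hle halm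
  have e7 := E.val_alm hle halm e4
  exact ⟨e6.1 e4, by rw [show chiX W.Λ (G.map φ) (WittVector p W.P) (D + 1) =
    E.val ↥(WtI W I) from e5, e7]; rfl⟩

end gamma

section regular

variable {p : ℕ} [hp : Fact p.Prime] {k : Type} [Field k] [CharP k p] {b : ℕ} (W : World p k b)

/-- `ξ` is regular modulo `𝔎` -/
theorem xi_mem_K {I : Ideal W.P} (hI : Digit.Convex p I) {h₀ : W.P} {m : ℕ} (hm : h₀ ^ m ∈ I)
    (z : WittVector p W.P)
    (hz : W.ξ * z ∈ K (fun n => teichmuller p (W.perf.rtn n h₀)) (WtI W I)) :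
    z ∈ K (fun n => teichmuller p (W.perf.rtn n h₀)) (WtI W I) := by
  refine mem_K_of_mul hp.out.two_le (fun n => ?_) (fun z hz n => ?_) hz
  · show teichmuller p (W.perf.rtn (n + 1) h₀) ^ p = teichmuller p (W.perf.rtn n h₀)
    rw [← map_pow, W.perf.rtn_succ_pow]
  · show teichmuller p (W.perf.rtn n h₀) * z ∈ WtI W I
    have h4 := xi_torsion_WI W.perf hI W.dist hz hm (n + m)
    have h5 : W.perf.rtn (n + m) (h₀ ^ m) ∣ W.perf.rtn n h₀ := by
      rw [W.perf.rtn_pow_comm]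
      refine ⟨W.perf.rtn (n + m) h₀ ^ (p ^ m - m), ?_⟩
      rw [← pow_add, Nat.add_sub_cancel' (Nat.lt_pow_self hp.out.one_lt).le,
        W.perf.rtn_add_pow]
    obtain ⟨r, hr⟩ := h5
    have : teichmuller p (W.perf.rtn n h₀) * z =
        teichmuller p r * (teichmuller p (W.perf.rtn (n + m) (h₀ ^ m)) * z) := by
      rw [← mul_assoc, ← map_mul, mul_comm r, ← hr]
    rw [this]
    exact Ideal.mul_mem_left _ _ h4

/-- `a^{1/p^∞} θ(𝔎) ⊆ J = θ(W~(I)) ⊆ θ(𝔎)` -/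
theorem JI_le (I : Ideal W.P) (h₀ : W.P) :
    JI W I ≤ (K (fun n => teichmuller p (W.perf.rtn n h₀)) (WtI W I)).map (θ W.ξ) :=
  Ideal.map_mono (le_K _ _)

theorem aI_mul_mem (I : Ideal W.P) (h₀ : W.P) :
    ∀ a ∈ aI W h₀, ∀ x ∈ (K (fun n => teichmuller p (W.perf.rtn n h₀)) (WtI W I)).map (θ W.ξ),
      a * x ∈ JI W I := by
  intro a ha x hx
  obtain ⟨y, hy, rfl⟩ := (Ideal.mem_map_iff_of_surjective _ (θ_surjective W.ξ)).1 hx
  have h5 : aI W h₀ ≤ Submodule.comap (LinearMap.mulRight (Om W.ξ) (θ W.ξ y)) (JI W I) := by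
    rw [aI, Ideal.span_le]
    rintro _ ⟨n, rfl⟩
    show sh W.ξ (W.perf.rtn n h₀) * θ W.ξ y ∈ JI W I
    have : sh W.ξ (W.perf.rtn n h₀) * θ W.ξ y =
        θ W.ξ (teichmuller p (W.perf.rtn n h₀) * y) := (map_mul (θ W.ξ) _ _).symm
    rw [this]
    exact Ideal.mem_map_of_mem _ (hy n)
  exact h5 ha

end regular

end Crest.Agent.R188.Slt
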