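/-
R188 (Serre positivity), S-level translation, part 4: the Koszul lengths over `Γ = W(P)`.
helper622
-/
import Crest.Agent.R188.Asm3
import Crest.Agent.R188.PerfC2
import Crest.Agent.R188.Noe6

set_option autoImplicit false
set_option linter.unusedSectionVars false

namespace Crest.Agent.R188.Slt

open scoped ENNReal
open WittVector Crest.Agent.R183 Crest.Agent.R183.Res Crest.Agent.R188.Chi Crest.Agent.R188.Asm
open Crest.Agent.R188.Prf Crest.Agent.R188.Wit Crest.Agent.R188.KosG Crest.Agent.R188.PerfC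

attribute [local instance] World.ringP

section kh

variable {p : ℕ} [hp : Fact p.Prime] {P : Type} [CommRing P] (h : IsPerf p P)
  (Λ : AddLen.{0, 0} (WittVector p P))

include h

/-- **`W(P)` versus `P`** -/
theorem kh_gamma (l : List P) (i : ℤ) :
    kh Λ ((p : WittVector p P) :: l.map (teichmuller p)) (WittVector p P) i =
      kh (LP Λ) l P i := by
  let _ : Module (WittVector p P) P := Module.compHom P (constantCoeff (p := p) (R := P))
  conv_rhs => rw [← map_coeff (p := p) l]
  rw [kh_restrict (constantCoeff (p := p) (R := P)) (fun _ _ => rfl) Λ]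
  rcases lt_or_ge i 0 with hi | hi
  · rw [kh_eq_zero _ _ _ i (Or.inl hi), kh_eq_zero _ _ _ i (Or.inl hi)]
  obtain ⟨n, rfl⟩ := Int.eq_ofNat_of_zero_le hi
  let g : WittVector p P →ₗ[WittVector p P] P :=
    { toFun := fun x => x.coeff 0
      map_add' := fun x y => map_add (constantCoeff (p := p) (R := P)) x y
      map_smul' := fun a x => map_mul (constantCoeff (p := p) (R := P)) a x }
  have h1 := SX.h0_cons_regular Λ (X := WittVector p P) (p : WittVector p P)
    (l.map (teichmuller p)) g (fun x hx => p_regular h hx) (fun x => ?_) (fun x => ?_) n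
  · rwa [h0_eq_kh, h0_eq_kh] at h1
  · exact ⟨teichmuller p x, teichmuller_coeff_zero p x⟩
  · show x.coeff 0 = 0 ↔ _
    rw [← p_dvd_iff h]
    exact ⟨fun ⟨y, hy⟩ => ⟨y, hy.symm⟩, fun ⟨y, hy⟩ => ⟨y, hy.symm⟩⟩

theorem kh_gamma' {n : ℕ} (v : Fin n → P) (i : ℤ) :
    kh Λ (List.ofFn (fun j => teichmuller p (v j)) ++ [(p : WittVector p P)])
      (WittVector p P) i = kh (LP Λ) (List.ofFn v) P i := by
  rw [← kh_gamma h, ← kh_perm Λ _ (List.perm_append_singleton _ _).symm]
  rw [List.map_ofFn]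
  rfl

/-- **`W(P)/W~(I)` versus `P/I`** -/
theorem kh_gamma_quot {I : Ideal P} (hI : Digit.Convex p I) {n : ℕ} (v : Fin n → P) (i : ℤ) :
    kh Λ (List.ofFn (fun j => teichmuller p (v j)) ++ [(p : WittVector p P)])
      (WittVector p P ⧸ WI h.p_zero I) i = kh (LP Λ) (List.ofFn v) (P ⧸ I) i := by
  rw [← kh_quot h Λ hI, ← kh_perm Λ _ (List.perm_append_singleton _ _).symm]
  rw [List.map_ofFn]
  rfl

end kh

/-- `L(C/(l)C) = kh_0` for a ring -/
theorem kh_zero_ring {A : Type} [CommRing A] (Λ : AddLen.{0, 0} A) (l : List A) :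
    kh Λ l A 0 = Λ.L (A ⧸ Ideal.ofList l) := by
  rw [kh_zero]
  exact Λ.L_congr (Submodule.quotEquivOfEq _ _ (Noe.ofList_smul_top l))

section world

variable {p : ℕ} [hp : Fact p.Prime] {k : Type} [Field k] [CharP k p] {b : ℕ} (W : World p k b)

/-- `([t_0], …, [t_b], p)` -/
noncomputable def vt : List (WittVector p W.P) :=
  List.ofFn (fun i => teichmuller p (W.t i)) ++ [(p : WittVector p W.P)]

theorem kh_vt (j : ℤ) (hj : 1 ≤ j) : kh W.Λ (vt W) (WittVector p W.P) j = 0 := by
  rw [vt, kh_gamma' W.perf]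
  exact W.L_reg j hj

theorem L_vt : W.Λ.L (WittVector p W.P ⧸ Ideal.ofList (vt W)) =
    (LP W.Λ).L (W.P ⧸ Ideal.span (Set.range W.t)) := by
  rw [← kh_zero_ring, vt, kh_gamma' W.perf, kh_zero_ring]
  have : Ideal.ofList (List.ofFn W.t) = Ideal.span (Set.range W.t) := by
    unfold Ideal.ofList
    congr 1
    ext x
    exact List.mem_ofFn
  rw [this]

theorem L_vt_ne_zero : W.Λ.L (WittVector p W.P ⧸ Ideal.ofList (vt W)) ≠ 0 := by
  rw [L_vt]; exact W.L_ne_zero

theorem L_vt_ne_top : W.Λ.L (WittVector p W.P ⧸ Ideal.ofList (vt W)) ≠ ⊤ := by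
  rw [L_vt]; exact W.L_ne_top

theorem p_mem_vt : (p : WittVector p W.P) ∈ Ideal.ofList (vt W) :=
  Ideal.subset_span (by simp [vt])

theorem teich_t_mem_vt (i) : teichmuller p (W.t i) ∈ Ideal.ofList (vt W) :=
  Ideal.subset_span (List.mem_append_left _ (List.mem_ofFn.2 ⟨i, rfl⟩))

/-- `c ∈ rad (t)` ⟹ `[c]^K ∈ ([t], p)` -/
theorem teich_pow_mem_vt {c : W.P} (hc : c ∈ (Ideal.span (Set.range W.t)).radical) :
    ∃ K : ℕ, teichmuller p c ^ K ∈ Ideal.ofList (vt W) := by
  obtain ⟨K, hK⟩ := hc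
  refine ⟨K, ?_⟩
  have h1 : Ideal.span (Set.range W.t) =
      (Ideal.span (Set.range fun i => teichmuller p (W.t i))).map
        (constantCoeff (p := p) (R := W.P)) := by
    rw [Ideal.map_span, ← Set.range_comp]
    have h7 : (⇑(constantCoeff (p := p) (R := W.P)) ∘ fun i => teichmuller p (W.t i)) = W.t := by
      funext i
      exact teichmuller_coeff_zero p _
    rw [h7]
  rw [h1] at hK
  obtain ⟨y, hy, hyc⟩ := (Ideal.mem_map_iff_of_surjective _ (fun x =>
    ⟨teichmuller p x, teichmuller_coeff_zero p x⟩)).1 hK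
  have h2 : (p : WittVector p W.P) ∣ teichmuller p c ^ K - y := by
    rw [p_dvd_iff W.perf]
    have : constantCoeff (teichmuller p c ^ K - y) = 0 := by
      rw [map_sub, map_pow, hyc]
      have : constantCoeff (teichmuller p c) = c := teichmuller_coeff_zero p c
      rw [this, sub_self]
    exact this
  obtain ⟨z, hz⟩ := h2
  have h3 : teichmuller p c ^ K = y + (p : WittVector p W.P) * z := by rw [← hz]; ring
  rw [h3]
  refine add_mem ?_ (Ideal.mul_mem_right _ _ (p_mem_vt W))
  have h4 : Ideal.span (Set.range fun i => teichmuller p (W.t i)) ≤ Ideal.ofList (vt W) := by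
    rw [Ideal.span_le]
    rintro _ ⟨i, rfl⟩
    exact teich_t_mem_vt W i
  exact h4 hy

end world

end Crest.Agent.R188.Slt
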