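/-
R188 (Serre positivity), S-level translation, part 5: the hypotheses of `SVanish`, `SPositive` in
the situation of `CORE`.   helper622
-/
import Crest.Agent.R188.Slt3
import Crest.Agent.R188.Slt4
import Crest.Agent.R188.Lft5
import Crest.Agent.R188.Asm5
import Crest.Agent.R183.RD10

set_option autoImplicit false
set_option linter.unusedSectionVars false

namespace Crest.Agent.R188.Slt

open scoped ENNReal TensorProduct
open WittVector Crest.Agent.R183 Crest.Agent.R183.Res Crest.Agent.R188.Chi Crest.Agent.R188.Asm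
open Crest.Agent.R188.Prf Crest.Agent.R188.Wit Crest.Agent.R188.KosG
open IsLocalRing

section ring

variable (p : ℕ) [hp : Fact p.Prime] (k : Type) [Field k] [CharP k p] [IsAlgClosed k]

theorem mB_eq (d : ℕ) : mB p k d = maximalIdeal (BB p k d) := by
  have : PerfectRing k p := PerfectField.toPerfectRing p
  exact le_antisymm (mB_le_maximalIdeal d) Lft.maximalIdeal_BB_le

theorem isRegular_BB (d : ℕ) : IsRegularLocalRing (BB p k d) := by
  have : PerfectRing k p := PerfectField.toPerfectRing p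
  have : IsRegularLocalRing (WittVector p k) := (Cohen.isCohen_witt p k).isRegularLocalRing
  exact Cohen.isRegularLocalRing_mvPowerSeries d

theorem dim_BB (d : ℕ) : ringKrullDim (BB p k d) = ((d + 1 : ℕ) : WithBot ℕ∞) := by
  have : PerfectRing k p := PerfectField.toPerfectRing p
  exact RD.ringKrullDim_mv_witt p k d

end ring

section sit

variable {p : ℕ} [hp : Fact p.Prime] {k : Type} [Field k] [CharP k p] [IsAlgClosed k] {b : ℕ}
  (W : World p k b) {R A M : Type} [CommRing R] [IsRegularLocalRing R] [CommRing A] [Algebra R A]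
  [Algebra (BB p k b) A] [AddCommGroup M] [Module R M] {d a : ℕ} (Z : Sit p k b R A M d a)
  (γ : A →ₐ[BB p k b] BPlus p k b)

/-- `E = p - f` -/
noncomputable def Ee : BB p k d := MvPowerSeries.C (p : WittVector p k) - Z.f

/-- `S → R → A` -/
noncomputable def sg : BB p k d →+* A := (algebraMap R A).comp Z.π

/-- `S → B^+` -/
noncomputable def gg : BB p k d →+* BPlus p k b := (γ : A →+* BPlus p k b).comp (sg Z)

theorem pi_E : Z.π (Ee Z) = 0 := by
  have : Ee Z ∈ RingHom.ker Z.π := by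
    rw [Z.ker_π]; exact Ideal.mem_span_singleton_self _
  exact this

theorem nonempty_lift : Nonempty (Lft.Lift W (gg Z γ) (Ee Z)) := by
  have : PerfectRing k p := PerfectField.toPerfectRing p
  have := Z.ntA
  have := Z.finA
  refine Lft.nonempty_lift W (sg Z) γ (Z.surjA.comp Z.π_surj) (fun w => Z.comm w) Z.f Z.f_mem ?_
  show algebraMap R A (Z.π (Ee Z)) = 0
  rw [pi_E, map_zero]

/-- the annihilator over `S` -/
noncomputable def Jn : Ideal (BB p k d) := (Module.annihilator R M).comap Z.π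

theorem mem_Jn {s : BB p k d} : s ∈ Jn Z ↔ ∀ m : M, Z.π s • m = 0 := by
  rw [Jn, Ideal.mem_comap, Module.mem_annihilator]

theorem E_mem_Jn : Ee Z ∈ Jn Z := by
  rw [mem_Jn]
  intro m
  rw [pi_E, zero_smul]

variable (L : Lft.Lift W (gg Z γ) (Ee Z))

/-- elements of `γ(A)` coming from `Ann M` -/
theorem gamma_mem {m : R} (hm : m ∈ Module.annihilator R M) :
    γ (algebraMap R A m) ∈ (Jn Z).map (gg Z γ) := by
  obtain ⟨s, rfl⟩ := Z.π_surj m
  exact Ideal.mem_map_of_mem (gg Z γ) (show s ∈ Jn Z from hm)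

/-- `[u]^c ∈ φ(Ann M) W(P)` for the sharp elements over `m_B` -/
theorem teich_mem [Module.Finite R M] : ∃ c : ℕ, ∀ (u : W.P) (r : ℕ → BPlus p k b)
    (z : BB p k b), SharpPair W.perf W.ι u r →
      r 0 = algebraMap (BB p k b) (BPlus p k b) z → z ∈ mB p k b →
      teichmuller p u ^ c ∈ (Jn Z).map L.φ := by
  have := Z.ntA
  have := Z.finA
  obtain ⟨c, hc⟩ := AsmG.exists_pow_mem_annihilator (R := R) (A := A) (B := BB p k b) (M := M)
    Z.surjA Z.proper
  refine ⟨c, fun u r z hsp hr hz => ?_⟩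
  apply L.mem_map (E_mem_Jn Z)
  obtain ⟨m, hm, hm2⟩ := hc z (mB_le_maximalIdeal b hz)
  have h1 : θ W.ξ (teichmuller p u ^ c) =
      W.ι (algebraMap (BB p k b) (BPlus p k b) z ^ c) := by
    rw [map_pow, map_pow, ← hr, ← AsmG.SharpPair.sh_eq hsp]
    rfl
  rw [h1]
  apply Ideal.mem_map_of_mem
  have h2 : algebraMap (BB p k b) (BPlus p k b) z ^ c = γ (algebraMap R A m) := by
    rw [hm2, map_pow, γ.commutes]
  rw [h2]
  exact gamma_mem Z γ hm

include Z in
theorem ann_sup [Module.Finite R M] : ∃ c : ℕ, maximalIdeal R ^ c ≤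
    Module.annihilator R M ⊔ RingHom.ker (algebraMap R A) := by
  have hfin : Module.Finite R A := Module.Finite.of_surjective (Algebra.linearMap R A) Z.surjA
  obtain ⟨c, hc⟩ := Noe.exists_pow_le_of_ringKrullDim_le_zero
    (Noe.ringKrullDim_le_zero_of_isFiniteLength Z.proper)
  refine ⟨c, hc.trans (sup_le_sup_left ?_ _)⟩
  intro n hn
  have := Module.mem_annihilator.1 hn (1 : A)
  rwa [Algebra.smul_def, mul_one] at this

theorem pi_mem_max {s : BB p k d} (hs : s ∈ mB p k d) : Z.π s ∈ maximalIdeal R := by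
  rw [mB_eq] at hs
  have : IsLocalHom Z.π := IsLocalHom.of_surjective Z.π Z.π_surj
  rw [mem_maximalIdeal, mem_nonunits_iff] at hs ⊢
  exact fun h => hs (isUnit_of_map_unit Z.π s h)

/-- `φ(s)^c ∈ φ(Ann M) W(P)` for `s ∈ m_S` -/
theorem phi_mem [Module.Finite R M] : ∃ c : ℕ, ∀ s ∈ mB p k d,
    L.φ s ^ c ∈ (Jn Z).map L.φ := by
  obtain ⟨c, hc⟩ := ann_sup Z
  refine ⟨c, fun s hs => ?_⟩
  apply L.mem_map (E_mem_Jn Z)
  obtain ⟨m, hm, n, hn, hmn⟩ := Submodule.mem_sup.1 (hc (Ideal.pow_mem_pow (pi_mem_max Z hs) c))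
  have hn' : algebraMap R A n = 0 := hn
  have h1 : θ W.ξ (L.φ s ^ c) = W.ι (γ (algebraMap R A m)) := by
    rw [← map_pow, L.θ_φ]
    congr 1
    show γ (algebraMap R A (Z.π (s ^ c))) = _
    rw [map_pow, ← hmn, map_add, hn', add_zero]
  rw [h1]
  exact Ideal.mem_map_of_mem _ (gamma_mem Z γ hm)

/-- `φ(s)^K ∈ ([t], p)` for `s ∈ m_S` -/
theorem phi_mem_vt {s : BB p k d} (hs : s ∈ mB p k d) :
    ∃ K : ℕ, L.φ s ^ K ∈ Ideal.ofList (vt W) := by
  have h1 : (mB p k d).map L.φ ≤ (Ideal.ofList (vt W)).radical := by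
    rw [mB, Ideal.map_span, Ideal.span_le]
    rintro _ ⟨_, ⟨i, rfl⟩, rfl⟩
    refine Fin.cases ?_ (fun i => ?_) i
    · refine ⟨1, ?_⟩
      rw [pow_one]
      show L.φ (p : BB p k d) ∈ _
      rw [map_natCast]
      exact p_mem_vt W
    · show L.φ (MvPowerSeries.X i) ∈ _
      rw [L.φ_X]
      exact teich_pow_mem_vt W (L.a_rad i)
  exact h1 (Ideal.mem_map_of_mem _ hs)

end sit

end Crest.Agent.R188.Slt
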