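/-
R188 (Serre positivity), S-level translation, part 6: `Transfer W` from `SVanish`, `SPositive`.
helper622
-/
import Crest.Agent.R188.Slt5

set_option autoImplicit false
set_option linter.unusedSectionVars false

namespace Crest.Agent.R188.Slt

open scoped ENNReal TensorProduct
open WittVector Crest.Agent.R183 Crest.Agent.R183.Res Crest.Agent.R188.Asm
open Crest.Agent.R188.Chi (hX chiX hX_eq chiX_eq chiX_eq_of_len exists_res_len IsRes)
open Crest.Agent.R188.Prf Crest.Agent.R188.Wit Crest.Agent.R188.KosG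
open IsLocalRing

section sit

variable {p : ℕ} [hp : Fact p.Prime] {k : Type} [Field k] [CharP k p] [IsAlgClosed k] {b : ℕ}
  (W : World p k b) {R A M : Type} [CommRing R] [IsRegularLocalRing R] [CommRing A] [Algebra R A]
  [Algebra (BB p k b) A] [AddCommGroup M] [Module R M] {d a : ℕ} (Z : Sit p k b R A M d a)
  (γ : A →ₐ[BB p k b] BPlus p k b)

/-- `M` over `S` -/
@[reducible] noncomputable def modS : Module (BB p k d) M := Module.compHom M Z.π

theorem ann_eq : @Module.annihilator (BB p k d) M _ _ (modS Z) = Jn Z := by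
  let _ : Module (BB p k d) M := modS Z
  ext s
  rw [Module.mem_annihilator, mem_Jn]
  rfl

theorem finite_S : @Module.Finite (BB p k d) M _ _ (modS Z) := by
  let _ : Module (BB p k d) M := modS Z
  let _ : Algebra (BB p k d) R := Z.π.toAlgebra
  have : IsScalarTower (BB p k d) R M := IsScalarTower.of_algebraMap_smul fun _ _ => rfl
  have : Module.Finite (BB p k d) R :=
    Module.Finite.of_surjective (Algebra.linearMap (BB p k d) R) Z.π_surj
  have := Z.finM
  exact Module.Finite.trans R M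

theorem supportDim_S : @Module.supportDim (BB p k d) _ M _ (modS Z) = (a : ℕ) := by
  let _ : Module (BB p k d) M := modS Z
  let _ : Algebra (BB p k d) R := Z.π.toAlgebra
  have : IsScalarTower (BB p k d) R M := IsScalarTower.of_algebraMap_smul fun _ _ => rfl
  have : Module.Finite (BB p k d) M := finite_S Z
  rw [Noe.supportDim_of_surjective (R := BB p k d) (S := R) Z.π_surj]
  exact Z.dimM

theorem dim_quot_Jn : ringKrullDim (BB p k d ⧸ Jn Z) = (a : ℕ) := by
  let _ : Module (BB p k d) M := modS Z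
  have : Module.Finite (BB p k d) M := finite_S Z
  rw [← ann_eq Z, ← Module.supportDim_eq_ringKrullDim_quotient_annihilator]
  exact supportDim_S Z

theorem Jn_le : Jn Z ≤ maximalIdeal (BB p k d) := by
  apply le_maximalIdeal
  intro h
  have h1 := dim_quot_Jn Z
  have : Subsingleton (BB p k d ⧸ Jn Z) := Ideal.Quotient.subsingleton_iff.2 h
  rw [ringKrullDim_eq_bot_of_subsingleton] at h1
  exact absurd h1 (by simp)

theorem exists_t : ∃ t : List (BB p k d), t.length = a ∧ (∀ x ∈ t, x ∈ mB p k d) ∧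
    ∃ N, mB p k d ^ N ≤ Jn Z ⊔ Ideal.ofList t := by
  have := isRegular_BB p k d
  obtain ⟨t, ht, c, hc⟩ := Noe.exists_sop (Jn_le Z) (dim_quot_Jn Z).le
  refine ⟨List.ofFn t, List.length_ofFn, fun x hx => ?_, c, ?_⟩
  · obtain ⟨i, rfl⟩ := List.mem_ofFn.1 hx
    rw [mB_eq]
    exact ht i
  · have h1 : Ideal.ofList (List.ofFn t) = Ideal.span (Set.range t) := by
      unfold Ideal.ofList
      congr 1
      ext x
      exact List.mem_ofFn
    rw [mB_eq, h1]
    exact hc

theorem E_ne_zero : Ee Z ≠ 0 := by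
  intro h
  have h1 : MvPowerSeries.constantCoeff (σ := Fin d) (R := WittVector p k) (Ee Z) = 0 := by
    rw [h, map_zero]
  have h2 : Ideal.span (Set.range (MvPowerSeries.X : Fin d → BB p k d)) ≤
      RingHom.ker (MvPowerSeries.constantCoeff (σ := Fin d) (R := WittVector p k)) := by
    rw [Ideal.span_le]
    rintro _ ⟨i, rfl⟩
    exact MvPowerSeries.constantCoeff_X i
  have h3 : MvPowerSeries.constantCoeff (σ := Fin d) (R := WittVector p k) Z.f = 0 := h2 Z.f_mem
  rw [Ee, map_sub, h3, sub_zero, MvPowerSeries.constantCoeff_C] at h1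
  have : PerfectRing k p := PerfectField.toPerfectRing p
  exact WittVector.p_nonzero p k h1

variable (L : Lft.Lift W (gg Z γ) (Ee Z))

/-- **positivity over `W(P)`** -/
theorem positive (hP : SPositive p k) {G : MCx (BB p k d)}
    {εG : letI := modS Z; (G.ι 0 → BB p k d) →ₗ[BB p k d] M}
    (hG : letI := modS Z; IsRes G εG) {D : ℕ} (hD : G.Len D) :
    (∀ i, hX W.Λ (G.map L.φ) (WittVector p W.P) i ≠ ⊤) ∧
      0 < chiX W.Λ (G.map L.φ) (WittVector p W.P) (D + 1) := by
  let _ : Module (BB p k d) M := modS Z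
  have := finite_S Z
  have := Z.finM
  obtain ⟨t, ht1, ht2, ht3⟩ := exists_t Z
  obtain ⟨c, hc⟩ := phi_mem W Z γ L
  obtain ⟨c', hc'⟩ := teich_mem W Z γ L
  refine hP d M G εG hG D hD (WittVector p W.P) L.φ W.Λ t
    (List.ofFn fun i => teichmuller p (W.t i)) ?_ ht2 ?_ ?_ ?_ ?_ ?_ ?_ ?_ ?_
  · rw [ann_eq Z]; exact ht3
  · rw [ann_eq Z]
    exact fun s hs => ⟨c, hc s hs⟩
  · rw [ann_eq Z]
    intro x hx
    obtain ⟨i, rfl⟩ := List.mem_ofFn.1 hx
    exact ⟨c', hc' _ _ _ (W.t_sharp i) (W.tr_zero i) (Ideal.subset_span ⟨i, rfl⟩)⟩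
  · exact fun s hs => phi_mem_vt W Z γ L hs
  · rw [ht1]; exact supportDim_S Z
  · rw [ht1, List.length_ofFn, Z.hd]
  · exact kh_vt W
  · exact L_vt_ne_zero W
  · exact L_vt_ne_top W

/-- **vanishing over `W(P)`** -/
theorem vanish (hV : SVanish p k) {G : MCx (BB p k d)}
    {εG : letI := modS Z; (G.ι 0 → BB p k d) →ₗ[BB p k d] M}
    (hG : letI := modS Z; IsRes G εG) {D : ℕ} (hD : G.Len D) {h : W.P} {I : Ideal W.P}
    (hI : Good W h I) :
    (∀ i, hX W.Λ (G.map L.φ) (WittVector p W.P ⧸ WtI W I) i ≠ ⊤) ∧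
      chiX W.Λ (G.map L.φ) (WittVector p W.P ⧸ WtI W I) (D + 1) = 0 := by
  let _ : Module (BB p k d) M := modS Z
  have := finite_S Z
  have := Z.finM
  obtain ⟨t, ht1, ht2, ht3⟩ := exists_t Z
  obtain ⟨c, hc⟩ := phi_mem W Z γ L
  obtain ⟨c', hc'⟩ := teich_mem W Z γ L
  obtain ⟨z, v, zr, hz1, hz2, hz3, hz4⟩ := hI.growth
  refine hV d M G εG hG D hD (WittVector p W.P) L.φ W.Λ (WittVector p W.P ⧸ WtI W I) t
    (List.ofFn fun i => teichmuller p (v i)) ?_ ht2 ?_ ?_ ?_ ?_
  · rw [ann_eq Z]; exact ht3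
  · rw [ann_eq Z]
    exact fun s hs => ⟨c, hc s hs⟩
  · rw [ann_eq Z]
    intro x hx
    obtain ⟨i, rfl⟩ := List.mem_ofFn.1 hx
    exact ⟨c', hc' _ _ _ (hz2 i) (hz3 i) (hz1 i)⟩
  · intro j
    rw [kh_gamma_quot W.perf W.Λ hI.convex]
    exact hz4 j
  · rw [ht1, List.length_ofFn, Z.hd]
    omega

end sit

end Crest.Agent.R188.Slt
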