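/-
R188 (Serre positivity), S-level translation, part 7: `Transfer W` from `SVanish`, `SPositive`.
helper622
-/
import Crest.Agent.R188.Slt6

set_option autoImplicit false
set_option linter.unusedSectionVars false

namespace Crest.Agent.R188.Slt

open scoped ENNReal TensorProduct
open WittVector Crest.Agent.R183 Crest.Agent.R183.Res Crest.Agent.R188.Asm
open Crest.Agent.R188.Chi (hX chiX hX_eq chiX_eq chiX_eq_of_len exists_res_len IsRes)
open Crest.Agent.R188.Prf Crest.Agent.R188.Wit Crest.Agent.R188.KosG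
open IsLocalRing

section main

variable {p : ℕ} [hp : Fact p.Prime] {k : Type} [Field k] [CharP k p] [IsAlgClosed k] {b : ℕ}
  (W : World p k b)

theorem chiX_congr_hX {A₁ A₂ R₁ R₂ X₁ X₂ : Type} [CommRing A₁] [CommRing A₂] [CommRing R₁]
    [CommRing R₂] [AddCommGroup X₁] [Module A₁ X₁] [Module R₁ X₁] [SMulCommClass R₁ A₁ X₁]
    [AddCommGroup X₂] [Module A₂ X₂] [Module R₂ X₂] [SMulCommClass R₂ A₂ X₂]
    {Λ₁ : AddLen.{0, 0} A₁} {Λ₂ : AddLen.{0, 0} A₂} {F₁ : MCx R₁} {F₂ : MCx R₂}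
    (h : ∀ i, hX Λ₁ F₁ X₁ i = hX Λ₂ F₂ X₂ i) (N : ℕ) :
    chiX Λ₁ F₁ X₁ N = chiX Λ₂ F₂ X₂ N := by
  rw [chiX_eq, chiX_eq]
  exact Finset.sum_congr rfl fun i _ => by rw [h]

/-- **TRANSFER** -/
theorem transfer (hV : SVanish p k) (hP : SPositive p k) : Transfer W := by
  intro R A M _ _ _ _ _ _ _ _ d a Z F ε hF hlen γ
  obtain ⟨L⟩ := nonempty_lift W Z γ
  let _ : Module (BB p k d) M := modS Z
  have := finite_S Z
  have := isRegular_BB p k d
  have hntA := Z.ntA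
  have hfinA := Z.finA
  obtain ⟨G, εG, hG, -, hGl⟩ := exists_res_len (dim_BB p k d) M
  obtain ⟨hp1, hp2⟩ := positive W Z γ L hP hG hGl
  obtain ⟨u, hu⟩ := L.assoc
  have hker : RingHom.ker Z.π = Ideal.span {Ee Z} := Z.ker_π
  have hE : Ee Z ∈ nonZeroDivisors (BB p k d) := mem_nonZeroDivisors_of_ne_zero (E_ne_zero Z)
  have hM : ∀ (s : BB p k d) (m : M), s • m = Z.π s • m := fun _ _ => rfl
  have hχ : ∀ x : Om W.ξ, (Tri.charOm (Om W.ξ) γ : AO W A →+* Om W.ξ)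
      (algebraMap (Om W.ξ) (AO W A) x) = x := fun x => (Tri.charOm (Om W.ξ) γ).commutes x
  have hcomp : ∀ s, algebraMap (WittVector p W.P) (Om W.ξ) (L.φ s) =
      (Tri.charOm (Om W.ξ) γ : AO W A →+* Om W.ξ) (rA W A (Z.π s)) := by
    intro s
    have h1 : (Tri.charOm (Om W.ξ) γ : AO W A →+* Om W.ξ) (rA W A (Z.π s)) =
        Tri.charOm (Om W.ξ) γ ((1 : Om W.ξ) ⊗ₜ[BB p k b] algebraMap R A (Z.π s)) := rfl
    rw [h1, Tri.charOm_tmul, one_mul]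
    exact L.θ_φ s
  have hmk : RingHom.ker (algebraMap (WittVector p W.P) (Om W.ξ)) = Ideal.span {W.ξ} :=
    Ideal.mk_ker
  have hreg : ∀ x : WittVector p W.P, W.ξ * x = 0 → x = 0 := fun x hx =>
    xi_regular W.perf W.dist hx
  have lenGA : (GA W A F).Len d := fun n hn => hlen n hn
  -- translation for `Ω`
  have tr1 : ∀ i, hX (ΛA W A) (GA W A F) (Flg.Tw (Tri.charOm (Om W.ξ) γ)) i =
      hX W.Λ (G.map L.φ) (WittVector p W.P) i :=
    hX_tr_top Z.π_surj hker hE hF hM hG (θ_surjective W.ξ) hmk hreg hu.symm (rA W A) hχ hcomp W.Λ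
      (AddEquiv.refl (Om W.ξ)) (fun _ _ => rfl)
  have val1 : chiX (ΛA W A) (GA W A F) (Flg.Tw (Tri.charOm (Om W.ξ) γ)) (d + 1) =
      chiX W.Λ (G.map L.φ) (WittVector p W.P) (d + 1 + 1) := by
    rw [← chiX_congr_hX tr1]
    exact (chiX_eq_of_len _ _ _ lenGA (by omega)).symm
  refine ⟨fun i => by rw [tr1]; exact hp1 i, by rw [val1]; exact hp2, ?_⟩
  intro h hr hsp hne I hI
  obtain ⟨hv1, hv2⟩ := vanish W Z γ L hV hG hGl hI
  obtain ⟨m, hm⟩ := hI.mem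
  -- nilpotence of `p`, `[t_i]`
  have := Z.finM
  obtain ⟨c1, hc1⟩ := phi_mem W Z γ L
  obtain ⟨c2, hc2⟩ := teich_mem W Z γ L
  have hcp : (p : WittVector p W.P) ^ (c1 + c2) ∈ (Jn Z).map L.φ := by
    rw [pow_add]
    refine Ideal.mul_mem_right _ _ ?_
    have h1 := hc1 (p : BB p k d) (Ideal.subset_span ⟨0, rfl⟩)
    rwa [map_natCast] at h1
  have hct : ∀ i, teichmuller p (W.t i) ^ (c1 + c2) ∈ (Jn Z).map L.φ := by
    intro i
    rw [pow_add]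
    exact Ideal.mul_mem_left _ _
      (hc2 _ _ _ (W.t_sharp i) (W.tr_zero i) (Ideal.subset_span ⟨i, rfl⟩))
  have hJ : ∀ s ∈ Jn Z, G.NHom s := fun s hs => hG.nhom (fun m => (mem_Jn Z).1 hs m)
  obtain ⟨hg1, hg2⟩ := gamma_main W hJ hcp hct hsp hne hGl (I := I) hp1 hv1 hv2
  -- translation for `θ(𝔎)`
  set 𝔎 := K (fun n => teichmuller p (W.perf.rtn n h)) (WtI W I) with h𝔎
  have tr2 : ∀ i, hX (ΛA W A) (GA W A F)
      ↥(Flg.twI (Tri.charOm (Om W.ξ) γ) (𝔎.map (θ W.ξ))) i =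
        hX W.Λ (G.map L.φ) ↥𝔎 i :=
    hX_tr_ideal Z.π_surj hker hE hF hM hG (θ_surjective W.ξ) hmk hreg hu.symm (rA W A) hχ hcomp
      W.Λ (xi_mem_K W hI.convex hm)
      { toFun := fun x => ⟨x.1, x.2⟩
        invFun := fun x => ⟨x.1, x.2⟩
        left_inv := fun _ => rfl
        right_inv := fun _ => rfl
        map_add' := fun _ _ => rfl } (fun _ _ => rfl)
  have val2 : chiX (ΛA W A) (GA W A F)
      ↥(Flg.twI (Tri.charOm (Om W.ξ) γ) (𝔎.map (θ W.ξ))) (d + 1) =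
        chiX W.Λ (G.map L.φ) ↥𝔎 (d + 1 + 1) := by
    rw [← chiX_congr_hX tr2]
    exact (chiX_eq_of_len _ _ _ lenGA (by omega)).symm
  -- the Euler functional over `A'`
  obtain ⟨c, hc⟩ := AsmG.exists_pow_mem_annihilator (R := R) (A := A) (B := BB p k b) (M := M)
    Z.surjA Z.proper
  let E := AsmG.eulerW W (A := A) (R := R) (M := M) (fun _ => rfl)
    (fun i => hc _ (mB_le_maximalIdeal b (Ideal.subset_span ⟨i, rfl⟩)))
    (F := F) (fun m hm => hF.nhom (fun x => Module.mem_annihilator.1 hm x)) hlen hsp hne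
  have hle : Flg.twI (Tri.charOm (Om W.ξ) γ) (JI W I) ≤
      Flg.twI (Tri.charOm (Om W.ξ) γ) (𝔎.map (θ W.ξ)) := fun x hx => JI_le W I h hx
  have halm : ∀ a ∈ AsmG.almI W.perf W.ξ h,
      ∀ x ∈ Flg.twI (Tri.charOm (Om W.ξ) γ) (𝔎.map (θ W.ξ)),
        algebraMap (Om W.ξ) (AO W A) a • x ∈ Flg.twI (Tri.charOm (Om W.ξ) γ) (JI W I) := by
    intro a ha x hx
    have h1 : (algebraMap (Om W.ξ) (AO W A) a • x).out = a * x.out := by
      show (Tri.charOm (Om W.ξ) γ : AO W A →+* Om W.ξ) (algebraMap (Om W.ξ) (AO W A) a) * x.out = _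
      rw [hχ]
    show (algebraMap (Om W.ξ) (AO W A) a • x).out ∈ JI W I
    rw [h1]
    exact aI_mul_mem W I h a ha x.out hx
  have hF2 : E.Fn ↥(Flg.twI (Tri.charOm (Om W.ξ) γ) (𝔎.map (θ W.ξ))) := fun i => by
    show hX (ΛA W A) (GA W A F) _ i ≠ ⊤
    rw [tr2]
    exact hg1 i
  have hF1 : E.Fn ↥(Flg.twI (Tri.charOm (Om W.ξ) γ) (JI W I)) := (E.fn_alm hle halm).2 hF2
  have hval : E.val ↥(Flg.twI (Tri.charOm (Om W.ξ) γ) (JI W I)) =
      E.val ↥(Flg.twI (Tri.charOm (Om W.ξ) γ) (𝔎.map (θ W.ξ))) := E.val_alm hle halm hF1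
  refine ⟨hF1, ?_⟩
  have hval' : chiX (ΛA W A) (GA W A F) ↥(Flg.twI (Tri.charOm (Om W.ξ) γ) (JI W I)) (d + 1) =
      chiX (ΛA W A) (GA W A F) ↥(Flg.twI (Tri.charOm (Om W.ξ) γ) (𝔎.map (θ W.ξ))) (d + 1) := hval
  rw [hval', val2, hg2, val1]

end main

end Crest.Agent.R188.Slt
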