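/-
R188 (Serre positivity): S0288 from a world with `Twist`.   helper622
-/
import Crest.Agent.R188.Slt7
import Crest.Agent.R188.PerfC4
import Crest.Agent.R188.SX10
import Crest.Agent.R188.Chr5
import Crest.Agent.R188.AsmU1

set_option autoImplicit false

namespace Crest.Agent.R188.Last

open Crest.Agent.R188 Crest.Agent.R188.Asm

/-- `CORE` from a world with `Twist` (`LeftSide`: helper111, `Transfer`: helper622, `SVanish`,
`SPositive`: helper546, helper415) -/
theorem core_of_world
    (hW : ∀ (p : ℕ) [Fact p.Prime] (k : Type) [Field k] [IsAlgClosed k] [CharP k p] (b : ℕ),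
      ∃ W : World p k b, Twist W) : Top.CORE :=
  Asm.core_of fun p _ k _ _ _ b => by
    obtain ⟨W, hT⟩ := hW p k b
    exact ⟨W, hT, PerfC.leftSide W, Slt.transfer W SX.svanish SX.spositive⟩

/-- **S0288 from a world with `Twist`** -/
theorem s288_of_world
    (hW : ∀ (p : ℕ) [Fact p.Prime] (k : Type) [Field k] [IsAlgClosed k] [CharP k p] (b : ℕ),
      ∃ W : World p k b, Twist W) (R : Type) [CommRing R] [IsRegularLocalRing R] : Eq.S288 R :=
  Chr.s288_of_core (core_of_world hW) R

end Crest.Agent.R188.Last
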