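/-
R188, block L-NULL: torsion modules killed by all `p`-power roots of a nonzero element are null.
helper200
-/
import Mathlib
import Crest.Agent.R188.Tow1

set_option autoImplicit false

namespace Crest.Agent.R188.LenNull

open scoped ENNReal Pointwise
open Crest.Agent.R183 Crest.Agent.R188.Tow

universe u v

section abs

variable {C : Type u} [CommRing C] (Λ : AddLen.{u, u} C)

/-- `L X ≤ m L(X/aX)` if `a ^ m X = 0`. -/
theorem L_le_mul_quot (a : C) (m : ℕ) (X : Type u) [AddCommGroup X] [Module C X]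
    (h : ∀ x : X, a ^ m • x = 0) : Λ.L X ≤ m * Λ.L (X ⧸ (a • (⊤ : Submodule C X))) := by
  induction m generalizing X with
  | zero =>
    have : Subsingleton X := subsingleton_of_forall_eq 0 fun x => by simpa using h x
    rw [Λ.L_subsingleton]; exact zero_le
  | succ m ih =>
    set Y : Submodule C X := a • (⊤ : Submodule C X) with hY
    have hmem : ∀ y : X, y ∈ Y ↔ ∃ x : X, a • x = y := fun y => by
      rw [hY, Submodule.mem_smul_pointwise_iff_exists]
      constructor
      · rintro ⟨x, -, hx⟩; exact ⟨x, hx⟩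
      · rintro ⟨x, hx⟩; exact ⟨x, trivial, hx⟩
    have h1 : Λ.L Y ≤ m * Λ.L (Y ⧸ (a • (⊤ : Submodule C Y))) := by
      refine ih Y fun y => ?_
      obtain ⟨x, hx⟩ := (hmem y).1 y.2
      apply Subtype.ext
      change a ^ m • (y : X) = 0
      rw [← hx, smul_smul, ← pow_succ]
      exact h x
    -- `X/Y → Y/aY` is surjective
    let g : X →ₗ[C] Y := (LinearMap.lsmul C X a).codRestrict Y (fun x => (hmem _).2 ⟨x, rfl⟩)
    have hg : Function.Surjective g := by
      rintro ⟨y, hy⟩
      obtain ⟨x, hx⟩ := (hmem y).1 hy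
      exact ⟨x, Subtype.ext hx⟩
    have h2 : Λ.L (Y ⧸ (a • (⊤ : Submodule C Y))) ≤ Λ.L (X ⧸ Y) := by
      have hle : Y ≤ (a • (⊤ : Submodule C Y)).comap g := by
        intro y hy
        obtain ⟨x, hx⟩ := (hmem y).1 hy
        rw [Submodule.mem_comap, Submodule.mem_smul_pointwise_iff_exists]
        refine ⟨g x, trivial, ?_⟩
        rw [← map_smul, hx]
      refine Λ.L_le_of_surjective (Submodule.mapQ Y (a • (⊤ : Submodule C Y)) g hle) ?_
      intro y
      obtain ⟨y, rfl⟩ := Submodule.mkQ_surjective _ y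
      obtain ⟨x, rfl⟩ := hg y
      exact ⟨Y.mkQ x, rfl⟩
    rw [Λ.L_eq_add_quotient Y]
    push_cast
    calc Λ.L Y + Λ.L (X ⧸ Y) ≤ m * Λ.L (X ⧸ Y) + Λ.L (X ⧸ Y) := by
          gcongr
          exact h1.trans (by gcongr)
      _ = (m + 1) * Λ.L (X ⧸ Y) := by ring

/-- a cyclic module killed by `I`. -/
theorem L_cyclic_le {X : Type u} [AddCommGroup X] [Module C X] (x : X)
    (hx : Submodule.span C {x} = ⊤) (I : Ideal C) (hI : ∀ a ∈ I, a • x = 0) :
    Λ.L X ≤ Λ.L (C ⧸ I) := by
  have hle : I ≤ LinearMap.ker (LinearMap.toSpanSingleton C X x) := by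
    intro a ha
    rw [LinearMap.mem_ker, LinearMap.toSpanSingleton_apply]
    exact hI a ha
  refine Λ.L_le_of_surjective (Submodule.liftQ I (LinearMap.toSpanSingleton C X x) hle) ?_
  rw [← LinearMap.range_eq_top, Submodule.range_liftQ, LinearMap.range_toSpanSingleton, hx]

variable {κ : Type*} [Finite κ] {t : κ → C}

/-- the ideal generated by the powers `t i ^ N`. -/
def J (t : κ → C) (N : ℕ) : Ideal C := Ideal.span (Set.range fun i => t i ^ N)

omit [Finite κ] in
lemma J_kill {X : Type*} [AddCommGroup X] [Module C X] {x : X} {N : ℕ}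
    (h : ∀ i, t i ^ N • x = 0) (a : C) (ha : a ∈ J t N) : a • x = 0 := by
  unfold J at ha
  induction ha using Submodule.span_induction with
  | mem y hy => obtain ⟨i, rfl⟩ := hy; exact h i
  | zero => rw [zero_smul]
  | add y z _ _ hy hz => rw [add_smul, hy, hz, add_zero]
  | smul b y _ hy => rw [smul_eq_mul, mul_smul, hy, smul_zero]

/-- **NULL, abstract form.** `V` torsion, killed by `ϖ n ^ k * d n` for all `n`, where
`t i₀` is divisible by... `ϖ n ^ s n ∣ t i₀`-type bound: `t i₀ ∣ ϖ n ^ s n`, and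
`k L(C/(J_N, ϖ n)) + N s_n L(C/(J_N, ϖ n, d n))` is arbitrarily small. -/
theorem null_of_small (hc : ContOn Λ t) (i₀ : κ) (ϖ d : ℕ → C) (s : ℕ → ℕ) (k : ℕ)
    (hs : ∀ n, t i₀ ∣ ϖ n ^ s n)
    (small : ∀ (N : ℕ) (ε : ℝ≥0∞), 0 < ε → ∃ n,
      (k : ℝ≥0∞) * Λ.L (C ⧸ (J t N ⊔ Ideal.span {ϖ n})) +
        ((s n * N : ℕ) : ℝ≥0∞) * Λ.L (C ⧸ (J t N ⊔ Ideal.span {ϖ n} ⊔ Ideal.span {d n})) ≤ ε)
    (V : Type u) [AddCommGroup V] [Module C V] (hV : Tors t V)
    (kill : ∀ (n : ℕ) (x : V), (ϖ n ^ k * d n) • x = 0) : Λ.L V = 0 := by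
  rw [hc.eq_zero_iff hV]
  intro x
  have := Fintype.ofFinite κ
  choose e he using fun i => hV x i
  set N := Finset.univ.sup e with hN
  have hxN : ∀ i, t i ^ N • x = 0 := by
    intro i
    obtain ⟨m, hm⟩ := Nat.exists_eq_add_of_le (Finset.le_sup (f := e) (Finset.mem_univ i))
    rw [← hN] at hm
    rw [hm, pow_add, mul_comm, mul_smul, he, smul_zero]
  rw [← le_zero_iff]
  refine ENNReal.le_of_forall_pos_le_add ?_
  intro ε hε _
  rw [zero_add]
  obtain ⟨n, hn⟩ := small N ε (by exact_mod_cast hε)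
  refine le_trans ?_ hn
  set X := Submodule.span C {x} with hX
  let x' : X := ⟨x, Submodule.mem_span_singleton_self x⟩
  have hx' : Submodule.span C {x'} = ⊤ := by
    rw [eq_top_iff]
    rintro ⟨y, hy⟩ -
    obtain ⟨a, ha⟩ := Submodule.mem_span_singleton.1 hy
    exact Submodule.mem_span_singleton.2 ⟨a, Subtype.ext ha⟩
  have hxk : ∀ i, t i ^ N • x' = 0 := fun i => Subtype.ext (hxN i)
  have hall : ∀ (i : κ) (y : X), t i ^ N • y = 0 := by
    intro i y
    have hy : y ∈ Submodule.span C {x'} := by rw [hx']; trivial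
    obtain ⟨a, rfl⟩ := Submodule.mem_span_singleton.1 hy
    rw [smul_comm, hxk, smul_zero]
  -- the submodule `Y = ϖ ^ k X`
  set Y : Submodule C X := (ϖ n ^ k) • (⊤ : Submodule C X) with hY
  have hmemY : ∀ y : X, y ∈ Y ↔ ∃ z : X, ϖ n ^ k • z = y := fun y => by
    rw [hY, Submodule.mem_smul_pointwise_iff_exists]
    constructor
    · rintro ⟨z, -, hz⟩; exact ⟨z, hz⟩
    · rintro ⟨z, hz⟩; exact ⟨z, trivial, hz⟩
  rw [Λ.L_eq_add_quotient Y, add_comm]
  refine add_le_add ?_ ?_
  · -- `X/ϖ^k X`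
    refine (L_le_mul_quot Λ (ϖ n) k (X ⧸ Y) ?_).trans ?_
    · intro y
      obtain ⟨y, rfl⟩ := Submodule.mkQ_surjective _ y
      rw [← map_smul, Submodule.mkQ_apply, Submodule.Quotient.mk_eq_zero]
      exact (hmemY _).2 ⟨y, rfl⟩
    · gcongr
      refine L_cyclic_le Λ (Submodule.mkQ _ (Y.mkQ x')) ?_ _ ?_
      · rw [← Set.image_singleton, ← Submodule.map_span, ← Set.image_singleton,
          ← Submodule.map_span, hx', Submodule.map_top, Submodule.range_mkQ, Submodule.map_top,
          Submodule.range_mkQ]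
      · intro a ha
        obtain ⟨b, hb, c, hc', rfl⟩ := Submodule.mem_sup.1 ha
        obtain ⟨c, rfl⟩ := Ideal.mem_span_singleton'.1 hc'
        have k1 : b • (Submodule.mkQ (ϖ n • (⊤ : Submodule C (X ⧸ Y))) (Y.mkQ x')) = 0 := by
          rw [← map_smul, ← map_smul, J_kill hxk b hb, map_zero, map_zero]
        have k2 : ϖ n • (Submodule.mkQ (ϖ n • (⊤ : Submodule C (X ⧸ Y))) (Y.mkQ x')) = 0 := by
          rw [← map_smul, Submodule.mkQ_apply, Submodule.Quotient.mk_eq_zero]
          exact (Submodule.mem_smul_pointwise_iff_exists _ _ _).2 ⟨Y.mkQ x', trivial, rfl⟩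
        rw [add_smul, k1, mul_smul, k2, smul_zero, add_zero]
  · -- `Y = ϖ^k X`
    let y' : Y := ⟨ϖ n ^ k • x', (hmemY _).2 ⟨x', rfl⟩⟩
    have hy' : Submodule.span C {y'} = ⊤ := by
      rw [eq_top_iff]
      rintro ⟨y, hy⟩ -
      obtain ⟨z, hz⟩ := (hmemY y).1 hy
      have hz' : z ∈ Submodule.span C {x'} := by rw [hx']; trivial
      obtain ⟨a, rfl⟩ := Submodule.mem_span_singleton.1 hz'
      refine Submodule.mem_span_singleton.2 ⟨a, Subtype.ext ?_⟩
      change a • (ϖ n ^ k • x') = y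
      rw [← hz, smul_comm]
    refine (L_le_mul_quot Λ (ϖ n) (s n * N) Y ?_).trans ?_
    · intro y
      obtain ⟨c, hc'⟩ := hs n
      apply Subtype.ext
      change ϖ n ^ (s n * N) • (y : X) = 0
      rw [pow_mul, hc', mul_pow, mul_comm, mul_smul, hall, smul_zero]
    · gcongr
      refine L_cyclic_le Λ (Submodule.mkQ _ y') ?_ _ ?_
      · rw [← Set.image_singleton, ← Submodule.map_span, hy', Submodule.map_top,
          Submodule.range_mkQ]
      · intro a ha
        obtain ⟨b, hb, c, hc', rfl⟩ := Submodule.mem_sup.1 ha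
        obtain ⟨b1, hb1, b2, hb2, rfl⟩ := Submodule.mem_sup.1 hb
        obtain ⟨b2, rfl⟩ := Ideal.mem_span_singleton'.1 hb2
        obtain ⟨c, rfl⟩ := Ideal.mem_span_singleton'.1 hc'
        have k1 : b1 • y' = 0 := by
          refine J_kill (X := Y) (x := y') (t := t) (N := N) (fun i => ?_) b1 hb1
          apply Subtype.ext
          exact hall i _
        have k2 : d n • y' = 0 := by
          apply Subtype.ext
          apply Subtype.ext
          change d n • (ϖ n ^ k • x) = 0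
          rw [smul_smul, mul_comm]
          exact kill n x
        rw [← map_smul, add_smul, add_smul, k1, mul_smul c, k2, smul_zero, add_zero, zero_add,
          Submodule.mkQ_apply, Submodule.Quotient.mk_eq_zero, mul_smul]
        refine Submodule.smul_mem _ _ ?_
        exact (Submodule.mem_smul_pointwise_iff_exists _ _ _).2 ⟨y', trivial, rfl⟩

end abs

end Crest.Agent.R188.LenNull
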