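/-
R188, block L-NULL, part 2: the null criterion over an integrally closed domain `C = A^+`,
from two numbers over `A`.   helper200
-/
import Mathlib
import Crest.Agent.R188.LenNull1
import Crest.Agent.R183.Om1

set_option autoImplicit false

namespace Crest.Agent.R188.LenNull

open scoped ENNReal Pointwise
open Crest.Agent.R183 Crest.Agent.R188.Tow

universe u v

section dom

variable {A C : Type u} [CommRing A] [CommRing C] [IsDomain C] [IsIntegrallyClosed C] [Algebra A C]
  (Λ : AddLen.{u, u} C) (lam : AddLen.{u, u} A)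
variable {κ : Type*} [Finite κ] {t : κ → A}

omit [IsDomain C] [IsIntegrallyClosed C] [Finite κ] in
lemma J_map (N : ℕ) : (J t N).map (algebraMap A C) = J (fun i => algebraMap A C (t i)) N := by
  unfold J
  rw [Ideal.map_span, ← Set.range_comp]
  congr 2
  funext i
  simp

/-- the numbers over `A`: for `D` regular mod `p`, `η n ^ (p^n) ≡ D` modulo `p`,
`k λ(A/(J_N, ϖ_n)) + p^n N λ(A/(J_N, ϖ_n, η_n))` is arbitrarily small. -/
def Small (lam : AddLen.{u, u} A) (t : κ → A) (p : ℕ) (ϖ : ℕ → A) : Prop :=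
  ∀ (D : A), Om.RegMod D (p : A) → ∀ η : ℕ → A, (∀ n, (p : A) ∣ η n ^ p ^ n - D) →
    ∀ (k N : ℕ) (ε : ℝ≥0∞), 0 < ε → ∃ n,
      (k : ℝ≥0∞) * lam.L (A ⧸ (J t N ⊔ Ideal.span {ϖ n})) +
        ((p ^ n * N : ℕ) : ℝ≥0∞) *
          lam.L (A ⧸ (J t N ⊔ Ideal.span {ϖ n} ⊔ Ideal.span {η n})) ≤ ε

/-- **the NULL criterion**: a torsion `C`-module killed by `r n`, `r n ^ (p^n) = r₀ ≠ 0`, is null. -/
theorem null_of_roots {p : ℕ} [hp : Fact p.Prime]
    (hc : ContOn Λ (fun i => algebraMap A C (t i)))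
    (hval : ∀ (N : ℕ) (I : Ideal A), J t N ≤ I → Λ.L (C ⧸ I.map (algebraMap A C)) ≤ lam.L (A ⧸ I))
    (i₀ : κ) (ht : t i₀ = p)
    (hroot : ∀ (c : C) (n : ℕ), ∃ r, r ^ p ^ n = c)
    (hnorm : ∀ c : C, c ≠ 0 → ∃ (c' : C) (a : A), a ≠ 0 ∧ c * c' = algebraMap A C a)
    (hcont : ∀ a : A, a ≠ 0 → ∃ (b : A) (k : ℕ) (D : A), a * b = (p : A) ^ k * D ∧
      Om.RegMod D (p : A))
    (hfrob : ∀ (D : A) (n : ℕ), ∃ η, (p : A) ∣ η ^ p ^ n - D)
    (ϖ : ℕ → A) (hϖ : ∀ n, ϖ n ^ p ^ n = p) (hsmall : Small lam t p ϖ)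
    (V : Type u) [AddCommGroup V] [Module C V] (hV : Tors (fun i => algebraMap A C (t i)) V)
    (r₀ : C) (hr0 : r₀ ≠ 0) (r : ℕ → C) (hr : ∀ n, r n ^ p ^ n = r₀)
    (kill : ∀ (n : ℕ) (x : V), r n • x = 0) : Λ.L V = 0 := by
  obtain ⟨c₁, a, ha, hca₁⟩ := hnorm r₀ hr0
  obtain ⟨b₁, k, D, hab, hD⟩ := hcont a ha
  obtain ⟨c, hca⟩ : ∃ c, r₀ * c = algebraMap A C ((p : A) ^ k * D) :=
    ⟨c₁ * algebraMap A C b₁, by rw [← hab, map_mul, ← hca₁, mul_assoc]⟩
  choose cr hcr using fun n => hroot c n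
  choose d hd using fun n => hroot (algebraMap A C D) n
  choose η hη using fun n => hfrob D n
  have hpn : ∀ n, p ^ n ≠ 0 := fun n => pow_ne_zero _ hp.out.ne_zero
  -- `r n * cr n` and `ϖ n ^ k * d n` are associated
  have h1 : ∀ n, r n * cr n ∣ algebraMap A C (ϖ n) ^ k * d n := by
    intro n
    rw [← IsIntegrallyClosed.pow_dvd_pow_iff (hpn n), mul_pow, hr, hcr, hca, mul_pow, ← pow_mul,
      mul_comm k, pow_mul, ← map_pow, hϖ, hd, map_mul, map_pow]
  have hkill : ∀ (n : ℕ) (x : V), (algebraMap A C (ϖ n) ^ k * d n) • x = 0 := by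
    intro n x
    obtain ⟨e, he⟩ := h1 n
    rw [he, mul_assoc, mul_comm, mul_smul, kill, smul_zero]
  -- `d n ≡ η n` modulo `ϖ n`
  have h2 : ∀ n, algebraMap A C (ϖ n) ∣ algebraMap A C (η n) - d n := by
    intro n
    rw [← IsIntegrallyClosed.pow_dvd_pow_iff (hpn n), ← map_pow, hϖ, map_natCast]
    have h3 : (p : C) ∣ algebraMap A C (η n) ^ p ^ n - d n ^ p ^ n := by
      rw [hd, ← map_pow, ← map_sub, ← map_natCast (algebraMap A C)]
      exact map_dvd _ (hη n)
    have h4 : (p : C) ∣ (algebraMap A C (η n) - d n) ^ p ^ n -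
        (algebraMap A C (η n) ^ p ^ n - d n ^ p ^ n) := by
      rw [← Ideal.mem_span_singleton, ← Ideal.Quotient.eq_zero_iff_mem]
      by_cases hu : IsUnit (p : C)
      · rw [Ideal.Quotient.eq_zero_iff_mem, Ideal.span_singleton_eq_top.2 hu]; trivial
      · have : Nontrivial (C ⧸ Ideal.span {(p : C)}) :=
          Ideal.Quotient.nontrivial_iff.2 (fun h => hu (Ideal.span_singleton_eq_top.1 h))
        have : CharP (C ⧸ Ideal.span {(p : C)}) p := by
          refine (CharP.charP_iff_prime_eq_zero hp.out).2 ?_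
          rw [← map_natCast (Ideal.Quotient.mk (Ideal.span {(p : C)})),
            Ideal.Quotient.eq_zero_iff_mem]
          exact Ideal.mem_span_singleton_self _
        rw [map_sub, map_sub, map_pow, map_pow, map_pow, map_sub, sub_pow_char_pow, sub_self]
    have h6 := dvd_add h4 h3
    rwa [sub_add_cancel] at h6
  have h5 : ∀ n, Ideal.span {algebraMap A C (ϖ n)} ⊔ Ideal.span {d n} =
      Ideal.span {algebraMap A C (ϖ n)} ⊔ Ideal.span {algebraMap A C (η n)} := by
    intro n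
    obtain ⟨e, he⟩ := h2 n
    apply le_antisymm
    · refine sup_le le_sup_left ?_
      rw [Ideal.span_singleton_le_iff_mem]
      have : d n = algebraMap A C (η n) - algebraMap A C (ϖ n) * e := by rw [← he]; ring
      rw [this]
      exact Ideal.sub_mem _ (Ideal.mem_sup_right (Ideal.mem_span_singleton_self _))
        (Ideal.mem_sup_left (Ideal.mul_mem_right _ _ (Ideal.mem_span_singleton_self _)))
    · refine sup_le le_sup_left ?_
      rw [Ideal.span_singleton_le_iff_mem]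
      have : algebraMap A C (η n) = d n + algebraMap A C (ϖ n) * e := by rw [← he]; ring
      rw [this]
      exact Ideal.add_mem _ (Ideal.mem_sup_right (Ideal.mem_span_singleton_self _))
        (Ideal.mem_sup_left (Ideal.mul_mem_right _ _ (Ideal.mem_span_singleton_self _)))
  refine null_of_small Λ hc i₀ (fun n => algebraMap A C (ϖ n)) d (fun n => p ^ n) k ?_ ?_ V hV
    hkill
  · intro n
    rw [ht, ← map_pow, hϖ]
  · intro N ε hε
    obtain ⟨n, hn⟩ := hsmall D hD η hη k N ε hε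
    refine ⟨n, le_trans ?_ hn⟩
    gcongr
    · have := hval N (J t N ⊔ Ideal.span {ϖ n}) le_sup_left
      rwa [Ideal.map_sup, J_map, Ideal.map_span, Set.image_singleton] at this
    · have := hval N (J t N ⊔ Ideal.span {ϖ n} ⊔ Ideal.span {η n}) (le_sup_left.trans le_sup_left)
      rw [Ideal.map_sup, Ideal.map_sup, J_map, Ideal.map_span, Set.image_singleton,
        Ideal.map_span, Set.image_singleton, sup_assoc, ← h5, ← sup_assoc] at this
      exact this

end dom

end Crest.Agent.R188.LenNull
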