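/-
R188, block (L3): comparison of the length on `W(P)` with the given length on `Ω = W(P)/ξ`;
`L(D/ξ) = L(D/p)` for `p`-torsion free, `[π]`-nilpotent `D`; the package `World`.   helper200
-/
import Mathlib
import Crest.Agent.R188.LenW2

set_option autoImplicit false

namespace Crest.Agent.R188.LenW

open scoped ENNReal Pointwise
open Crest.Agent.R183

universe u v

section compare

variable {W Ω R : Type u} [CommRing W] [CommRing Ω] [CommRing R]

/-- the extension along `W → Ω → R`, restricted to `Ω`-modules, is the extension along `Ω → R`. -/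
theorem extf_comp_L (θ : W →+* Ω) (hθ : Function.Surjective θ) (r : Ω →+* R)
    (hr : Function.Surjective r) (Λ : AddLen.{u, v} R) (M : Type v) [AddCommGroup M] [Module W M]
    [Module Ω M] (h : ∀ (a : W) (x : M), a • x = θ a • x) :
    (extf (r.comp θ) (hr.comp hθ) Λ).L M = (extf r hr Λ).L M := by
  rw [← extf_extf θ hθ r hr Λ M, extf_L θ hθ _ M h]

/-- the extension of `Λ' | R` agrees with `Λ'` on torsion, for a continuous length `Λ'` on
`B`-modules, `B → Ω → R`. -/
theorem extf_restrict_agree {B : Type u} [CommRing B] (j : B →+* Ω) (r : Ω →+* R)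
    (hr : Function.Surjective r) (Λ' : AddLen.{u, v} B) (hc : Cont Λ')
    (M : Type v) [AddCommGroup M] [Module Ω M] [Module B M]
    (h : ∀ (b : B) (x : M), b • x = j b • x)
    (hM : ∀ x : M, ∃ n, ∀ a ∈ RingHom.ker r ^ n, a • x = 0) :
    (extf r hr (Λ'.restrict (r.comp j))).L M = Λ'.L M := by
  have hc' : Cont (extf r hr (Λ'.restrict (r.comp j))) :=
    extf_cont r hr _ (cont_restrict Λ' hc _)
  have h1 := agree_torsion (RingHom.ker r) (extf r hr (Λ'.restrict (r.comp j))) (Λ'.restrict j) hc'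
    (cont_restrict Λ' hc j) (fun N _ _ hN => by
      obtain ⟨_, h0⟩ := exists_module r hr N hN
      rw [extf_L r hr _ N h0]
      let _ : Module B N := Module.compHom N j
      rw [Λ'.restrict_L j N (fun _ _ => rfl), Λ'.restrict_L (r.comp j) N (fun b x => by
        change j b • x = _
        rw [h0]; rfl)]) M hM
  rw [h1, Λ'.restrict_L j M h]

end compare

section DXI

variable {A : Type u} [CommRing A] (Λ : AddLen.{u, v} A)

/-- `0 → N/aN → D/aD → (D/N)/a → 0` if `a` is injective on `D/N`. -/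
theorem L_quot_smul_add (a : A) {D : Type v} [AddCommGroup D] [Module A D] (N : Submodule A D)
    (h : ∀ x : D, a • x ∈ N → x ∈ N) :
    Λ.L (D ⧸ (a • (⊤ : Submodule A D))) =
      Λ.L (N ⧸ (a • (⊤ : Submodule A N))) + Λ.L ((D ⧸ N) ⧸ (a • (⊤ : Submodule A (D ⧸ N)))) := by
  have hle1 : (a • (⊤ : Submodule A N)) ≤ (a • (⊤ : Submodule A D)).comap N.subtype := by
    intro x hx
    obtain ⟨y, -, rfl⟩ := (Submodule.mem_smul_pointwise_iff_exists _ _ _).1 hx
    exact (Submodule.mem_smul_pointwise_iff_exists _ _ _).2 ⟨y.1, trivial, rfl⟩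
  have hle2 : (a • (⊤ : Submodule A D)) ≤ (a • (⊤ : Submodule A (D ⧸ N))).comap N.mkQ := by
    intro x hx
    obtain ⟨y, -, rfl⟩ := (Submodule.mem_smul_pointwise_iff_exists _ _ _).1 hx
    exact (Submodule.mem_smul_pointwise_iff_exists _ _ _).2 ⟨N.mkQ y, trivial, rfl⟩
  refine Λ.add' (Submodule.mapQ _ _ N.subtype hle1) (Submodule.mapQ _ _ N.mkQ hle2) ?_ ?_ ?_
  · rw [← LinearMap.ker_eq_bot, eq_bot_iff]
    intro x hx
    obtain ⟨x, rfl⟩ := Submodule.mkQ_surjective _ x
    rw [LinearMap.mem_ker, Submodule.mkQ_apply, Submodule.mapQ_apply,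
      Submodule.Quotient.mk_eq_zero] at hx
    obtain ⟨y, -, hy⟩ := (Submodule.mem_smul_pointwise_iff_exists _ _ _).1 hx
    rw [Submodule.mem_bot, Submodule.mkQ_apply, Submodule.Quotient.mk_eq_zero]
    have hy' : a • y = (x : D) := hy
    have hyN : y ∈ N := h y (by rw [hy']; exact x.2)
    exact (Submodule.mem_smul_pointwise_iff_exists _ _ _).2 ⟨⟨y, hyN⟩, trivial, Subtype.ext hy'⟩
  · intro y
    obtain ⟨y, rfl⟩ := Submodule.mkQ_surjective _ y
    obtain ⟨y, rfl⟩ := Submodule.mkQ_surjective _ y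
    exact ⟨Submodule.mkQ _ y, rfl⟩
  · intro x
    obtain ⟨x, rfl⟩ := Submodule.mkQ_surjective _ x
    constructor
    · intro hx
      rw [Submodule.mkQ_apply, Submodule.mapQ_apply, Submodule.Quotient.mk_eq_zero] at hx
      obtain ⟨y, -, hy⟩ := (Submodule.mem_smul_pointwise_iff_exists _ _ _).1 hx
      obtain ⟨y, rfl⟩ := Submodule.mkQ_surjective _ y
      have : x - a • y ∈ N := by
        rw [← Submodule.Quotient.eq]
        exact hy.symm
      refine ⟨Submodule.mkQ _ ⟨x - a • y, this⟩, ?_⟩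
      rw [Submodule.mkQ_apply, Submodule.mapQ_apply, Submodule.mkQ_apply, Submodule.Quotient.eq]
      refine (Submodule.mem_smul_pointwise_iff_exists _ _ _).2 ⟨-y, trivial, ?_⟩
      change a • -y = (x - a • y) - x
      rw [smul_neg]; abel
    · rintro ⟨y, hy⟩
      obtain ⟨y, rfl⟩ := Submodule.mkQ_surjective _ y
      rw [← hy]
      change Submodule.Quotient.mk (N.mkQ (y : D)) = 0
      have : N.mkQ (y : D) = 0 := by
        rw [Submodule.mkQ_apply, Submodule.Quotient.mk_eq_zero]; exact y.2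
      rw [this]; rfl

variable {p π u' ξ : A}

/-- `ξ = π + p u` is injective on a `p`-torsion free module killed by a power of `π`. -/
theorem xi_inj (hξ : ξ = π + p * u') (hu : IsUnit u') {D : Type v} [AddCommGroup D] [Module A D]
    (hp : ∀ x : D, p • x = 0 → x = 0) (M : ℕ) (hπ : ∀ x : D, π ^ M • x = 0) (x : D)
    (hx : ξ • x = 0) : x = 0 := by
  have h1 : π • x = (-(p * u')) • x := by
    rw [hξ, add_smul] at hx
    rw [neg_smul]
    exact eq_neg_of_add_eq_zero_left hx
  have h2 : ∀ k : ℕ, π ^ k • x = (-(p * u')) ^ k • x := by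
    intro k
    induction k with
    | zero => simp
    | succ k ih => rw [pow_succ', mul_smul, ih, smul_comm, h1, smul_smul, ← pow_succ]
  have h3 := h2 M
  rw [hπ] at h3
  obtain ⟨v, hv⟩ := hu.exists_left_inv
  have h4 : ∀ k : ℕ, p ^ k • x = 0 → x = 0 := by
    intro k
    induction k with
    | zero => intro h; simpa using h
    | succ k ih =>
      intro h
      refine ih (hp _ ?_)
      rwa [smul_smul, ← pow_succ']
  refine h4 M ?_
  have h5 : (-v) ^ M • ((-(p * u')) ^ M • x) = p ^ M • x := by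
    rw [smul_smul, ← mul_pow]
    congr 2
    linear_combination p * hv
  rw [← h5, ← h3, smul_zero]

/-- **(DXI)** `L(D/ξ) = L(D/p)` for `D` `p`-torsion free and killed by a power of `π`,
`ξ = π + p * unit`. -/
theorem L_quot_xi (hξ : ξ = π + p * u') (hu : IsUnit u') (M : ℕ) {D : Type v} [AddCommGroup D]
    [Module A D] (hp : ∀ x : D, p • x = 0 → x = 0) (hπ : ∀ x : D, π ^ M • x = 0) :
    Λ.L (D ⧸ (ξ • (⊤ : Submodule A D))) = Λ.L (D ⧸ (p • (⊤ : Submodule A D))) := by
  induction M generalizing D with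
  | zero =>
    have : Subsingleton D := subsingleton_of_forall_eq 0 fun x => by simpa using hπ x
    rw [Λ.L_subsingleton, Λ.L_subsingleton]
  | succ M ih =>
    set N : Submodule A D := LinearMap.ker (LinearMap.lsmul A D π) with hN
    have hmem : ∀ x : D, x ∈ N ↔ π • x = 0 := fun x => by rw [hN]; rfl
    have hpG : ∀ x : D, p • x ∈ N → x ∈ N := by
      intro x hx
      rw [hmem] at hx ⊢
      rw [smul_comm] at hx
      exact hp _ hx
    have hpG' : ∀ x : D ⧸ N, p • x = 0 → x = 0 := by
      intro x hx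
      obtain ⟨x, rfl⟩ := Submodule.Quotient.mk_surjective _ x
      rw [← Submodule.Quotient.mk_smul, Submodule.Quotient.mk_eq_zero] at hx
      rw [Submodule.Quotient.mk_eq_zero]
      exact hpG x hx
    have hπG : ∀ x : D ⧸ N, π ^ M • x = 0 := by
      intro x
      obtain ⟨x, rfl⟩ := Submodule.Quotient.mk_surjective _ x
      rw [← Submodule.Quotient.mk_smul, Submodule.Quotient.mk_eq_zero, hmem, smul_smul,
        ← pow_succ']
      exact hπ x
    have hξG : ∀ x : D, ξ • x ∈ N → x ∈ N := by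
      intro x hx
      rw [← Submodule.Quotient.mk_eq_zero, Submodule.Quotient.mk_smul] at hx
      rw [← Submodule.Quotient.mk_eq_zero]
      exact xi_inj hξ hu hpG' M hπG _ hx
    rw [L_quot_smul_add Λ ξ N hξG, L_quot_smul_add Λ p N hpG, ih hpG' hπG]
    congr 1
    have hEq : (ξ • (⊤ : Submodule A N)) = p • (⊤ : Submodule A N) := by
      obtain ⟨v, hv⟩ := hu.exists_left_inv
      apply le_antisymm
      · intro x hx
        obtain ⟨y, -, rfl⟩ := (Submodule.mem_smul_pointwise_iff_exists _ _ _).1 hx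
        refine (Submodule.mem_smul_pointwise_iff_exists _ _ _).2 ⟨u' • y, trivial, ?_⟩
        apply Subtype.ext
        have h0 := (hmem _).1 y.2
        change p • (u' • (y : D)) = ξ • (y : D)
        rw [hξ, add_smul, h0, zero_add, mul_smul]
      · intro x hx
        obtain ⟨y, -, rfl⟩ := (Submodule.mem_smul_pointwise_iff_exists _ _ _).1 hx
        refine (Submodule.mem_smul_pointwise_iff_exists _ _ _).2 ⟨v • y, trivial, ?_⟩
        apply Subtype.ext
        have h0 := (hmem _).1 y.2
        change ξ • (v • (y : D)) = p • (y : D)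
        rw [hξ, add_smul, smul_comm π v, h0, smul_zero, zero_add, smul_smul]
        congr 1
        linear_combination p * hv
    rw [hEq]

/-- `D' ∩ ξ D = ξ D'` if `D/D'` is `p`-torsion free and killed by a power of `π`. -/
theorem mem_smul_of_quot (hξ : ξ = π + p * u') (hu : IsUnit u') {D : Type v} [AddCommGroup D]
    [Module A D] (D' : Submodule A D) (hp : ∀ x : D, p • x ∈ D' → x ∈ D') (M : ℕ)
    (hπ : ∀ x : D, π ^ M • x ∈ D') (x : D) (hx : ξ • x ∈ D') : x ∈ D' := by
  rw [← Submodule.Quotient.mk_eq_zero]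
  refine xi_inj hξ hu (D := D ⧸ D') ?_ M ?_ _ ?_
  · intro y hy
    obtain ⟨y, rfl⟩ := Submodule.Quotient.mk_surjective _ y
    rw [← Submodule.Quotient.mk_smul, Submodule.Quotient.mk_eq_zero] at hy
    rw [Submodule.Quotient.mk_eq_zero]
    exact hp y hy
  · intro y
    obtain ⟨y, rfl⟩ := Submodule.Quotient.mk_surjective _ y
    rw [← Submodule.Quotient.mk_smul, Submodule.Quotient.mk_eq_zero]
    exact hπ y
  · rw [← Submodule.Quotient.mk_smul, Submodule.Quotient.mk_eq_zero]
    exact hx

/-- Herbrand: on a module of finite length, `L(X/aX) = L(X[a])`. -/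
theorem L_coker_eq_ker (a : A) {X : Type v} [AddCommGroup X] [Module A X] (hX : Λ.L X ≠ ⊤) :
    Λ.L (X ⧸ (a • (⊤ : Submodule A X))) = Λ.L (LinearMap.ker (LinearMap.lsmul A X a)) := by
  have h1 := Λ.L_ker_add_range (LinearMap.lsmul A X a)
  have h2 := Λ.L_eq_add_quotient (LinearMap.range (LinearMap.lsmul A X a))
  have hr : (a • (⊤ : Submodule A X)) = LinearMap.range (LinearMap.lsmul A X a) := by
    ext x
    rw [Submodule.mem_smul_pointwise_iff_exists]
    constructor
    · rintro ⟨y, -, rfl⟩; exact ⟨y, rfl⟩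
    · rintro ⟨y, rfl⟩; exact ⟨y, trivial, rfl⟩
  rw [hr]
  rw [h1, add_comm] at h2
  exact ((ENNReal.add_right_inj (ne_top_of_le_ne_top hX (Λ.L_submodule_le _))).1 h2).symm

end DXI

end Crest.Agent.R188.LenW
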