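/-
R188, block (L): from a length on `A^+`-modules to the length on `W(P)`-modules of helper702's
`World`: continuity, Frobenius, agreement, null modules, the value on `P/(t)`.   helper200
-/
import Mathlib
import Crest.Agent.R188.LenW3
import Crest.Agent.R188.LenNull2
import Crest.Agent.R188.Frb3
import Crest.Agent.R188.Wit2

set_option autoImplicit false
set_option linter.unusedSectionVars false

namespace Crest.Agent.R188.LenWorld

open WittVector Crest.Agent.R183 Crest.Agent.R188.Prf Crest.Agent.R188.Wit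
open Crest.Agent.R188.LenW Crest.Agent.R188.Tow
open scoped ENNReal

universe u

/-! ### continuity -/

/-- continuity from continuity on torsion modules. -/
theorem cont_of_contOn {C : Type u} [CommRing C] {κ : Type*} {t : κ → C} (Λ : AddLen.{u, u} C)
    (hc : ContOn Λ t)
    (htop : ∀ (M : Type u) [AddCommGroup M] [Module C M], ¬ Tors t M → Λ.L M = ⊤) : Cont Λ := by
  intro M _ _ c h
  by_cases hM : Tors t M
  · rw [hc.eq_iSup hM]
    exact iSup_le fun E => h _ ⟨E, rfl⟩
  · by_cases hcT : c = ⊤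
    · rw [hcT]; exact le_top
    · exfalso
      apply hM
      intro x i
      by_contra hx
      have h1 : ¬ Tors t (Submodule.span C {x}) := by
        intro hT
        obtain ⟨n, hn⟩ := hT ⟨x, Submodule.mem_span_singleton_self x⟩ i
        exact hx ⟨n, congrArg Subtype.val hn⟩
      have h2 := h (Submodule.span C {x}) ⟨{x}, by simp⟩
      rw [htop _ h1, top_le_iff] at h2
      exact hcT h2

/-! ### the reduction `Ω → P/π` -/

section red

variable {p : ℕ} [hp : Fact p.Prime] {P : Type u} [CommRing P]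

lemma constantCoeff_surjective : Function.Surjective (constantCoeff (p := p) (R := P)) := by
  intro a
  exact ⟨teichmuller p a, by simp [constantCoeff]⟩

variable (h : IsPerf p P) {ξ : WittVector p P} {π : P} (hξ : IsDist ξ π)

include h in
lemma constantCoeff_xi (hξ : IsDist ξ π) : constantCoeff ξ = π := by
  obtain ⟨u, -, rfl⟩ := hξ.ex
  rw [map_add, map_mul, map_natCast, h.p_zero, zero_mul, add_zero]
  simp [constantCoeff]

/-- the reduction `Ω = W(P)/ξ → P/π`. -/
noncomputable def red : Om ξ →+* P ⧸ Ideal.span {π} :=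
  Ideal.Quotient.lift (Ideal.span {ξ})
    ((Ideal.Quotient.mk (Ideal.span {π})).comp (constantCoeff (p := p))) (by
      intro a ha
      obtain ⟨b, rfl⟩ := Ideal.mem_span_singleton'.1 ha
      rw [RingHom.comp_apply, map_mul, constantCoeff_xi h hξ, Ideal.Quotient.eq_zero_iff_mem]
      exact Ideal.mul_mem_left _ _ (Ideal.mem_span_singleton_self π))

lemma red_θ (w : WittVector p P) :
    red h hξ (θ ξ w) = Ideal.Quotient.mk (Ideal.span {π}) (constantCoeff w) := rfl

lemma red_comp_θ : (red h hξ).comp (θ ξ) =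
    (Ideal.Quotient.mk (Ideal.span {π})).comp (constantCoeff (p := p)) := rfl

lemma red_sh (a : P) : red h hξ (sh ξ a) = Ideal.Quotient.mk (Ideal.span {π}) a := by
  rw [sh, red_θ]
  simp [constantCoeff]

lemma red_surjective : Function.Surjective (red h hξ) := by
  intro x
  obtain ⟨a, rfl⟩ := Ideal.Quotient.mk_surjective x
  exact ⟨sh ξ a, red_sh h hξ a⟩

lemma red_p : red h hξ (p : Om ξ) = 0 := by
  rw [map_natCast, ← map_natCast (Ideal.Quotient.mk (Ideal.span {π})), h.p_zero, map_zero]

lemma ker_red (x : Om ξ) : red h hξ x = 0 ↔ (p : Om ξ) ∣ x := by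
  constructor
  · intro hx
    obtain ⟨w, rfl⟩ := θ_surjective ξ x
    rw [red_θ, Ideal.Quotient.eq_zero_iff_mem] at hx
    obtain ⟨a, ha⟩ := Ideal.mem_span_singleton'.1 hx
    obtain ⟨w', hw'⟩ := exists_eq_teich_add h w
    have h0 : w.coeff 0 = a * π := by rw [ha]; simp [constantCoeff]
    obtain ⟨e, -, he⟩ := exists_unit hξ
    obtain ⟨u, hu, hxi⟩ := hξ.ex
    have h1 : θ ξ (teichmuller p π) = -(p : Om ξ) * θ ξ u := by
      have h2 : θ ξ (teichmuller p π + (p : WittVector p P) * u) = 0 := by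
        rw [← hxi]; exact θ_xi ξ
      rw [map_add, map_mul, map_natCast] at h2
      linear_combination h2
    rw [hw', h0, map_add, map_mul, map_mul, map_mul, map_natCast, h1]
    exact ⟨-(θ ξ (teichmuller p a)) * θ ξ u + θ ξ w', by ring⟩
  · rintro ⟨y, rfl⟩
    rw [map_mul, red_p, zero_mul]

end red

/-! ### Frobenius -/

section frob

variable {p : ℕ} [hp : Fact p.Prime] {P : Type u} [CommRing P] (h : IsPerf p P)

/-- the Frobenius automorphism of a perfect ring -/
noncomputable def frobE : P ≃+* P :=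
  RingEquiv.ofBijective
    ({ toFun := fun x => x ^ p
       map_one' := one_pow _
       map_mul' := fun x y => mul_pow x y p
       map_zero' := zero_pow hp.out.ne_zero
       map_add' := fun x y => add_pow_p h.p_zero x y } : P →+* P)
    ⟨fun _ _ hxy => h.pow_inj hxy, fun x => h.surj x⟩

lemma frobE_apply (c : P) : frobE h c = c ^ p := rfl

/-- 453's twisted maps give `FrobS` for the restriction to a ring of characteristic `p`. -/
theorem frobS_of_tw {R : Type u} [CommRing R] (Λ : AddLen.{u, u} R) (κ : ℝ≥0∞)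
    (hΛ : ∀ (V V' : Type u) [AddCommGroup V] [Module R V] [AddCommGroup V'] [Module R V']
      (φ : V ≃+ V'), Frb.Tw p (C := R) φ → Λ.L V' = κ * Λ.L V)
    {S : Type u} [CommRing S] (f : R →+* S) (hS : (p : S) = 0) : FrobS (Λ.restrict f) p κ := by
  intro Y Y' _ _ _ _ e he
  let _ : Module R Y := Module.compHom Y f
  let _ : Module R Y' := Module.compHom Y' f
  rw [Λ.restrict_L f Y (fun _ _ => rfl), Λ.restrict_L f Y' (fun _ _ => rfl)]
  refine (hΛ Y' Y e.symm ⟨fun a x => ?_, fun y => ?_⟩).symm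
  · change e.symm (f a • x) = f (a ^ p) • e.symm x
    rw [AddEquiv.symm_apply_eq, map_pow, ← he, e.apply_symm_apply]
  · change f (p : R) • y = 0
    rw [map_natCast, hS, zero_smul]

end frob

/-! ### the length on `W(P)`-modules -/

section main

variable {p : ℕ} [hp : Fact p.Prime] {P : Type u} [CommRing P] (h : IsPerf p P)
  {ξ : WittVector p P} {π : P} (hξ : IsDist ξ π)
  {R : Type u} [CommRing R] (j : R →+* Om ξ) (Λ : AddLen.{u, u} R)

/-- the length on `P/π`-modules -/
noncomputable def L0 : AddLen.{u, u} (P ⧸ Ideal.span {π}) := Λ.restrict ((red h hξ).comp j)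

/-- the length on `P`-modules -/
noncomputable def LPf : AddLen.{u, u} P :=
  extf (Ideal.Quotient.mk (Ideal.span {π})) Ideal.Quotient.mk_surjective (L0 h hξ j Λ)

/-- **the length on `W(P)`-modules** -/
noncomputable def LW : AddLen.{u, u} (WittVector p P) :=
  extf (constantCoeff (p := p)) constantCoeff_surjective (LPf h hξ j Λ)

theorem cont_LW (hc : Cont Λ) : Cont (LW h hξ j Λ) :=
  extf_cont _ _ _ (extf_cont _ _ _ (cont_restrict Λ hc _))

/-- on `P`-modules -/
theorem LW_restrict_L (Y : Type u) [AddCommGroup Y] [Module P Y] :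
    ((LW h hξ j Λ).restrict (constantCoeff (p := p))).L Y = (LPf h hξ j Λ).L Y := by
  let _ : Module (WittVector p P) Y := Module.compHom Y (constantCoeff (p := p))
  rw [AddLen.restrict_L _ _ Y (fun _ _ => rfl)]
  exact extf_L _ _ _ Y (fun _ _ => rfl)

theorem frob_LPf (κ : ℝ≥0∞) (hκ0 : κ ≠ 0) (hκ : κ ≠ ⊤)
    (hΛ : ∀ (V V' : Type u) [AddCommGroup V] [Module R V] [AddCommGroup V'] [Module R V']
      (φ : V ≃+ V'), Frb.Tw p (C := R) φ → Λ.L V' = κ * Λ.L V) : FrobS (LPf h hξ j Λ) p κ := by
  refine FrobS.extf hκ0 hκ hp.out.pos (frobE h) (frobE_apply h) _ _ π ?_ ?_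
  · exact Ideal.mk_ker
  · refine frobS_of_tw Λ κ hΛ _ ?_
    rw [← map_natCast (Ideal.Quotient.mk (Ideal.span {π})), h.p_zero, map_zero]

/-- **World.frob** -/
theorem frob_LW (κ : ℝ≥0∞) (hκ0 : κ ≠ 0) (hκ : κ ≠ ⊤)
    (hΛ : ∀ (V V' : Type u) [AddCommGroup V] [Module R V] [AddCommGroup V'] [Module R V']
      (φ : V ≃+ V'), Frb.Tw p (C := R) φ → Λ.L V' = κ * Λ.L V)
    (Y Y' : Type u) [AddCommGroup Y] [Module P Y] [AddCommGroup Y'] [Module P Y'] (e : Y ≃+ Y')
    (he : ∀ (a : P) (y : Y), e (a • y) = a ^ p • e y) :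
    ((LW h hξ j Λ).restrict (constantCoeff (p := p))).L Y' =
      κ * ((LW h hξ j Λ).restrict (constantCoeff (p := p))).L Y := by
  rw [LW_restrict_L, LW_restrict_L]
  refine (frob_LPf h hξ j Λ κ hκ0 hκ hΛ Y' Y e.symm fun c y => ?_).symm
  rw [AddEquiv.eq_symm_apply, he, e.apply_symm_apply]

/-- on `P/π`-modules -/
theorem LW_L_of_red (X : Type u) [AddCommGroup X] [Module (WittVector p P) X]
    [Module (P ⧸ Ideal.span {π}) X]
    (hX : ∀ (w : WittVector p P) (x : X), w • x = Ideal.Quotient.mk (Ideal.span {π})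
      (constantCoeff w) • x) : (LW h hξ j Λ).L X = (L0 h hξ j Λ).L X := by
  let _ : Module P X := Module.compHom X (Ideal.Quotient.mk (Ideal.span {π}))
  rw [LW, extf_L _ _ _ X (fun w x => hX w x), LPf]
  exact extf_L _ _ _ X (fun _ _ => rfl)

/-- **agreement with `Λ` on `p`-power torsion `Ω`-modules** -/
theorem LW_theta_L (hc : Cont Λ) (X : Type u) [AddCommGroup X] [Module (Om ξ) X] [Module R X]
    (hX : ∀ (b : R) (x : X), b • x = j b • x) (ht : ∀ x : X, ∃ n : ℕ, (p : Om ξ) ^ n • x = 0) :
    ((LW h hξ j Λ).restrict (θ ξ)).L X = Λ.L X := by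
  let _ : Module (WittVector p P) X := Module.compHom X (θ ξ)
  rw [AddLen.restrict_L _ _ X (fun _ _ => rfl), LW, LPf, extf_extf]
  rw [show (extf ((Ideal.Quotient.mk (Ideal.span {π})).comp (constantCoeff (p := p)))
      (Ideal.Quotient.mk_surjective.comp constantCoeff_surjective) (L0 h hξ j Λ)).L X =
      (extf ((red h hξ).comp (θ ξ)) ((red_surjective h hξ).comp (θ_surjective ξ))
        (L0 h hξ j Λ)).L X from rfl]
  rw [extf_comp_L (θ ξ) (θ_surjective ξ) (red h hξ) (red_surjective h hξ) _ X (fun _ _ => rfl)]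
  refine extf_restrict_agree j (red h hξ) (red_surjective h hξ) Λ hc X hX fun x => ?_
  obtain ⟨n, hn⟩ := ht x
  refine ⟨n, fun a ha => ?_⟩
  have hle : RingHom.ker (red h hξ) = Ideal.span {(p : Om ξ)} := by
    ext y
    rw [RingHom.mem_ker, ker_red, Ideal.mem_span_singleton]
  rw [hle, Ideal.span_singleton_pow, Ideal.mem_span_singleton] at ha
  obtain ⟨b, rfl⟩ := ha
  rw [mul_comm, mul_smul, hn, smul_zero]

end main

end Crest.Agent.R188.LenWorld
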