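/-
R188, block (L): null modules, the value on `P/(t)`, and `L_reg` for the length on
`W(P)`-modules.   helper200
-/
import Mathlib
import Crest.Agent.R188.LenWorld1
import Crest.Agent.R188.KosF

set_option autoImplicit false
set_option linter.unusedSectionVars false

namespace Crest.Agent.R188.LenWorld

open WittVector Crest.Agent.R183 Crest.Agent.R188.Prf Crest.Agent.R188.Wit
open Crest.Agent.R188.LenW Crest.Agent.R188.Tow
open scoped ENNReal

universe u v

section null

variable {p : ℕ} [hp : Fact p.Prime] {P : Type u} [CommRing P] (h : IsPerf p P)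
  {ξ : WittVector p P} {π : P} (hξ : IsDist ξ π)
  {R : Type u} [CommRing R] (j : R →+* Om ξ) (Λ : AddLen.{u, u} R)
  {κ : Type*} (t : κ → P) (tR : κ → R) (htR : ∀ i, sh ξ (t i) = j (tR i))

include h in
/-- the kernel of `W(P) → P/π` is `(p, [π])`. -/
lemma ker_le : RingHom.ker ((Ideal.Quotient.mk (Ideal.span {π})).comp
    (constantCoeff (p := p) (R := P))) ≤
      Ideal.span {(p : WittVector p P)} ⊔ Ideal.span {teichmuller p π} := by
  intro w hw
  rw [RingHom.mem_ker, RingHom.comp_apply, Ideal.Quotient.eq_zero_iff_mem] at hw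
  obtain ⟨a, ha⟩ := Ideal.mem_span_singleton'.1 hw
  obtain ⟨w', hw'⟩ := exists_eq_teich_add h w
  have h0 : w.coeff 0 = a * π := by rw [ha]; simp [constantCoeff]
  rw [hw', h0, map_mul]
  exact Ideal.add_mem _ (Ideal.mem_sup_right (Ideal.mul_mem_left _ _
    (Ideal.mem_span_singleton_self _))) (Ideal.mem_sup_left (Ideal.mul_mem_right _ _
    (Ideal.mem_span_singleton_self _)))

include htR in
/-- modules killed by a power of `(p, [π])`. -/
theorem null_of_pow (a : P) (r : ℕ → R) (har : ∀ n, sh ξ (h.rtn n a) = j (r n))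
    (hnull : ∀ (V : Type u) [AddCommGroup V] [Module R V], Tors tR V →
      (∀ (n : ℕ) (x : V), r n • x = 0) → Λ.L V = 0) (M : ℕ)
    (X : Type u) [AddCommGroup X] [Module (WittVector p P) X]
    (hX : ∀ (x : X) (i : κ), ∃ N : ℕ, teichmuller p (t i) ^ N • x = 0)
    (hkill : ∀ (n : ℕ) (x : X), teichmuller p (h.rtn n a) • x = 0)
    (hM : ∀ w ∈ RingHom.ker ((Ideal.Quotient.mk (Ideal.span {π})).comp
      (constantCoeff (p := p) (R := P))) ^ M, ∀ x : X, w • x = 0) :
    (LW h hξ j Λ).L X = 0 := by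
  set g := (Ideal.Quotient.mk (Ideal.span {π})).comp (constantCoeff (p := p) (R := P)) with hg
  have hgs : Function.Surjective g := Ideal.Quotient.mk_surjective.comp constantCoeff_surjective
  induction M generalizing X with
  | zero =>
    have : Subsingleton X := subsingleton_of_forall_eq 0 fun x => by
      simpa using hM 1 (by simp) x
    exact AddLen.L_subsingleton _
  | succ M ih =>
    rw [(LW h hξ j Λ).L_eq_add_quotient (RingHom.ker g • (⊤ : Submodule (WittVector p P) X))]
    rw [ih (RingHom.ker g • (⊤ : Submodule (WittVector p P) X) : Submodule (WittVector p P) X)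
      ?_ ?_ ?_, zero_add]
    · -- the quotient
      set Q := X ⧸ (RingHom.ker g • (⊤ : Submodule (WittVector p P) X)) with hQ
      have hQk : ∀ w ∈ RingHom.ker g, ∀ x : Q, w • x = 0 := by
        intro w hw x
        obtain ⟨x, rfl⟩ := Submodule.Quotient.mk_surjective _ x
        rw [← Submodule.Quotient.mk_smul, Submodule.Quotient.mk_eq_zero]
        exact Submodule.smul_mem_smul hw trivial
      obtain ⟨_, h0⟩ := exists_module g hgs Q hQk
      rw [LW_L_of_red h hξ j Λ Q h0, L0]
      let _ : Module R Q := Module.compHom Q ((red h hξ).comp j)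
      rw [Λ.restrict_L _ Q (fun _ _ => rfl)]
      have hact : ∀ (b : R) (c : P) (x : Q), sh ξ c = j b → b • x = teichmuller p c • x := by
        intro b c x hbc
        have h1 : b • x = red h hξ (j b) • x := rfl
        rw [h1, ← hbc, red_sh, h0]
        congr 1
      refine hnull Q ?_ ?_
      · intro x i
        obtain ⟨x, rfl⟩ := Submodule.Quotient.mk_surjective _ x
        obtain ⟨N, hN⟩ := hX x i
        refine ⟨N, ?_⟩
        have h2 : tR i ^ N • (Submodule.Quotient.mk x : Q) =
            teichmuller p (t i ^ N) • (Submodule.Quotient.mk x : Q) :=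
          hact _ _ _ (by rw [sh_pow, htR, map_pow])
        rw [h2, map_pow, ← Submodule.Quotient.mk_smul, hN, Submodule.Quotient.mk_zero]
      · intro n x
        obtain ⟨x, rfl⟩ := Submodule.Quotient.mk_surjective _ x
        have h2 : r n • (Submodule.Quotient.mk x : Q) =
            teichmuller p (h.rtn n a) • (Submodule.Quotient.mk x : Q) := hact _ _ _ (har n)
        rw [h2, ← Submodule.Quotient.mk_smul, hkill, Submodule.Quotient.mk_zero]
    · rintro ⟨x, hx⟩ i
      obtain ⟨N, hN⟩ := hX x i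
      exact ⟨N, Subtype.ext hN⟩
    · rintro n ⟨x, hx⟩
      exact Subtype.ext (hkill n x)
    · intro w hw x
      obtain ⟨x, hx⟩ := x
      apply Subtype.ext
      change w • x = 0
      refine Submodule.smul_induction_on hx ?_ ?_
      · intro b hb y _
        rw [smul_smul]
        exact hM _ (by rw [pow_succ]; exact Ideal.mul_mem_mul hw hb) y
      · intro y z hy hz
        rw [smul_add, hy, hz, add_zero]

include htR in
/-- **World.null** -/
theorem null_LW (hc : Cont Λ) (i₀ : κ) (hi₀ : t i₀ ∣ π) (a : P) (r : ℕ → R)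
    (har : ∀ n, sh ξ (h.rtn n a) = j (r n))
    (hnull : ∀ (V : Type u) [AddCommGroup V] [Module R V], Tors tR V →
      (∀ (n : ℕ) (x : V), r n • x = 0) → Λ.L V = 0)
    (X : Type u) [AddCommGroup X] [Module (WittVector p P) X]
    (hX : ∀ x : X, ∃ N : ℕ, (p : WittVector p P) ^ N • x = 0 ∧
      ∀ i, teichmuller p (t i) ^ N • x = 0)
    (hkill : ∀ (n : ℕ) (x : X), teichmuller p (h.rtn n a) • x = 0) :
    (LW h hξ j Λ).L X = 0 := by
  rw [← le_zero_iff]
  refine cont_LW h hξ j Λ hc X 0 fun E hE => ?_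
  rw [le_zero_iff]
  have hpt : ∀ x : X, ∃ n, ∀ w ∈ RingHom.ker ((Ideal.Quotient.mk (Ideal.span {π})).comp
      (constantCoeff (p := p) (R := P))) ^ n, w • x = 0 := by
    intro x
    obtain ⟨N, hN, hN'⟩ := hX x
    refine ⟨N + N, fun w hw => ?_⟩
    have h1 : w ∈ Ideal.span {(p : WittVector p P)} ^ N ⊔ Ideal.span {teichmuller p π} ^ N :=
      Ideal.sup_pow_add_le_pow_sup_pow (Ideal.pow_right_mono (ker_le h) _ hw)
    rw [Ideal.span_singleton_pow, Ideal.span_singleton_pow] at h1
    obtain ⟨w1, hw1, w2, hw2, rfl⟩ := Submodule.mem_sup.1 h1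
    obtain ⟨c1, rfl⟩ := Ideal.mem_span_singleton'.1 hw1
    obtain ⟨c2, rfl⟩ := Ideal.mem_span_singleton'.1 hw2
    obtain ⟨e, he⟩ := hi₀
    rw [add_smul, mul_smul, hN, smul_zero, zero_add, he, map_mul, mul_pow, mul_smul,
      mul_comm (teichmuller p (t i₀) ^ N), mul_smul, hN', smul_zero, smul_zero]
  obtain ⟨M, hM⟩ := kill_of_fg _ hpt E hE
  refine null_of_pow h hξ j Λ t tR htR a r har hnull M E ?_ ?_ hM
  · rintro ⟨x, hx⟩ i
    obtain ⟨N, -, hN⟩ := hX x
    exact ⟨N, Subtype.ext (hN i)⟩
  · rintro n ⟨x, hx⟩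
    exact Subtype.ext (hkill n x)

variable (hj1 : ∀ x : Om ξ, ∃ a, (p : Om ξ) ∣ x - j a)
  (hj2 : ∀ a, (p : Om ξ) ∣ j a → (p : R) ∣ a)

include hj1 in
lemma redj_surjective : Function.Surjective ((red h hξ).comp j) := by
  intro x
  obtain ⟨y, rfl⟩ := red_surjective h hξ x
  obtain ⟨a, ha⟩ := hj1 y
  refine ⟨a, ?_⟩
  rw [RingHom.comp_apply, eq_comm, ← sub_eq_zero, ← map_sub, ker_red]
  exact ha

include hj2 in
lemma redj_ker : RingHom.ker ((red h hξ).comp j) = Ideal.span {(p : R)} := by
  ext a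
  rw [RingHom.mem_ker, RingHom.comp_apply, ker_red, Ideal.mem_span_singleton]
  refine ⟨hj2 a, ?_⟩
  rintro ⟨b, rfl⟩
  rw [map_mul, map_natCast]
  exact dvd_mul_right _ _

include htR hj1 hj2 in
/-- **the value on `P/(t)`** -/
theorem LW_quot (i₀ : κ) (hi₀ : t i₀ ∣ π) (hp₀ : tR i₀ ∣ (p : R)) :
    ((LW h hξ j Λ).restrict (constantCoeff (p := p))).L (P ⧸ Ideal.span (Set.range t)) =
      Λ.L (R ⧸ Ideal.span (Set.range tR)) := by
  rw [LW_restrict_L]
  set J := Ideal.span (Set.range t) with hJ
  set fj := (red h hξ).comp j with hfj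
  have hle : Ideal.span {π} ≤ J := by
    rw [Ideal.span_singleton_le_iff_mem]
    obtain ⟨e, he⟩ := hi₀
    rw [he]
    exact Ideal.mul_mem_right _ _ (Ideal.subset_span ⟨i₀, rfl⟩)
  let fac : P ⧸ Ideal.span {π} →+* P ⧸ J := Ideal.Quotient.factor hle
  let _ : Module (P ⧸ Ideal.span {π}) (P ⧸ J) := Module.compHom _ fac
  have e1 : (LPf h hξ j Λ).L (P ⧸ J) = (L0 h hξ j Λ).L (P ⧸ J) :=
    extf_L _ _ _ _ (fun a x => by
      obtain ⟨x, rfl⟩ := Ideal.Quotient.mk_surjective x
      rfl)
  rw [e1, L0]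
  let _ : Module R (P ⧸ J) := Module.compHom _ fj
  rw [Λ.restrict_L _ (P ⧸ J) (fun _ _ => rfl)]
  let g : R →+* P ⧸ J := fac.comp fj
  have hgs : Function.Surjective g :=
    (Ideal.Quotient.factor_surjective hle).comp (redj_surjective h hξ j hj1)
  have hker : RingHom.ker g = Ideal.span (Set.range tR) := by
    have h1 : RingHom.ker g = Ideal.comap fj (RingHom.ker fac) := RingHom.comap_ker _ _ |>.symm
    have h2 : RingHom.ker fac = (Ideal.span (Set.range tR)).map fj := by
      rw [Ideal.Quotient.factor_ker, hJ, Ideal.map_span, Ideal.map_span, ← Set.range_comp,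
        ← Set.range_comp]
      congr 2
      funext i
      simp only [Function.comp_apply]
      rw [hfj, RingHom.comp_apply, ← htR, red_sh]
    rw [h1, h2, Ideal.comap_map_of_surjective _ (redj_surjective h hξ j hj1)]
    have h3 : Ideal.comap fj ⊥ = Ideal.span {(p : R)} := redj_ker h hξ j hj2
    rw [h3]
    refine sup_eq_left.2 ?_
    rw [Ideal.span_singleton_le_iff_mem]
    obtain ⟨e, he⟩ := hp₀
    rw [he]
    exact Ideal.mul_mem_right _ _ (Ideal.subset_span ⟨i₀, rfl⟩)
  refine (Λ.L_congr (M := R ⧸ Ideal.span (Set.range tR)) (N := P ⧸ J) ?_).symm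
  let gl : R →ₗ[R] (P ⧸ J) :=
    { toFun := g
      map_add' := map_add g
      map_smul' := fun a x => by
        change g (a * x) = a • g x
        rw [map_mul]
        obtain ⟨y, hy⟩ := Ideal.Quotient.mk_surjective (g x)
        rw [← hy]
        rfl }
  have hkl : LinearMap.ker gl = Ideal.span (Set.range tR) := by
    rw [← hker]; ext x; rfl
  exact (Submodule.quotEquivOfEq _ _ hkl.symm).trans (gl.quotKerEquivOfSurjective hgs)

end null

end Crest.Agent.R188.LenWorld
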