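/-
R188, block (L): Koszul lengths under change of rings; `World.L_reg`.   helper200
-/
import Mathlib
import Crest.Agent.R188.LenWorld2

set_option autoImplicit false
set_option linter.unusedSectionVars false

namespace Crest.Agent.R188.LenWorld

open WittVector Crest.Agent.R183 Crest.Agent.R188.Prf Crest.Agent.R188.Wit
open Crest.Agent.R188.LenW Crest.Agent.R188.Tow Crest.Agent.R188.KosG
open scoped ENNReal

universe u v

/-! ### Koszul lengths under change of rings -/

section change

variable {A : Type u} {B : Type u} [CommRing A] [CommRing B] (f : A →+* B)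

/-- a complex over `A` and a complex over `B` with the same underlying groups. -/
structure GSim (K : GCx.{u, v} A) (K' : GCx.{u, v} B) where
  /-- the underlying equivalence -/
  e : K.T ≃+ K'.T
  smul : ∀ (a : A) (x : K.T), e (a • x) = f a • e x
  gr : ∀ (i : ℤ) (x : K.T), e x ∈ K'.gr i ↔ x ∈ K.gr i
  comm : ∀ x : K.T, e (K.D x) = K'.D (e x)

variable {f} {K : GCx.{u, v} A} {K' : GCx.{u, v} B}

/-- cones -/
def GSim.cone (S : GSim f K K') (a : A) : GSim f (GCx.cone a K) (GCx.cone (f a) K') where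
  e := S.e.prodCongr S.e
  smul := by
    rintro a ⟨x, y⟩
    exact Prod.ext (S.smul a x) (S.smul a y)
  gr := by
    rintro i ⟨x, y⟩
    change (S.e x ∈ K'.gr i ∧ S.e y ∈ K'.gr (i - 1)) ↔ (x ∈ K.gr i ∧ y ∈ K.gr (i - 1))
    rw [S.gr, S.gr]
  comm := by
    rintro ⟨x, y⟩
    refine Prod.ext ?_ ?_
    · change S.e (K.D x + a • y) = K'.D (S.e x) + f a • S.e y
      rw [map_add, S.comm, S.smul]
    · change S.e (-(K.D y)) = -(K'.D (S.e y))
      rw [map_neg, S.comm]

/-- iterated cones -/
def GSim.cones (S : GSim f K K') : (l : List A) → GSim f (KosG.cones l K) (KosG.cones (l.map f) K')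
  | [] => S
  | (a :: l) => (S.cones l).cone a

/-- lengths of the homology -/
theorem GSim.h_eq (S : GSim f K K') (Λ : AddLen.{u, v} A) (Λ' : AddLen.{u, v} B)
    (hΛ : ∀ (X X' : Type v) [AddCommGroup X] [Module A X] [AddCommGroup X'] [Module B X']
      (e : X ≃+ X'), (∀ (a : A) (x : X), e (a • x) = f a • e x) → Λ.L X = Λ'.L X') (i : ℤ) :
    K.h Λ i = K'.h Λ' i := by
  have hB : ∀ x : K.T, S.e x ∈ K'.B i ↔ x ∈ K.B i := by
    intro x
    rw [GCx.mem_B, GCx.mem_B]
    constructor
    · rintro ⟨y, hy, hyx⟩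
      obtain ⟨y, rfl⟩ := S.e.surjective y
      refine ⟨y, (S.gr _ _).1 hy, S.e.injective ?_⟩
      rw [S.comm, hyx]
    · rintro ⟨y, hy, rfl⟩
      exact ⟨S.e y, (S.gr _ _).2 hy, (S.comm y).symm⟩
  have hZ : ∀ x : K.T, S.e x ∈ K'.Z i ↔ x ∈ K.Z i := by
    intro x
    rw [GCx.mem_Z, GCx.mem_Z, S.gr, ← S.comm]
    rw [map_eq_zero_iff S.e S.e.injective]
  -- the equivalence on homology
  let φ0 : K.Z i →+ K'.H i :=
    { toFun := fun z => K'.cls i ⟨S.e z.1, (hZ _).2 z.2⟩
      map_zero' := by
        have : (⟨S.e ((0 : K.Z i) : K.T), (hZ _).2 (0 : K.Z i).2⟩ : K'.Z i) = 0 :=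
          Subtype.ext (map_zero S.e)
        rw [this, map_zero]
      map_add' := fun z w => by
        rw [← map_add]
        congr 1
        exact Subtype.ext (map_add S.e _ _) }
  have hφ0 : ∀ z : K.Z i, φ0 z = 0 ↔ (z : K.T) ∈ K.B i := by
    intro z
    change K'.cls i ⟨S.e z.1, (hZ _).2 z.2⟩ = 0 ↔ _
    rw [GCx.cls_eq_zero]
    exact hB _
  have hs : ∀ y : K'.H i, ∃ z : K.Z i, φ0 z = y := by
    intro y
    obtain ⟨⟨y, hy⟩, rfl⟩ := K'.cls_surj i y
    obtain ⟨x, rfl⟩ := S.e.surjective y
    exact ⟨⟨x, (hZ x).1 hy⟩, rfl⟩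
  have hwd : ∀ z w : K.Z i, K.cls i z = K.cls i w → φ0 z = φ0 w := by
    intro z w hzw
    rw [← sub_eq_zero, ← map_sub, hφ0]
    exact (GCx.cls_eq_iff K).1 hzw
  let rep : K.H i → K.Z i := Function.surjInv (K.cls_surj i)
  have hrep : ∀ x, K.cls i (rep x) = x := Function.surjInv_eq (K.cls_surj i)
  have hcls : ∀ z : K.Z i, φ0 (rep (K.cls i z)) = φ0 z := fun z => hwd _ _ (hrep _)
  let ψ : K.H i →+ K'.H i :=
    { toFun := fun x => φ0 (rep x)
      map_zero' := by
        have := hcls 0
        rw [map_zero] at this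
        rw [this, map_zero]
      map_add' := fun x y => by
        obtain ⟨z, rfl⟩ := K.cls_surj i x
        obtain ⟨w, rfl⟩ := K.cls_surj i y
        rw [← map_add, hcls, hcls, hcls, map_add] }
  have hψ : ∀ z, ψ (K.cls i z) = φ0 z := hcls
  have hbij : Function.Bijective ψ := by
    constructor
    · intro x y hxy
      obtain ⟨z, rfl⟩ := K.cls_surj i x
      obtain ⟨w, rfl⟩ := K.cls_surj i y
      rw [hψ, hψ, ← sub_eq_zero, ← map_sub, hφ0] at hxy
      exact (GCx.cls_eq_iff K).2 hxy
    · intro y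
      obtain ⟨z, rfl⟩ := hs y
      exact ⟨K.cls i z, hψ z⟩
  refine hΛ _ _ (AddEquiv.ofBijective ψ hbij) fun a x => ?_
  obtain ⟨z, rfl⟩ := K.cls_surj i x
  rw [AddEquiv.ofBijective_apply, AddEquiv.ofBijective_apply, ← map_smul, hψ, hψ]
  change K'.cls i _ = f a • K'.cls i _
  rw [← map_smul]
  congr 1
  exact Subtype.ext (S.smul a z.1)

/-- the module in degree `0` -/
def GSim.one (C C' : Type v) [AddCommGroup C] [Module A C] [AddCommGroup C'] [Module B C']
    (e : C ≃+ C') (he : ∀ (a : A) (x : C), e (a • x) = f a • e x) :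
    GSim f (KosG.one A C) (KosG.one B C') where
  e := e
  smul := he
  gr := by
    have key : ∀ (i : ℤ) (x : C), e x ∈ (if i = 0 then (⊤ : Submodule B C') else ⊥) ↔
        x ∈ (if i = 0 then (⊤ : Submodule A C) else ⊥) := by
      intro i x
      by_cases hi : i = 0
      · rw [if_pos hi, if_pos hi]; exact ⟨fun _ => trivial, fun _ => trivial⟩
      · rw [if_neg hi, if_neg hi, Submodule.mem_bot, Submodule.mem_bot]
        exact map_eq_zero_iff e e.injective
    exact key
  comm := fun x => by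
    change e 0 = 0
    exact map_zero e

/-- **Koszul lengths under change of rings** -/
theorem kh_change (Λ : AddLen.{u, v} A) (Λ' : AddLen.{u, v} B)
    (hΛ : ∀ (X X' : Type v) [AddCommGroup X] [Module A X] [AddCommGroup X'] [Module B X']
      (e : X ≃+ X'), (∀ (a : A) (x : X), e (a • x) = f a • e x) → Λ.L X = Λ'.L X')
    (C C' : Type v) [AddCommGroup C] [Module A C] [AddCommGroup C'] [Module B C']
    (e : C ≃+ C') (he : ∀ (a : A) (x : C), e (a • x) = f a • e x) (l : List A) (i : ℤ) :
    kh Λ l C i = kh Λ' (l.map f) C' i :=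
  ((GSim.one C C' e he).cones l).h_eq Λ Λ' hΛ i

/-- `kh (b :: l) C = kh l (C/bC)` for `b` regular on `C`. -/
theorem kh_cons_regular (Λ : AddLen.{u, v} A) (b : A) (l : List A) (C C'' : Type v)
    [AddCommGroup C] [Module A C] [AddCommGroup C''] [Module A C''] (g : C →ₗ[A] C'')
    (hg : Function.Surjective g) (hb : ∀ x : C, b • x = 0 → x = 0) (h0 : ∀ x, g (b • x) = 0)
    (hk : ∀ x, g x = 0 → ∃ y, b • y = x) (i : ℤ) : kh Λ (b :: l) C i = kh Λ l C'' i := by
  let Q : GCx.RegQuot b (KosG.one A C) (KosG.one A C'') :=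
    { p :=
        { f := g
          gr := by
            have key : ∀ (i : ℤ) (x : C), x ∈ (if i = 0 then (⊤ : Submodule A C) else ⊥) →
                g x ∈ (if i = 0 then (⊤ : Submodule A C'') else ⊥) := by
              intro i x hx
              by_cases hi : i = 0
              · rw [if_pos hi]; trivial
              · rw [if_neg hi] at hx ⊢
                rw [Submodule.mem_bot] at hx ⊢
                rw [hx, map_zero]
            exact key
          comm := fun x => map_zero g }
      inj := hb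
      zero := h0
      surj := by
        have key : ∀ (n : ℤ) (x : C''), x ∈ (if n = 0 then (⊤ : Submodule A C'') else ⊥) →
            ∃ y : C, y ∈ (if n = 0 then (⊤ : Submodule A C) else ⊥) ∧ g y = x := by
          intro n x hx
          by_cases hn : n = 0
          · obtain ⟨y, hy⟩ := hg x
            exact ⟨y, by rw [if_pos hn]; trivial, hy⟩
          · rw [if_neg hn, Submodule.mem_bot] at hx
            exact ⟨0, Submodule.zero_mem _, by rw [hx, map_zero]⟩
        exact key
      exact := by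
        have key : ∀ (n : ℤ) (x : C), x ∈ (if n = 0 then (⊤ : Submodule A C) else ⊥) → g x = 0 →
            ∃ y : C, y ∈ (if n = 0 then (⊤ : Submodule A C) else ⊥) ∧ b • y = x := by
          intro n x hx hgx
          by_cases hn : n = 0
          · obtain ⟨y, hy⟩ := hk x hgx
            exact ⟨y, by rw [if_pos hn]; trivial, hy⟩
          · rw [if_neg hn, Submodule.mem_bot] at hx
            exact ⟨0, Submodule.zero_mem _, by rw [hx, smul_zero]⟩
        exact key }
  exact Q.h_cones_cons Λ l i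

end change

section reg

variable {p : ℕ} [hp : Fact p.Prime] {P : Type u} [CommRing P] (h : IsPerf p P)
  {ξ : WittVector p P} {π : P} (hξ : IsDist ξ π)
  {R : Type u} [CommRing R] (j : R →+* Om ξ) (Λ : AddLen.{u, u} R)
  {b : ℕ} (t : Fin (b + 1) → P) (tR : Fin (b + 1) → R) (htR : ∀ i, sh ξ (t i) = j (tR i))
  (hj1 : ∀ x : Om ξ, ∃ a, (p : Om ξ) ∣ x - j a)
  (hj2 : ∀ a, (p : Om ξ) ∣ j a → (p : R) ∣ a)

include htR hj1 hj2 in
/-- **World.L_reg**: Koszul lengths over `P` and over `R = A^+`. -/
theorem kh_LW (h0 : Associated (t 0) π) (hR0 : Associated (tR 0) (p : R))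
    (hreg : ∀ x : P, π * x = 0 → x = 0) (hRreg : ∀ x : R, (p : R) * x = 0 → x = 0) (i : ℤ) :
    kh ((LW h hξ j Λ).restrict (constantCoeff (p := p))) (List.ofFn t) P i =
      kh Λ (List.ofFn tR) R i := by
  obtain ⟨u, hu⟩ := h0
  obtain ⟨v, hv⟩ := hR0
  set fj := (red h hξ).comp j with hfj
  let mk : P →+* P ⧸ Ideal.span {π} := Ideal.Quotient.mk _
  -- over `P`
  have e1 : kh ((LW h hξ j Λ).restrict (constantCoeff (p := p))) (List.ofFn t) P i =
      kh ((LW h hξ j Λ).restrict (constantCoeff (p := p))) (List.ofFn fun i => t (Fin.succ i))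
        (P ⧸ Ideal.span {π}) i := by
    rw [List.ofFn_succ]
    refine kh_cons_regular _ (t 0) _ P (P ⧸ Ideal.span {π})
      (Submodule.mkQ (Ideal.span {π})) (Submodule.mkQ_surjective _) ?_ ?_ ?_ i
    · intro x hx
      apply hreg
      rw [← hu, mul_comm (t 0), mul_assoc]
      have : t 0 * x = 0 := hx
      rw [this, mul_zero]
    · intro x
      change Ideal.Quotient.mk (Ideal.span {π}) (t 0 * x) = 0
      rw [Ideal.Quotient.eq_zero_iff_mem, Ideal.mem_span_singleton]
      refine ⟨((u⁻¹ : Pˣ) : P) * x, ?_⟩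
      rw [← hu]
      have : (u : P) * ((u⁻¹ : Pˣ) : P) = 1 := Units.mul_inv u
      linear_combination (-(t 0 * x)) * this
    · intro x hx
      have hx' : Ideal.Quotient.mk (Ideal.span {π}) x = 0 := hx
      rw [Ideal.Quotient.eq_zero_iff_mem, Ideal.mem_span_singleton] at hx'
      obtain ⟨y, rfl⟩ := hx'
      refine ⟨u * y, ?_⟩
      change t 0 * (u * y) = π * y
      rw [← hu]; ring
  -- over `R`
  let _ : Module R (P ⧸ Ideal.span {π}) := Module.compHom _ fj
  let gl : R →ₗ[R] (P ⧸ Ideal.span {π}) :=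
    { toFun := fj
      map_add' := map_add fj
      map_smul' := fun a x => by
        change fj (a * x) = fj a • fj x
        rw [map_mul]; rfl }
  have e2 : kh Λ (List.ofFn tR) R i =
      kh Λ (List.ofFn fun i => tR (Fin.succ i)) (P ⧸ Ideal.span {π}) i := by
    rw [List.ofFn_succ]
    refine kh_cons_regular _ (tR 0) _ R (P ⧸ Ideal.span {π}) gl
      (redj_surjective h hξ j hj1) ?_ ?_ ?_ i
    · intro x hx
      apply hRreg
      rw [← hv, mul_comm (tR 0), mul_assoc]
      have : tR 0 * x = 0 := hx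
      rw [this, mul_zero]
    · intro x
      have h1 : tR 0 * x ∈ RingHom.ker fj := by
        rw [hfj, redj_ker h hξ j hj2, Ideal.mem_span_singleton]
        refine ⟨((v⁻¹ : Rˣ) : R) * x, ?_⟩
        rw [← hv]
        have : (v : R) * ((v⁻¹ : Rˣ) : R) = 1 := Units.mul_inv v
        linear_combination (-(tR 0 * x)) * this
      exact h1
    · intro x hx
      have h1 : x ∈ RingHom.ker fj := hx
      rw [hfj, redj_ker h hξ j hj2, Ideal.mem_span_singleton] at h1
      obtain ⟨y, rfl⟩ := h1
      refine ⟨v * y, ?_⟩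
      change tR 0 * (v * y) = p * y
      rw [← hv]; ring
  rw [e1, e2]
  -- compare both with `P/π`-modules
  have e3 : kh ((LW h hξ j Λ).restrict (constantCoeff (p := p)))
      (List.ofFn fun i => t (Fin.succ i)) (P ⧸ Ideal.span {π}) i =
      kh (L0 h hξ j Λ) ((List.ofFn fun i => t (Fin.succ i)).map mk) (P ⧸ Ideal.span {π}) i := by
    refine kh_change (f := mk) _ _ ?_ _ _ (AddEquiv.refl _) (fun a x => ?_) _ i
    · intro X X' _ _ _ _ e he
      rw [LW_restrict_L]
      let _ : Module P X' := Module.compHom X' mk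
      rw [(LPf h hξ j Λ).L_congr (M := X) (N := X') { e with map_smul' := he }]
      exact extf_L _ _ _ X' (fun _ _ => rfl)
    · obtain ⟨x, rfl⟩ := Ideal.Quotient.mk_surjective x
      rfl
  have e4 : kh Λ (List.ofFn fun i => tR (Fin.succ i)) (P ⧸ Ideal.span {π}) i =
      kh (L0 h hξ j Λ) ((List.ofFn fun i => tR (Fin.succ i)).map fj) (P ⧸ Ideal.span {π}) i := by
    refine kh_change (f := fj) _ _ ?_ _ _ (AddEquiv.refl _) (fun a x => rfl) _ i
    intro X X' _ _ _ _ e he
    let _ : Module R X' := Module.compHom X' fj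
    rw [Λ.L_congr (M := X) (N := X') { e with map_smul' := he }]
    exact (Λ.restrict_L fj X' (fun _ _ => rfl)).symm
  rw [e3, e4]
  congr 1
  rw [List.map_ofFn, List.map_ofFn]
  congr 1
  funext i
  change mk (t i.succ) = (red h hξ) (j (tR i.succ))
  rw [← htR, red_sh]

end reg

end Crest.Agent.R188.LenWorld
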