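/-
R188, block (L): Koszul lengths of `A^+` are limits: `kh D.L t R n = 0` from
`kh D.Λ t (S i) n = 0`.   helper200
-/
import Mathlib
import Crest.Agent.R188.LenWorld3
import Crest.Agent.R188.Tow3

set_option autoImplicit false
set_option linter.unusedSectionVars false

namespace Crest.Agent.R188.LenWorld

open Crest.Agent.R183 Crest.Agent.R188.LenW Crest.Agent.R188.Tow Crest.Agent.R188.KosG
open scoped ENNReal TensorProduct

universe u v w

section gmap

variable {A B : Type u} [CommRing A] [CommRing B] (f : A →+* B)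

/-- injective semilinear chain maps, reflecting degrees. -/
structure GInj (K : GCx.{u, v} A) (K' : GCx.{u, v} B) where
  /-- the map -/
  g : K.T →+ K'.T
  inj : Function.Injective g
  smul : ∀ (a : A) (x : K.T), g (a • x) = f a • g x
  gr : ∀ (i : ℤ) (x : K.T), g x ∈ K'.gr i ↔ x ∈ K.gr i
  comm : ∀ x : K.T, g (K.D x) = K'.D (g x)

variable {f} {K : GCx.{u, v} A} {K' : GCx.{u, v} B}

/-- cones -/
def GInj.cone (S : GInj f K K') (a : A) (a' : B) (ha : f a = a') :
    GInj f (GCx.cone a K) (GCx.cone a' K') where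
  g := S.g.prodMap S.g
  inj := S.inj.prodMap S.inj
  smul := by
    rintro a ⟨x, y⟩
    exact Prod.ext (S.smul a x) (S.smul a y)
  gr := by
    rintro i ⟨x, y⟩
    change (S.g x ∈ K'.gr i ∧ S.g y ∈ K'.gr (i - 1)) ↔ (x ∈ K.gr i ∧ y ∈ K.gr (i - 1))
    rw [S.gr, S.gr]
  comm := by
    rintro ⟨x, y⟩
    refine Prod.ext ?_ ?_
    · change S.g (K.D x + a • y) = K'.D (S.g x) + a' • S.g y
      rw [map_add, S.comm, S.smul, ha]
    · change S.g (-(K.D y)) = -(K'.D (S.g y))
      rw [map_neg, S.comm]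

variable {A₀ : Type u} [CommRing A₀] (φ : A₀ →+* A) (ψ : A₀ →+* B) (hφ : ∀ a, f (φ a) = ψ a)

/-- iterated cones -/
def GInj.cones (S : GInj f K K') (hφ : ∀ a, f (φ a) = ψ a) :
    (l : List A₀) → GInj f (KosG.cones (l.map φ) K) (KosG.cones (l.map ψ) K')
  | [] => S
  | (a :: l) => (S.cones hφ l).cone (φ a) (ψ a) (hφ a)

/-- the module in degree `0` -/
def GInj.one (C C' : Type v) [AddCommGroup C] [Module A C] [AddCommGroup C'] [Module B C']
    (g : C →+ C') (hg : Function.Injective g) (hs : ∀ (a : A) (x : C), g (a • x) = f a • g x) :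
    GInj f (KosG.one A C) (KosG.one B C') where
  g := g
  inj := hg
  smul := hs
  gr := by
    have key : ∀ (i : ℤ) (x : C), g x ∈ (if i = 0 then (⊤ : Submodule B C') else ⊥) ↔
        x ∈ (if i = 0 then (⊤ : Submodule A C) else ⊥) := by
      intro i x
      by_cases hi : i = 0
      · rw [if_pos hi, if_pos hi]; exact ⟨fun _ => trivial, fun _ => trivial⟩
      · rw [if_neg hi, if_neg hi, Submodule.mem_bot, Submodule.mem_bot]
        exact map_eq_zero_iff g hg
    exact key
  comm := fun x => by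
    change g 0 = 0
    exact map_zero g

theorem GInj.mem_Z (S : GInj f K K') {i : ℤ} {x : K.T} : S.g x ∈ K'.Z i ↔ x ∈ K.Z i := by
  rw [GCx.mem_Z, GCx.mem_Z, S.gr, ← S.comm, map_eq_zero_iff S.g S.inj]

theorem GInj.mem_B (S : GInj f K K') {i : ℤ} {x : K.T} (hx : x ∈ K.B i) : S.g x ∈ K'.B i := by
  rw [GCx.mem_B] at hx ⊢
  obtain ⟨y, hy, rfl⟩ := hx
  exact ⟨S.g y, (S.gr _ _).2 hy, (S.comm y).symm⟩

/-- the map on homology -/
theorem GInj.exists_H (S : GInj f K K') (i : ℤ) : ∃ ψ : K.H i →+ K'.H i,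
    (∀ (a : A) (x : K.H i), ψ (a • x) = f a • ψ x) ∧
    ∀ (z : K.Z i), ψ (K.cls i z) = K'.cls i ⟨S.g z.1, S.mem_Z.2 z.2⟩ := by
  let φ0 : K.Z i →+ K'.H i :=
    { toFun := fun z => K'.cls i ⟨S.g z.1, S.mem_Z.2 z.2⟩
      map_zero' := by
        have : (⟨S.g ((0 : K.Z i) : K.T), S.mem_Z.2 (0 : K.Z i).2⟩ : K'.Z i) = 0 :=
          Subtype.ext (map_zero S.g)
        rw [this, map_zero]
      map_add' := fun z w => by
        rw [← map_add]
        congr 1
        exact Subtype.ext (map_add S.g _ _) }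
  have hφ0 : ∀ z : K.Z i, (z : K.T) ∈ K.B i → φ0 z = 0 := by
    intro z hz
    change K'.cls i ⟨S.g z.1, S.mem_Z.2 z.2⟩ = 0
    rw [GCx.cls_eq_zero]
    exact S.mem_B hz
  have hwd : ∀ z w : K.Z i, K.cls i z = K.cls i w → φ0 z = φ0 w := by
    intro z w hzw
    rw [← sub_eq_zero, ← map_sub]
    exact hφ0 _ ((GCx.cls_eq_iff K).1 hzw)
  let rep : K.H i → K.Z i := Function.surjInv (K.cls_surj i)
  have hrep : ∀ x, K.cls i (rep x) = x := Function.surjInv_eq (K.cls_surj i)
  have hcls : ∀ z : K.Z i, φ0 (rep (K.cls i z)) = φ0 z := fun z => hwd _ _ (hrep _)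
  let ψ : K.H i →+ K'.H i :=
    { toFun := fun x => φ0 (rep x)
      map_zero' := by
        have := hcls 0
        rw [map_zero] at this
        rw [this, map_zero]
      map_add' := fun x y => by
        obtain ⟨z, rfl⟩ := K.cls_surj i x
        obtain ⟨w, rfl⟩ := K.cls_surj i y
        rw [← map_add, hcls, hcls, hcls, map_add] }
  refine ⟨ψ, ?_, hcls⟩
  intro a x
  obtain ⟨z, rfl⟩ := K.cls_surj i x
  rw [← map_smul]
  change φ0 (rep (K.cls i (a • z))) = f a • φ0 (rep (K.cls i z))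
  rw [hcls, hcls]
  change K'.cls i _ = f a • K'.cls i _
  rw [← map_smul]
  congr 1
  exact Subtype.ext (S.smul a z.1)

end gmap

section union

variable {A R : Type u} [CommRing A] [CommRing R] [Algebra A R] {I : Type v} [Preorder I]
  [IsDirectedOrder I] [Nonempty I] (S : I → Subalgebra A R)

/-- the inclusion of Koszul complexes -/
noncomputable def gS (i : I) (l : List A) :
    GInj (f := ((S i).val : S i →+* R)) (KosG.kos (l.map (algebraMap A (S i))) (S i))
      (KosG.kos (l.map (algebraMap A R)) R) :=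
  (GInj.one (f := ((S i).val : S i →+* R)) (S i) R
    ((S i).val : S i →+* R).toAddMonoidHom Subtype.val_injective (fun _ _ => rfl)).cones
      (algebraMap A (S i)) (algebraMap A R) (fun _ => rfl) l

theorem union_kos (mono : Monotone S) (hU : ∀ x : R, ∃ i, x ∈ S i) (l : List A) :
    (∀ z : (KosG.kos (l.map (algebraMap A R)) R).T, ∃ i, z ∈ Set.range (gS S i l).g) ∧
    ∀ i j, i ≤ j → Set.range (gS S i l).g ⊆ Set.range (gS S j l).g := by
  induction l with
  | nil =>
    refine ⟨fun z => ?_, fun i j hij => ?_⟩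
    · obtain ⟨i, hi⟩ := hU z
      exact ⟨i, ⟨z, hi⟩, rfl⟩
    · rintro _ ⟨⟨x, hx⟩, rfl⟩
      exact ⟨⟨x, mono hij hx⟩, rfl⟩
  | cons a l ih =>
    obtain ⟨ih1, ih2⟩ := ih
    refine ⟨?_, fun i j hij => ?_⟩
    · rintro ⟨z, w⟩
      obtain ⟨i, hi⟩ := ih1 z
      obtain ⟨j, hj⟩ := ih1 w
      obtain ⟨k, hik, hjk⟩ := exists_ge_ge i j
      obtain ⟨x, hx⟩ := ih2 i k hik hi
      obtain ⟨y, hy⟩ := ih2 j k hjk hj
      exact ⟨k, (x, y), Prod.ext hx hy⟩
    · rintro _ ⟨⟨x, y⟩, rfl⟩
      obtain ⟨x', hx'⟩ := ih2 i j hij ⟨x, rfl⟩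
      obtain ⟨y', hy'⟩ := ih2 i j hij ⟨y, rfl⟩
      exact ⟨(x', y'), Prod.ext hx' hy'⟩

variable {κ : Type w} (D : GalTower A R I κ)

/-- **the Koszul lengths of `R = A^+` vanish if those of the `S i` do.** -/
theorem kh_eq_zero_of_levels (hU : ∀ x : R, ∃ i, x ∈ D.S i) (l : List A)
    (hl : ∀ k, D.t k ∈ l) (n : ℤ) (h : ∀ i, kh D.Λ l (D.S i) n = 0) :
    kh D.L (l.map (algebraMap A R)) R n = 0 := by
  set K := KosG.kos (l.map (algebraMap A R)) R with hK
  change D.L.L (K.H n) = 0
  -- torsion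
  have htors : D.TorsR (K.H n) := by
    intro x k
    refine ⟨1, ?_⟩
    rw [pow_one]
    have h1 : algebraMap A R (D.t k) ∈ K.NHI := by
      have h2 := span_le_NHI R (l.map (algebraMap A R))
      refine h2 (Ideal.mem_sup_left (Ideal.subset_span ?_))
      exact List.mem_map_of_mem (hl k)
    exact GCx.NH.smul_H h1 n x
  refine (D.contOn_L).eq_zero_of_mem htors ?_
  intro x
  obtain ⟨z, rfl⟩ := K.cls_surj n x
  obtain ⟨i, z', hz'⟩ := (union_kos D.S D.mono hU l).1 z.1
  let Ki : GCx.{u, u} (D.S i) := KosG.kos (l.map (algebraMap A (D.S i))) (D.S i)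
  have hz'Z : z' ∈ Ki.Z n := (gS D.S i l).mem_Z.1 (by rw [hz']; exact z.2)
  obtain ⟨ψ, hψ, hψc⟩ := (gS D.S i l).exists_H n
  refine ⟨Submodule.span R (Set.range ψ), ?_, ?_⟩
  · refine Submodule.subset_span ⟨Ki.cls n ⟨z', hz'Z⟩, ?_⟩
    rw [hψc]
    congr 1
    exact Subtype.ext hz'
  · -- the length over `S i`
    let _ : Module A (Ki.H n) := Module.compHom _ (algebraMap A (D.S i))
    have : IsScalarTower A (D.S i) (Ki.H n) := ⟨fun a b x => by
      rw [Algebra.smul_def, mul_smul]; rfl⟩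
    have hnull : D.Λ.L (Ki.H n) = 0 := by
      rw [← h i]
      symm
      have := kh_change (f := algebraMap A (D.S i)) D.Λ (D.Λ.restrict (algebraMap A (D.S i)))
        (fun X X' _ _ _ _ e he => by
          let _ : Module A X' := Module.compHom X' (algebraMap A (D.S i))
          rw [D.Λ.L_congr (M := X) (N := X') { e with map_smul' := he }]
          exact (D.Λ.restrict_L _ X' (fun _ _ => rfl)).symm)
        (D.S i) (D.S i) (AddEquiv.refl _) (fun a x => Algebra.smul_def a x) l n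
      rw [this]
      exact D.Λ.restrict_L _ (Ki.H n) (fun _ _ => rfl)
    have htQ : Tors D.t (Ki.H n) := by
      intro x k
      refine ⟨1, ?_⟩
      rw [pow_one]
      have h1 : algebraMap A (D.S i) (D.t k) ∈ Ki.NHI := by
        have h2 := span_le_NHI (D.S i) (l.map (algebraMap A (D.S i)))
        refine h2 (Ideal.mem_sup_left (Ideal.subset_span ?_))
        exact List.mem_map_of_mem (hl k)
      exact GCx.NH.smul_H h1 n x
    let ψ' : Ki.H n →+ Submodule.span R (Set.range ψ) :=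
      { toFun := fun x => ⟨ψ x, Submodule.subset_span ⟨x, rfl⟩⟩
        map_zero' := Subtype.ext (map_zero ψ)
        map_add' := fun x y => Subtype.ext (map_add ψ x y) }
    have h3 := D.L_le_of_generated hU i (Q := Ki.H n) (M := Submodule.span R (Set.range ψ)) htQ ψ'
      (fun a x => Subtype.ext (hψ a x)) (by
        rw [eq_top_iff]
        rintro ⟨y, hy⟩ -
        induction hy using Submodule.span_induction with
        | mem x hx => obtain ⟨z, rfl⟩ := hx; exact Submodule.subset_span ⟨z, rfl⟩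
        | zero => exact Submodule.zero_mem _
        | add x y hx hy hx' hy' => exact Submodule.add_mem _ hx' hy'
        | smul a x hx hx' => exact Submodule.smul_mem _ a hx')
    rw [hnull, le_zero_iff, mul_eq_zero] at h3
    exact h3.resolve_left (D.n_ne_zero i)

end union

end Crest.Agent.R188.LenWorld
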