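/-
R188 (Serre positivity), block TowLam: continuity and finiteness of the length of the completed
`B_∞` on torsion modules (inputs `cont` and `fin` of `Tow.GalTower`).  Author: helper814.
-/
import Crest.Agent.R188.Tow1
import Crest.Agent.R188.LenW1
import Crest.Agent.R183.BInf3b
import Crest.Agent.R183.CoreA
import Crest.Agent.R183.Om3

set_option autoImplicit false

namespace Crest.Agent.R188.TowL

open scoped ENNReal TensorProduct
open Crest.Agent.R183 Crest.Agent.R183.BInf Crest.Agent.R188.Tow

universe u v w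

section General

variable {A : Type u} [CommRing A] {κ : Type w}

/-- a continuous length is continuous on torsion modules -/
theorem contOn_of_cont {Λ : AddLen.{u, u} A} (h : LenW.Cont Λ) (t : κ → A) : ContOn Λ t := by
  intro M _ _ _
  refine h M _ fun E hE => ?_
  obtain ⟨s, hs⟩ := hE
  rw [← hs]
  exact le_iSup (fun E : Finset M => Λ.L (Submodule.span A (E : Set M))) s

/-- the length of a span is at most the sum of the lengths of the cyclic submodules -/
theorem L_span_finset_le (Λ : AddLen.{u, u} A) {M : Type u} [AddCommGroup M] [Module A M]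
    (E : Finset M) (c : ℝ≥0∞) (h : ∀ x ∈ E, Λ.L (Submodule.span A {x}) ≤ c) :
    Λ.L (Submodule.span A (E : Set M)) ≤ E.card * c := by
  classical
  induction E using Finset.induction_on with
  | empty =>
    rw [Finset.coe_empty, Submodule.span_empty]
    rw [Λ.L_subsingleton]
    exact bot_le
  | insert x E hx ih =>
    rw [Finset.coe_insert, Submodule.span_insert]
    refine (L_sup_le Λ _ _).trans ?_
    rw [Finset.card_insert_of_notMem hx, Nat.cast_add, Nat.cast_one, add_mul, one_mul, add_comm]
    exact add_le_add (ih fun y hy => h y (Finset.mem_insert_of_mem hy))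
      (h x (Finset.mem_insert_self x E))

/-- the length of a cyclic module killed by an ideal -/
theorem L_span_singleton_le (Λ : AddLen.{u, u} A) {M : Type u} [AddCommGroup M] [Module A M]
    (I : Ideal A) (x : M) (hx : ∀ a ∈ I, a • x = 0) :
    Λ.L (Submodule.span A {x}) ≤ Λ.L (A ⧸ I) := by
  have hx' : I ≤ LinearMap.ker (LinearMap.toSpanSingleton A (Submodule.span A {x})
      ⟨x, Submodule.mem_span_singleton_self x⟩) := by
    intro a ha
    rw [LinearMap.mem_ker, LinearMap.toSpanSingleton_apply]
    exact Subtype.ext (hx a ha)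
  refine Λ.L_le_of_surjective (Submodule.liftQ I _ hx') ?_
  rintro ⟨y, hy⟩
  obtain ⟨a, rfl⟩ := Submodule.mem_span_singleton.1 hy
  exact ⟨Ideal.Quotient.mk I a, by
    change (Submodule.liftQ I _ hx') (Submodule.Quotient.mk a) = _
    rw [Submodule.liftQ_apply, LinearMap.toSpanSingleton_apply]
    rfl⟩

/-- finiteness on finitely generated torsion modules follows from the cyclic modules
`A / (t_i ^ N)` -/
theorem fin_of_quot (Λ : AddLen.{u, u} A) [Finite κ] (t : κ → A)
    (h : ∀ N : ℕ, Λ.L (A ⧸ Ideal.span (Set.range fun i => t i ^ N)) ≠ ⊤)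
    (V : Type u) [AddCommGroup V] [Module A V] (hV : Module.Finite A V) (hT : Tors t V) :
    Λ.L V ≠ ⊤ := by
  classical
  have := Fintype.ofFinite κ
  obtain ⟨s, hs⟩ := hV.fg_top
  choose n hn using hT
  set N : ℕ := s.sup (fun x => Finset.univ.sup (n x)) with hN
  have hk : ∀ x ∈ s, ∀ i, t i ^ N • x = 0 := by
    intro x hx i
    have h1 : n x i ≤ N := (Finset.le_sup (f := n x) (Finset.mem_univ i)).trans
      (Finset.le_sup (f := fun x => Finset.univ.sup (n x)) hx)
    obtain ⟨k, hk⟩ := Nat.exists_eq_add_of_le h1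
    rw [hk, add_comm, pow_add, mul_smul, hn, smul_zero]
  have h1 : Λ.L (Submodule.span A (s : Set V)) ≤
      s.card * Λ.L (A ⧸ Ideal.span (Set.range fun i => t i ^ N)) := by
    refine L_span_finset_le Λ s _ fun x hx => L_span_singleton_le Λ _ x ?_
    intro a ha
    induction ha using Submodule.span_induction with
    | mem y hy =>
      obtain ⟨i, rfl⟩ := hy
      exact hk x hx i
    | zero => exact zero_smul _ _
    | add y z _ _ hy hz => rw [add_smul, hy, hz, add_zero]
    | smul a y _ hy => rw [smul_eq_mul, mul_smul, hy, smul_zero]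
  rw [hs] at h1
  have h2 : Λ.L V = Λ.L (⊤ : Submodule A V) := (Λ.L_congr Submodule.topEquiv).symm
  rw [h2]
  refine ne_top_of_le_ne_top ?_ h1
  exact ENNReal.mul_ne_top (ENNReal.natCast_ne_top _) (h N)

end General

section BInf

variable {d : ℕ} (p : ℕ) {B : Type u} [CommRing B] (t : Fin d → B) (hp : 0 < p)
variable [IsNoetherianRing B] {A : Type u} [CommRing A] [Algebra (BInf p t) A]

/-- the length of torsion modules over the completion `A` of `B_∞` -/
noncomputable abbrev lenA (A : Type u) [CommRing A] [Algebra (BInf p t) A] : AddLen.{u, u} A :=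
  (AddLen.ofTower (tower p t hp)).restrict (algebraMap (BInf p t) A)

theorem cont_lenA : LenW.Cont (lenA p t hp A) :=
  LenW.cont_restrict _ (Core.cont_ofTower (tower p t hp)) _

theorem contOn_lenA {κ : Type w} (s : κ → A) : ContOn (lenA p t hp A) s :=
  contOn_of_cont (cont_lenA p t hp) s

variable [IsLocalRing B]

/-- `λ(A / J) ≤ ℓ_B(B / I)` if `B_∞ → A / J` is surjective and `I` maps into `J` -/
theorem lenA_quot_le (ht : ∀ i, t i ∈ IsLocalRing.maximalIdeal B) (I : Ideal B) (J : Ideal A)
    (hs : ∀ a : A, ∃ b : BInf p t, a - algebraMap (BInf p t) A b ∈ J)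
    (hI : ∀ b ∈ I, algebraMap (BInf p t) A (algebraMap B (BInf p t) b) ∈ J) :
    (lenA p t hp A).L (A ⧸ J) ≤ ((Module.length B (B ⧸ I) : ℕ∞) : ℝ≥0∞) := by
  rw [AddLen.restrict_L _ _ _ (fun a x => (algebraMap_smul A a x).symm), AddLen.ofTower_L,
    ← lam_tensor p t hp ht (B ⧸ I)]
  have e := (Algebra.TensorProduct.quotIdealMapEquivTensorQuot (BInf p t) I).toLinearEquiv
  rw [← (tower p t hp).lam_congr e]
  let f : (BInf p t) →ₗ[BInf p t] (A ⧸ J) := Algebra.linearMap (BInf p t) (A ⧸ J)
  have hf : (I.map (algebraMap B (BInf p t)) : Submodule (BInf p t) (BInf p t)) ≤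
      LinearMap.ker f := by
    have : I.map (algebraMap B (BInf p t)) ≤ RingHom.ker (algebraMap (BInf p t) (A ⧸ J)) := by
      rw [Ideal.map_le_iff_le_comap]
      intro b hb
      rw [Ideal.mem_comap, RingHom.mem_ker, IsScalarTower.algebraMap_apply (BInf p t) A (A ⧸ J)]
      exact Ideal.Quotient.eq_zero_iff_mem.2 (hI b hb)
    intro x hx
    exact this hx
  refine (tower p t hp).lam_le_of_surjective (Submodule.liftQ _ f hf) ?_
  intro y
  obtain ⟨a, rfl⟩ := Ideal.Quotient.mk_surjective y
  obtain ⟨b, hb⟩ := hs a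
  refine ⟨Submodule.Quotient.mk b, ?_⟩
  rw [Submodule.liftQ_apply]
  change algebraMap (BInf p t) (A ⧸ J) b = _
  rw [IsScalarTower.algebraMap_apply (BInf p t) A (A ⧸ J)]
  exact (Ideal.Quotient.eq.2 hb).symm

/-- `fin` of `GalTower`: the length of finitely generated torsion modules is finite.  `s = t` or any
system of elements of `B` such that all `B / (s^N)` have finite length and `p` is in it. -/
theorem fin_lenA (ht : ∀ i, t i ∈ IsLocalRing.maximalIdeal B) {κ : Type w} [Finite κ]
    (s : κ → B) (i0 : κ) (hi0 : s i0 = (p : B))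
    (hlen : ∀ N : ℕ, Module.length B (B ⧸ Ideal.span (Set.range fun i => s i ^ N)) ≠ ⊤)
    (hd : Om.IsCompl (p : BInf p t) (algebraMap (BInf p t) A))
    (V : Type u) [AddCommGroup V] [Module A V] (hV : Module.Finite A V)
    (hT : Tors (fun i => algebraMap (BInf p t) A (algebraMap B (BInf p t) (s i))) V) :
    (lenA p t hp A).L V ≠ ⊤ := by
  refine fin_of_quot (lenA p t hp A) _ (fun N => ?_) V hV hT
  refine ne_top_of_le_ne_top ?_ (lenA_quot_le p t hp ht
    (Ideal.span (Set.range fun i => s i ^ N)) _ ?_ ?_)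
  · exact ENat.toENNReal_ne_top.2 (hlen N)
  · intro a
    obtain ⟨b, hb⟩ := hd.dense N a
    refine ⟨b, Ideal.mem_of_dvd _ hb (Ideal.subset_span ⟨i0, ?_⟩)⟩
    change _ ^ N = _
    rw [hi0, map_natCast, map_natCast]
  · intro b hb
    have h1 : Ideal.span (Set.range fun i => s i ^ N) ≤ (Ideal.span (Set.range fun i =>
        algebraMap (BInf p t) A (algebraMap B (BInf p t) (s i)) ^ N)).comap
        ((algebraMap (BInf p t) A).comp (algebraMap B (BInf p t))) := by
      rw [Ideal.span_le]
      rintro _ ⟨i, rfl⟩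
      rw [SetLike.mem_coe, Ideal.mem_comap, RingHom.comp_apply, map_pow, map_pow]
      exact Ideal.subset_span ⟨i, rfl⟩
    exact h1 hb

end BInf

end Crest.Agent.R188.TowL
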