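/-
R188, block (L): the world.  From the ring fields (`Apl.RWorld`, helper245), the Galois tower
(helper814), the vanishing of the Koszul lengths over the levels and the two small numbers
(`LenNull.Small`) to `Nonempty (Asm.World p k b)`.   helper200
-/
import Mathlib
import Crest.Agent.R188.LenWorld4
import Crest.Agent.R188.Apl7
import Crest.Agent.R188.Frb4
import Crest.Agent.R188.TowLam
import Crest.Agent.R183.HSLech

set_option autoImplicit false
set_option linter.unusedSectionVars false

namespace Crest.Agent.R188.LenWorld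

open WittVector Crest.Agent.R183 Crest.Agent.R188.Prf Crest.Agent.R188.Wit
open Crest.Agent.R188.LenW Crest.Agent.R188.Tow Crest.Agent.R188.KosG Crest.Agent.R188.Apl
open Crest.Agent.R188.Asm (BB BPlus tB SharpPair World LP)
open Crest.Agent.R183.Om (PData Reg RegMod IsCompl)
open Crest.Agent.R183.BInf
open scoped ENNReal TensorProduct

/-! ### the absolute integral closure is integrally closed -/

theorem plus_isIntegrallyClosed (A : Type*) [CommRing A] (F : Type*) [Field F] [Algebra A F] :
    IsIntegrallyClosed (integralClosure A F) :=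
  IsIntegrallyClosed.of_isIntegrallyClosedIn (integralClosure A F) F

section gen

universe u

variable {d : ℕ} (p : ℕ) {B : Type u} [CommRing B] (t : Fin d → B) (hp : 0 < p)
variable [IsNoetherianRing B] [IsLocalRing B] {A : Type u} [CommRing A] [Algebra (BInf p t) A]

/-- `ℓ_B(B / I) ≤ λ(A / I A)` if `p ∈ I` -/
theorem length_le_lenA (ht : ∀ i, t i ∈ IsLocalRing.maximalIdeal B) (I0 : Ideal B)
    (hpI0 : (p : B) ∈ I0) (hd : IsCompl (p : BInf p t) (algebraMap (BInf p t) A)) :
    ((Module.length B (B ⧸ I0) : ℕ∞) : ℝ≥0∞) ≤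
      (TowL.lenA p t hp A).L
        (A ⧸ (I0.map (algebraMap B (BInf p t))).map (algebraMap (BInf p t) A)) := by
  set I : Ideal (BInf p t) := I0.map (algebraMap B (BInf p t)) with hI
  set J := I.map (algebraMap (BInf p t) A) with hJ
  have e1 : (TowL.lenA p t hp A).L (A ⧸ J) = (AddLen.ofTower (tower p t hp)).L (A ⧸ J) :=
    AddLen.restrict_L _ _ _ (fun a x => (algebraMap_smul A a x).symm)
  rw [e1]
  have hpI : (p : BInf p t) ∈ I := by
    have := Ideal.mem_map_of_mem (algebraMap B (BInf p t)) hpI0
    rwa [map_natCast] at this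
  have key : ∀ z ∈ J, ∃ y ∈ I, (p : A) ∣ z - algebraMap (BInf p t) A y := by
    intro z hz
    induction hz using Submodule.span_induction with
    | mem z hz =>
      obtain ⟨y, hy, rfl⟩ := hz
      exact ⟨y, hy, by rw [sub_self]; exact dvd_zero _⟩
    | zero => exact ⟨0, I.zero_mem, by rw [map_zero, sub_zero]; exact dvd_zero _⟩
    | add z z' _ _ hz hz' =>
      obtain ⟨y, hy, c, hc⟩ := hz
      obtain ⟨y', hy', c', hc'⟩ := hz'
      refine ⟨y + y', I.add_mem hy hy', c + c', ?_⟩
      rw [map_add]
      linear_combination hc + hc'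
    | smul a z _ hz =>
      obtain ⟨y, hy, c, hc⟩ := hz
      obtain ⟨w, d, hd⟩ := hd.dense 1 a
      rw [pow_one, map_natCast] at hd
      refine ⟨w * y, I.mul_mem_left _ hy, d * z + algebraMap (BInf p t) A w * c, ?_⟩
      rw [smul_eq_mul, map_mul]
      linear_combination z * hd + algebraMap (BInf p t) A w * hc
  let f : (BInf p t) →ₗ[BInf p t] (A ⧸ J) := Algebra.linearMap (BInf p t) (A ⧸ J)
  have hf : ∀ x, f x = Ideal.Quotient.mk J (algebraMap (BInf p t) A x) := fun x => by
    change algebraMap (BInf p t) (A ⧸ J) x = _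
    rw [IsScalarTower.algebraMap_apply (BInf p t) A (A ⧸ J)]
    rfl
  have hle' : (I : Submodule (BInf p t) (BInf p t)) ≤ LinearMap.ker f := by
    intro x hx
    rw [LinearMap.mem_ker, hf, Ideal.Quotient.eq_zero_iff_mem]
    exact Ideal.mem_map_of_mem _ hx
  have hinj : Function.Injective (Submodule.liftQ I f hle') := by
    rw [← LinearMap.ker_eq_bot]
    refine Submodule.ker_liftQ_eq_bot _ _ _ ?_
    intro x hx
    rw [LinearMap.mem_ker, hf, Ideal.Quotient.eq_zero_iff_mem] at hx
    obtain ⟨y, hy, hxy⟩ := key _ hx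
    have h2 : (p : BInf p t) ∣ x - y := by
      have := hd.sat 1 (x - y)
      rw [pow_one, pow_one, map_natCast, map_sub] at this
      exact this hxy
    have h3 : x = (x - y) + y := by ring
    rw [h3]
    exact I.add_mem (Ideal.mem_of_dvd _ h2 hpI) hy
  have h4 := (AddLen.ofTower (tower p t hp)).L_le_of_injective (Submodule.liftQ I f hle') hinj
  refine le_trans (le_of_eq ?_) h4
  rw [← lam_tensor p t hp ht (B ⧸ I0)]
  exact ((AddLen.ofTower (tower p t hp)).L_congr
    (Algebra.TensorProduct.quotIdealMapEquivTensorQuot (BInf p t) I0).toLinearEquiv).symm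

end gen

section base

variable (p : ℕ) [hp : Fact p.Prime] (k : Type) [Field k] (b : ℕ)
  (A : Type) [CommRing A] [Algebra (BI p k b) A] [Algebra (BB p k b) A] {ϖ : ℕ → A}

/-- the length on `A`-modules -/
noncomputable abbrev lenB [CharP k p] [PerfectRing k p] : AddLen.{0, 0} A :=
  TowL.lenA p (tb b p (WittVector p k)) hp.out.pos A

/-- the parameters -/
noncomputable abbrev tA (i : Fin (b + 1)) : A := algebraMap (BB p k b) A (tB p k b i)

variable {p k b A} [CharP k p] [PerfectRing k p]

theorem isBase_hfrob (hA : IsBase p k b A ϖ) (D : A) (n : ℕ) : ∃ η, (p : A) ∣ η ^ p ^ n - D := by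
  induction n generalizing D with
  | zero => exact ⟨D, by rw [pow_zero, pow_one, sub_self]; exact dvd_zero _⟩
  | succ n ih =>
    obtain ⟨y, hy⟩ := hA.pdata.fsurj D
    obtain ⟨η, hη⟩ := ih y
    refine ⟨η, ?_⟩
    obtain ⟨c, hc⟩ := hη
    obtain ⟨r, hr⟩ := exists_add_pow_prime_eq hp.out y ((p : A) * c)
    have h1 : η ^ p ^ (n + 1) = y ^ p + ((p : A) * c) ^ p + p * y * (p * c) * r := by
      rw [← hr, pow_succ, pow_mul]
      congr 1
      linear_combination hc
    have h2 : (p : A) ∣ ((p : A) * c) ^ p :=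
      dvd_pow (Dvd.intro _ rfl) hp.out.ne_zero
    have h3 : η ^ p ^ (n + 1) - D = -(D - y ^ p) + ((p : A) * c) ^ p + p * (y * (p * c) * r) := by
      rw [h1]; ring
    rw [h3]
    exact dvd_add (dvd_add ((dvd_neg).2 hy) h2) (Dvd.intro _ rfl)

theorem isBase_pow (hA : IsBase p k b A ϖ) (n : ℕ) : ϖ n ^ p ^ n = p := by
  induction n with
  | zero => rw [pow_zero, pow_one, hA.pdata.zero]
  | succ n ih => rw [pow_succ', pow_mul, hA.pdata.roots, ih]

/-- `λ (A / (t)) = 1`: lower bound. -/
theorem lenB_ne_zero (hA : IsBase p k b A ϖ) :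
    (lenB p k b A).L (A ⧸ Ideal.span (Set.range (tA p k b A))) ≠ 0 := by
  have := hA.tower
  have h1 := length_le_lenA p (tb b p (WittVector p k)) hp.out.pos (A := A)
    (tb_mem_maximalIdeal b p k) (IsLocalRing.maximalIdeal (BB p k b)) (by
      have := tb_mem_maximalIdeal b p k 0
      rwa [tb_zero] at this) hA.compl
  have h2 : ((IsLocalRing.maximalIdeal (BB p k b)).map (algebraMap (BB p k b) (BI p k b))).map
      (algebraMap (BI p k b) A) = Ideal.span (Set.range (tA p k b A)) := by
    rw [maximalIdeal_tb, Ideal.map_map, Ideal.map_span, ← Set.range_comp]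
    congr 2
    funext i
    exact (IsScalarTower.algebraMap_apply (BB p k b) (BI p k b) A _).symm
  rw [h2] at h1
  intro h0
  have h4 : ((Module.length (BB p k b) (BB p k b ⧸ IsLocalRing.maximalIdeal (BB p k b)) : ℕ∞) :
      ℝ≥0∞) ≤ 0 := h1.trans (le_of_eq h0)
  rw [le_zero_iff, ENat.toENNReal_eq_zero, Module.length_eq_zero_iff] at h4
  have : Nontrivial (BB p k b ⧸ IsLocalRing.maximalIdeal (BB p k b)) :=
    Ideal.Quotient.nontrivial_iff.2 (IsLocalRing.maximalIdeal.isMaximal _).ne_top
  exact not_subsingleton _ h4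

theorem lenB_fin (hA : IsBase p k b A ϖ) (V : Type) [AddCommGroup V] [Module A V]
    (hV : Module.Finite A V) (hT : Tors (tA p k b A) V) : (lenB p k b A).L V ≠ ⊤ := by
  have := hA.tower
  refine TowL.fin_lenA p (tb b p (WittVector p k)) hp.out.pos (tb_mem_maximalIdeal b p k)
    (tb b p (WittVector p k)) 0 rfl (fun N => ?_) hA.compl V hV ?_
  · refine HS.length_quot_pow_ne_top (tb b p (WittVector p k)) (t := 1) ?_ N
    rw [pow_one, maximalIdeal_tb]
  · intro x i
    obtain ⟨n, hn⟩ := hT x i
    refine ⟨n, ?_⟩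
    have h1 : algebraMap (BI p k b) A (algebraMap (BB p k b) (BI p k b)
        (tb b p (WittVector p k) i)) = tA p k b A i :=
      (IsScalarTower.algebraMap_apply (BB p k b) (BI p k b) A _).symm
    change (algebraMap (BI p k b) A (algebraMap (BB p k b) (BI p k b)
        (tb b p (WittVector p k) i))) ^ n • x = 0
    rw [h1]
    exact hn

end base

section world

variable {p : ℕ} [hp : Fact p.Prime] {k : Type} [Field k] [CharP k p] [PerfectRing k p] {b : ℕ}
  {A : Type} [CommRing A] [Algebra (BI p k b) A] [Algebra (BB p k b) A] {ϖ : ℕ → A}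
  {F : Type} [Field F] [Algebra A F] [IsAlgClosed F] [FaithfulSMul A F]

theorem nonempty_world_of (hA : IsBase p k b A ϖ) (W : RWorld p k b A ϖ F)
    {I : Type} [Preorder I] [IsDirectedOrder I] [Nonempty I]
    (D : GalTower A (integralClosure A F) I (Fin (b + 1)))
    (hU : ∀ x, ∃ i, x ∈ D.S i)
    (hΛ : D.Λ = lenB p k b A) (ht : D.t = tA p k b A)
    (hkos : ∀ (i : I) (n : ℤ), 1 ≤ n → KosG.kh D.Λ (List.ofFn D.t) (D.S i) n = 0)
    (hsmall : LenNull.Small D.Λ D.t p ϖ) : Nonempty (World p k b) := by
  have hdom := hA.dom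
  have htow := hA.tower
  let _ : CommRing W.P := W.ringP
  have hic : IsIntegrallyClosed (integralClosure A F) := plus_isIntegrallyClosed A F
  let tR : Fin (b + 1) → integralClosure A F := fun i => algebraMap A (integralClosure A F) (D.t i)
  have htR : ∀ i, sh W.ξ (W.t i) = W.j (tR i) := by
    intro i
    have h1 := (W.t_sharp i).2 0
    rw [W.perf.rtn_zero'] at h1
    rw [h1]
    change W.j (W.φ (W.tr i 0)) = W.j (algebraMap A (integralClosure A F) (D.t i))
    rw [W.tr_zero, W.φ_alg, ht]
  have hcR : Cont D.L := cont_of_contOn D.L D.contOn_L (fun M _ _ hM => D.L_eq_top hM)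
  have hpA : (p : A) ≠ 0 := by
    intro h
    have := hA.reg 1 (by rw [h, zero_mul])
    exact one_ne_zero this
  have hdR : PData p (integralClosure A F) (fun e => algebraMap A (integralClosure A F) (ϖ e)) :=
    pdata_plus hA.pdata.zero hA.pdata.roots hpA
  have hj1 : ∀ x : Om W.ξ, ∃ a, (p : Om W.ξ) ∣ x - W.j a := by
    intro x
    obtain ⟨a, ha⟩ := W.compl.dense 1 x
    rw [pow_one, map_natCast] at ha
    exact ⟨a, ha⟩
  have hj2 : ∀ a, (p : Om W.ξ) ∣ W.j a → (p : integralClosure A F) ∣ a := by
    intro a ha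
    have := W.compl.sat 1 a
    rw [pow_one, pow_one, map_natCast] at this
    exact this ha
  -- Frobenius
  have hfrob : ∀ (V V' : Type) [AddCommGroup V] [Module (integralClosure A F) V]
      [AddCommGroup V'] [Module (integralClosure A F) V'] (φ : V ≃+ V'),
      Frb.Tw p (C := integralClosure A F) φ →
        D.L.L V' = (p : ℝ≥0∞) ^ (b + 1) * D.L.L V := by
    intro V V' _ _ _ _ φ hφ
    have h1 := Frb.galTower_frob' D hU hA.pdata hdR
      (fun i => algebraMap (BI p k b) A (rt p (tb b p (WittVector p k)) hp.out.pos 1 i)) (by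
        intro i
        rw [← map_pow, rt_succ_pow, rt_zero, ht]
        exact (IsScalarTower.algebraMap_apply (BB p k b) (BI p k b) A _).symm)
      (pbasis_witt b p k) (algebraMap (BI p k b) A) hΛ φ hφ
    rw [h1]
    push_cast
    rfl
  -- values
  have htors : Tors D.t (A ⧸ Ideal.span (Set.range D.t)) := by
    intro x i
    refine ⟨1, ?_⟩
    obtain ⟨x, rfl⟩ := Ideal.Quotient.mk_surjective x
    rw [pow_one]
    change Ideal.Quotient.mk _ (D.t i * x) = 0
    exact Ideal.Quotient.eq_zero_iff_mem.2 (Ideal.mul_mem_right _ _ (Ideal.subset_span ⟨i, rfl⟩))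
  have ht0 : D.t 0 = (p : A) := by
    rw [ht]
    change algebraMap (BB p k b) A (p : BB p k b) = p
    rw [map_natCast]
  have htR0 : tR 0 = (p : integralClosure A F) := by
    change algebraMap A (integralClosure A F) (D.t 0) = p
    rw [ht0, map_natCast]
  obtain ⟨u, hu⟩ := W.t_zero
  have hval : (LP (LW W.perf W.dist W.j D.L)).L (W.P ⧸ Ideal.span (Set.range W.t)) =
      D.Λ.L (A ⧸ Ideal.span (Set.range D.t)) := by
    rw [← Frb.L_quot_map D hU _ htors, Ideal.map_span, ← Set.range_comp]
    refine LW_quot W.perf W.dist W.j D.L W.t tR htR hj1 hj2 0 ⟨u, hu.symm⟩ ?_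
    rw [htR0]
  refine ⟨{ P := W.P
            perf := W.perf
            π := W.π
            ξ := W.ξ
            dist := W.dist
            complete := W.complete
            π_reg := W.π_reg
            ι := W.j.comp W.φ
            exists_sharp := W.exists_sharp
            reg_ι := W.reg_ι
            reg_sharp := W.reg_sharp
            t := W.t
            tr := W.tr
            t_sharp := W.t_sharp
            tr_zero := W.tr_zero
            t_zero := W.t_zero
            t_jac := W.t_jac
            Λ := LW W.perf W.dist W.j D.L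
            cont := cont_LW W.perf W.dist W.j D.L hcR
            frob := ?_
            null := ?_
            L_ne_top := ?_
            L_ne_zero := ?_
            L_reg := ?_ }⟩
  · intro Y Y' _ _ _ _ e he
    exact frob_LW W.perf W.dist W.j D.L _ (pow_ne_zero _ (by exact_mod_cast hp.out.ne_zero))
      (ENNReal.pow_ne_top (ENNReal.natCast_ne_top p)) hfrob Y Y' e he
  · intro a r har hr0 X _ _ hX hkill
    refine null_LW W.perf W.dist W.j D.L W.t tR htR hcR 0 ⟨u, hu.symm⟩ a
      (fun n => W.φ (r n)) har.2 ?_ X hX hkill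
    intro V _ _ hV hk
    have hpow : ∀ n, W.φ (r n) ^ p ^ n = W.φ (r 0) := by
      intro n
      induction n with
      | zero => rw [pow_zero, pow_one]
      | succ n ih =>
        rw [pow_succ', pow_mul, ← map_pow W.φ (r (n + 1)), har.1, ih]
    refine LenNull.null_of_roots D.L D.Λ D.contOn_L (fun N I hI => ?_) 0 ht0
      (fun c n => plus_exists_pow c (Nat.pow_pos hp.out.pos)) (fun c hc => ?_) (fun a ha => ?_)
      (isBase_hfrob hA) ϖ (isBase_pow hA) hsmall V hV (W.φ (r 0)) ?_ (fun n => W.φ (r n)) hpow hk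
    · refine le_of_eq (Frb.L_quot_map D hU I ?_)
      intro x i
      refine ⟨N, ?_⟩
      obtain ⟨x, rfl⟩ := Ideal.Quotient.mk_surjective x
      change Ideal.Quotient.mk _ (D.t i ^ N * x) = 0
      exact Ideal.Quotient.eq_zero_iff_mem.2 (Ideal.mul_mem_right _ _
        (hI (Ideal.subset_span ⟨i, rfl⟩)))
    · exact plus_exists_mul hc
    · obtain ⟨e, i, m, D, -, hD, hDr⟩ := hA.fac a ha
      exact ⟨_, _, _, hD, hDr⟩
    · intro h0
      exact hr0 (W.φ_inj (by rw [h0, map_zero]))
  · rw [hval, hΛ]
    exact lenB_fin hA _ inferInstance (ht ▸ htors)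
  · rw [hval, hΛ, ht]
    exact lenB_ne_zero hA
  · intro i hi
    have h1 := kh_LW W.perf W.dist W.j D.L W.t tR htR hj1 hj2 W.t_zero (by rw [htR0])
      W.π_reg (fun x hx => (mul_eq_zero.1 hx).resolve_left (plus_natCast_ne_zero hpA)) i
    refine h1.trans ?_
    have h2 := kh_eq_zero_of_levels D hU (List.ofFn D.t) (fun k => by
      rw [List.mem_ofFn]; exact ⟨k, rfl⟩) i (fun j => hkos j i hi)
    rw [List.map_ofFn] at h2
    exact h2

end world

end Crest.Agent.R188.LenWorld
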