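/-
R188, block (L): the world, in terms of the hypotheses (FL), (DEC), (KOS0), (SMALL) on the
completed base `A` of `B_∞`.   helper200
-/
import Mathlib
import Crest.Agent.R188.LenWorld5
import Crest.Agent.R188.TowInst
import Crest.Agent.R188.Chr5

set_option autoImplicit false
set_option linter.unusedSectionVars false

namespace Crest.Agent.R188.LenWorld

open WittVector Crest.Agent.R183 Crest.Agent.R188.Prf Crest.Agent.R188.Wit
open Crest.Agent.R188.LenW Crest.Agent.R188.Tow Crest.Agent.R188.KosG Crest.Agent.R188.Apl
open Crest.Agent.R188.Asm (BB BPlus tB SharpPair World LP)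
open Crest.Agent.R183.Om (PData Reg RegMod IsCompl)
open Crest.Agent.R183.BInf
open scoped ENNReal TensorProduct

section world

variable {p : ℕ} [hp : Fact p.Prime] {k : Type} [Field k] [CharP k p] [PerfectRing k p] {b : ℕ}
  {A : Type} [CommRing A] [Algebra (BI p k b) A] [Algebra (BB p k b) A] {ϖ : ℕ → A}

theorem IsBase.charZero (hA : IsBase p k b A ϖ) : CharZero A :=
  charZero_of_injective_algebraMap hA.injB

/-- the world, from the four inputs on the completed base -/
theorem nonempty_world_of_hyp (hA : IsBase p k b A ϖ) {F K : Type} [Field F] [Field K]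
    [Algebra A F] [IsFractionRing A F] [Algebra F K] [Algebra A K] [IsScalarTower A F K]
    [IsAlgClosure F K]
    (hFL : TowI.HypFL A F K (tA p k b A) (lenB p k b A))
    (hDEC : TowI.HypDEC A F K (tA p k b A) (lenB p k b A))
    (hKOS : ∀ (L : FiniteGaloisIntermediateField F K) (n : ℤ), 1 ≤ n →
      kh (lenB p k b A) (List.ofFn (tA p k b A)) (integralClosure A L) n = 0)
    (hsmall : LenNull.Small (lenB p k b A) (tA p k b A) p ϖ) : Nonempty (World p k b) := by
  have hdom := hA.dom
  have hcA : CharZero A := IsBase.charZero hA
  have hcF : CharZero F := charZero_of_injective_algebraMap (IsFractionRing.injective A F)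
  have hK : IsAlgClosed K := IsAlgClosure.isAlgClosed F
  have hfs : FaithfulSMul A K := by
    rw [faithfulSMul_iff_algebraMap_injective, IsScalarTower.algebraMap_eq A F K]
    exact (algebraMap F K).injective.comp (IsFractionRing.injective A F)
  obtain ⟨W⟩ := IsBase.nonempty_rworld (F := K) hA
  let D := TowI.galTower (K := K) (TowL.contOn_lenA p (tb b p (WittVector p k)) hp.out.pos
    (tA p k b A)) (fun V _ _ hV hT => lenB_fin hA V hV hT) hFL hDEC
  refine nonempty_world_of (F := K) hA W D (fun x => TowI.exists_mem_SL x) rfl rfl ?_ hsmall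
  intro L n hn
  rw [← hKOS L n hn]
  have h1 := (kh_change (f := RingHom.id A) (lenB p k b A) (lenB p k b A)
    (fun X X' _ _ _ _ e he => (lenB p k b A).L_congr { e with map_smul' := he })
    (integralClosure A L) (TowI.SL A F K L) (TowI.eL (L : IntermediateField F K)).toAddEquiv
    (fun a x => map_smul (TowI.eL (L : IntermediateField F K)) a x)
    (List.ofFn (tA p k b A)) n).symm
  have h2 : List.map (RingHom.id A) (List.ofFn (tA p k b A)) = List.ofFn (tA p k b A) :=
    List.map_id _
  rw [h2] at h1
  exact h1

end world

end Crest.Agent.R188.LenWorld
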