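/-
R188 (Serre positivity), block TowNul1: null modules detected after a cover `A → Ω` which is flat
modulo the powers of `p`; the abstract vanishing up to null of `Tor`.   Author: helper814.
-/
import Crest.Agent.R188.Tow1
import Crest.Agent.R183.Om5
import Mathlib.RingTheory.TensorProduct.DirectLimitFG
import Mathlib.RingTheory.TensorProduct.Quotient

set_option autoImplicit false

namespace Crest.Agent.R188.TowN

open scoped ENNReal TensorProduct
open Crest.Agent.R183 Crest.Agent.R183.Om Crest.Agent.R188.Tow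

universe u v w

section Lemmas

variable {A : Type*} [CommRing A] {M V V' : Type*} [AddCommGroup M] [Module A M]
  [AddCommGroup V] [Module A V] [AddCommGroup V'] [Module A V']

theorem exists_fg_lTensor (x : M ⊗[A] V) : ∃ V0 : Submodule A V, V0.FG ∧
    ∃ y : M ⊗[A] V0, V0.subtype.lTensor M y = x := by
  obtain ⟨V0, h0, y, hy⟩ := Submodule.exists_fg_le_eq_rTensor_subtype (TensorProduct.comm A M V x)
  refine ⟨V0, h0, (TensorProduct.comm A M V0).symm y, ?_⟩
  apply (TensorProduct.comm A M V).injective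
  rw [hy, ← LinearMap.comm_comp_rTensor_comp_comm_eq]
  simp

theorem fg_zero (V0 : Submodule A V) (h0 : V0.FG) (y : M ⊗[A] V0)
    (h : V0.subtype.lTensor M y = 0) : ∃ (V1 : Submodule A V) (h1 : V0 ≤ V1), V1.FG ∧
      (Submodule.inclusion h1).lTensor M y = 0 := by
  have h2 : LinearMap.rTensor M V0.subtype (TensorProduct.comm A M V0 y) = 0 := by
    rw [← LinearMap.comm_comp_lTensor_comp_comm_eq]
    simp [h]
  obtain ⟨V1, h1, hV1, h3⟩ := TensorProduct.eq_zero_of_fg_of_subtype_eq_zero h0 h2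
  refine ⟨V1, h1, hV1, ?_⟩
  apply (TensorProduct.comm A M V1).injective
  rw [map_zero, ← h3, ← LinearMap.comm_comp_lTensor_comp_comm_eq]
  simp

end Lemmas

section Flat

variable {A : Type u} [CommRing A] {Ω : Type v} [CommRing Ω] [Algebra A Ω]

/-- `Ω ⊗_A V → (Ω/I) ⊗_{A/I} V` has a left inverse when `I V = 0` -/
theorem exists_retract (I : Ideal A) (V : Type*) [AddCommGroup V] [Module A V] [Module (A ⧸ I) V]
    [IsScalarTower A (A ⧸ I) V] :
    ∃ (u : (Ω ⊗[A] V) →+ ((Ω ⧸ I.map (algebraMap A Ω)) ⊗[A ⧸ I] V))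
      (w : ((Ω ⧸ I.map (algebraMap A Ω)) ⊗[A ⧸ I] V) →+ (Ω ⊗[A] V)),
      (∀ ω v, u (ω ⊗ₜ v) = Ideal.Quotient.mk _ ω ⊗ₜ v) ∧ ∀ x, w (u x) = x := by
  have hI : ∀ a ∈ I, ∀ v : V, a • v = 0 := by
    intro a ha v
    rw [← one_smul (A ⧸ I) v, ← smul_assoc]
    have : a • (1 : A ⧸ I) = 0 := by
      rw [Algebra.smul_def, mul_one]
      exact Ideal.Quotient.eq_zero_iff_mem.2 ha
    rw [this, zero_smul]
  let f1 : Ω →+ V →+ ((Ω ⧸ I.map (algebraMap A Ω)) ⊗[A ⧸ I] V) :=
    { toFun := fun ω =>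
        { toFun := fun v => Ideal.Quotient.mk _ ω ⊗ₜ v
          map_zero' := TensorProduct.tmul_zero _ _
          map_add' := fun v v' => TensorProduct.tmul_add _ _ _ }
      map_zero' := by
        ext v
        change Ideal.Quotient.mk _ 0 ⊗ₜ v = 0
        rw [map_zero, TensorProduct.zero_tmul]
      map_add' := fun ω ω' => by
        ext v
        change Ideal.Quotient.mk _ (ω + ω') ⊗ₜ v = _
        rw [map_add, TensorProduct.add_tmul]
        rfl }
  let u : (Ω ⊗[A] V) →+ ((Ω ⧸ I.map (algebraMap A Ω)) ⊗[A ⧸ I] V) :=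
    TensorProduct.liftAddHom f1 (by
      intro a ω v
      change Ideal.Quotient.mk _ (a • ω) ⊗ₜ v = Ideal.Quotient.mk _ ω ⊗ₜ (a • v)
      have h1 : Ideal.Quotient.mk (I.map (algebraMap A Ω)) (a • ω) =
          (Ideal.Quotient.mk I a) • (Ideal.Quotient.mk (I.map (algebraMap A Ω)) ω) := by
        rw [Algebra.smul_def, Algebra.smul_def, map_mul]; rfl
      have h2 : a • v = (Ideal.Quotient.mk I a) • v := (algebraMap_smul (A ⧸ I) a v).symm
      rw [h1, h2, TensorProduct.smul_tmul])
  let f2 : Ω →+ V →+ (Ω ⊗[A] V) :=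
    { toFun := fun ω =>
        { toFun := fun v => ω ⊗ₜ v
          map_zero' := TensorProduct.tmul_zero _ _
          map_add' := fun v v' => TensorProduct.tmul_add _ _ _ }
      map_zero' := by
        ext v
        exact TensorProduct.zero_tmul _ _
      map_add' := fun ω ω' => by
        ext v
        exact TensorProduct.add_tmul _ _ _ }
  have hf2 : ∀ x ∈ (I.map (algebraMap A Ω)), f2 x = 0 := by
    intro x hx
    induction hx using Submodule.span_induction with
    | mem y hy =>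
      obtain ⟨a, ha, rfl⟩ := hy
      ext v
      change (algebraMap A Ω a) ⊗ₜ v = 0
      rw [Algebra.algebraMap_eq_smul_one, TensorProduct.smul_tmul, hI a ha, TensorProduct.tmul_zero]
    | zero => exact map_zero _
    | add y z _ _ hy hz => rw [map_add, hy, hz, add_zero]
    | smul a y _ hy =>
      ext v
      change (a * y) ⊗ₜ v = 0
      have h1 : y ⊗ₜ[A] v = 0 := DFunLike.congr_fun hy v
      have h2 : (a * y) ⊗ₜ[A] v = a • (y ⊗ₜ[A] v) := by
        rw [TensorProduct.smul_tmul', smul_eq_mul]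
      rw [h2, h1, smul_zero]
  let f3 : (Ω ⧸ I.map (algebraMap A Ω)) →+ V →+ (Ω ⊗[A] V) :=
    QuotientAddGroup.lift (I.map (algebraMap A Ω)).toAddSubgroup f2 (fun x hx => hf2 x hx)
  have hf3 : ∀ ω, f3 (Ideal.Quotient.mk _ ω) = f2 ω := fun ω => rfl
  let w : ((Ω ⧸ I.map (algebraMap A Ω)) ⊗[A ⧸ I] V) →+ (Ω ⊗[A] V) :=
    TensorProduct.liftAddHom f3 (by
      intro a ω v
      obtain ⟨a, rfl⟩ := Ideal.Quotient.mk_surjective a
      obtain ⟨ω, rfl⟩ := Ideal.Quotient.mk_surjective ω
      have h1 : (Ideal.Quotient.mk I a) • (Ideal.Quotient.mk (I.map (algebraMap A Ω)) ω) =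
          Ideal.Quotient.mk (I.map (algebraMap A Ω)) (a • ω) := by
        rw [Algebra.smul_def, Algebra.smul_def, map_mul]; rfl
      have h2 : (Ideal.Quotient.mk I a) • v = a • v := algebraMap_smul (A ⧸ I) a v
      rw [h1, h2, hf3, hf3]
      change (a • ω) ⊗ₜ v = ω ⊗ₜ (a • v)
      exact TensorProduct.smul_tmul _ _ _)
  refine ⟨u, w, fun ω v => rfl, fun x => ?_⟩
  induction x with
  | zero => rw [map_zero, map_zero]
  | add x y hx hy => rw [map_add, map_add, hx, hy]
  | tmul ω v => rfl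

/-- `Ω ⊗ V' → Ω ⊗ V` is injective when `V' → V` is, `I V = 0` and `Ω / I` is flat over `A / I` -/
theorem lTensor_inj (I : Ideal A) (h : FlatQ A (B := Ω) I) {V' V : Type*} [AddCommGroup V']
    [Module A V'] [AddCommGroup V] [Module A V] (f : V' →ₗ[A] V) (hf : Function.Injective f)
    (hV : ∀ a ∈ I, ∀ v : V, a • v = 0) : Function.Injective (f.lTensor Ω) := by
  have hV' : ∀ a ∈ I, ∀ v : V', a • v = 0 := fun a ha v => hf (by
    rw [map_smul, map_zero, hV a ha])
  have t1 : Module.IsTorsionBySet A V (I : Set A) := fun v a => hV a.1 a.2 v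
  have t2 : Module.IsTorsionBySet A V' (I : Set A) := fun v a => hV' a.1 a.2 v
  let _ : Module (A ⧸ I) V := t1.module
  let _ : Module (A ⧸ I) V' := t2.module
  have s1 : IsScalarTower A (A ⧸ I) V := t1.isScalarTower
  have s2 : IsScalarTower A (A ⧸ I) V' := t2.isScalarTower
  let f' : V' →ₗ[A ⧸ I] V :=
    { toFun := f
      map_add' := map_add f
      map_smul' := by
        intro a v
        obtain ⟨a, rfl⟩ := Ideal.Quotient.mk_surjective a
        exact map_smul f a v }
  have hfl : Module.Flat (A ⧸ I) (Ω ⧸ I.map (algebraMap A Ω)) := h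
  have h1 : Function.Injective (f'.lTensor (Ω ⧸ I.map (algebraMap A Ω))) :=
    Module.Flat.lTensor_preserves_injective_linearMap f' hf
  obtain ⟨u, w, hu, hw⟩ := exists_retract (Ω := Ω) I V
  obtain ⟨u', w', hu', hw'⟩ := exists_retract (Ω := Ω) I V'
  have hsq : ∀ x, f'.lTensor (Ω ⧸ I.map (algebraMap A Ω)) (u' x) = u (f.lTensor Ω x) := by
    intro x
    induction x with
    | zero => simp only [map_zero]
    | add x y hx hy => simp only [map_add, hx, hy]
    | tmul ω v => rw [hu', LinearMap.lTensor_tmul, LinearMap.lTensor_tmul, hu]; rfl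
  rw [injective_iff_map_eq_zero]
  intro x hx
  have h2 : u' x = 0 := h1 (by rw [hsq, hx, map_zero, map_zero])
  rw [← hw' x, h2, map_zero]

theorem exists_pow_of_fg (a : A) {V : Type*} [AddCommGroup V] [Module A V] (V0 : Submodule A V)
    (h0 : V0.FG) (h : ∀ v ∈ V0, ∃ n : ℕ, a ^ n • v = 0) : ∃ n : ℕ, ∀ v ∈ V0, a ^ n • v = 0 := by
  classical
  obtain ⟨s, rfl⟩ := h0
  have h1 : ∀ v : s, ∃ n : ℕ, a ^ n • (v : V) = 0 := fun v => h v (Submodule.subset_span v.2)
  choose n hn using h1
  refine ⟨∑ v, n v, fun v hv => ?_⟩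
  induction hv using Submodule.span_induction with
  | mem y hy =>
    have h2 : n ⟨y, hy⟩ ≤ ∑ v, n v := Finset.single_le_sum (fun _ _ => Nat.zero_le _)
      (Finset.mem_univ (⟨y, hy⟩ : s))
    obtain ⟨k, hk⟩ := Nat.exists_eq_add_of_le h2
    rw [hk, add_comm, pow_add, mul_smul, hn ⟨y, hy⟩, smul_zero]
  | zero => exact smul_zero _
  | add y z _ _ hy hz => rw [smul_add, hy, hz, add_zero]
  | smul b y _ hy => rw [smul_comm, hy, smul_zero]

/-- the same for `V` of unbounded `a`-power torsion -/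
theorem lTensor_inj_tors (a : A) (h : ∀ n : ℕ, FlatQ A (B := Ω) (Ideal.span {a ^ n}))
    {V' V : Type*} [AddCommGroup V'] [Module A V'] [AddCommGroup V] [Module A V] (f : V' →ₗ[A] V)
    (hf : Function.Injective f) (hV : ∀ v : V, ∃ n : ℕ, a ^ n • v = 0) :
    Function.Injective (f.lTensor Ω) := by
  rw [injective_iff_map_eq_zero]
  intro x hx
  obtain ⟨V0, h0, y, rfl⟩ := exists_fg_lTensor x
  -- the image of `V0`
  let g : V0 →ₗ[A] V := f ∘ₗ V0.subtype
  have hg : Function.Injective g := hf.comp V0.subtype_injective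
  let g' : V0 →ₗ[A] LinearMap.range g := g.rangeRestrict
  have hg' : (LinearMap.range g).subtype ∘ₗ g' = g := rfl
  have h1 : (LinearMap.range g).subtype.lTensor Ω (g'.lTensor Ω y) = 0 := by
    rw [← LinearMap.lTensor_comp_apply, hg', LinearMap.lTensor_comp_apply, hx]
  have hfg : (LinearMap.range g).FG := by
    have : (⊤ : Submodule A V0).FG := (Submodule.fg_top V0).2 h0
    rw [LinearMap.range_eq_map]
    exact this.map g
  obtain ⟨V1, h2, hV1, h3⟩ := fg_zero _ hfg _ h1
  obtain ⟨n, hn⟩ := exists_pow_of_fg a V1 hV1 fun v _ => hV v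
  have h4 : Function.Injective (((Submodule.inclusion h2) ∘ₗ g').lTensor Ω) := by
    refine lTensor_inj (Ideal.span {a ^ n}) (h n) _ ?_ ?_
    · refine (Submodule.inclusion_injective h2).comp fun v v' hvv => hg ?_
      exact congrArg Subtype.val hvv
    · intro b hb v
      obtain ⟨c, rfl⟩ := Ideal.mem_span_singleton'.1 hb
      exact Subtype.ext (by rw [mul_smul]; simp [hn v.1 v.2])
  have h5 : y = 0 := h4 (by rw [LinearMap.lTensor_comp_apply, h3, map_zero])
  rw [h5, map_zero]

end Flat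

section Null

variable {A : Type u} [CommRing A] {Ω : Type v} [CommRing Ω] [Algebra A Ω] {κ : Type w}

/-- the statement (FACT): ideals that contain all `μ e` after the cover are null -/
def FactN (Λ : AddLen.{u, u} A) (s : κ → A) (μ : ℕ → Ω) : Prop :=
  ∀ I : Ideal A, (∀ i, ∃ N : ℕ, s i ^ N ∈ I) → (∀ e, μ e ∈ I.map (algebraMap A Ω)) →
    Λ.L (A ⧸ I) = 0

variable {Λ : AddLen.{u, u} A} {s : κ → A} {μ : ℕ → Ω}

/-- length of a cyclic submodule -/
theorem L_span_eq (Λ : AddLen.{u, u} A) {X : Type u} [AddCommGroup X] [Module A X] (x : X) :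
    Λ.L (Submodule.span A {x}) = Λ.L (A ⧸ LinearMap.ker (LinearMap.toSpanSingleton A X x)) := by
  have e := (LinearMap.toSpanSingleton A X x).quotKerEquivRange
  rw [Λ.L_congr e]
  have h : LinearMap.range (LinearMap.toSpanSingleton A X x) = Submodule.span A {x} :=
    LinearMap.range_toSpanSingleton x
  rw [h]

/-- an element killed by all `μ e` after the cover is null -/
theorem null_of_mul (F : FactN Λ s μ) (i0 : κ)
    (h : ∀ n : ℕ, FlatQ A (B := Ω) (Ideal.span {s i0 ^ n})) {X : Type u} [AddCommGroup X]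
    [Module A X] (hX : ∀ v : X, ∃ n : ℕ, s i0 ^ n • v = 0) (x : X)
    (hx : ∀ i, ∃ N : ℕ, s i ^ N • x = 0) (hμ : ∀ e, (μ e) ⊗ₜ[A] x = 0) :
    Λ.L (Submodule.span A {x}) = 0 := by
  rw [L_span_eq]
  set f := LinearMap.toSpanSingleton A X x with hf
  refine F (LinearMap.ker f) (fun i => ?_) fun e => ?_
  · obtain ⟨N, hN⟩ := hx i
    exact ⟨N, by rwa [LinearMap.mem_ker, hf, LinearMap.toSpanSingleton_apply]⟩
  · let g : (A ⧸ LinearMap.ker f) →ₗ[A] X := Submodule.liftQ _ f le_rfl
    have hg : Function.Injective g :=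
      LinearMap.ker_eq_bot.mp (Submodule.ker_liftQ_eq_bot _ _ _ le_rfl)
    have h1 := lTensor_inj_tors (s i0) h g hg hX
    have h2 : (μ e) ⊗ₜ[A] (Submodule.Quotient.mk (1 : A) : A ⧸ LinearMap.ker f) = 0 := by
      apply h1
      rw [map_zero, LinearMap.lTensor_tmul]
      have : g (Submodule.Quotient.mk (1 : A)) = x := by
        change Submodule.liftQ _ f le_rfl (Submodule.Quotient.mk (1 : A)) = x
        rw [Submodule.liftQ_apply, hf, LinearMap.toSpanSingleton_apply, one_smul]
      rw [this, hμ]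
    let e' := Algebra.TensorProduct.quotIdealMapEquivTensorQuot Ω (LinearMap.ker f : Ideal A)
    have h3 : e' (Ideal.Quotient.mk _ (μ e)) = 0 := by
      have h4 : e' (algebraMap Ω _ (μ e)) = algebraMap Ω _ (μ e) := e'.commutes (μ e)
      rw [Algebra.TensorProduct.algebraMap_apply] at h4
      change e' (Ideal.Quotient.mk _ (μ e)) = _ at h4
      rw [h4]
      exact h2
    rw [← Ideal.Quotient.eq_zero_iff_mem]
    exact (map_eq_zero_iff _ e'.injective).1 h3

end Null

end Crest.Agent.R188.TowN
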