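/-
R188 (Serre positivity), block TowNul2: consequences of the almost splitting (`Tring.AlmSplit`) and
of (FACT): `T ⊗ -` is exact up to null, Galois decomposition up to null.   Author: helper814.
-/
import Crest.Agent.R188.TowNul1
import Crest.Agent.R188.Tow2

set_option autoImplicit false

namespace Crest.Agent.R188.TowN

open scoped ENNReal TensorProduct
open Crest.Agent.R183 Crest.Agent.R183.Om Crest.Agent.R188.Tow

universe u v w

section Tor

variable {A : Type u} [CommRing A] {Ω : Type v} [CommRing Ω] [Algebra A Ω]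

/-- almost factorisation of `Ω ⊗ T` through free modules (field `fac` of `Tring.AlmSplit`) -/
def Fac (p : A) (μ : ℕ → Ω) (T : Type*) [AddCommGroup T] [Module A T] : Prop :=
  ∀ e N : ℕ, ∃ (n : ℕ) (E : Fin n → Ω ⊗[A] T) (β : Fin n → T →ₗ[A] Ω),
    ∀ x : T, ∃ κ : Ω ⊗[A] T, ∑ j, β j x • E j = μ e • ((1 : Ω) ⊗ₜ[A] x) + (p ^ N) • κ

/-- `t ↦ t ⊗ v` -/
noncomputable def ins (A : Type*) [CommRing A] (T : Type*) [AddCommGroup T] [Module A T]
    {V : Type*} [AddCommGroup V] [Module A V] (v : V) : T →ₗ[A] T ⊗[A] V :=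
  (TensorProduct.mk A T V).flip v

theorem ins_smul {T : Type*} [AddCommGroup T] [Module A T] {V : Type*} [AddCommGroup V]
    [Module A V] (a : A) (v : V) (x : Ω ⊗[A] T) :
    (ins A T v).lTensor Ω (a • x) = (ins A T (a • v)).lTensor Ω x := by
  have h : ins A T (a • v) = a • ins A T v := by
    unfold ins
    rw [map_smul]
  rw [h, LinearMap.lTensor_smul, map_smul]
  rfl

theorem ins_add {T : Type*} [AddCommGroup T] [Module A T] {V : Type*} [AddCommGroup V]
    [Module A V] (v w : V) (x : Ω ⊗[A] T) :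
    (ins A T (v + w)).lTensor Ω x = (ins A T v).lTensor Ω x + (ins A T w).lTensor Ω x := by
  have h : ins A T (v + w) = ins A T v + ins A T w := by
    unfold ins
    rw [map_add]
  rw [h, LinearMap.lTensor_add]
  rfl

/-- `lTensor` commutes with the left action of `Ω` -/
theorem lTensor_smul_left {M N : Type*} [AddCommGroup M] [Module A M] [AddCommGroup N] [Module A N]
    (f : M →ₗ[A] N) (ω : Ω) (x : Ω ⊗[A] M) : f.lTensor Ω (ω • x) = ω • f.lTensor Ω x := by
  induction x with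
  | zero => simp
  | add x y hx hy => simp only [smul_add, map_add, hx, hy]
  | tmul a m => simp only [TensorProduct.smul_tmul', LinearMap.lTensor_tmul]

/-- the map `ω ⊗ v ↦ ω · (E ⊗ v)` -/
noncomputable def Th {T : Type*} [AddCommGroup T] [Module A T] {V : Type*} [AddCommGroup V]
    [Module A V] (E : Ω ⊗[A] T) : (Ω ⊗[A] V) →ₗ[A] Ω ⊗[A] (T ⊗[A] V) :=
  TensorProduct.lift
    (LinearMap.mk₂ A (fun (ω : Ω) (v : V) => ω • (ins A T v).lTensor Ω E)
      (fun ω ω' v => add_smul _ _ _)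
      (fun a ω v => by rw [smul_assoc])
      (fun ω v v' => by rw [ins_add, smul_add])
      (fun a ω v => by
        rw [← ins_smul, map_smul, smul_comm]))

theorem Th_tmul {T : Type*} [AddCommGroup T] [Module A T] {V : Type*} [AddCommGroup V]
    [Module A V] (E : Ω ⊗[A] T) (ω : Ω) (v : V) :
    Th E (ω ⊗ₜ[A] v) = ω • (ins A T v).lTensor Ω E := rfl

variable {p : A} {μ : ℕ → Ω} {T : Type*} [AddCommGroup T] [Module A T]
  {V' V : Type*} [AddCommGroup V'] [Module A V'] [AddCommGroup V] [Module A V]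

theorem sum_Th {n : ℕ} (E : Fin n → Ω ⊗[A] T) (β : Fin n → T →ₗ[A] Ω) (m : Ω) (N : ℕ)
    (h : ∀ x : T, ∃ κ : Ω ⊗[A] T, ∑ j, β j x • E j = m • ((1 : Ω) ⊗ₜ[A] x) + (p ^ N) • κ)
    (hV : ∀ v : V, p ^ N • v = 0) (y : T ⊗[A] V) :
    ∑ j, Th (E j) ((β j).rTensor V y) = m ⊗ₜ[A] y := by
  induction y with
  | zero => simp
  | add x y hx hy => simp only [map_add, Finset.sum_add_distrib, hx, hy, TensorProduct.tmul_add]
  | tmul t v =>
    obtain ⟨κ, hκ⟩ := h t
    simp only [LinearMap.rTensor_tmul, Th_tmul, ← lTensor_smul_left]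
    rw [← map_sum, hκ, map_add, ins_smul, hV, lTensor_smul_left, LinearMap.lTensor_tmul]
    have h0 : ins A T (0 : V) = 0 := by
      unfold ins
      rw [map_zero]
    rw [h0, LinearMap.lTensor_zero, LinearMap.zero_apply, add_zero, TensorProduct.smul_tmul',
      smul_eq_mul, mul_one]
    rfl

/-- **(TOR0), elementwise** -/
theorem tmul_eq_zero_of_fac (hfl : ∀ n : ℕ, FlatQ A (B := Ω) (Ideal.span {p ^ n}))
    (hT : Fac p μ T) (f : V' →ₗ[A] V) (hf : Function.Injective f)
    (hV : ∀ v : V, ∃ n : ℕ, p ^ n • v = 0) (x : T ⊗[A] V') (hx : f.lTensor T x = 0) (e : ℕ) :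
    (μ e) ⊗ₜ[A] x = (0 : Ω ⊗[A] (T ⊗[A] V')) := by
  obtain ⟨V0, h0, y, rfl⟩ := exists_fg_lTensor x
  let g : V0 →ₗ[A] V := f ∘ₗ V0.subtype
  have hg : Function.Injective g := hf.comp V0.subtype_injective
  have hy : g.lTensor T y = 0 := by rw [LinearMap.lTensor_comp_apply, hx]
  obtain ⟨N, hN⟩ := exists_pow_of_fg p V0 h0 fun v _ => by
    obtain ⟨n, hn⟩ := hV (f v)
    exact ⟨n, hf (by rw [map_smul, hn, map_zero])⟩
  obtain ⟨n, E, β, hβ⟩ := hT e N
  have h1 : ∀ j, (β j).rTensor V0 y = 0 := by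
    intro j
    apply lTensor_inj_tors p hfl g hg hV
    have h2 : g.lTensor Ω ((β j).rTensor V0 y) = (β j).rTensor V (g.lTensor T y) := by
      rw [← LinearMap.comp_apply, ← LinearMap.comp_apply, LinearMap.lTensor_comp_rTensor,
        LinearMap.rTensor_comp_lTensor]
    rw [h2, hy, map_zero, map_zero]
  have h3 := sum_Th (p := p) E β (μ e) N hβ (fun v : V0 => Subtype.ext (by simp [hN v.1 v.2])) y
  have h4 : (μ e) ⊗ₜ[A] y = (0 : Ω ⊗[A] (T ⊗[A] V0)) := by
    rw [← h3]
    exact Finset.sum_eq_zero fun j _ => by rw [h1, map_zero]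
  have h5 : (V0.subtype.lTensor T).lTensor Ω ((μ e) ⊗ₜ[A] y) = 0 := by rw [h4, map_zero]
  exact h5

end Tor

section Null

variable {A : Type u} [CommRing A] {Ω : Type v} [CommRing Ω] [Algebra A Ω] {κ : Type w}
variable {Λ : AddLen.{u, u} A} {s : κ → A} {μ : ℕ → Ω} {T : Type u} [AddCommGroup T] [Module A T]
  {V' V : Type u} [AddCommGroup V'] [Module A V'] [AddCommGroup V] [Module A V]

theorem tors_tensor_left (p : A) (hV : ∀ v : V, ∃ n : ℕ, p ^ n • v = 0) (x : T ⊗[A] V) :
    ∃ n : ℕ, p ^ n • x = 0 := by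
  induction x with
  | zero => exact ⟨0, smul_zero _⟩
  | add x y hx hy =>
    obtain ⟨n, hn⟩ := hx
    obtain ⟨m, hm⟩ := hy
    refine ⟨n + m, ?_⟩
    rw [smul_add, pow_add, mul_smul, mul_smul, hm, smul_zero, add_zero, smul_comm, hn, smul_zero]
  | tmul t v =>
    obtain ⟨n, hn⟩ := hV v
    exact ⟨n, by rw [← TensorProduct.tmul_smul, hn, TensorProduct.tmul_zero]⟩

/-- (TOR0): a torsion element of the kernel of `T ⊗ V' → T ⊗ V` is null -/
theorem null_of_lTensor (F : FactN Λ s μ) (i0 : κ)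
    (hfl : ∀ n : ℕ, FlatQ A (B := Ω) (Ideal.span {s i0 ^ n})) (hT : Fac (s i0) μ T)
    (f : V' →ₗ[A] V) (hf : Function.Injective f) (hV : ∀ v : V, ∃ n : ℕ, s i0 ^ n • v = 0)
    (x : T ⊗[A] V') (hx : f.lTensor T x = 0) (hxs : ∀ i, ∃ N : ℕ, s i ^ N • x = 0) :
    Λ.L (Submodule.span A {x}) = 0 := by
  refine null_of_mul F i0 hfl (fun y => tors_tensor_left (s i0) (fun v => ?_) y) x hxs
    (fun e => tmul_eq_zero_of_fac hfl hT f hf hV x hx e)
  obtain ⟨n, hn⟩ := hV (f v)
  exact ⟨n, hf (by rw [map_smul, hn, map_zero])⟩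

/-- **(TOR0)** -/
theorem ker_lTensor_null (F : FactN Λ s μ) (hc : ContOn Λ s) (i0 : κ)
    (hfl : ∀ n : ℕ, FlatQ A (B := Ω) (Ideal.span {s i0 ^ n})) (hT : Fac (s i0) μ T)
    (f : V' →ₗ[A] V) (hf : Function.Injective f) (hV : Tors s V) :
    Λ.L (LinearMap.ker (f.lTensor T)) = 0 := by
  have hV' : Tors s V' := hV.of_injective f hf
  have hTV : Tors s (T ⊗[A] V') := fun x i => tors_tensor_left (s i) (fun v => hV' v i) x
  rw [hc.eq_zero_iff (hTV.submodule _)]
  rintro ⟨x, hx⟩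
  have h1 := null_of_lTensor F i0 hfl hT f hf (fun v => hV v i0) x hx (hTV x)
  have h2 := L_span_image Λ (LinearMap.ker (f.lTensor T)).subtype (Submodule.subtype_injective _)
    {(⟨x, hx⟩ : LinearMap.ker (f.lTensor T))}
  rw [← h2, Set.image_singleton]
  exact h1

end Null

section Dec

variable {A : Type u} [CommRing A] {Ω : Type v} [CommRing Ω] [Algebra A Ω] {κ : Type w}
variable {T : Type u} [CommRing T] [Algebra A T]

/-- field `sep` of `Tring.AlmSplit` -/
def Sep (p : A) (μ : ℕ → Ω) (H : Set (T →ₐ[A] T)) : Prop :=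
  ∀ e N : ℕ, ∃ (n : ℕ) (E F : Fin n → Ω ⊗[A] T),
    (∃ κ : Ω ⊗[A] T, ∑ j, E j * F j = μ e • (1 : Ω ⊗[A] T) + (p ^ N) • κ) ∧
    ∀ h ∈ H, ∃ κ : Ω ⊗[A] T,
      ∑ j, Algebra.TensorProduct.map (AlgHom.id Ω Ω) h (E j) * F j = (p ^ N) • κ

variable {V : Type u} [AddCommGroup V] [Module A V] [Module T V] [IsScalarTower A T V]

/-- `c ↦ c v` -/
noncomputable def act (v : V) : T →ₗ[A] V := (LinearMap.toSpanSingleton T V v).restrictScalars A

theorem act_apply (v : V) (c : T) : act (A := A) v c = c • v := rfl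

variable {G : Type} (σ : G → (T →ₐ[A] T))

/-- the bilinear map `(E, F) ↦ (σ_g(E) σ_{g0}(F) v)_g` with values in `Ω ⊗ decSub` -/
theorem exists_Xi (g0 : G) (v : V) (E F : Ω ⊗[A] T) : ∃ z : Ω ⊗[A] (decSub σ V),
    ∀ g : G, (LinearMap.proj g ∘ₗ (decSub σ V).subtype).lTensor Ω z =
      (act v).lTensor Ω (Algebra.TensorProduct.map (AlgHom.id Ω Ω) (σ g) E *
        Algebra.TensorProduct.map (AlgHom.id Ω Ω) (σ g0) F) := by
  induction E with
  | zero => exact ⟨0, fun g => by simp⟩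
  | add x y hx hy =>
    obtain ⟨z, hz⟩ := hx
    obtain ⟨z', hz'⟩ := hy
    exact ⟨z + z', fun g => by rw [map_add, hz, hz', map_add, add_mul, map_add]⟩
  | tmul ω a =>
    induction F with
    | zero => exact ⟨0, fun g => by simp⟩
    | add x y hx hy =>
      obtain ⟨z, hz⟩ := hx
      obtain ⟨z', hz'⟩ := hy
      exact ⟨z + z', fun g => by
        rw [map_add, hz, hz', map_add, mul_add, map_add]⟩
    | tmul ω' b =>
      refine ⟨(ω * ω') ⊗ₜ ⟨fun g => σ g a • (σ g0 b • v), Submodule.subset_span ⟨a, _, rfl⟩⟩,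
        fun g => ?_⟩
      rw [LinearMap.lTensor_tmul, Algebra.TensorProduct.map_tmul, Algebra.TensorProduct.map_tmul,
        Algebra.TensorProduct.tmul_mul_tmul, LinearMap.lTensor_tmul, act_apply, mul_smul]
      rfl

theorem act_smul (a : A) (v : V) (x : Ω ⊗[A] T) :
    (act (A := A) v).lTensor Ω (a • x) = (act (A := A) (a • v)).lTensor Ω x := by
  have h : act (A := A) (T := T) (a • v) = a • act (A := A) v := by
    ext c
    rw [LinearMap.smul_apply, act_apply, act_apply, smul_comm]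
  rw [h, LinearMap.lTensor_smul, map_smul]
  rfl

theorem bc_smul (h : T →ₐ[A] T) (a : A) (y : Ω ⊗[A] T) :
    Algebra.TensorProduct.map (AlgHom.id Ω Ω) h (a • y) =
      a • Algebra.TensorProduct.map (AlgHom.id Ω Ω) h y := by
  rw [← algebraMap_smul Ω a y, map_smul, algebraMap_smul]

/-- elements of `Ω ⊗ (G → V)` are determined by their coordinates -/
theorem eq_of_proj {G : Type} [Finite G] {x y : Ω ⊗[A] (G → V)}
    (h : ∀ g : G, (LinearMap.proj (R := A) (φ := fun _ : G => V) g).lTensor Ω x =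
      (LinearMap.proj (R := A) (φ := fun _ : G => V) g).lTensor Ω y) : x = y := by
  classical
  have := Fintype.ofFinite G
  have key : ∀ z : Ω ⊗[A] (G → V), z = ∑ g, (LinearMap.single A (fun _ : G => V) g).lTensor Ω
      ((LinearMap.proj (R := A) (φ := fun _ : G => V) g).lTensor Ω z) := by
    intro z
    induction z with
    | zero => simp
    | add x y hx hy =>
      simp only [map_add, Finset.sum_add_distrib]
      rw [← hx, ← hy]
    | tmul ω w =>
      simp only [LinearMap.lTensor_tmul]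
      rw [← TensorProduct.tmul_sum]
      congr 1
      exact (Finset.univ_sum_single w).symm
  rw [key x, key y]
  exact Finset.sum_congr rfl fun g _ => by rw [h g]

theorem tmul_eq_zero_of_sep {p : A} {μ : ℕ → Ω} {H : Set (T →ₐ[A] T)} (hS : Sep p μ H)
    {G : Type} [Finite G] {σ : G → (T →ₐ[A] T)}
    (hσ : ∀ g g0, g ≠ g0 → ∃ h ∈ H, σ g = (σ g0).comp h) (e : ℕ)
    (hV : ∀ v : V, ∃ n : ℕ, p ^ n • v = 0) (x : (G → V) ⧸ decSub σ V) :
    (μ e) ⊗ₜ[A] x = (0 : Ω ⊗[A] ((G → V) ⧸ decSub σ V)) := by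
  classical
  have := Fintype.ofFinite G
  -- the elements `δ_{g0} v`
  have key : ∀ (g0 : G) (v : V),
      (μ e) ⊗ₜ[A] (decSub σ V).mkQ (Pi.single g0 v) = 0 := by
    intro g0 v
    obtain ⟨N, hN⟩ := hV v
    obtain ⟨n, E, F, ⟨κ, hκ⟩, h2⟩ := hS e N
    choose z hz using fun j => exists_Xi (Ω := Ω) σ g0 v (E j) (F j)
    have hv0 : ∀ y : Ω ⊗[A] T, (act (A := A) v).lTensor Ω (p ^ N • y) = 0 := by
      intro y
      rw [act_smul, hN]
      have : act (A := A) (T := T) (0 : V) = 0 := by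
        ext c
        rw [act_apply, smul_zero, LinearMap.zero_apply]
      rw [this, LinearMap.lTensor_zero, LinearMap.zero_apply]
    have h3 : (decSub σ V).subtype.lTensor Ω (∑ j, z j) = (μ e) ⊗ₜ[A] (Pi.single g0 v) := by
      refine eq_of_proj fun g => ?_
      rw [← LinearMap.lTensor_comp_apply, map_sum]
      simp only [hz]
      rw [← map_sum, LinearMap.lTensor_tmul, LinearMap.proj_apply]
      by_cases hg : g = g0
      · subst hg
        simp only [← map_mul]
        rw [← map_sum, hκ, map_add, map_smul, bc_smul, map_one, map_add, hv0, add_zero,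
          lTensor_smul_left, Pi.single_eq_same, Algebra.TensorProduct.one_def,
          LinearMap.lTensor_tmul, act_apply, one_smul, TensorProduct.smul_tmul', smul_eq_mul,
          mul_one]
      · obtain ⟨h, hh, hgh⟩ := hσ g g0 hg
        obtain ⟨κ', hκ'⟩ := h2 h hh
        have h4 : ∀ y : Ω ⊗[A] T, Algebra.TensorProduct.map (AlgHom.id Ω Ω) (σ g) y =
            Algebra.TensorProduct.map (AlgHom.id Ω Ω) (σ g0)
              (Algebra.TensorProduct.map (AlgHom.id Ω Ω) h y) := by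
          intro y
          rw [hgh]
          induction y with
          | zero => simp only [map_zero]
          | add x y hx hy => simp only [map_add, hx, hy]
          | tmul ω t => simp only [Algebra.TensorProduct.map_tmul, AlgHom.comp_apply,
              AlgHom.coe_id, id_eq]
        simp only [h4, ← map_mul]
        rw [← map_sum, hκ', bc_smul, hv0, Pi.single_eq_of_ne hg, TensorProduct.tmul_zero]
    have h5 : (decSub σ V).mkQ.lTensor Ω ((μ e) ⊗ₜ[A] (Pi.single g0 v : G → V)) = 0 := by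
      rw [← h3, ← LinearMap.lTensor_comp_apply]
      have : (decSub σ V).mkQ ∘ₗ (decSub σ V).subtype = 0 := by
        ext w
        simp
      rw [this, LinearMap.lTensor_zero, LinearMap.zero_apply]
    exact h5
  obtain ⟨w, rfl⟩ := (decSub σ V).mkQ_surjective x
  have h6 : w = ∑ g, Pi.single g (w g) := (Finset.univ_sum_single w).symm
  rw [h6, map_sum, TensorProduct.tmul_sum]
  exact Finset.sum_eq_zero fun g _ => key g (w g)

/-- **(DEC)** -/
theorem dec_null {Λ : AddLen.{u, u} A} {s : κ → A} {μ : ℕ → Ω} (F : FactN Λ s μ)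
    (hc : ContOn Λ s) (i0 : κ) (hfl : ∀ n : ℕ, FlatQ A (B := Ω) (Ideal.span {s i0 ^ n}))
    {H : Set (T →ₐ[A] T)} (hS : Sep (s i0) μ H) {G : Type} [Finite G] {σ : G → (T →ₐ[A] T)}
    (hσ : ∀ g g0, g ≠ g0 → ∃ h ∈ H, σ g = (σ g0).comp h) (hV : Tors s V) :
    Λ.L ((G → V) ⧸ decSub σ V) = 0 := by
  have := Fintype.ofFinite G
  have hQ : Tors s ((G → V) ⧸ decSub σ V) := hV.pi.quotient _
  rw [hc.eq_zero_iff hQ]
  intro x
  exact null_of_mul F i0 hfl (fun y => hQ y i0) x (hQ x)
    (fun e => tmul_eq_zero_of_sep hS hσ e (fun v => hV v i0) x)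

end Dec

end Crest.Agent.R188.TowN
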