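/-
R188 (Serre positivity), block TowNul3 (KOS0): the Koszul homology of an almost flat module is null
in positive degrees.   Author: helper814.
-/
import Crest.Agent.R188.TowNul2
import Crest.Agent.R188.LenWorld3

set_option autoImplicit false

namespace Crest.Agent.R188.TowN

open scoped ENNReal TensorProduct
open Crest.Agent.R183 Crest.Agent.R183.Om Crest.Agent.R188.Tow Crest.Agent.R188.KosG

universe u v w

/-! ### tensor product of a module and a complex -/

section tens

variable {A : Type u} [CommRing A] (N : Type u) [AddCommGroup N] [Module A N]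

/-- `N ⊗ K` -/
noncomputable def tens (K : GCx.{u, u} A) : GCx.{u, u} A where
  T := N ⊗[A] K.T
  gr := fun i => LinearMap.range ((K.gr i).subtype.lTensor N)
  D := K.D.lTensor N
  D_gr := by
    rintro i _ ⟨x, rfl⟩
    let Di : K.gr i →ₗ[A] K.gr (i - 1) := K.D.restrict (K.D_gr i)
    refine ⟨Di.lTensor N x, ?_⟩
    rw [← LinearMap.lTensor_comp_apply, ← LinearMap.lTensor_comp_apply]
    rfl
  DD := fun x => by
    have h : K.D ∘ₗ K.D = 0 := LinearMap.ext fun y => K.DD y
    rw [← LinearMap.lTensor_comp_apply, h, LinearMap.lTensor_zero, LinearMap.zero_apply]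

theorem fst_prodRight {V W : Type u} [AddCommGroup V] [Module A V] [AddCommGroup W] [Module A W]
    (x : N ⊗[A] (V × W)) : (TensorProduct.prodRight A A N V W x).1 =
      (LinearMap.fst A V W).lTensor N x := by
  induction x with
  | zero => simp
  | add x y hx hy => rw [map_add, map_add, Prod.fst_add, hx, hy]
  | tmul n v => rfl

theorem snd_prodRight {V W : Type u} [AddCommGroup V] [Module A V] [AddCommGroup W] [Module A W]
    (x : N ⊗[A] (V × W)) : (TensorProduct.prodRight A A N V W x).2 =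
      (LinearMap.snd A V W).lTensor N x := by
  induction x with
  | zero => simp
  | add x y hx hy => rw [map_add, map_add, Prod.snd_add, hx, hy]
  | tmul n v => rfl

theorem eq_inl_add_inr {V W : Type u} [AddCommGroup V] [Module A V] [AddCommGroup W] [Module A W]
    (x : N ⊗[A] (V × W)) : x = (LinearMap.inl A V W).lTensor N ((LinearMap.fst A V W).lTensor N x) +
      (LinearMap.inr A V W).lTensor N ((LinearMap.snd A V W).lTensor N x) := by
  rw [← LinearMap.lTensor_comp_apply, ← LinearMap.lTensor_comp_apply, ← LinearMap.add_apply,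
    ← LinearMap.lTensor_add]
  have h : (LinearMap.inl A V W ∘ₗ LinearMap.fst A V W) +
      (LinearMap.inr A V W ∘ₗ LinearMap.snd A V W) = LinearMap.id := by
    ext x <;> simp
  rw [h, LinearMap.lTensor_id, LinearMap.id_apply]

theorem mem_range_prod {V W : Type u} [AddCommGroup V] [Module A V] [AddCommGroup W] [Module A W]
    (P : Submodule A V) (Q : Submodule A W) (x : N ⊗[A] (V × W)) :
    ((TensorProduct.prodRight A A N V W x).1 ∈ LinearMap.range (P.subtype.lTensor N) ∧
      (TensorProduct.prodRight A A N V W x).2 ∈ LinearMap.range (Q.subtype.lTensor N)) ↔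
      x ∈ LinearMap.range ((P.prod Q).subtype.lTensor N) := by
  constructor
  · rintro ⟨⟨y1, h1⟩, ⟨y2, h2⟩⟩
    rw [fst_prodRight] at h1
    rw [snd_prodRight] at h2
    have i1 : ∃ j1 : P →ₗ[A] (P.prod Q), (P.prod Q).subtype ∘ₗ j1 =
        LinearMap.inl A V W ∘ₗ P.subtype :=
      ⟨LinearMap.codRestrict _ (LinearMap.inl A V W ∘ₗ P.subtype)
        (fun c => ⟨c.2, Submodule.zero_mem _⟩), rfl⟩
    have i2 : ∃ j2 : Q →ₗ[A] (P.prod Q), (P.prod Q).subtype ∘ₗ j2 =
        LinearMap.inr A V W ∘ₗ Q.subtype :=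
      ⟨LinearMap.codRestrict _ (LinearMap.inr A V W ∘ₗ Q.subtype)
        (fun c => ⟨Submodule.zero_mem _, c.2⟩), rfl⟩
    obtain ⟨j1, hj1⟩ := i1
    obtain ⟨j2, hj2⟩ := i2
    refine ⟨j1.lTensor N y1 + j2.lTensor N y2, ?_⟩
    rw [map_add, ← LinearMap.lTensor_comp_apply, ← LinearMap.lTensor_comp_apply, hj1, hj2,
      LinearMap.lTensor_comp_apply, LinearMap.lTensor_comp_apply, h1, h2]
    exact (eq_inl_add_inr N x).symm
  · rintro ⟨y, rfl⟩
    refine ⟨?_, ?_⟩
    · rw [fst_prodRight]
      let k1 : (P.prod Q) →ₗ[A] P :=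
        LinearMap.codRestrict _ (LinearMap.fst A V W ∘ₗ (P.prod Q).subtype) (fun c => c.2.1)
      refine ⟨k1.lTensor N y, ?_⟩
      rw [← LinearMap.lTensor_comp_apply, ← LinearMap.lTensor_comp_apply]
      rfl
    · rw [snd_prodRight]
      let k2 : (P.prod Q) →ₗ[A] Q :=
        LinearMap.codRestrict _ (LinearMap.snd A V W ∘ₗ (P.prod Q).subtype) (fun c => c.2.2)
      refine ⟨k2.lTensor N y, ?_⟩
      rw [← LinearMap.lTensor_comp_apply, ← LinearMap.lTensor_comp_apply]
      rfl

theorem prodRight_cone {V : Type u} [AddCommGroup V] [Module A V] (b : A) (D : V →ₗ[A] V)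
    (x : N ⊗[A] (V × V)) :
    TensorProduct.prodRight A A N V V (((D.coprod (LinearMap.lsmul A V b)).prod
      (-(D.comp (LinearMap.snd A V V)))).lTensor N x) =
    (D.lTensor N (TensorProduct.prodRight A A N V V x).1 +
      b • (TensorProduct.prodRight A A N V V x).2,
      -(D.lTensor N (TensorProduct.prodRight A A N V V x).2)) := by
  induction x with
  | zero =>
    refine Prod.ext ?_ ?_
    · simp
    · simp
  | add x y hx hy =>
    rw [map_add, map_add, hx, hy]
    refine Prod.ext ?_ ?_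
    · simp only [Prod.fst_add, Prod.snd_add, map_add, smul_add]
      abel
    · simp only [Prod.snd_add, map_add, neg_add]
  | tmul n v =>
    obtain ⟨v, w⟩ := v
    refine Prod.ext ?_ ?_
    · change n ⊗ₜ[A] (D v + b • w) = n ⊗ₜ[A] (D v) + b • (n ⊗ₜ[A] w)
      rw [TensorProduct.tmul_add, TensorProduct.tmul_smul]
    · change n ⊗ₜ[A] (-(D w)) = -(n ⊗ₜ[A] (D w))
      rw [TensorProduct.tmul_neg]

/-- `N ⊗ cone b K ≅ cone b (N ⊗ K)` -/
noncomputable def tensCone (b : A) (K : GCx.{u, u} A) :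
    GCx.Iso (tens N (GCx.cone b K)) (GCx.cone b (tens N K)) where
  e := TensorProduct.prodRight A A N K.T K.T
  gr := fun i x => mem_range_prod N (K.gr i) (K.gr (i - 1)) x
  comm := fun x => prodRight_cone N b K.D x

theorem mem_range_ite {C : Type u} [AddCommGroup C] [Module A C] (i : ℤ) (x : N ⊗[A] C) :
    x ∈ (if i = 0 then (⊤ : Submodule A (N ⊗[A] C)) else ⊥) ↔
      x ∈ LinearMap.range ((if i = 0 then (⊤ : Submodule A C) else ⊥ : Submodule A C).subtype.lTensor
        N) := by
  by_cases hi : i = 0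
  · rw [if_pos hi, if_pos hi]
    refine ⟨fun _ => ?_, fun _ => trivial⟩
    have : Function.Surjective ((⊤ : Submodule A C).subtype.lTensor N) :=
      LinearMap.lTensor_surjective N fun c => ⟨⟨c, trivial⟩, rfl⟩
    exact this x
  · rw [if_neg hi, if_neg hi]
    constructor
    · intro hx
      rw [Submodule.mem_bot] at hx
      rw [hx]
      exact Submodule.zero_mem _
    · rintro ⟨y, rfl⟩
      have : (⊥ : Submodule A C).subtype = 0 := by
        ext ⟨c, hc⟩
        exact (Submodule.mem_bot A).1 hc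
      rw [this, LinearMap.lTensor_zero, LinearMap.zero_apply]
      exact Submodule.zero_mem _

/-- `N ⊗ K(l; C) ≅ K(l; N ⊗ C)` -/
theorem tensKos (l : List A) (C : Type u) [AddCommGroup C] [Module A C] :
    Nonempty (GCx.Iso (tens N (kos l C)) (kos l (N ⊗[A] C))) := by
  induction l with
  | nil =>
    refine ⟨{ e := LinearEquiv.refl A (N ⊗[A] C), gr := fun i x => mem_range_ite N i x,
              comm := ?_ }⟩
    intro x
    have h : (0 : C →ₗ[A] C).lTensor N = 0 := LinearMap.lTensor_zero N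
    exact DFunLike.congr_fun h x
  | cons a l ih =>
    obtain ⟨φ⟩ := ih
    exact ⟨(tensCone N a (kos l C)).trans (φ.cone a)⟩

end tens

/-! ### direct summands -/

section spl

variable {A : Type u} [CommRing A]

/-- the graded pieces are direct summands -/
def Spl (K : GCx.{u, v} A) : Prop :=
  ∀ i, ∃ π : K.T →ₗ[A] K.T, (∀ x, π x ∈ K.gr i) ∧ ∀ x ∈ K.gr i, π x = x

theorem Spl.kos (l : List A) (C : Type v) [AddCommGroup C] [Module A C] : Spl (kos l C) := by
  induction l with
  | nil =>
    intro i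
    by_cases hi : i = 0
    · refine ⟨LinearMap.id, fun x => ?_, fun x _ => rfl⟩
      change x ∈ (if i = 0 then (⊤ : Submodule A C) else ⊥)
      rw [if_pos hi]
      trivial
    · refine ⟨0, fun x => Submodule.zero_mem _, ?_⟩
      have key : ∀ x : C, x ∈ (if i = 0 then (⊤ : Submodule A C) else ⊥) →
          (0 : C →ₗ[A] C) x = x := by
        intro x hx
        rw [if_neg hi, Submodule.mem_bot] at hx
        rw [hx]
        rfl
      exact key
  | cons a l ih =>
    intro i
    obtain ⟨π, h1, h2⟩ := ih i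
    obtain ⟨π', h1', h2'⟩ := ih (i - 1)
    refine ⟨π.prodMap π', ?_, ?_⟩
    · rintro ⟨x, y⟩
      exact ⟨h1 x, h1' y⟩
    · rintro ⟨x, y⟩ ⟨hx, hy⟩
      exact Prod.ext (h2 x hx) (h2' y hy)

theorem Spl.inj {K : GCx.{u, v} A} (h : Spl K) (N : Type w) [AddCommGroup N] [Module A N] (i : ℤ) :
    Function.Injective ((K.gr i).subtype.lTensor N) := by
  obtain ⟨π, h1, h2⟩ := h i
  let π' : K.T →ₗ[A] K.gr i := LinearMap.codRestrict _ π h1
  have h3 : π' ∘ₗ (K.gr i).subtype = LinearMap.id := by
    ext x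
    exact h2 x.1 x.2
  intro x y hxy
  have h4 := congrArg (π'.lTensor N) hxy
  rwa [← LinearMap.lTensor_comp_apply, ← LinearMap.lTensor_comp_apply, h3, LinearMap.lTensor_id,
    LinearMap.id_apply, LinearMap.id_apply] at h4

end spl

/-! ### exactness of the Koszul complex of a weakly regular sequence -/

section exact

variable {A : Type u} [CommRing A]

open Classical in
/-- the length with values `0` and `∞` -/
noncomputable def topLen (A : Type u) [CommRing A] : AddLen.{u, v} A where
  L M _ _ := if Subsingleton M then 0 else ⊤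
  zero' M _ _ h := if_pos h
  add' := by
    intro M N P _ _ _ _ _ _ f g hf hg hfg
    by_cases hM : Subsingleton M
    · by_cases hP : Subsingleton P
      · have : Subsingleton N := by
          refine ⟨fun x y => ?_⟩
          have h0 : ∀ x : N, x = 0 := by
            intro x
            obtain ⟨z, hz⟩ := (hfg x).1 (Subsingleton.elim _ _)
            rw [← hz, Subsingleton.elim z 0, map_zero]
          rw [h0 x, h0 y]
        rw [if_pos this, if_pos hM, if_pos hP, add_zero]
      · have : ¬ Subsingleton N := fun h => hP ⟨fun x y => by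
          obtain ⟨x, rfl⟩ := hg x
          obtain ⟨y, rfl⟩ := hg y
          rw [Subsingleton.elim x y]⟩
        rw [if_neg this, if_neg hP, add_top]
    · have : ¬ Subsingleton N := fun h => hM ⟨fun x y => hf (Subsingleton.elim _ _)⟩
      rw [if_neg this, if_neg hM, top_add]

theorem topLen_eq_zero {M : Type v} [AddCommGroup M] [Module A M] (h : (topLen A).L M = 0) :
    Subsingleton M := by
  by_contra hM
  have : (topLen A).L M = ⊤ := if_neg hM
  rw [this] at h
  exact ENNReal.top_ne_zero h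

/-- `kh l C i = 0`, `i ≥ 1`, for `l` weakly regular on `C` -/
theorem kh_eq_zero_of_regular (Λ : AddLen.{u, v} A) (l : List A) (C : Type v) [AddCommGroup C]
    [Module A C] (h : RingTheory.Sequence.IsWeaklyRegular C l) (i : ℤ) (hi : 1 ≤ i) :
    kh Λ l C i = 0 := by
  induction l generalizing C with
  | nil => exact kh_eq_zero Λ C [] i (Or.inr (by rw [List.length_nil]; push_cast; omega))
  | cons a l ih =>
    rw [RingTheory.Sequence.isWeaklyRegular_cons_iff] at h
    have h1 := ih (QuotSMulTop a C) h.2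
    rw [← h1]
    refine LenWorld.kh_cons_regular Λ a l C (QuotSMulTop a C) (Submodule.mkQ _)
      (Submodule.mkQ_surjective _) ?_ ?_ ?_ i
    · intro x hx
      exact h.1 (by simpa using hx)
    · intro x
      rw [Submodule.mkQ_apply, Submodule.Quotient.mk_eq_zero]
      exact Submodule.smul_mem_pointwise_smul _ _ _ trivial
    · intro x hx
      rw [Submodule.mkQ_apply, Submodule.Quotient.mk_eq_zero] at hx
      obtain ⟨y, -, hy⟩ := (Submodule.mem_smul_pointwise_iff_exists _ _ _).1 hx
      exact ⟨y, hy⟩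

theorem Z_le_B_of_regular (l : List A) (C : Type v) [AddCommGroup C]
    [Module A C] (h : RingTheory.Sequence.IsWeaklyRegular C l) (i : ℤ) (hi : 1 ≤ i) :
    (kos l C).Z i ≤ (kos l C).B i := by
  have h1 : Subsingleton ((kos l C).H i) :=
    topLen_eq_zero (kh_eq_zero_of_regular (topLen.{u, v} A) l C h i hi)
  intro z hz
  exact ((kos l C).cls_eq_zero (z := ⟨z, hz⟩)).1 (Subsingleton.elim _ _)

end exact

/-! ### (KOS0) -/

section main

variable {A : Type u} [CommRing A] {Ω : Type v} [CommRing Ω] [Algebra A Ω] {κ : Type w}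
variable {Λ : AddLen.{u, u} A} {s : κ → A} {μ : ℕ → Ω} {N : Type u} [AddCommGroup N] [Module A N]

theorem null_cls (F : FactN Λ s μ) (i0 : κ)
    (hfl : ∀ n : ℕ, FlatQ A (B := Ω) (Ideal.span {s i0 ^ n})) (hN : Fac (s i0) μ N)
    (K : GCx.{u, u} A) (hspl : Spl K) (hK : ∀ v : K.T, ∃ n : ℕ, s i0 ^ n • v = 0) (i : ℤ)
    (hex : K.Z i ≤ K.B i) (z : (tens N K).Z i)
    (hz : ∀ k, ∃ m : ℕ, s k ^ m • (tens N K).cls i z = 0) :
    Λ.L (Submodule.span A {(tens N K).cls i z}) = 0 := by
  obtain ⟨⟨z₀, hz₀⟩, hzD⟩ := z.2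
  let z₁ : N ⊗[A] K.T := z.1
  replace hz₀ : (K.gr i).subtype.lTensor N z₀ = z₁ := hz₀
  replace hzD : K.D.lTensor N z₁ = 0 := hzD
  let sub := (K.gr i).subtype
  let Di : K.gr i →ₗ[A] (K.gr i).map K.D := K.D.submoduleMap (K.gr i)
  have hDi : Function.Surjective Di := LinearMap.submoduleMap_surjective _ _
  have hcomp : ((K.gr i).map K.D).subtype ∘ₗ Di = K.D ∘ₗ sub := rfl
  set z' := Di.lTensor N z₀ with hz'
  have h1 : ((K.gr i).map K.D).subtype.lTensor N z' = 0 := by
    rw [hz', ← LinearMap.lTensor_comp_apply, hcomp, LinearMap.lTensor_comp_apply, hz₀, hzD]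
  -- claim 1
  have c1 : ∀ a : A, a • z' = 0 → a • (tens N K).cls i z = 0 := by
    intro a ha
    rw [← map_smul, GCx.cls_eq_zero]
    change a • (z : (tens N K).T) ∈ (tens N K).B i
    have h2 : Di.lTensor N (a • z₀) = 0 := by rw [map_smul, ← hz', ha]
    obtain ⟨w₀, hw₀⟩ := (lTensor_exact N (LinearMap.exact_subtype_ker_map Di) hDi _).1 h2
    let j : LinearMap.ker Di →ₗ[A] K.B i :=
      { toFun := fun x => ⟨x.1.1, hex ⟨x.1.2, congrArg Subtype.val x.2⟩⟩
        map_add' := fun _ _ => rfl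
        map_smul' := fun _ _ => rfl }
    let D' : K.gr (i + 1) →ₗ[A] K.B i := K.D.submoduleMap (K.gr (i + 1))
    have hD' : Function.Surjective D' := LinearMap.submoduleMap_surjective _ _
    obtain ⟨w₁, hw₁⟩ := LinearMap.lTensor_surjective N hD' (j.lTensor N w₀)
    refine ⟨(K.gr (i + 1)).subtype.lTensor N w₁, ⟨w₁, rfl⟩, ?_⟩
    change K.D.lTensor N ((K.gr (i + 1)).subtype.lTensor N w₁) = a • z₁
    rw [← LinearMap.lTensor_comp_apply]
    have e1 : K.D ∘ₗ (K.gr (i + 1)).subtype = (K.B i).subtype ∘ₗ D' := rfl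
    rw [e1, LinearMap.lTensor_comp_apply, hw₁, ← LinearMap.lTensor_comp_apply]
    have e2 : (K.B i).subtype ∘ₗ j = sub ∘ₗ (LinearMap.ker Di).subtype := rfl
    rw [e2, LinearMap.lTensor_comp_apply, hw₀, map_smul, hz₀]
  -- claim 2
  have c2 : ∀ a : A, a • (tens N K).cls i z = 0 → a • z' = 0 := by
    intro a ha
    rw [← map_smul, GCx.cls_eq_zero] at ha
    obtain ⟨_, ⟨w₁, rfl⟩, hw⟩ := ha
    replace hw : K.D.lTensor N ((K.gr (i + 1)).subtype.lTensor N w₁) = a • z₁ := hw
    let D'' : K.gr (i + 1) →ₗ[A] K.gr i :=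
      { toFun := fun x => ⟨K.D x.1, (K.B_le_Z i ⟨x.1, x.2, rfl⟩).1⟩
        map_add' := fun x y => Subtype.ext (map_add K.D _ _)
        map_smul' := fun c x => Subtype.ext (map_smul K.D _ _) }
    have e1 : K.D ∘ₗ (K.gr (i + 1)).subtype = sub ∘ₗ D'' := rfl
    rw [← LinearMap.lTensor_comp_apply, e1, LinearMap.lTensor_comp_apply, ← hz₀, ← map_smul] at hw
    have h3 := hspl.inj N i hw
    rw [hz', ← map_smul, ← h3, ← LinearMap.lTensor_comp_apply]
    have e2 : Di ∘ₗ D'' = 0 := by
      ext x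
      exact K.DD x.1
    rw [e2, LinearMap.lTensor_zero, LinearMap.zero_apply]
  have h4 : Λ.L (Submodule.span A {z'}) = 0 :=
    null_of_lTensor F i0 hfl hN ((K.gr i).map K.D).subtype (Submodule.subtype_injective _) hK z' h1
      (fun k => by
        obtain ⟨m, hm⟩ := hz k
        exact ⟨m, c2 _ hm⟩)
  rw [L_span_eq] at h4 ⊢
  have h5 : LinearMap.ker (LinearMap.toSpanSingleton A _ ((tens N K).cls i z)) =
      LinearMap.ker (LinearMap.toSpanSingleton A _ z') := by
    ext a
    rw [LinearMap.mem_ker, LinearMap.mem_ker, LinearMap.toSpanSingleton_apply,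
      LinearMap.toSpanSingleton_apply]
    exact ⟨c2 a, c1 a⟩
  rw [h5]
  exact h4

/-- Koszul homology of `N ⊗ C` -/
theorem kh_tensor_null (F : FactN Λ s μ) (hc : ContOn Λ s) (i0 : κ)
    (hfl : ∀ n : ℕ, FlatQ A (B := Ω) (Ideal.span {s i0 ^ n})) (hN : Fac (s i0) μ N)
    (l : List A) (C : Type u) [AddCommGroup C] [Module A C] (hC : ∀ c : C, s i0 • c = 0)
    (hs : ∀ k, s k ∈ l ∨ ∀ c : C, s k • c = 0)
    (hreg : RingTheory.Sequence.IsWeaklyRegular C l) (i : ℤ) (hi : 1 ≤ i) :
    kh Λ l (N ⊗[A] C) i = 0 := by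
  obtain ⟨φ⟩ := tensKos N l C
  have hnh : ∀ k, s k ∈ (tens N (kos l C)).NHI := by
    intro k
    have h1 : s k ∈ (kos l (N ⊗[A] C)).NHI := by
      refine span_le_NHI (N ⊗[A] C) l ?_
      rcases hs k with h | h
      · exact Ideal.mem_sup_left (Ideal.subset_span h)
      · refine Ideal.mem_sup_right (Module.mem_annihilator.2 fun x => ?_)
        induction x with
        | zero => exact smul_zero _
        | add x y hx hy => rw [smul_add, hx, hy, add_zero]
        | tmul n c => rw [← TensorProduct.tmul_smul, h, TensorProduct.tmul_zero]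
    exact GCx.Iso.NH φ.symm h1
  have htors : Tors s ((tens N (kos l C)).H i) := fun x k =>
    ⟨1, by rw [pow_one]; exact GCx.NH.smul_H (hnh k) i x⟩
  change (kos l (N ⊗[A] C)).h Λ i = 0
  rw [← φ.h_eq]
  change Λ.L ((tens N (kos l C)).H i) = 0
  rw [hc.eq_zero_iff htors]
  intro x
  obtain ⟨z, rfl⟩ := (tens N (kos l C)).cls_surj i x
  refine null_cls F i0 hfl hN (kos l C) (Spl.kos l C) (fun v => ⟨1, ?_⟩) i
    (Z_le_B_of_regular l C hreg i hi) z (fun k => htors _ k)
  rw [pow_one]
  -- `s i0` kills the total module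
  have key : ∀ (l : List A) (v : (kos l C).T), s i0 • v = 0 := by
    intro l
    induction l with
    | nil => exact hC
    | cons a l ih =>
      rintro ⟨v, w⟩
      exact Prod.ext (ih v) (ih w)
  exact key l v

/-- **(KOS0)**: `H_i(p, l; T)` is null for `i ≥ 1`, `p = s i0` regular on `T`, `l` weakly regular
on `A / p`. -/
theorem kos0 (F : FactN Λ s μ) (hc : ContOn Λ s) (i0 : κ)
    (hfl : ∀ n : ℕ, FlatQ A (B := Ω) (Ideal.span {s i0 ^ n})) (hN : Fac (s i0) μ N)
    (hp : ∀ x : N, s i0 • x = 0 → x = 0) (l : List A) (hs : ∀ k, s k = s i0 ∨ s k ∈ l)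
    (hreg : RingTheory.Sequence.IsWeaklyRegular (A ⧸ Ideal.span {s i0}) l) (i : ℤ) (hi : 1 ≤ i) :
    kh Λ (s i0 :: l) N i = 0 := by
  have hC : ∀ c : A ⧸ Ideal.span {s i0}, s i0 • c = 0 := by
    intro c
    rw [Algebra.smul_def]
    have : algebraMap A (A ⧸ Ideal.span {s i0}) (s i0) = 0 :=
      Ideal.Quotient.eq_zero_iff_mem.2 (Ideal.mem_span_singleton_self _)
    rw [this, zero_mul]
  rw [← kh_tensor_null F hc i0 hfl hN l (A ⧸ Ideal.span {s i0}) hC
    (fun k => (hs k).symm.imp id fun h => by rw [h]; exact hC) hreg i hi]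
  let g : N →ₗ[A] N ⊗[A] (A ⧸ Ideal.span {s i0}) := (TensorProduct.mk A N _).flip 1
  have hg : ∀ x, g x = x ⊗ₜ 1 := fun x => rfl
  let e := TensorProduct.tensorQuotEquivQuotSMul N (Ideal.span {s i0})
  have he : ∀ x, e (g x) = Submodule.Quotient.mk x := by
    intro x
    rw [hg]
    exact TensorProduct.tensorQuotEquivQuotSMul_tmul_mk (I := Ideal.span {s i0}) x 1 |>.trans
      (by rw [one_smul])
  refine LenWorld.kh_cons_regular Λ (s i0) l N _ g ?_ hp ?_ ?_ i
  · intro y
    obtain ⟨x, hx⟩ := Submodule.Quotient.mk_surjective _ (e y)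
    exact ⟨x, e.injective (by rw [he, hx])⟩
  · intro x
    rw [hg, TensorProduct.smul_tmul, hC, TensorProduct.tmul_zero]
  · intro x hx
    have h1 := he x
    rw [hx, map_zero] at h1
    have h2 := (Submodule.Quotient.mk_eq_zero _).1 h1.symm
    rw [Submodule.ideal_span_singleton_smul] at h2
    obtain ⟨y, -, hy⟩ := (Submodule.mem_smul_pointwise_iff_exists _ _ _).1 h2
    exact ⟨y, hy⟩

end main

end Crest.Agent.R188.TowN
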