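/-
R188 (Serre positivity), block Tring, part 1: closedness of `D R` in a `p`-complete ring,
divisibility in `Ω_*`, flatness modulo `p^N`.  Author: helper270
-/
import Crest.Agent.R183.BCM9
import Crest.Agent.R183.Lat7

set_option autoImplicit false
set_option linter.unusedSectionVars false

open TensorProduct

namespace Crest.Agent.R188.Tring

open Crest.Agent.R183 Crest.Agent.R183.Heb Crest.Agent.R183.Lat

universe u

section Closed

variable {R : Type*} [CommRing R] {a D : R}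

/-- `D ^ M R` is closed in a complete ring, if `D` is regular modulo `a`. -/
theorem mem_pow_of_closed [hR : IsAdicComplete (Ideal.span {a}) R]
    (ha : ∀ x, a * x = 0 → x = 0) (hD : ∀ x, a ∣ D * x → a ∣ x) (M : ℕ) (z : R)
    (h : ∀ N : ℕ, ∃ u v : R, z = D ^ M * u + a ^ N * v) : D ^ M ∣ z := by
  choose u v huv using h
  have hd : ∀ N k : ℕ, a ^ N ∣ u (N + k) - u N := by
    intro N k
    apply reg_pow_of_regMod' ha hD N M
    refine ⟨v N - a ^ k * v (N + k), ?_⟩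
    have h1 := huv N
    have h2 := huv (N + k)
    rw [pow_add] at h2
    linear_combination h1 - h2
  have hc : ∀ {m n : ℕ}, m ≤ n → u m ≡ u n [SMOD (Ideal.span {a} ^ m • ⊤ : Submodule R R)] := by
    intro m n hmn
    obtain ⟨k, rfl⟩ := Nat.exists_eq_add_of_le hmn
    rw [SModEq.sub_mem, Ideal.span_singleton_pow, smul_eq_mul, Ideal.mul_top,
      Ideal.mem_span_singleton, ← dvd_neg, neg_sub]
    exact hd m k
  obtain ⟨y, hy⟩ := IsPrecomplete.prec (I := Ideal.span {a}) (M := R) hR.toIsPrecomplete hc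
  have hy' : ∀ k, a ^ k ∣ u k - y := by
    intro k
    have := hy k
    rw [SModEq.sub_mem, Ideal.span_singleton_pow, smul_eq_mul, Ideal.mul_top,
      Ideal.mem_span_singleton] at this
    exact this
  refine ⟨y, ?_⟩
  rw [← sub_eq_zero]
  apply Om.sep_of_isAdicComplete (p := a)
  intro N
  obtain ⟨w, hw⟩ := hy' N
  refine ⟨D ^ M * w + v N, ?_⟩
  have h1 := huv N
  linear_combination h1 + D ^ M * hw

/-- `(a D) ^ M R` is closed in a complete ring, if `D` is regular modulo `a`. -/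
theorem mem_mul_pow_of_closed [hR : IsAdicComplete (Ideal.span {a}) R]
    (ha : ∀ x, a * x = 0 → x = 0) (hD : ∀ x, a ∣ D * x → a ∣ x) (M : ℕ) (z : R)
    (h : ∀ N : ℕ, ∃ u v : R, z = (a * D) ^ M * u + a ^ N * v) : (a * D) ^ M ∣ z := by
  obtain ⟨u0, v0, h0⟩ := h M
  have hz : z = a ^ M * (D ^ M * u0 + v0) := by rw [h0, mul_pow]; ring
  obtain ⟨w, hw⟩ : D ^ M ∣ (D ^ M * u0 + v0) := by
    apply mem_pow_of_closed ha hD M
    intro N
    obtain ⟨u, v, huv⟩ := h (M + N)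
    refine ⟨u, v, ?_⟩
    rw [← sub_eq_zero]
    apply pow_reg ha M
    rw [mul_pow, pow_add] at huv
    linear_combination huv - hz
  exact ⟨w, by rw [hz, hw, mul_pow]; ring⟩

end Closed

section Star

variable {p : ℕ} [hp : Fact p.Prime] {Ω K : Type*} [CommRing Ω] [CommRing K] [Algebra Ω K]
variable (d : Data p Ω K)

/-- `r ∈ p^N Ω_*`. -/
def SM (N : ℕ) (r : K) : Prop := ∃ y ∈ star d, r = algebraMap Ω K ((p : Ω) ^ N) * y

variable {d}

theorem SM.mem_star {N : ℕ} {r : K} (h : SM d N r) : r ∈ star d := by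
  obtain ⟨y, hy, rfl⟩ := h
  exact mul_mem (Subalgebra.algebraMap_mem _ _) hy

theorem SM.mono {N M : ℕ} (h : N ≤ M) {r : K} (hr : SM d M r) : SM d N r := by
  obtain ⟨y, hy, rfl⟩ := hr
  obtain ⟨k, rfl⟩ := Nat.exists_eq_add_of_le h
  exact ⟨algebraMap Ω K ((p : Ω) ^ k) * y, mul_mem (Subalgebra.algebraMap_mem _ _) hy, by
    rw [pow_add, map_mul, mul_assoc]⟩

theorem SM.add {N : ℕ} {r s : K} (hr : SM d N r) (hs : SM d N s) : SM d N (r + s) := by
  obtain ⟨y, hy, rfl⟩ := hr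
  obtain ⟨z, hz, rfl⟩ := hs
  exact ⟨y + z, add_mem hy hz, by rw [mul_add]⟩

theorem SM.zero (N : ℕ) : SM d N 0 := ⟨0, zero_mem _, by rw [mul_zero]⟩

theorem SM.sum {N : ℕ} {ι : Type*} (s : Finset ι) (f : ι → K) (h : ∀ i ∈ s, SM d N (f i)) :
    SM d N (∑ i ∈ s, f i) := by
  classical
  induction s using Finset.induction_on with
  | empty => simpa using SM.zero (d := d) N
  | insert a s ha ih =>
    rw [Finset.sum_insert ha]
    exact (h a (Finset.mem_insert_self _ _)).add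
      (ih fun i hi => h i (Finset.mem_insert_of_mem hi))

theorem SM.mul_left {N : ℕ} {r x : K} (hx : x ∈ star d) (hr : SM d N r) : SM d N (x * r) := by
  obtain ⟨y, hy, rfl⟩ := hr
  exact ⟨x * y, mul_mem hx hy, by ring⟩

theorem SM.mul_right {N : ℕ} {r x : K} (hx : x ∈ star d) (hr : SM d N r) : SM d N (r * x) := by
  rw [mul_comm]; exact hr.mul_left hx

theorem SM.neg {N : ℕ} {r : K} (hr : SM d N r) : SM d N (-r) := by
  obtain ⟨y, hy, rfl⟩ := hr
  exact ⟨-y, neg_mem hy, by ring⟩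

theorem SM.sub {N : ℕ} {r s : K} (hr : SM d N r) (hs : SM d N s) : SM d N (r - s) := by
  rw [sub_eq_add_neg]; exact hr.add hs.neg

theorem SM.algebraMap_pow {N : ℕ} {x : K} (hx : x ∈ star d) :
    SM d N (algebraMap Ω K ((p : Ω) ^ N) * x) := ⟨x, hx, rfl⟩

theorem mu_zero : mu d 0 = (p : Ω) * d.δ 0 := by rw [mu, d.ϖ0]

/-- division by a power of `pD` in `Ω_*` -/
theorem SM.of_mul {N m : ℕ} {r : K} (hr : r ∈ star d)
    (h : SM d (N + m) (algebraMap Ω K (mu d 0 ^ m) * r)) : SM d N r := by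
  obtain ⟨y, hy, h⟩ := h
  have hu : IsUnit (algebraMap Ω K ((p : Ω) ^ N)) := by rw [map_pow]; exact d.unit_p.pow _
  obtain ⟨i, hi⟩ := hu.exists_right_inv
  refine ⟨i * r, ?_, by rw [← mul_assoc, hi, one_mul]⟩
  intro e
  obtain ⟨w, hw⟩ := hr e
  obtain ⟨v, hv⟩ := hy e
  have h1 : mu d 0 ^ m * w = (p : Ω) ^ (N + m) * v := by
    apply d.inj
    rw [map_mul, map_mul, ← hw, ← hv]
    linear_combination (algebraMap Ω K (mu d e)) * h
  have h2 : (p : Ω) ^ m * (d.δ 0 ^ m * w - (p : Ω) ^ N * v) = 0 := by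
    rw [mu_zero, mul_pow, pow_add] at h1
    linear_combination h1
  have h3 := d.p_pow_reg m _ h2
  obtain ⟨w', rfl⟩ := reg_pow_of_regMod' d.reg_p d.reg_D N m w ⟨v, by linear_combination h3⟩
  refine ⟨w', ?_⟩
  rw [map_mul] at hw
  linear_combination i * hw + (algebraMap Ω K w') * hi

/-- elements of `Ω` in `p^{N+1} Ω_*` lie in `p^N Ω`. -/
theorem SM.dvd {N : ℕ} {w : Ω} (h : SM d (N + 1) (algebraMap Ω K w)) : (p : Ω) ^ N ∣ w := by
  obtain ⟨y, hy, h⟩ := h
  obtain ⟨v, hv⟩ := hy 0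
  have h1 : (p : Ω) * (d.δ 0 * w - (p : Ω) ^ N * v) = 0 := by
    apply d.inj
    rw [mu_zero] at hv
    rw [map_zero, map_mul, map_sub, map_mul, map_mul _ _ v, ← hv, h, map_mul, map_pow, map_pow]
    ring
  have h2 := d.reg_p _ h1
  exact reg_pow_of_regMod d.reg_p d.reg_D N w ⟨v, by linear_combination h2⟩

/-- an element of `K` which lies in `s MM + p^N Ω_*` for all `N` lies in `s Ω_*`. -/
theorem exists_star_of_closed [IsAdicComplete (Ideal.span {(p : Ω)}) Ω] (M : ℕ) (z : K)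
    (h : ∀ N, ∃ m ∈ star d, SM d N (z - algebraMap Ω K (mu d 0 ^ M) * m)) :
    ∃ r ∈ star d, z = algebraMap Ω K (mu d 0 ^ M) * r := by
  have hu : IsUnit (algebraMap Ω K (mu d 0 ^ M)) := by
    rw [map_pow]; exact (isUnit_mu d 0).pow _
  obtain ⟨i, hi⟩ := hu.exists_right_inv
  refine ⟨i * z, ?_, by rw [← mul_assoc, hi, one_mul]⟩
  intro e
  have hz : z ∈ star d := by
    obtain ⟨m, hm, h1⟩ := h 0
    have h2 := add_mem h1.mem_star (mul_mem (Subalgebra.algebraMap_mem (star d) (mu d 0 ^ M)) hm)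
    rwa [sub_add_cancel] at h2
  obtain ⟨w, hw⟩ := hz e
  have key : ((p : Ω) * d.δ 0) ^ M ∣ w := by
    apply mem_mul_pow_of_closed d.reg_p d.reg_D M
    intro N
    obtain ⟨m, hm, y, hy, h1⟩ := h N
    obtain ⟨m', hm'⟩ := hm e
    obtain ⟨y', hy'⟩ := hy e
    refine ⟨m', y', ?_⟩
    apply d.inj
    rw [← mu_zero, map_add, map_mul, map_mul, ← hm', ← hy', ← hw]
    linear_combination (algebraMap Ω K (mu d e)) * h1
  obtain ⟨v, hv⟩ := key
  refine ⟨v, ?_⟩
  rw [← mu_zero] at hv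
  rw [hv, map_mul] at hw
  linear_combination i * hw + (algebraMap Ω K v) * hi

end Star

end Crest.Agent.R188.Tring
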