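/-
R188 (Serre positivity), block Tring, part 2: tensor products with an algebra which is flat
modulo `a^N`; coordinates of a split algebra; the injectivity lemma.  Author: helper270
-/
import Crest.Agent.R188.Tring1

set_option autoImplicit false
set_option linter.unusedSectionVars false

open TensorProduct

namespace Crest.Agent.R188.Tring

open Crest.Agent.R183 Crest.Agent.R183.Heb Crest.Agent.R183.Lat

universe u

section Flat

variable {A Ω : Type*} [CommRing A] [CommRing Ω] [Algebra A Ω]

/-- multiplication by an element of `I` kills `Ω ⊗ M` if `I` kills `M`. -/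
theorem smul_eq_zero_of_kill {I : Ideal A} {M : Type*} [AddCommGroup M] [Module A M]
    (hM : ∀ a ∈ I, ∀ m : M, a • m = 0) {ω : Ω} (hω : ω ∈ I.map (algebraMap A Ω)) (m : M) :
    ω ⊗ₜ[A] m = 0 := by
  have h : ∀ ω ∈ I.map (algebraMap A Ω), ∀ x : Ω, (ω * x) ⊗ₜ[A] m = 0 := by
    intro ω hω
    induction hω using Submodule.span_induction with
    | mem y hy =>
      obtain ⟨a, ha, rfl⟩ := hy
      intro x
      rw [← Algebra.smul_def, TensorProduct.smul_tmul, hM a ha, TensorProduct.tmul_zero]
    | zero => intro x; rw [zero_mul, TensorProduct.zero_tmul]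
    | add y z _ _ hy hz => intro x; rw [add_mul, TensorProduct.add_tmul, hy, hz, add_zero]
    | smul r y _ hy => intro x; rw [smul_eq_mul, mul_comm r y, mul_assoc]; exact hy _
  have := h ω hω 1
  rwa [mul_one] at this

/-- `Ω ⊗ -` preserves injections between modules killed by `I`, if `Ω / I Ω` is flat over
`A / I`. -/
theorem lTensor_injective {I : Ideal A} (hfl : Om.FlatQ A (B := Ω) I)
    {M M' : Type*} [AddCommGroup M] [Module A M] [AddCommGroup M'] [Module A M']
    (f : M →ₗ[A] M') (hf : Function.Injective f) (hM' : ∀ a ∈ I, ∀ m : M', a • m = 0) :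
    Function.Injective (LinearMap.lTensor Ω f) := by
  have hM : ∀ a ∈ I, ∀ m : M, a • m = 0 := fun a ha m => hf (by
    rw [map_smul, map_zero, hM' a ha])
  have hMt : Module.IsTorsionBySet A M I := fun m a => hM a.1 a.2 m
  have hMt' : Module.IsTorsionBySet A M' I := fun m a => hM' a.1 a.2 m
  let _ : Module (A ⧸ I) M := hMt.module
  let _ : Module (A ⧸ I) M' := hMt'.module
  have hs : ∀ (a : A) (m : M), (Ideal.Quotient.mk I a) • m = a • m := fun a m => rfl
  have hs' : ∀ (a : A) (m : M'), (Ideal.Quotient.mk I a) • m = a • m := fun a m => rfl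
  have : IsScalarTower A (A ⧸ I) M := ⟨fun a b m => by
    obtain ⟨b, rfl⟩ := Ideal.Quotient.mk_surjective b
    rw [hs, smul_smul, Algebra.smul_def]
    change (Ideal.Quotient.mk I a * Ideal.Quotient.mk I b) • m = _
    rw [← map_mul, hs]⟩
  let Ω' := Ω ⧸ I.map (algebraMap A Ω)
  have hflat : Module.Flat (A ⧸ I) Ω' := hfl
  let f' : M →ₗ[A ⧸ I] M' :=
    { toFun := f
      map_add' := map_add f
      map_smul' := by
        intro b m
        obtain ⟨b, rfl⟩ := Ideal.Quotient.mk_surjective b
        rw [RingHom.id_apply, hs, hs', map_smul] }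
  have hf' : Function.Injective (LinearMap.lTensor Ω' f') :=
    Module.Flat.lTensor_preserves_injective_linearMap f' hf
  -- the map `Ω ⊗ M → Ω' ⊗ M`
  have hφ : ∀ (X : Type _) [AddCommGroup X] [Module A X] [Module (A ⧸ I) X],
      (∀ (a : A) (m : X), (Ideal.Quotient.mk I a) • m = a • m) →
      ∃ φ : Ω ⊗[A] X →+ Ω' ⊗[A ⧸ I] X, ∀ ω x, φ (ω ⊗ₜ x) = Ideal.Quotient.mk _ ω ⊗ₜ x := by
    intro X _ _ _ hX
    refine ⟨TensorProduct.liftAddHom
      { toFun := fun ω =>
          { toFun := fun x => (Ideal.Quotient.mk _ ω : Ω') ⊗ₜ[A ⧸ I] x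
            map_zero' := TensorProduct.tmul_zero _ _
            map_add' := fun x y => TensorProduct.tmul_add _ _ _ }
        map_zero' := by
          ext x
          exact TensorProduct.zero_tmul _ _
        map_add' := fun ω ω' => by
          ext x
          change (Ideal.Quotient.mk _ (ω + ω') : Ω') ⊗ₜ[A ⧸ I] x = _
          rw [map_add, TensorProduct.add_tmul]
          rfl } ?_, fun ω x => rfl⟩
    intro a ω x
    change (Ideal.Quotient.mk _ (a • ω) : Ω') ⊗ₜ[A ⧸ I] x
      = (Ideal.Quotient.mk _ ω : Ω') ⊗ₜ[A ⧸ I] (a • x)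
    rw [← hX a x, ← TensorProduct.smul_tmul]
    rfl
  obtain ⟨φ, hφ1⟩ := hφ M hs
  have hψ : ∃ ψ : Ω' ⊗[A ⧸ I] M →+ Ω ⊗[A] M, ∀ ω x, ψ (Ideal.Quotient.mk _ ω ⊗ₜ x) = ω ⊗ₜ x := by
    let q : Ω' →+ (M →+ Ω ⊗[A] M) := QuotientAddGroup.lift
      (I.map (algebraMap A Ω)).toAddSubgroup
      { toFun := fun ω =>
          { toFun := fun x => ω ⊗ₜ[A] x
            map_zero' := TensorProduct.tmul_zero _ _
            map_add' := fun x y => TensorProduct.tmul_add _ _ _ }
        map_zero' := by
          ext x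
          exact TensorProduct.zero_tmul _ _
        map_add' := fun ω ω' => by
          ext x
          exact TensorProduct.add_tmul _ _ _ } (by
        intro ω hω
        rw [AddMonoidHom.mem_ker]
        ext x
        exact smul_eq_zero_of_kill hM hω x)
    have hq : ∀ (ω : Ω) (x : M), q (Ideal.Quotient.mk _ ω) x = ω ⊗ₜ[A] x := fun ω x => rfl
    refine ⟨TensorProduct.liftAddHom q ?_, fun ω x => ?_⟩
    · intro b ω' x
      obtain ⟨b, rfl⟩ := Ideal.Quotient.mk_surjective b
      obtain ⟨ω, rfl⟩ := Ideal.Quotient.mk_surjective ω'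
      rw [hs, hq]
      change q (Ideal.Quotient.mk _ (b • ω)) x = _
      rw [hq, TensorProduct.smul_tmul]
    · rw [TensorProduct.liftAddHom_tmul]
      exact hq ω x
  obtain ⟨ψ, hψ1⟩ := hψ
  have hψφ : ∀ x, ψ (φ x) = x := by
    intro x
    induction x using TensorProduct.induction_on with
    | zero => rw [map_zero, map_zero]
    | tmul ω m => rw [hφ1, hψ1]
    | add x y hx hy => rw [map_add, map_add, hx, hy]
  obtain ⟨φ', hφ1'⟩ : ∃ φ : Ω ⊗[A] M' →+ Ω' ⊗[A ⧸ I] M', ∀ ω x,
      φ (ω ⊗ₜ x) = Ideal.Quotient.mk _ ω ⊗ₜ x := by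
    refine ⟨TensorProduct.liftAddHom
      { toFun := fun ω =>
          { toFun := fun x => (Ideal.Quotient.mk _ ω : Ω') ⊗ₜ[A ⧸ I] x
            map_zero' := TensorProduct.tmul_zero _ _
            map_add' := fun x y => TensorProduct.tmul_add _ _ _ }
        map_zero' := by
          ext x
          exact TensorProduct.zero_tmul _ _
        map_add' := fun ω ω' => by
          ext x
          change (Ideal.Quotient.mk _ (ω + ω') : Ω') ⊗ₜ[A ⧸ I] x = _
          rw [map_add, TensorProduct.add_tmul]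
          rfl } ?_, fun ω x => rfl⟩
    intro a ω x
    change (Ideal.Quotient.mk _ (a • ω) : Ω') ⊗ₜ[A ⧸ I] x
      = (Ideal.Quotient.mk _ ω : Ω') ⊗ₜ[A ⧸ I] (a • x)
    rw [← hs' a x, ← TensorProduct.smul_tmul]
    rfl
  have hcomm : ∀ x, φ' (LinearMap.lTensor Ω f x) = LinearMap.lTensor Ω' f' (φ x) := by
    intro x
    induction x using TensorProduct.induction_on with
    | zero => simp only [map_zero]
    | tmul ω m => rw [LinearMap.lTensor_tmul, hφ1', hφ1, LinearMap.lTensor_tmul]; rfl
    | add x y hx hy => rw [map_add, map_add, map_add, map_add, hx, hy]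
  rw [injective_iff_map_eq_zero]
  intro x hx
  rw [← hψφ x]
  have h1 : LinearMap.lTensor Ω' f' (φ x) = 0 := by rw [← hcomm, hx, map_zero]
  have h2 : φ x = 0 := hf' (by rw [h1, map_zero])
  rw [h2, map_zero]

/-- Kernel of `Ω ⊗ f`: if `f : T → M'` is a linear map to a module killed by `I`, an element of
`Ω ⊗ T` killed by `f` comes from `Ω ⊗ ker f`. -/
theorem mem_range_of_lTensor_eq_zero {I : Ideal A} (hfl : Om.FlatQ A (B := Ω) I)
    {T M' : Type*} [AddCommGroup T] [Module A T] [AddCommGroup M'] [Module A M']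
    (f : T →ₗ[A] M') (hM' : ∀ a ∈ I, ∀ m : M', a • m = 0) (x : Ω ⊗[A] T)
    (hx : LinearMap.lTensor Ω f x = 0) :
    x ∈ LinearMap.range (LinearMap.lTensor Ω (LinearMap.ker f).subtype) := by
  let f' : (T ⧸ LinearMap.ker f) →ₗ[A] M' := (LinearMap.ker f).liftQ f le_rfl
  have hf' : Function.Injective f' := by
    rw [← LinearMap.ker_eq_bot]
    exact Submodule.ker_liftQ_eq_bot _ _ _ le_rfl
  have h1 : f'.comp (LinearMap.ker f).mkQ = f := by
    ext t
    rfl
  have h2 : LinearMap.lTensor Ω (LinearMap.ker f).mkQ x = 0 := by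
    apply lTensor_injective hfl f' hf' hM'
    rw [map_zero, ← LinearMap.comp_apply, ← LinearMap.lTensor_comp, h1, hx]
  have h3 := lTensor_exact Ω (f := (LinearMap.ker f).subtype) (g := (LinearMap.ker f).mkQ)
    (by
      rw [LinearMap.exact_iff, Submodule.ker_mkQ, Submodule.range_subtype])
    (Submodule.mkQ_surjective _)
  exact (h3 x).1 h2

end Flat

end Crest.Agent.R188.Tring
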