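/-
R188 (Serre positivity), block Tring, part 3: coordinates of a split algebra `T`, the maps
`G_j : Ω ⊗ T → K`, and the injectivity lemma: `G_j(κ) ∈ p^N Ω_*` for all `j` implies
`κ ∈ p^{N-c} (Ω ⊗ T)`.  Author: helper270
-/
import Crest.Agent.R188.Tring2

set_option autoImplicit false
set_option linter.unusedSectionVars false

open TensorProduct

namespace Crest.Agent.R188.Tring

open Crest.Agent.R183 Crest.Agent.R183.Heb Crest.Agent.R183.Lat

universe u

section Coord

variable {A Ω K T : Type*} [CommRing A] [CommRing Ω] [CommRing K] [CommRing T]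
  [Algebra A Ω] [Algebra Ω K] [Algebra A K] [IsScalarTower A Ω K] [Algebra A T]
variable {ι : Type} [Fintype ι] [DecidableEq ι]

/-- `G_j : Ω ⊗ T → K`, `x ⊗ t ↦ x g_j(t)`. -/
noncomputable def G (S : Split A K T ι) (j : ι) : Ω ⊗[A] T →ₐ[Ω] K :=
  Algebra.TensorProduct.lift (Algebra.ofId Ω K) (S.g j) (fun _ _ => Commute.all _ _)

@[simp] theorem G_tmul (S : Split A K T ι) (j : ι) (x : Ω) (t : T) :
    G S j (x ⊗ₜ t) = algebraMap Ω K x * S.g j t := by
  rw [G, Algebra.TensorProduct.lift_tmul]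
  rfl

theorem sum_g (S : Split A K T ι) (x : ι → A) (j : ι) :
    S.g j (∑ i, x i • S.b i) = ∑ i, (Matrix.of fun j i => S.g j (S.b i)) j i * algebraMap A K (x i) := by
  rw [map_sum]
  refine Finset.sum_congr rfl fun i _ => ?_
  rw [map_smul, Algebra.smul_def, Matrix.of_apply, mul_comm]

/-- uniqueness of coordinates -/
theorem coord_unique (S : Split A K T ι) (hinj : Function.Injective (algebraMap A K))
    {x y : ι → A} (h : ∑ i, x i • S.b i = ∑ i, y i • S.b i) : x = y := by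
  have h1 : (Matrix.of fun j i => S.g j (S.b i)).mulVec (fun i => algebraMap A K (x i))
      = (Matrix.of fun j i => S.g j (S.b i)).mulVec (fun i => algebraMap A K (y i)) := by
    ext j
    have := congrArg (S.g j) h
    rw [sum_g, sum_g] at this
    exact this
  have h2 := congrArg S.U.mulVec h1
  rw [Matrix.mulVec_mulVec, Matrix.mulVec_mulVec, S.UV, Matrix.one_mulVec, Matrix.one_mulVec] at h2
  ext i
  exact hinj (congrFun h2 i)

/-- the coordinates of `s t`. -/
theorem exists_coord (S : Split A K T ι) (hinj : Function.Injective (algebraMap A K)) :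
    ∃ w : T →ₗ[A] (ι → A), ∀ t, S.s • t = ∑ i, w t i • S.b i := by
  choose w hw using S.hspan
  refine ⟨{ toFun := w, map_add' := fun x y => ?_, map_smul' := fun a x => ?_ }, hw⟩
  · apply coord_unique S hinj
    rw [← hw]
    simp only [Pi.add_apply, add_smul, Finset.sum_add_distrib]
    rw [← hw, ← hw, smul_add]
  · apply coord_unique S hinj
    rw [← hw]
    simp only [Pi.smul_apply, smul_eq_mul, mul_smul, RingHom.id_apply]
    rw [← Finset.smul_sum, ← hw, smul_comm]

/-- the extended coordinates `Ω ⊗ T → Ω^ι`. -/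
noncomputable def wΩ (Ω : Type*) [CommRing Ω] [Algebra A Ω] (w : T →ₗ[A] (ι → A)) :
    Ω ⊗[A] T →ₗ[Ω] (ι → Ω) :=
  (TensorProduct.piScalarRight A Ω Ω ι).toLinearMap ∘ₗ (LinearMap.baseChange Ω w)

theorem wΩ_tmul (w : T →ₗ[A] (ι → A)) (x : Ω) (t : T) (i : ι) :
    wΩ Ω w (x ⊗ₜ t) i = algebraMap A Ω (w t i) * x := by
  rw [wΩ, LinearMap.comp_apply, LinearMap.baseChange_tmul, LinearEquiv.coe_coe,
    TensorProduct.piScalarRight_apply, TensorProduct.piScalarRightHom_tmul, ← Algebra.smul_def]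

theorem G_eq (S : Split A K T ι) (w : T →ₗ[A] (ι → A))
    (hw : ∀ t, S.s • t = ∑ i, w t i • S.b i) (κ : Ω ⊗[A] T) (j : ι) :
    algebraMap A K S.s * G S j κ
      = ∑ i, (Matrix.of fun j i => S.g j (S.b i)) j i * algebraMap Ω K (wΩ Ω w κ i) := by
  induction κ using TensorProduct.induction_on with
  | zero => simp
  | tmul x t =>
    have h1 : algebraMap A K S.s * S.g j t = ∑ i, (Matrix.of fun j i => S.g j (S.b i)) j i *
        algebraMap A K (w t i) := by
      rw [← sum_g, ← hw, map_smul, Algebra.smul_def]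
    rw [G_tmul, mul_left_comm, h1, Finset.mul_sum]
    refine Finset.sum_congr rfl fun i _ => ?_
    rw [wΩ_tmul, map_mul, ← IsScalarTower.algebraMap_apply]
    ring
  | add x y hx hy =>
    rw [map_add, mul_add, hx, hy, ← Finset.sum_add_distrib]
    refine Finset.sum_congr rfl fun i _ => ?_
    rw [map_add, Pi.add_apply, map_add]
    ring

theorem wΩ_eq (S : Split A K T ι) (w : T →ₗ[A] (ι → A))
    (hw : ∀ t, S.s • t = ∑ i, w t i • S.b i) (κ : Ω ⊗[A] T) (i : ι) :
    algebraMap Ω K (wΩ Ω w κ i) = ∑ j, S.U i j * (algebraMap A K S.s * G S j κ) := by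
  have h1 : (Matrix.of fun j i => S.g j (S.b i)).mulVec (fun i => algebraMap Ω K (wΩ Ω w κ i))
      = fun j => algebraMap A K S.s * G S j κ := by
    ext j
    exact (G_eq S w hw κ j).symm
  have h2 := congrArg S.U.mulVec h1
  rw [Matrix.mulVec_mulVec, S.UV, Matrix.one_mulVec] at h2
  exact congrFun h2 i

end Coord

section Inj

variable {p : ℕ} [hp : Fact p.Prime]
variable {A Ω K T : Type*} [CommRing A] [CommRing Ω] [CommRing K] [CommRing T]
  [Algebra A Ω] [Algebra Ω K] [Algebra A K] [IsScalarTower A Ω K] [Algebra A T]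
variable {ι : Type} [Fintype ι] [DecidableEq ι]

/-- the map `Ω ⊗ (ι → A/I)`: an element with all coordinates in `p^N Ω` dies. -/
theorem lTensor_quot_eq_zero {N : ℕ} (w : T →ₗ[A] (ι → A)) (κ : Ω ⊗[A] T)
    (h : ∀ i, (p : Ω) ^ N ∣ wΩ Ω w κ i) :
    LinearMap.lTensor Ω ((LinearMap.pi fun i =>
      (Submodule.mkQ (Ideal.span {(p : A) ^ N})).comp (LinearMap.proj i)) ∘ₗ w) κ = 0 := by
  have h1 : ∀ κ : Ω ⊗[A] T, LinearMap.lTensor Ω w κ
      = ∑ i, wΩ Ω w κ i ⊗ₜ[A] (Pi.single i (1 : A) : ι → A) := by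
    intro κ
    induction κ using TensorProduct.induction_on with
    | zero => simp
    | tmul x t =>
      rw [LinearMap.lTensor_tmul]
      conv_lhs => rw [show w t = ∑ i, w t i • (Pi.single i (1 : A) : ι → A) by
        ext j; simp [Finset.sum_apply, Pi.single_apply]]
      rw [TensorProduct.tmul_sum]
      refine Finset.sum_congr rfl fun i _ => ?_
      rw [wΩ_tmul, ← Algebra.smul_def, TensorProduct.smul_tmul]
    | add x y hx hy =>
      rw [map_add, hx, hy, ← Finset.sum_add_distrib]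
      refine Finset.sum_congr rfl fun i _ => ?_
      rw [map_add, Pi.add_apply, TensorProduct.add_tmul]
  rw [LinearMap.lTensor_comp, LinearMap.comp_apply, h1, map_sum]
  refine Finset.sum_eq_zero fun i _ => ?_
  obtain ⟨y, hy⟩ := h i
  rw [LinearMap.lTensor_tmul, hy]
  have h2 : ((p : Ω) ^ N * y) = ((p : A) ^ N) • y := by
    rw [Algebra.smul_def, map_pow, map_natCast]
  rw [h2, TensorProduct.smul_tmul]
  have h3 : ((p : A) ^ N) • (LinearMap.pi fun i =>
      (Submodule.mkQ (Ideal.span {(p : A) ^ N})).comp (LinearMap.proj i))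
      (Pi.single i (1 : A) : ι → A) = 0 := by
    rw [← map_smul]
    ext j
    rw [LinearMap.pi_apply, LinearMap.comp_apply, LinearMap.proj_apply, Submodule.mkQ_apply,
      Pi.zero_apply, Submodule.Quotient.mk_eq_zero, Pi.smul_apply, smul_eq_mul]
    exact Ideal.mul_mem_right _ _ (Ideal.mem_span_singleton_self _)
  rw [h3, TensorProduct.tmul_zero]

/-- The injectivity lemma, first half: coordinates in `p^N Ω` ⇒ `κ ∈ p^{N-k} (Ω ⊗ T)`. -/
theorem exists_of_wΩ (hfl : ∀ N : ℕ, Om.FlatQ A (B := Ω) (Ideal.span {(p : A) ^ N}))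
    (S : Split A K T ι) (w : T →ₗ[A] (ι → A)) (hw : ∀ t, S.s • t = ∑ i, w t i • S.b i)
    {k : ℕ} (hdiv : ∀ (N : ℕ) (t t' : T), S.s • t = ((p : A) ^ (N + k)) • t' →
      ∃ t'', t = ((p : A) ^ N) • t'')
    (N : ℕ) (κ : Ω ⊗[A] T) (h : ∀ i, (p : Ω) ^ (N + k) ∣ wΩ Ω w κ i) :
    ∃ κ', κ = ((p : A) ^ N) • κ' := by
  set f : T →ₗ[A] (ι → A ⧸ (Ideal.span {(p : A) ^ (N + k)})) := (LinearMap.pi fun i =>
      (Submodule.mkQ (Ideal.span {(p : A) ^ (N + k)})).comp (LinearMap.proj i)) ∘ₗ w with hf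
  have h0 : LinearMap.lTensor Ω f κ = 0 := lTensor_quot_eq_zero w κ h
  have h1 := mem_range_of_lTensor_eq_zero (hfl (N + k)) f (by
    intro a ha m
    ext i
    obtain ⟨m', hm'⟩ := Submodule.mkQ_surjective _ (m i)
    rw [Pi.smul_apply, ← hm', ← map_smul, Pi.zero_apply, Submodule.mkQ_apply,
      Submodule.Quotient.mk_eq_zero, smul_eq_mul]
    exact Ideal.mul_mem_right _ _ ha) κ h0
  obtain ⟨y, rfl⟩ := h1
  clear h0 h
  have h2 : ∀ t : LinearMap.ker f, ∃ t', (t : T) = ((p : A) ^ N) • t' := by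
    intro t
    have h3 : ∀ i, ∃ c, w (t : T) i = (p : A) ^ (N + k) * c := by
      intro i
      have h4 : (Submodule.mkQ (Ideal.span {(p : A) ^ (N + k)})) (w (t : T) i) = 0 :=
        congrFun (LinearMap.mem_ker.1 t.2) i
      rw [Submodule.mkQ_apply, Submodule.Quotient.mk_eq_zero, Ideal.mem_span_singleton] at h4
      exact h4
    choose c hc using h3
    apply hdiv N _ (∑ i, c i • S.b i)
    rw [hw, Finset.smul_sum]
    refine Finset.sum_congr rfl fun i _ => ?_
    rw [hc, mul_smul]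
  induction y using TensorProduct.induction_on with
  | zero => exact ⟨0, by simp⟩
  | tmul x t =>
    obtain ⟨t', ht'⟩ := h2 t
    refine ⟨x ⊗ₜ t', ?_⟩
    rw [LinearMap.lTensor_tmul, Submodule.subtype_apply, ht', TensorProduct.tmul_smul]
  | add x y hx hy =>
    obtain ⟨a, ha⟩ := hx
    obtain ⟨b, hb⟩ := hy
    exact ⟨a + b, by rw [map_add, ha, hb, smul_add]⟩

variable {d : Data p Ω K}

/-- **The injectivity lemma.** -/
theorem exists_of_SM (hfl : ∀ N : ℕ, Om.FlatQ A (B := Ω) (Ideal.span {(p : A) ^ N}))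
    (S : Split A K T ι) (hinj : Function.Injective (algebraMap A K))
    (l : LData d ι) (hU : l.U = S.U)
    {k : ℕ} (hdiv : ∀ (N : ℕ) (t t' : T), S.s • t = ((p : A) ^ (N + k)) • t' →
      ∃ t'', t = ((p : A) ^ N) • t'')
    (N : ℕ) (κ : Ω ⊗[A] T) (h : ∀ j, SM d (N + (k + (l.M + 1))) (G S j κ)) :
    ∃ κ', κ = ((p : A) ^ N) • κ' := by
  obtain ⟨w, hw⟩ := exists_coord S hinj
  apply exists_of_wΩ hfl S w hw hdiv N κ
  intro i
  have h1 : SM d (N + (k + (l.M + 1)))
      (algebraMap Ω K (mu d 0 ^ l.M) * algebraMap Ω K (wΩ Ω w κ i)) := by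
    rw [wΩ_eq S w hw κ i, Finset.mul_sum]
    refine SM.sum _ _ fun j _ => ?_
    have h2 : algebraMap Ω K (mu d 0 ^ l.M) * (S.U i j * (algebraMap A K S.s * G S j κ))
        = (algebraMap Ω K (mu d 0 ^ l.M) * S.U i j * algebraMap Ω K (algebraMap A Ω S.s)) * G S j κ := by
      rw [IsScalarTower.algebraMap_apply A Ω K]
      ring
    rw [h2]
    refine (h j).mul_left (mul_mem ?_ (Subalgebra.algebraMap_mem _ _))
    rw [← hU]
    exact l.U_star i j
  have h2 : SM d (N + k + 1) (algebraMap Ω K (wΩ Ω w κ i)) := by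
    apply SM.of_mul (m := l.M) (Subalgebra.algebraMap_mem _ _)
    convert h1 using 1
    omega
  exact h2.dvd

end Inj

end Crest.Agent.R188.Tring
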