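/-
R188 (Serre positivity), block Tring, part 4: every element of the exact lattice `X` gives an
element of `T` (step (i)).  Author: helper270
-/
import Crest.Agent.R188.Tring3

set_option autoImplicit false
set_option linter.unusedSectionVars false

open TensorProduct Polynomial

namespace Crest.Agent.R188.Tring

open Crest.Agent.R183 Crest.Agent.R183.Heb Crest.Agent.R183.Lat

universe u

section Poly

variable {A K T : Type*} [CommRing A] [CommRing K] [CommRing T] [Algebra A K] [Algebra A T]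
variable {ι : Type} [Fintype ι] [DecidableEq ι]

/-- the characteristic polynomial of `Z = Σ x_i b_i`. -/
theorem exists_poly [Nontrivial A] (S : Split A K T ι)
    (hmul : ∀ i k, ∃ m : ι → A, S.b i * S.b k = ∑ l, m l • S.b l) (x : ι → A) :
    ∃ P : A[X], P.Monic ∧ P.natDegree = Fintype.card ι ∧
      P.map (algebraMap A K) = ∏ j, (X - C (S.g j (∑ i, x i • S.b i))) := by
  choose m hm using hmul
  let Z : T := ∑ i, x i • S.b i
  let MZ : Matrix ι ι A := Matrix.of fun i k => ∑ l, x l * m l k i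
  have hZ : ∀ k, Z * S.b k = ∑ i, MZ i k • S.b i := by
    intro k
    simp only [Z, MZ, Matrix.of_apply, Finset.sum_mul, Finset.sum_smul]
    rw [Finset.sum_comm]
    refine Finset.sum_congr rfl fun l _ => ?_
    rw [smul_mul_assoc, hm, Finset.smul_sum]
    refine Finset.sum_congr rfl fun i _ => ?_
    rw [mul_smul]
  let V : Matrix ι ι K := Matrix.of fun j i => S.g j (S.b i)
  have hVa : ∀ j i, V j i = S.g j (S.b i) := fun j i => rfl
  have h1 : V * MZ.map (algebraMap A K) = Matrix.diagonal (fun j => S.g j Z) * V := by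
    ext j k
    rw [Matrix.diagonal_mul, Matrix.mul_apply]
    have h0 := congrArg (S.g j) (hZ k)
    rw [map_mul (S.g j) Z, map_sum (S.g j) (fun i => MZ i k • S.b i)] at h0
    rw [hVa, h0]
    refine Finset.sum_congr rfl fun i _ => ?_
    rw [map_smul, Algebra.smul_def, Matrix.map_apply, hVa, mul_comm]
  let W : (Matrix ι ι K)ˣ := ⟨V, S.U, S.VU, S.UV⟩
  have h2 : W.val * MZ.map (algebraMap A K) * W⁻¹.val = Matrix.diagonal (fun j => S.g j Z) := by
    change V * MZ.map (algebraMap A K) * S.U = _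
    rw [h1, Matrix.mul_assoc]
    have h3 : V * S.U = 1 := S.VU
    rw [h3, Matrix.mul_one]
  refine ⟨MZ.charpoly, MZ.charpoly_monic, MZ.charpoly_natDegree_eq_dim, ?_⟩
  have h4 := Matrix.charpoly_units_conj W (MZ.map (algebraMap A K))
  rw [← Matrix.coe_units_inv, h2, Matrix.charpoly_diagonal] at h4
  rw [← Matrix.charpoly_map]
  exact h4.symm

/-- the `g_j` are jointly injective -/
theorem eq_zero_of_g (S : Split A K T ι) (hinj : Function.Injective (algebraMap A K))
    (htf : ∀ t : T, S.s • t = 0 → t = 0) {t : T} (h : ∀ j, S.g j t = 0) : t = 0 := by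
  apply htf
  obtain ⟨a, ha⟩ := S.hspan t
  rw [ha]
  have h0 : a = 0 := by
    apply coord_unique S hinj
    rw [← ha]
    simp only [Pi.zero_apply, zero_smul, Finset.sum_const_zero]
    -- `s t = 0`
    have h1 : (Matrix.of fun j i => S.g j (S.b i)).mulVec (fun i => algebraMap A K (a i)) = 0 := by
      ext j
      have h2 := sum_g S a j
      rw [← ha, map_smul, h j, smul_zero] at h2
      exact h2.symm
    have h3 := congrArg S.U.mulVec h1
    rw [Matrix.mulVec_mulVec, S.UV, Matrix.one_mulVec, Matrix.mulVec_zero] at h3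
    rw [ha]
    refine Finset.sum_eq_zero fun i _ => ?_
    have h4 : a i = 0 := hinj (by rw [map_zero]; exact congrFun h3 i)
    rw [h4, zero_smul]
  rw [h0]
  simp

theorem aeval_eq_zero_of_split (S : Split A K T ι) (hinj : Function.Injective (algebraMap A K))
    (htf : ∀ t : T, S.s • t = 0 → t = 0) (P : A[X]) (Z : T)
    (hP : P.map (algebraMap A K) = ∏ j, (X - C (S.g j Z))) : aeval Z P = 0 := by
  apply eq_zero_of_g S hinj htf
  intro j
  rw [← Polynomial.aeval_algHom_apply, aeval_def, ← eval_map, hP, eval_prod]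
  exact Finset.prod_eq_zero (Finset.mem_univ j) (by simp)

/-- scaling of the roots by a unit. -/
theorem coeff_prod_scale {σ : K} (hσ : IsUnit σ) (r : ι → K) (m : ℕ) (hm : m ≤ Fintype.card ι) :
    (∏ j, (X - C (σ * r j))).coeff m
      = σ ^ (Fintype.card ι - m) * (∏ j, (X - C (r j))).coeff m := by
  have h1 : (∏ j, (X - C (σ * r j))).comp (C σ * X) = C (σ ^ Fintype.card ι) * ∏ j, (X - C (r j)) := by
    rw [Polynomial.prod_comp, map_pow, ← Finset.card_univ, ← Finset.prod_const,
      ← Finset.prod_mul_distrib]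
    refine Finset.prod_congr rfl fun j _ => ?_
    rw [sub_comp, X_comp, C_comp, map_mul]
    ring
  have h2 := congrArg (fun q => Polynomial.coeff q m) h1
  simp only [Polynomial.comp_C_mul_X_coeff, Polynomial.coeff_C_mul] at h2
  apply (hσ.pow m).mul_left_cancel
  rw [mul_comm, h2, ← mul_assoc, ← pow_add, Nat.add_sub_cancel' hm]

/-- coefficients of a product of linear factors with roots in a subalgebra -/
theorem coeff_prod_mem {R : Type*} [CommRing R] [Algebra R K] (B : Subalgebra R K) (r : ι → K)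
    (hr : ∀ j, r j ∈ B) (m : ℕ) : (∏ j, (X - C (r j))).coeff m ∈ B := by
  have h1 : (∏ j, (X - C (r j))) = (∏ j, (X - C (⟨r j, hr j⟩ : B))).map (algebraMap B K) := by
    rw [Polynomial.map_prod]
    refine Finset.prod_congr rfl fun j _ => ?_
    rw [Polynomial.map_sub, Polynomial.map_X, Polynomial.map_C]
    rfl
  rw [h1, coeff_map]
  exact Subtype.coe_prop _

end Poly

section Div

variable {A T : Type*} [CommRing A] [CommRing T] [IsDomain T] [IsIntegrallyClosed T] [Algebra A T]

/-- `Z / σ` is integral if the coefficients of an equation of `Z` are divisible by powers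
of `σ`. -/
theorem exists_smul_eq {σ : A} (hσ : algebraMap A T σ ≠ 0) (Z : T) (P : A[X]) (hP : P.Monic)
    (hZ : aeval Z P = 0) (h : ∀ m < P.natDegree, σ ^ (P.natDegree - m) ∣ P.coeff m) :
    ∃ t : T, σ • t = Z := by
  classical
  have h' : ∀ m : ℕ, ∃ a : A, m < P.natDegree → P.coeff m = σ ^ (P.natDegree - m) * a := by
    intro m
    by_cases hm : m < P.natDegree
    · obtain ⟨a, ha⟩ := h m hm
      exact ⟨a, fun _ => ha⟩
    · exact ⟨0, fun h => absurd h hm⟩
  choose a ha using h'
  set E := FractionRing T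
  set σ' : E := algebraMap T E (algebraMap A T σ) with hσ'
  have hσ0 : σ' ≠ 0 := by
    rw [hσ']
    exact (map_ne_zero_iff _ (IsFractionRing.injective T E)).2 hσ
  set z : E := algebraMap T E Z / σ' with hz
  have hzZ : algebraMap T E Z = σ' * z := by
    rw [hz, mul_div_cancel₀ _ hσ0]
  have key : z ^ P.natDegree + ∑ m ∈ Finset.range P.natDegree,
      algebraMap T E (algebraMap A T (a m)) * z ^ m = 0 := by
    have h1 : algebraMap T E (aeval Z P) = 0 := by rw [hZ, map_zero]
    rw [hP.as_sum] at h1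
    simp only [map_add, map_pow, map_sum, map_mul, aeval_X, aeval_C] at h1
    rw [hzZ] at h1
    have h2 : σ' ^ P.natDegree * (z ^ P.natDegree + ∑ m ∈ Finset.range P.natDegree,
      algebraMap T E (algebraMap A T (a m)) * z ^ m) = 0 := by
      rw [mul_add, ← mul_pow, Finset.mul_sum, ← h1]
      congr 1
      refine Finset.sum_congr rfl fun m hm => ?_
      rw [Finset.mem_range] at hm
      rw [ha m hm, map_mul, map_mul, map_pow, map_pow, ← hσ', mul_pow]
      have h3 : σ' ^ P.natDegree = σ' ^ (P.natDegree - m) * σ' ^ m := by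
        rw [← pow_add, Nat.sub_add_cancel hm.le]
      rw [h3]
      ring
    exact (mul_eq_zero.1 h2).resolve_left (pow_ne_zero _ hσ0)
  have hint : IsIntegral T z := by
    refine ⟨X ^ P.natDegree + ∑ m ∈ Finset.range P.natDegree, C (algebraMap A T (a m)) * X ^ m,
      ?_, ?_⟩
    · apply Polynomial.monic_X_pow_add
      refine lt_of_le_of_lt (Polynomial.degree_sum_le _ _) ?_
      rw [Finset.sup_lt_iff (WithBot.bot_lt_coe _)]
      intro m hm
      rw [Finset.mem_range] at hm
      exact lt_of_le_of_lt (Polynomial.degree_C_mul_X_pow_le _ _) (by exact_mod_cast hm)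
    · simp only [eval₂_add, eval₂_pow, eval₂_X, eval₂_finsetSum, eval₂_mul, eval₂_C]
      exact key
  obtain ⟨t, ht⟩ := IsIntegrallyClosed.isIntegral_iff.1 hint
  refine ⟨t, ?_⟩
  apply IsFractionRing.injective T E
  rw [Algebra.smul_def, map_mul, ht, hzZ]

end Div

section Desc

variable {p : ℕ} [hp : Fact p.Prime]
variable {A Ω : Type u} [CommRing A] [CommRing Ω] [Algebra A Ω]

/-- descent of divisibility along a good extension -/
theorem dvd_of_dvd [IsAdicComplete (Ideal.span {(p : A)}) A]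
    (hG : W.Good (p : A) (algebraMap A Ω)) (hr : ∀ x : A, (p : A) * x = 0 → x = 0) {D : A}
    (hD : ∀ x : A, (p : A) ∣ D * x → (p : A) ∣ x) (m : ℕ) (z : A)
    (h : (algebraMap A Ω ((p : A) * D)) ^ m ∣ algebraMap A Ω z) : ((p : A) * D) ^ m ∣ z := by
  apply mem_mul_pow_of_closed hr hD m
  intro N
  have hff := Env.faithfullyFlat_of_good hG N
  obtain ⟨y, hy⟩ := h
  -- work in the quotient
  let I : Ideal (A ⧸ Ideal.span {(p : A) ^ N}) :=
    Ideal.span {Ideal.Quotient.mk _ (((p : A) * D) ^ m)}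
  have h1 : Ideal.Quotient.mk (Ideal.span {(p : A) ^ N}) z ∈
      (I.map (algebraMap _ (Ω ⧸ (Ideal.span {(p : A) ^ N}).map (algebraMap A Ω)))).comap
        (algebraMap _ (Ω ⧸ (Ideal.span {(p : A) ^ N}).map (algebraMap A Ω))) := by
    rw [Ideal.mem_comap]
    have h2 : algebraMap (A ⧸ Ideal.span {(p : A) ^ N})
        (Ω ⧸ (Ideal.span {(p : A) ^ N}).map (algebraMap A Ω)) (Ideal.Quotient.mk _ z)
        = algebraMap (A ⧸ Ideal.span {(p : A) ^ N})
        (Ω ⧸ (Ideal.span {(p : A) ^ N}).map (algebraMap A Ω))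
          (Ideal.Quotient.mk _ (((p : A) * D) ^ m)) * Ideal.Quotient.mk _ y := by
      change Ideal.Quotient.mk _ (algebraMap A Ω z)
        = Ideal.Quotient.mk _ (algebraMap A Ω (((p : A) * D) ^ m)) * Ideal.Quotient.mk _ y
      rw [← map_mul, hy, map_pow]
    rw [h2]
    exact Ideal.mul_mem_right _ _ (Ideal.mem_map_of_mem _ (Ideal.mem_span_singleton_self _))
  rw [Ideal.comap_map_eq_self_of_faithfullyFlat, Ideal.mem_span_singleton] at h1
  obtain ⟨u, hu⟩ := h1
  obtain ⟨u, rfl⟩ := Ideal.Quotient.mk_surjective u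
  rw [← map_mul, Ideal.Quotient.eq, Ideal.mem_span_singleton] at hu
  obtain ⟨v, hv⟩ := hu
  exact ⟨u, v, by rw [← hv]; ring⟩

end Desc

section X

variable {p : ℕ} [hp : Fact p.Prime]
variable {A Ω K T : Type u} [CommRing A] [CommRing Ω] [CommRing K] [CommRing T]
  [Algebra A Ω] [Algebra Ω K] [Algebra A K] [IsScalarTower A Ω K] [Algebra A T]
variable {ι : Type} [Fintype ι] [DecidableEq ι]

theorem mem_star_of_MM {d : Data p Ω K} {m : K} (hm : m ∈ MM d) : m ∈ star d := by
  obtain ⟨e, w, rfl⟩ := hm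
  exact Subalgebra.algebraMap_mem _ _

theorem val_bc (S : Split A K T ι) {d : Data p Ω K} (l : LData d ι)
    (hV : l.V = (Matrix.of fun j i => S.g j (S.b i))) (x : ι → A) (j : ι) :
    l.val (BCM.bc A ι x) j = S.g j (∑ i, x i • S.b i) := by
  rw [sum_g, LData.val_apply, hV]
  refine Finset.sum_congr rfl fun i _ => ?_
  rw [BCM.bc_apply, ← IsScalarTower.algebraMap_apply A Ω K]

/-- the values of an element of `X` lie in `s Ω_*`. -/
theorem star_of_mem_X (S : Split A K T ι) {d : Data p Ω K} (l : LData d ι)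
    (hV : l.V = (Matrix.of fun j i => S.g j (S.b i))) [IsAdicComplete (Ideal.span {(p : Ω)}) Ω]
    {x : ι → A} (hx : x ∈ BCM.X (p : A) l.L) (j : ι) :
    ∃ r ∈ star d, S.g j (∑ i, x i • S.b i) = algebraMap Ω K (mu d 0 ^ l.M) * r := by
  apply exists_star_of_closed l.M
  intro N
  have h1 := BCM.mem_X.1 hx N
  obtain ⟨v, hv, w, hw, hvw⟩ := Submodule.mem_sup.1 h1
  obtain ⟨w', rfl⟩ := BCM.mem_P.1 hw
  obtain ⟨m, hm, h2⟩ := l.mem_L.1 hv j
  refine ⟨m, mem_star_of_MM hm, ?_⟩
  rw [← val_bc S l hV, ← hvw, l.val_add', h2, map_natCast, l.val_smul']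
  have h3 : algebraMap Ω K l.s * m + algebraMap Ω K ((p : Ω) ^ N) * l.val w' j
      - algebraMap Ω K (mu d 0 ^ l.M) * m = algebraMap Ω K ((p : Ω) ^ N) * l.val w' j := by
    rw [LData.s]; ring
  rw [h3]
  exact SM.algebraMap_pow (l.val_mem_star w' j)

/-- **Step (i)**: elements of `X` give elements of `T`. -/
theorem exists_of_mem_X [IsDomain A] [IsDomain T] [IsIntegrallyClosed T]
    (hAT : Function.Injective (algebraMap A T))
    [IsAdicComplete (Ideal.span {(p : A)}) A] [IsAdicComplete (Ideal.span {(p : Ω)}) Ω]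
    (hG : W.Good (p : A) (algebraMap A Ω)) (hr : ∀ x : A, (p : A) * x = 0 → x = 0) {D : A}
    (hD : ∀ x : A, (p : A) ∣ D * x → (p : A) ∣ x)
    (hCIC : ∀ a b c : A, b ≠ 0 → c ≠ 0 → (∀ k : ℕ, b ^ k ∣ c * a ^ k) → b ∣ a)
    (S : Split A K T ι) (hinj : Function.Injective (algebraMap A K)) (hs0 : S.s ≠ 0)
    (hmul : ∀ i k, ∃ m : ι → A, S.b i * S.b k = ∑ l, m l • S.b l)
    {d : Data p Ω K} (hδ : algebraMap A Ω D = d.δ 0) (hpD : (p : A) * D ≠ 0) (l : LData d ι)
    (hV : l.V = (Matrix.of fun j i => S.g j (S.b i)))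
    {x : ι → A} (hx : x ∈ BCM.X (p : A) l.L) :
    ∃ t : T, ((p : A) * D) ^ l.M • t = ∑ i, x i • S.b i := by
  obtain ⟨P, hPm, hPd, hP⟩ := exists_poly S hmul x
  choose r hr1 hr2 using star_of_mem_X S l hV hx
  have hmu : algebraMap A Ω ((p : A) * D) = mu d 0 := by
    rw [map_mul, map_natCast, hδ, mu_zero]
  have hmuK : ∀ m : ℕ, algebraMap A K (((p : A) * D) ^ m) = algebraMap Ω K (mu d 0 ^ m) := by
    intro m
    rw [IsScalarTower.algebraMap_apply A Ω K, map_pow, hmu]
  have htf : ∀ t : T, S.s • t = 0 → t = 0 := by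
    intro t ht
    rw [Algebra.smul_def] at ht
    exact (mul_eq_zero.1 ht).resolve_left ((map_ne_zero_iff _ hAT).2 hs0)
  have hPZ := aeval_eq_zero_of_split S hinj htf P _ hP
  refine exists_smul_eq ((map_ne_zero_iff _ hAT).2 (pow_ne_zero _ hpD)) _ P hPm hPZ ?_
  intro m hm
  have hu : IsUnit (algebraMap Ω K (mu d 0 ^ l.M)) := by
    rw [map_pow]; exact (isUnit_mu d 0).pow _
  -- the coefficient in `K`
  have h1 : algebraMap A K (P.coeff m) = algebraMap Ω K (mu d 0 ^ l.M) ^ (P.natDegree - m)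
      * (∏ j, (X - C (r j))).coeff m := by
    rw [← coeff_map, hP, hPd]
    simp_rw [hr2]
    exact coeff_prod_scale hu r m (by omega)
  have h2 := coeff_prod_mem (star d) r hr1 m
  apply hCIC _ _ ((p : A) * D) (pow_ne_zero _ (pow_ne_zero _ hpD)) hpD
  intro k
  obtain ⟨ω, hω⟩ := pow_mem h2 k 0
  rw [← pow_mul, ← pow_mul]
  apply dvd_of_dvd hG hr hD
  rw [hmu]
  refine ⟨ω, ?_⟩
  apply d.inj
  rw [← IsScalarTower.algebraMap_apply, map_mul (algebraMap A K) ((p : A) * D),
    map_pow (algebraMap A K) (P.coeff m), h1, mul_pow, map_mul _ _ ω, ← hω]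
  have h3 := hmuK 1
  rw [pow_one, pow_one] at h3
  rw [h3]
  simp only [map_pow]
  ring

end X

end Crest.Agent.R188.Tring
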