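/-
R188 (Serre positivity), block Tring, part 5: the almost splitting `Ω ⊗ T ≈ Ω^n` and the
separability elements (steps (ii), (iv), (v)).  Author: helper270
-/
import Crest.Agent.R188.Tring4

set_option autoImplicit false
set_option linter.unusedSectionVars false

open TensorProduct Polynomial

namespace Crest.Agent.R188.Tring

open Crest.Agent.R183 Crest.Agent.R183.Heb Crest.Agent.R183.Lat

universe u

section

variable {p : ℕ} [hp : Fact p.Prime]
variable {A Ω K T : Type u} [CommRing A] [CommRing Ω] [CommRing K] [CommRing T]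
  [Algebra A Ω] [Algebra Ω K] [Algebra A K] [IsScalarTower A Ω K] [Algebra A T]
variable {ι : Type} [Fintype ι] [DecidableEq ι]
variable {d : Data p Ω K}

theorem G_mem_star (S : Split A K T ι) (hstar : ∀ j c, S.g j c ∈ star d) (j : ι) (κ : Ω ⊗[A] T) :
    G S j κ ∈ star d := by
  induction κ using TensorProduct.induction_on with
  | zero => rw [map_zero]; exact zero_mem _
  | tmul x t => rw [G_tmul]; exact mul_mem (Subalgebra.algebraMap_mem _ _) (hstar j t)
  | add x y hx hy => rw [map_add]; exact add_mem hx hy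

/-- **Step (ii)** -/
theorem exists_E (S : Split A K T ι) (hstar : ∀ j c, S.g j c ∈ star d) (l : LData d ι)
    (hV : l.V = (Matrix.of fun j i => S.g j (S.b i))) {D : A}
    (hδ : algebraMap A Ω D = d.δ 0)
    [IsAdicComplete (Ideal.span {(p : A)}) A]
    (hX : ∀ x ∈ BCM.X (p : A) l.L, ∃ t : T, ((p : A) * D) ^ l.M • t = ∑ i, x i • S.b i)
    {c : ℕ} (hT : BCM.Tower (p : A) l.L c) (e N : ℕ) (j : ι) :
    ∃ E : Ω ⊗[A] T, ∀ j', SM d N (G S j' E - if j' = j then algebraMap Ω K (mu d e) else 0) := by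
  obtain ⟨v, hv, hv1, -⟩ := l.exists_of_MM
    (fun j' => if j' = j then algebraMap Ω K (mu d e) else 0) (fun j' => by
      split_ifs
      · exact mu_mem_MM d e
      · exact zero_mem _)
  have h1 := hT.L_le (N + l.M) hv
  obtain ⟨y, hy, w, hw, hyw⟩ := Submodule.mem_sup.1 h1
  obtain ⟨w', rfl⟩ := BCM.mem_P.1 hw
  have hmuK : algebraMap A K (((p : A) * D) ^ l.M) = algebraMap Ω K (mu d 0 ^ l.M) := by
    rw [IsScalarTower.algebraMap_apply A Ω K, map_pow (algebraMap A Ω), map_mul (algebraMap A Ω),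
      map_natCast, hδ, mu_zero]
  have h2 : ∃ E : Ω ⊗[A] T, ∀ j', algebraMap Ω K (mu d 0 ^ l.M) * G S j' E = l.val y j' := by
    clear hyw h1
    induction hy using Submodule.span_induction with
    | mem y hy =>
      obtain ⟨x, hx, rfl⟩ := hy
      obtain ⟨t, ht⟩ := hX x hx
      refine ⟨1 ⊗ₜ t, fun j' => ?_⟩
      rw [val_bc S l hV, ← ht, map_smul, Algebra.smul_def, hmuK, G_tmul, map_one, one_mul]
    | zero => exact ⟨0, fun j' => by simp [LData.val_apply]⟩
    | add y z _ _ hy hz =>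
      obtain ⟨E, hE⟩ := hy
      obtain ⟨F, hF⟩ := hz
      exact ⟨E + F, fun j' => by rw [map_add, mul_add, hE, hF, l.val_add']⟩
    | smul r y _ hy =>
      obtain ⟨E, hE⟩ := hy
      exact ⟨r • E, fun j' => by
        rw [map_smul, Algebra.smul_def, mul_left_comm, hE, l.val_smul']⟩
  obtain ⟨E, hE⟩ := h2
  refine ⟨E, fun j' => ?_⟩
  have hst : (if j' = j then algebraMap Ω K (mu d e) else 0) ∈ star d := by
    split_ifs
    · exact Subalgebra.algebraMap_mem _ _
    · exact zero_mem _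
  apply SM.of_mul (m := l.M) (sub_mem (G_mem_star S hstar j' E) hst)
  rw [mul_sub, hE]
  have h3 := hv1 j'
  rw [← hyw, l.val_add', map_natCast, l.val_smul'] at h3
  have h4 : l.val y j' - algebraMap Ω K (mu d 0 ^ l.M) * (if j' = j then algebraMap Ω K (mu d e) else 0)
      = - (algebraMap Ω K ((p : Ω) ^ (N + l.M)) * l.val w' j') := by
    rw [LData.s] at h3
    linear_combination h3
  rw [h4]
  exact (SM.algebraMap_pow (l.val_mem_star w' j')).neg

/-- the maps `β_j = μ_e g_j : T → Ω` -/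
theorem exists_beta (S : Split A K T ι) (hstar : ∀ j c, S.g j c ∈ star d) (e : ℕ) (j : ι) :
    ∃ β : T →ₗ[A] Ω, ∀ c, algebraMap Ω K (β c) = algebraMap Ω K (mu d e) * S.g j c := by
  choose β hβ using fun c => hstar j c e
  refine ⟨{ toFun := β, map_add' := fun x y => ?_, map_smul' := fun a x => ?_ },
    fun c => (hβ c).symm⟩
  · apply d.inj
    rw [map_add, ← hβ, ← hβ, ← hβ, map_add, mul_add]
  · apply d.inj
    rw [RingHom.id_apply, Algebra.smul_def a (β x), map_mul (algebraMap Ω K), ← hβ, ← hβ, map_smul,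
      Algebra.smul_def, ← IsScalarTower.algebraMap_apply]
    ring

/-- **The almost splitting and the separability elements** (steps (iv), (v)). -/
theorem exists_splitting (S : Split A K T ι) (hstar : ∀ j c, S.g j c ∈ star d) (l : LData d ι)
    (hV : l.V = (Matrix.of fun j i => S.g j (S.b i))) (hU : l.U = S.U) {D : A}
    (hδ : algebraMap A Ω D = d.δ 0)
    [IsAdicComplete (Ideal.span {(p : A)}) A]
    (hX : ∀ x ∈ BCM.X (p : A) l.L, ∃ t : T, ((p : A) * D) ^ l.M • t = ∑ i, x i • S.b i)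
    {c : ℕ} (hT : BCM.Tower (p : A) l.L c)
    (hfl : ∀ N : ℕ, Om.FlatQ A (B := Ω) (Ideal.span {(p : A) ^ N}))
    (hinj : Function.Injective (algebraMap A K))
    {k : ℕ} (hdiv : ∀ (N : ℕ) (t t' : T), S.s • t = ((p : A) ^ (N + k)) • t' →
      ∃ t'', t = ((p : A) ^ N) • t'')
    (θ : T) (τ : ι → Ω) (hτ : ∀ j, algebraMap Ω K (τ j) = S.g j θ)
    (a₀ : A) (k₀ : ℕ) (ha₀ : a₀ ∣ ((p : A) * D) ^ k₀) (e N : ℕ) :
    ∃ (E : ι → Ω ⊗[A] T) (β : ι → T →ₗ[A] Ω),
      (∀ x : T, ∃ κ : Ω ⊗[A] T, ∑ j, β j x • E j = (mu d e) ^ 2 • (1 ⊗ₜ x) + ((p : A) ^ N) • κ) ∧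
      (∃ κ : Ω ⊗[A] T, ∑ j, E j * E j = (mu d e) ^ 2 • (1 : Ω ⊗[A] T) + ((p : A) ^ N) • κ) ∧
      (∀ h : T →ₐ[A] T, (∃ c' : T, (h θ - θ) * c' = algebraMap A T a₀) →
        ∃ κ : Ω ⊗[A] T, ∑ j, Algebra.TensorProduct.map (AlgHom.id Ω Ω) h (E j) * E j
          = ((p : A) ^ N) • κ) := by
  set c₀ := k + (l.M + 1) with hc₀
  set N₁ := N + c₀ + k₀ + c₀ with hN₁
  choose E hE using exists_E S hstar l hV hδ hX hT e N₁
  choose β hβ using exists_beta S hstar e
  have hin : ∀ (N : ℕ) (κ : Ω ⊗[A] T), (∀ j, SM d (N + c₀) (G S j κ)) →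
      ∃ κ', κ = ((p : A) ^ N) • κ' := fun N κ h => exists_of_SM hfl S hinj l hU hdiv N κ h
  have hmust : algebraMap Ω K (mu d e) ∈ star d := Subalgebra.algebraMap_mem _ _
  have hE' : ∀ j j', ∃ r, SM d N₁ r ∧ G S j' (E j)
      = (if j' = j then algebraMap Ω K (mu d e) else 0) + r :=
    fun j j' => ⟨_, hE j j', by ring⟩
  choose r hr hEr using hE'
  -- `(θ - τ_j) E_j`
  have hθE : ∀ j, ∃ κ, (1 ⊗ₜ θ) * E j - τ j • E j = ((p : A) ^ (N + c₀ + k₀)) • κ := by
    intro j
    apply hin
    intro j'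
    rw [map_sub, map_mul, map_smul, G_tmul, map_one, one_mul, Algebra.smul_def, hτ, ← sub_mul,
      hEr, mul_add]
    have h1 : (S.g j' θ - S.g j θ) * (if j' = j then algebraMap Ω K (mu d e) else 0) = 0 := by
      split_ifs with h
      · rw [h, sub_self, zero_mul]
      · rw [mul_zero]
    rw [h1, zero_add]
    exact (hr j j').mul_left (sub_mem (hstar j' θ) (hstar j θ))
  refine ⟨E, β, ?_, ?_, ?_⟩
  · intro x
    obtain ⟨κ, hκ⟩ := hin N (∑ j, β j x • E j - (mu d e) ^ 2 • (1 ⊗ₜ x)) (by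
      intro j'
      rw [map_sub, map_sum, map_smul, G_tmul, map_one, one_mul, Algebra.smul_def, map_pow]
      have h1 : ∑ j, G S j' (β j x • E j) = algebraMap Ω K (mu d e) ^ 2 * S.g j' x
          + ∑ j, algebraMap Ω K (mu d e) * S.g j x * r j j' := by
        have h2 : ∀ j, G S j' (β j x • E j)
            = (if j' = j then algebraMap Ω K (mu d e) ^ 2 * S.g j x else 0)
              + algebraMap Ω K (mu d e) * S.g j x * r j j' := by
          intro j
          rw [map_smul, Algebra.smul_def, hβ, hEr, mul_add]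
          split_ifs
          · ring
          · rw [mul_zero]
        rw [Finset.sum_congr rfl fun j _ => h2 j, Finset.sum_add_distrib, Finset.sum_ite_eq]
        simp
      rw [h1, add_sub_cancel_left]
      refine SM.mono (by omega) (SM.sum _ _ fun j _ => (hr j j').mul_left
        (mul_mem hmust (hstar j x))))
    exact ⟨κ, by rw [← hκ]; abel⟩
  · obtain ⟨κ, hκ⟩ := hin N (∑ j, E j * E j - (mu d e) ^ 2 • (1 : Ω ⊗[A] T)) (by
      intro j'
      rw [map_sub, map_sum, map_smul, map_one, Algebra.smul_def, map_pow, mul_one]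
      have h1 : ∑ j, G S j' (E j * E j) = algebraMap Ω K (mu d e) ^ 2
          + ∑ j, ((if j' = j then 2 * algebraMap Ω K (mu d e) else 0) + r j j') * r j j' := by
        have h2 : ∀ j, G S j' (E j * E j)
            = (if j' = j then algebraMap Ω K (mu d e) ^ 2 else 0)
              + ((if j' = j then 2 * algebraMap Ω K (mu d e) else 0) + r j j') * r j j' := by
          intro j
          rw [map_mul, hEr]
          split_ifs
          · ring
          · ring
        rw [Finset.sum_congr rfl fun j _ => h2 j, Finset.sum_add_distrib, Finset.sum_ite_eq]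
        simp
      rw [h1, add_sub_cancel_left]
      refine SM.mono (by omega) (SM.sum _ _ fun j _ => (hr j j').mul_left
        (add_mem ?_ (hr j j').mem_star))
      split_ifs
      · exact mul_mem (by exact_mod_cast natCast_mem (star d) 2) hmust
      · exact zero_mem _)
    exact ⟨κ, by rw [← hκ]; abel⟩
  · intro h hh
    obtain ⟨c', hc'⟩ := hh
    set Φ := Algebra.TensorProduct.map (AlgHom.id Ω Ω) h with hΦ
    have key : ∀ j, ∃ κ : Ω ⊗[A] T, Φ (E j) * E j = ((p : A) ^ N) • κ := by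
      intro j
      obtain ⟨κ, hκ⟩ := hθE j
      have h1 : (1 ⊗ₜ h θ) * Φ (E j) - τ j • Φ (E j) = ((p : A) ^ (N + c₀ + k₀)) • Φ κ := by
        have h2 := congrArg Φ hκ
        rw [map_sub, map_mul, map_smul, hΦ, Algebra.TensorProduct.map_tmul, ← hΦ] at h2
        rw [AlgHom.id_apply] at h2
        rw [h2, ← algebraMap_smul Ω ((p : A) ^ (N + c₀ + k₀)) κ, map_smul, algebraMap_smul]
      -- multiply
      have h3 : ((1 : Ω) ⊗ₜ[A] (h θ - θ)) * (Φ (E j) * E j)
          = ((p : A) ^ (N + c₀ + k₀)) • (Φ κ * E j - Φ (E j) * κ) := by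
        rw [smul_sub, ← smul_mul_assoc, ← mul_smul_comm, ← h1, ← hκ, TensorProduct.tmul_sub]
        simp only [Algebra.smul_def]
        ring
      have h4 : ((1 : Ω) ⊗ₜ[A] algebraMap A T a₀) * (Φ (E j) * E j)
          = ((p : A) ^ (N + c₀ + k₀)) • ((1 ⊗ₜ c') * (Φ κ * E j - Φ (E j) * κ)) := by
        rw [← mul_smul_comm, ← h3, ← hc', ← mul_assoc ((1 : Ω) ⊗ₜ[A] c'),
          Algebra.TensorProduct.tmul_mul_tmul, one_mul, mul_comm c']
      apply hin
      intro j'
      have h5 := congrArg (G S j') h4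
      rw [map_mul, G_tmul, map_one, one_mul, AlgHom.commutes,
        ← algebraMap_smul Ω ((p : A) ^ (N + c₀ + k₀)), map_smul, Algebra.smul_def, map_pow,
        map_natCast] at h5
      obtain ⟨q, hq⟩ := ha₀
      apply SM.of_mul (m := k₀) (G_mem_star S hstar j' _)
      have h6 : algebraMap Ω K (mu d 0 ^ k₀) = algebraMap A K a₀ * algebraMap A K q := by
        rw [← map_mul, ← hq, IsScalarTower.algebraMap_apply A Ω K, map_pow (algebraMap A Ω),
          map_mul (algebraMap A Ω), map_natCast, hδ, mu_zero]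
      have h7 : algebraMap Ω K (mu d 0 ^ k₀) * G S j' (Φ (E j) * E j)
          = algebraMap Ω K ((p : Ω) ^ (N + c₀ + k₀)) * (algebraMap A K q *
            G S j' ((1 ⊗ₜ c') * (Φ κ * E j - Φ (E j) * κ))) := by
        rw [h6]
        linear_combination (algebraMap A K q) * h5
      rw [h7]
      apply SM.algebraMap_pow
      refine mul_mem ?_ (G_mem_star S hstar j' _)
      rw [IsScalarTower.algebraMap_apply A Ω K]
      exact Subalgebra.algebraMap_mem _ _
    choose κ hκ using key
    exact ⟨∑ j, κ j, by rw [Finset.sum_congr rfl fun j _ => hκ j, Finset.smul_sum]⟩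

end

end Crest.Agent.R188.Tring
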