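/-
R188 (Serre positivity), block Tring: the almost splitting data (interface).  Author: helper270
-/
import Crest.Agent.R183.Env1

set_option autoImplicit false

open TensorProduct Polynomial

namespace Crest.Agent.R188.Tring

open Crest.Agent.R183

/-- The almost splitting of an `A`-algebra `T` over a good cover `Ω` of `A`, with
`μ_e = (p D)^{1/p^e} = ϖ_e δ_e ∈ Ω`.  `H` is a set of `A`-algebra endomorphisms of `T` (the
nontrivial elements of the Galois group). -/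
structure AlmSplit (p : ℕ) [Fact p.Prime] (A T : Type) [CommRing A] [CommRing T] [Algebra A T]
    (ϖ : ℕ → A) (H : Set (T →ₐ[A] T)) : Type 1 where
  Ω : Type
  [ring : CommRing Ω]
  [alg : Algebra A Ω]
  good : W.Good (p : A) (algebraMap A Ω)
  pdata : Om.PData p Ω (fun e => algebraMap A Ω (ϖ e))
  reg : Om.Reg (p : Ω)
  complete : IsAdicComplete (Ideal.span {(p : Ω)}) Ω
  D : A
  regD : Om.RegMod D (p : A)
  δ : ℕ → Ω
  δ_zero : δ 0 = algebraMap A Ω D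
  δ_succ : ∀ e, δ (e + 1) ^ p = δ e
  fac : ∀ e N : ℕ, ∃ (n : ℕ) (E : Fin n → Ω ⊗[A] T) (β : Fin n → T →ₗ[A] Ω),
    ∀ x : T, ∃ κ : Ω ⊗[A] T,
      ∑ j, β j x • E j = (algebraMap A Ω (ϖ e) * δ e) • ((1 : Ω) ⊗ₜ[A] x) + ((p : A) ^ N) • κ
  sep : ∀ e N : ℕ, ∃ (n : ℕ) (E F : Fin n → Ω ⊗[A] T),
    (∃ κ : Ω ⊗[A] T, ∑ j, E j * F j
      = (algebraMap A Ω (ϖ e) * δ e) • (1 : Ω ⊗[A] T) + ((p : A) ^ N) • κ) ∧
    ∀ h ∈ H, ∃ κ : Ω ⊗[A] T,
      ∑ j, Algebra.TensorProduct.map (AlgHom.id Ω Ω) h (E j) * F j = ((p : A) ^ N) • κ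

attribute [instance] AlmSplit.ring AlmSplit.alg

end Crest.Agent.R188.Tring
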