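/-
R188 (Serre positivity), block Tring, part 6: the almost splitting data of `T` from a generator.
Author: helper270
-/
import Crest.Agent.R188.Tring5
import Crest.Agent.R188.TringD
import Crest.Agent.R183.Lat10
import Crest.Agent.R183.Cic

set_option autoImplicit false
set_option linter.unusedSectionVars false

open TensorProduct Polynomial

namespace Crest.Agent.R188.Tring

open Crest.Agent.R183 Crest.Agent.R183.Heb Crest.Agent.R183.Lat Crest.Agent.R183.Om

section Span

variable {A T : Type*} [CommRing A] [Nontrivial A] [CommRing T] [Algebra A T]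

/-- polynomials in `θ` are linear combinations of `1, θ, …, θ^{n-1}`. -/
theorem exists_comb (f : A[X]) (hf : f.Monic) (θ : T) (hθ : aeval θ f = 0) (h : A[X]) :
    ∃ m : Fin f.natDegree → A, aeval θ h = ∑ l, m l • θ ^ (l : ℕ) := by
  have h1 : aeval θ h = aeval θ (h %ₘ f) := by
    have := congrArg (aeval θ) (Polynomial.modByMonic_add_div h f)
    rw [map_add, map_mul, hθ, zero_mul, add_zero] at this
    exact this.symm
  refine ⟨fun i => (h %ₘ f).coeff i, ?_⟩
  rw [h1]
  have hdeg : (h %ₘ f).natDegree < f.natDegree ∨ h %ₘ f = 0 := by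
    by_cases h0 : h %ₘ f = 0
    · exact Or.inr h0
    · left
      exact Polynomial.natDegree_lt_natDegree h0 (Polynomial.degree_modByMonic_lt h hf)
  rcases hdeg with hdeg | h0
  · rw [aeval_eq_sum_range' hdeg, Finset.sum_range]
  · rw [h0]; simp

end Span

section Main

variable {p : ℕ} [hp : Fact p.Prime]

theorem ne_zero_of_regMod {A : Type*} [CommRing A] {D : A} (hu : ¬ IsUnit (p : A))
    (hD : RegMod D (p : A)) : D ≠ 0 := by
  rintro rfl
  apply hu
  have h1 := hD 1 (by rw [zero_mul]; exact dvd_zero _)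
  exact isUnit_of_dvd_one h1

/-- **The almost splitting data from a generator.** -/
theorem almSplit_of_gen {A T : Type} [CommRing A] [IsDomain A] [CommRing T] [IsDomain T]
    [IsIntegrallyClosed T] [Algebra A T] [Algebra.IsIntegral A T]
    (hAT : Function.Injective (algebraMap A T)) {ϖ : ℕ → A} (M₀ : Env.Model p A ϖ)
    (hCIC : Cic.CIC A)
    (hfac : ∀ a : A, a ≠ 0 → ∃ (c : A) (k : ℕ) (D : A), a * c = (p : A) ^ k * D ∧
      RegMod D (p : A))
    (hregT : ∀ D : A, RegMod D (p : A) → RegMod (algebraMap A T D) (p : T))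
    (θ : T) (f : A[X]) (a₀ : A) (h0 : a₀ ≠ 0) (hf : f.Monic) (hθ : aeval θ f = 0)
    (hdvd : ∀ h : A[X], aeval θ h = 0 → f ∣ h) (hspan : ∀ c : T, ∃ h : A[X], a₀ • c = aeval θ h)
    (hsep : ∃ u v : A[X], u * f + v * derivative f = C a₀)
    (H : Set (T →ₐ[A] T)) (hH : ∀ h ∈ H, ∃ c' : T, (h θ - θ) * c' = algebraMap A T a₀) :
    Nonempty (AlmSplit p A T ϖ H) := by
  obtain ⟨d0, hr0, hc0, hu0⟩ := M₀.props
  obtain ⟨c, k, D, hcD, hD⟩ := hfac a₀ h0
  have hD0 : D ≠ 0 := ne_zero_of_regMod hu0 hD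
  have hp0 : (p : A) ≠ 0 := by
    intro h
    have := hr0 1 (by rw [h, zero_mul])
    exact one_ne_zero this
  have hpD : (p : A) * D ≠ 0 := mul_ne_zero hp0 hD0
  have hk : a₀ ∣ ((p : A) * D) ^ (k + 1) := by
    refine ⟨c * (p * D ^ k), ?_⟩
    rw [← mul_assoc, hcD, mul_pow]; ring
  -- the cover
  obtain ⟨Ω, _, _, M, φ, -, -, -, hgood, hsplit, hsharp⟩ :=
    Env.exists_cover M₀ (N := 1) (fun _ => f) (fun _ => hf) (k := 1) (fun _ => D)
  obtain ⟨t, ht⟩ := hsplit 0
  obtain ⟨s, hs⟩ := hsharp 0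
  have hregΩ : RegMod (algebraMap A Ω D) (p : Ω) := Env.regMod_of_good hgood hD
  let E : Mix.Envr p A ϖ D := Mix.Envr.ofModel M hgood (fun e => sh M.θ (Amp.rt (p := p) e s))
    (fun e => isRoots_sh M.θ s e) (by rw [rt_zero, ← hs]) (by rw [rt_zero, ← hs]; exact hregΩ)
  let K := E.K
  have hδ0 : E.data.δ 0 = algebraMap A E.A D := E.δ0
  -- the splitting
  have hunit : IsUnit (algebraMap A E.K a₀) := by
    have h1 := E.unit_pow (k + 1)
    exact isUnit_of_dvd_unit (map_dvd _ hk) h1
  have hsep' : (f.map (algebraMap A E.K)).Separable := by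
    obtain ⟨u, v, huv⟩ := hsep
    obtain ⟨i, hi⟩ := hunit.exists_left_inv
    have h1 := congrArg (Polynomial.map (algebraMap A E.K)) huv
    rw [Polynomial.map_add, Polynomial.map_mul, Polynomial.map_mul, Polynomial.map_C,
      ← Polynomial.derivative_map] at h1
    refine ⟨C i * u.map (algebraMap A E.K), C i * v.map (algebraMap A E.K), ?_⟩
    rw [mul_assoc, mul_assoc, ← mul_add, h1, ← C_mul, hi, C_1]
  let τ : Fin f.natDegree → E.A := fun j => sh M.θ (t j)
  have hτ : f.map (algebraMap A E.K) = ∏ j, (X - C (algebraMap E.A E.K (τ j))) := by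
    have ht' : f.map (algebraMap A E.A) = ∏ j, (X - C (τ j)) := ht
    have h1 := congrArg (Polynomial.map (algebraMap E.A E.K)) ht'
    rw [Polynomial.map_map, ← IsScalarTower.algebraMap_eq, Polynomial.map_prod] at h1
    refine h1.trans (Finset.prod_congr rfl fun j _ => ?_)
    rw [Polynomial.map_sub, Polynomial.map_X, Polynomial.map_C]
  obtain ⟨S, hSg, hSb, hSs⟩ := Split.exists_ofTheta f hf rfl θ hθ hdvd a₀ hunit hspan
    (fun j => algebraMap E.A E.K (τ j)) hτ hsep'
  obtain ⟨O⟩ := exists_out_env d0 hr0 hD E S (k + 1) (by rw [hSs]; exact hk)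
  have hinjΩ : Function.Injective (algebraMap A E.A) := by
    rw [injective_iff_map_eq_zero]
    intro x hx
    apply sep_of_isAdicComplete (p := (p : A))
    intro n
    have := Env.faithfullyFlat_of_good E.good n
    have hinj := (FaithfulSMul.algebraMap_injective (A ⧸ Ideal.span {(p : A) ^ n})
      (E.A ⧸ (Ideal.span {(p : A) ^ n}).map (algebraMap A E.A)))
    rw [← Ideal.mem_span_singleton, ← Ideal.Quotient.eq_zero_iff_mem]
    apply hinj
    rw [map_zero]
    change Ideal.Quotient.mk _ (algebraMap A E.A x) = 0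
    rw [hx, map_zero]
  have hinjK : Function.Injective (algebraMap A E.K) := by
    rw [IsScalarTower.algebraMap_eq A E.A E.K]
    exact E.data.inj.comp hinjΩ
  have hlU : O.l.U = S.U := by
    have h1 : O.l.U * (O.l.V * S.U) = S.U := by rw [← Matrix.mul_assoc, O.l.UV, Matrix.one_mul]
    rw [O.hV, S.VU, Matrix.mul_one] at h1
    exact h1
  have hmul : ∀ i k, ∃ m : Fin f.natDegree → A, S.b i * S.b k = ∑ l, m l • S.b l := by
    intro i k
    obtain ⟨m, hm⟩ := exists_comb f hf θ hθ (X ^ ((i : ℕ) + (k : ℕ)))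
    refine ⟨m, ?_⟩
    rw [hSb, hSb, ← pow_add]
    rw [map_pow, aeval_X] at hm
    rw [hm]
    exact Finset.sum_congr rfl fun l _ => by rw [hSb]
  have hX : ∀ x ∈ BCM.X (p : A) O.l.L, ∃ t : T, ((p : A) * D) ^ O.l.M • t = ∑ i, x i • S.b i := by
    intro x hx
    exact exists_of_mem_X hAT E.good hr0 hD hCIC S hinjK (by rw [hSs]; exact h0) hmul hδ0.symm hpD
      O.l O.hV hx
  have hdiv : ∀ (N : ℕ) (t t' : T), S.s • t = ((p : A) ^ (N + (k + 1))) • t' →
      ∃ t'', t = ((p : A) ^ N) • t'' := by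
    intro N t t' h
    have hk' : algebraMap A T a₀ ∣ ((p : T) * algebraMap A T D) ^ (k + 1) := by
      have := map_dvd (algebraMap A T) hk
      rwa [map_pow, map_mul, map_natCast] at this
    have hpT : ∀ x : T, (p : T) * x = 0 → x = 0 := by
      intro x hx
      have : (p : T) ≠ 0 := by
        rw [← map_natCast (algebraMap A T)]
        exact (map_ne_zero_iff _ hAT).2 hp0
      exact (mul_eq_zero.1 hx).resolve_left this
    obtain ⟨w', hw'⟩ := div_of_dvd hpT (hregT D hD) hk' N t t' (by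
      rw [hSs, Algebra.smul_def, Algebra.smul_def, map_pow, map_natCast] at h
      exact h)
    exact ⟨w', by rw [hw', Algebra.smul_def, map_pow, map_natCast]⟩
  have key := exists_splitting S O.hstar O.l O.hV hlU hδ0.symm hX O.tower
    (fun N => Env.flatQ_of_good E.good N) hinjK hdiv θ τ (fun j => (hSg j).symm) a₀ (k + 1) hk
  have hmu : ∀ e, ∃ q : E.A, algebraMap A E.A (ϖ e) * E.δ e = q * (mu E.data (e + 1)) ^ 2 := by
    intro e
    obtain ⟨q, hq⟩ := mu_sq_dvd E.data e
    exact ⟨q, by rw [mul_comm q, ← hq]; rfl⟩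
  refine ⟨{
    Ω := E.A
    good := E.good
    pdata := E.M.props.1
    reg := E.M.props.2.1
    complete := E.M.props.2.2.1
    D := D
    regD := hD
    δ := E.δ
    δ_zero := E.δ0
    δ_succ := E.hδ
    fac := ?_
    sep := ?_ }⟩
  · intro e N
    obtain ⟨q, hq⟩ := hmu e
    obtain ⟨F, β, h1, -, -⟩ := key (e + 1) N
    refine ⟨f.natDegree, fun j => q • F j, β, fun x => ?_⟩
    obtain ⟨κ, hκ⟩ := h1 x
    refine ⟨q • κ, ?_⟩
    have h2 : ∑ j, β j x • q • F j = q • ∑ j, β j x • F j := by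
      rw [Finset.smul_sum]
      exact Finset.sum_congr rfl fun j _ => smul_comm _ _ _
    rw [h2, hκ, smul_add, smul_smul, ← hq, smul_comm]
  · intro e N
    obtain ⟨q, hq⟩ := hmu e
    obtain ⟨F, β, -, h1, h2⟩ := key (e + 1) N
    refine ⟨f.natDegree, F, fun j => q • F j, ?_, fun h hh => ?_⟩
    · obtain ⟨κ, hκ⟩ := h1
      refine ⟨q • κ, ?_⟩
      have h3 : ∑ j, F j * q • F j = q • ∑ j, F j * F j := by
        rw [Finset.smul_sum]
        exact Finset.sum_congr rfl fun j _ => mul_smul_comm _ _ _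
      rw [h3, hκ, smul_add, smul_smul, ← hq, smul_comm]
    · obtain ⟨κ, hκ⟩ := h2 h (hH h hh)
      refine ⟨q • κ, ?_⟩
      have h3 : ∑ j, Algebra.TensorProduct.map (AlgHom.id E.A E.A) h (F j) * q • F j
          = q • ∑ j, Algebra.TensorProduct.map (AlgHom.id E.A E.A) h (F j) * F j := by
        rw [Finset.smul_sum]
        exact Finset.sum_congr rfl fun j _ => mul_smul_comm _ _ _
      rw [h3, hκ, smul_comm]

end Main

end Crest.Agent.R188.Tring
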