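/-
R188 (Serre positivity), helper453 for helper270: the generator lemma for finite Galois
extensions of the fraction field of an integrally closed domain.
-/
import Mathlib

set_option autoImplicit false

namespace Crest.Agent.R188.Tring

open Polynomial

section

variable {A F L : Type*} [CommRing A] [IsDomain A] [IsIntegrallyClosed A] [Field F] [Algebra A F]
  [IsFractionRing A F] [Field L] [Algebra F L] [Algebra A L] [IsScalarTower A F L]
  [FiniteDimensional F L] [IsGalois F L]

omit [IsIntegrallyClosed A] in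
variable (A F L) in
/-- an integral primitive element -/
theorem exists_prim : ∃ θ : L, IsIntegral A θ ∧ Algebra.adjoin F {θ} = ⊤ := by
  obtain ⟨α, hα⟩ := Field.exists_primitive_element F L
  have hFα : Algebra.adjoin F {α} = ⊤ :=
    (IntermediateField.adjoin_simple_eq_top_iff_of_isAlgebraic
      (Algebra.IsAlgebraic.isAlgebraic α)).1 hα
  have halg : IsAlgebraic A α :=
    (IsFractionRing.isAlgebraic_iff A F L).2 (Algebra.IsAlgebraic.isAlgebraic α)
  obtain ⟨y, hy, hint⟩ := halg.exists_integral_multiple
  have hy' : algebraMap A F y ≠ 0 := by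
    intro h0
    apply hy
    apply IsFractionRing.injective A F
    rw [h0, map_zero]
  have h1 : algebraMap F L (algebraMap A F y)⁻¹ * (y • α) = α := by
    rw [Algebra.smul_def, IsScalarTower.algebraMap_apply A F L, ← mul_assoc, ← map_mul,
      inv_mul_cancel₀ hy', map_one, one_mul]
  have h2 : algebraMap F L (algebraMap A F y)⁻¹ * (y • α) ∈ Algebra.adjoin F {y • α} :=
    mul_mem (Subalgebra.algebraMap_mem _ _) (Algebra.subset_adjoin rfl)
  rw [h1] at h2
  refine ⟨y • α, hint, ?_⟩
  rw [eq_top_iff, ← hFα]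
  exact Algebra.adjoin_le (Set.singleton_subset_iff.2 h2)

omit [IsIntegrallyClosed A] in
/-- clearing denominators of a Bezout relation -/
theorem exists_bezout (f : A[X]) (hf : (f.map (algebraMap A F)).Separable) :
    ∃ a : A, a ≠ 0 ∧ ∃ u v : A[X], u * f + v * derivative f = C a := by
  obtain ⟨u, v, huv⟩ := hf
  obtain ⟨b, hb, hbu⟩ := IsLocalization.integerNormalization_spec (nonZeroDivisors A) u
  obtain ⟨c, hc, hcv⟩ := IsLocalization.integerNormalization_spec (nonZeroDivisors A) v
  set u' := IsLocalization.integerNormalization (nonZeroDivisors A) u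
  set v' := IsLocalization.integerNormalization (nonZeroDivisors A) v
  refine ⟨b * c, mul_ne_zero (nonZeroDivisors.ne_zero hb) (nonZeroDivisors.ne_zero hc),
    C c * u', C b * v', ?_⟩
  apply Polynomial.map_injective (algebraMap A F) (IsFractionRing.injective A F)
  rw [Polynomial.map_add, Polynomial.map_mul, Polynomial.map_mul, Polynomial.map_mul,
    Polynomial.map_mul, map_C, map_C, hbu, hcv, map_C, map_mul]
  rw [derivative_map] at huv
  rw [Algebra.smul_def, Algebra.smul_def]
  have h1 : algebraMap A F[X] b = C (algebraMap A F b) := rfl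
  have h2 : algebraMap A F[X] c = C (algebraMap A F c) := rfl
  rw [h1, h2, C_mul]
  linear_combination (C (algebraMap A F b) * C (algebraMap A F c)) * huv

/-- **the generator lemma** -/
theorem exists_gen :
    ∃ (θ : integralClosure A L) (f : Polynomial A) (a₀ : A), a₀ ≠ 0 ∧ f.Monic ∧
      f.natDegree = Module.finrank F L ∧ aeval θ f = 0 ∧
      (∀ h : Polynomial A, aeval θ h = 0 → f ∣ h) ∧
      (∀ c : integralClosure A L, ∃ h : Polynomial A, a₀ • c = aeval θ h) ∧
      (∃ u v : Polynomial A, u * f + v * derivative f = C a₀) ∧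
      (∀ g : L ≃ₐ[F] L, g ≠ 1 → ∃ c' : integralClosure A L,
        ((g.restrictScalars A).mapIntegralClosure θ - θ) * c' =
          algebraMap A (integralClosure A L) a₀) := by
  classical
  obtain ⟨θ₀, hint, hadj⟩ := exists_prim A F L
  have hFL : Function.Injective (algebraMap A L) := by
    rw [IsScalarTower.algebraMap_eq A F L]
    exact (algebraMap F L).injective.comp (IsFractionRing.injective A F)
  have : FaithfulSMul A L := (faithfulSMul_iff_algebraMap_injective A L).2 hFL
  have : Module.IsTorsionFree A L := inferInstance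
  let θ : integralClosure A L := ⟨θ₀, hint⟩
  let f := minpoly A θ₀
  have hfm : f.Monic := minpoly.monic hint
  have hmin : minpoly F θ₀ = f.map (algebraMap A F) :=
    minpoly.isIntegrallyClosed_eq_field_fractions' F hint
  let B : PowerBasis F L := PowerBasis.ofAdjoinEqTop (Algebra.IsIntegral.isIntegral θ₀) hadj
  have hBgen : B.gen = θ₀ := PowerBasis.ofAdjoinEqTop_gen _ _
  have hdeg : f.natDegree = Module.finrank F L := by
    rw [B.finrank, ← B.natDegree_minpoly, hBgen, hmin, hfm.natDegree_map]
  have hcoe : ∀ h : A[X], ((aeval θ h : integralClosure A L) : L) = aeval θ₀ h := by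
    intro h
    exact (Polynomial.aeval_algHom_apply (integralClosure A L).val θ h).symm
  have haev : aeval θ f = 0 := by
    apply Subtype.ext
    rw [hcoe]
    exact minpoly.aeval A θ₀
  have hdvd : ∀ h : Polynomial A, aeval θ h = 0 → f ∣ h := by
    intro h hh
    refine minpoly.isIntegrallyClosed_dvd hint ?_
    rw [← hcoe, hh]; rfl
  -- the discriminant
  have hd0 : Algebra.discr F B.basis ≠ 0 := Algebra.discr_not_zero_of_basis F B.basis
  have hdint : IsIntegral A (Algebra.discr F B.basis) := by
    refine Algebra.discr_isIntegral F fun i => ?_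
    rw [B.basis_eq_pow, hBgen]
    exact hint.pow _
  obtain ⟨a₁, ha₁⟩ := (IsIntegrallyClosed.isIntegral_iff (R := A) (K := F)).1 hdint
  have ha₁0 : a₁ ≠ 0 := by
    rintro rfl
    exact hd0 (by rw [← ha₁, map_zero])
  have hgen1 : ∀ c : integralClosure A L, ∃ h : A[X], a₁ • c = aeval θ h := by
    intro c
    have h1 := Algebra.discr_mul_isIntegral_mem_adjoin F (B := B) (by rw [hBgen]; exact hint)
      (z := (c : L)) c.2
    rw [hBgen, Algebra.adjoin_singleton_eq_range_aeval] at h1
    obtain ⟨h, hh⟩ := h1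
    refine ⟨h, Subtype.ext ?_⟩
    rw [hcoe]
    change a₁ • (c : L) = _
    rw [← IsScalarTower.algebraMap_smul F a₁ (c : L), ha₁]
    exact hh.symm
  -- Bezout
  have hsep : (f.map (algebraMap A F)).Separable := by
    rw [← hmin]
    exact Algebra.IsSeparable.isSeparable F θ₀
  obtain ⟨a₂, ha₂0, u, v, huv⟩ := exists_bezout (F := F) f hsep
  -- conjugates
  have hconj : ∀ g : L ≃ₐ[F] L, g ≠ 1 → ∃ r : A, r ≠ 0 ∧ ∃ c' : integralClosure A L,
      ((g.restrictScalars A).mapIntegralClosure θ - θ) * c' =
        algebraMap A (integralClosure A L) r := by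
    intro g hg
    set x : integralClosure A L := (g.restrictScalars A).mapIntegralClosure θ - θ with hx
    have hx0 : x ≠ 0 := by
      intro h0
      apply hg
      have h1 : g θ₀ = θ₀ := by
        have h2 : (x : L) = g θ₀ - θ₀ := rfl
        rw [h0] at h2
        exact (sub_eq_zero.1 h2.symm)
      have h2 : (g : L →ₐ[F] L) = AlgHom.id F L := by
        refine B.algHom_ext ?_
        rw [hBgen]
        exact h1
      ext y
      exact DFunLike.congr_fun h2 y
    have halg : IsAlgebraic A x := (Algebra.IsIntegral.isIntegral x).isAlgebraic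
    obtain ⟨r, hr, c', hc'⟩ := halg.exists_nonzero_dvd (mem_nonZeroDivisors_of_ne_zero hx0)
    exact ⟨r, hr, c', hc'.symm⟩
  choose! r hr0 hr using hconj
  let G := (Finset.univ : Finset (L ≃ₐ[F] L)).filter (fun g => g ≠ 1)
  let P : A := ∏ g ∈ G, r g
  have hP0 : P ≠ 0 := Finset.prod_ne_zero_iff.2 fun g hg => hr0 g (Finset.mem_filter.1 hg).2
  refine ⟨θ, f, a₁ * a₂ * P, mul_ne_zero (mul_ne_zero ha₁0 ha₂0) hP0, hfm, hdeg, haev, hdvd,
    ?_, ?_, ?_⟩
  · intro c
    obtain ⟨h, hh⟩ := hgen1 c
    refine ⟨C (a₂ * P) * h, ?_⟩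
    rw [map_mul, aeval_C, ← Algebra.smul_def, ← hh, smul_smul]
    congr 1
    ring
  · refine ⟨C (a₁ * P) * u, C (a₁ * P) * v, ?_⟩
    have h1 : (C (a₁ * a₂ * P) : A[X]) = C (a₁ * P) * C a₂ := by rw [← C_mul]; congr 1; ring
    rw [h1, ← huv]
    ring
  · intro g hg
    obtain ⟨c', hc'⟩ := hr g hg
    have hgG : g ∈ G := Finset.mem_filter.2 ⟨Finset.mem_univ _, hg⟩
    have hPr : P = r g * ∏ g' ∈ G.erase g, r g' := (Finset.mul_prod_erase G r hgG).symm
    refine ⟨c' * algebraMap A _ (a₁ * a₂ * ∏ g' ∈ G.erase g, r g'), ?_⟩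
    rw [← mul_assoc, hc', ← map_mul, hPr]
    congr 1
    ring

end

end Crest.Agent.R188.Tring
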