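/-
R188 (Serre positivity), block Tring, part 7: the almost splitting data of the integral closure
`T_L` of `A` in a finite Galois extension `L` of `Frac A`.  Author: helper270
-/
import Crest.Agent.R188.Tring6
import Crest.Agent.R188.TringG
import Crest.Agent.R188.Apl3
import Crest.Agent.R188.TowInst

set_option autoImplicit false
set_option linter.unusedSectionVars false

open TensorProduct Polynomial

namespace Crest.Agent.R188.Tring

open Crest.Agent.R183 Crest.Agent.R183.Heb Crest.Agent.R183.Lat Crest.Agent.R183.Om

variable {p : ℕ} [hp : Fact p.Prime]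

/-- the nontrivial elements of the Galois group, acting on the integral closure -/
def galH (A F L : Type) [CommRing A] [Field F] [Algebra A F] [Field L] [Algebra F L] [Algebra A L]
    [IsScalarTower A F L] : Set (integralClosure A L →ₐ[A] integralClosure A L) :=
  {h | ∃ g : L ≃ₐ[F] L, g ≠ 1 ∧ h = (g.restrictScalars A).mapIntegralClosure}

/-- **The almost splitting data of `T_L`.** -/
theorem nonempty_almSplit {A F L : Type} [CommRing A] [IsDomain A] [IsIntegrallyClosed A]
    [Field F] [Algebra A F] [IsFractionRing A F] [Field L] [Algebra F L] [Algebra A L]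
    [IsScalarTower A F L] [FiniteDimensional F L] [IsGalois F L] {ϖ : ℕ → A}
    (M₀ : Env.Model p A ϖ) (hCIC : Cic.CIC A)
    (hfac : ∀ a : A, a ≠ 0 → ∃ (c : A) (k : ℕ) (D : A), a * c = (p : A) ^ k * D ∧
      RegMod D (p : A)) :
    Nonempty (AlmSplit p A (integralClosure A L) ϖ (galH A F L)) := by
  have hinjL : Function.Injective (algebraMap A L) := by
    rw [IsScalarTower.algebraMap_eq A F L]
    exact (algebraMap F L).injective.comp (IsFractionRing.injective A F)
  have hfaith : FaithfulSMul A L := (faithfulSMul_iff_algebraMap_injective A L).2 hinjL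
  have hAT : Function.Injective (algebraMap A (integralClosure A L)) := by
    intro x y hxy
    exact hinjL (congrArg (algebraMap (integralClosure A L) L) hxy)
  have hic : IsIntegrallyClosed (integralClosure A L) :=
    integralClosure.isIntegrallyClosedOfFiniteExtension F
  have hp0 : (p : A) ≠ 0 := by
    intro h
    have := M₀.props.2.1 1 (by rw [h, zero_mul])
    exact one_ne_zero this
  obtain ⟨θ, f, a₀, h0, hf, -, hθ, hdvd, hspan, hsep, hgal⟩ := exists_gen (A := A) (F := F) (L := L)
  refine almSplit_of_gen hAT M₀ hCIC hfac (fun D hD => ?_) θ f a₀ h0 hf hθ hdvd hspan hsep _ ?_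
  · have := Apl.regMod_integralClosure (L := L) hp0 hD
    rwa [map_natCast] at this
  · rintro _ ⟨g, hg, rfl⟩
    obtain ⟨c', hc'⟩ := hgal g hg
    exact ⟨c', hc'⟩

end Crest.Agent.R188.Tring
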