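/-
R188 (Serre positivity), block Tring, part 8: rank data of `T_L`: `A^n → T_L → A^n` with both
composites `σ = p^k D`.  Author: helper270
-/
import Crest.Agent.R188.Tring7

set_option autoImplicit false
set_option linter.unusedSectionVars false

open TensorProduct Polynomial

namespace Crest.Agent.R188.Tring

open Crest.Agent.R183 Crest.Agent.R183.Om

variable {p : ℕ} [hp : Fact p.Prime]

theorem exists_uw {A T : Type*} [CommRing A] [IsDomain A] [CommRing T] [IsDomain T] [Algebra A T]
    (θ : T) (f : A[X]) (a₀ : A) (hf : f.Monic)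
    (hθ : aeval θ f = 0) (hdvd : ∀ h : A[X], aeval θ h = 0 → f ∣ h)
    (hspan : ∀ c : T, ∃ h : A[X], a₀ • c = aeval θ h) (σ c₀ : A) (hσ : a₀ * c₀ = σ) :
    ∃ (u : (Fin f.natDegree → A) →ₗ[A] T) (w : T →ₗ[A] (Fin f.natDegree → A)),
      (∀ x, w (u x) = σ • x) ∧ (∀ t, u (w t) = σ • t) := by
  let u : (Fin f.natDegree → A) →ₗ[A] T := Fintype.linearCombination A (fun l => θ ^ (l : ℕ))
  have hu : ∀ x, u x = ∑ l, x l • θ ^ (l : ℕ) := fun x => rfl
  have huinj : Function.Injective u := by
    rw [injective_iff_map_eq_zero]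
    intro x hx
    let P : A[X] := ∑ l : Fin f.natDegree, C (x l) * X ^ (l : ℕ)
    have hP : aeval θ P = 0 := by
      rw [← hx, hu]
      simp only [P, map_sum, map_mul, aeval_C, map_pow, aeval_X, Algebra.smul_def]
    have hdeg : P.degree < f.degree := by
      rw [Polynomial.degree_eq_natDegree hf.ne_zero]
      refine lt_of_le_of_lt (Polynomial.degree_sum_le _ _) ?_
      rw [Finset.sup_lt_iff (WithBot.bot_lt_coe _)]
      intro l _
      exact lt_of_le_of_lt (Polynomial.degree_C_mul_X_pow_le _ _) (by exact_mod_cast l.2)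
    have hP0 : P = 0 := by
      by_contra hne
      exact absurd (Polynomial.degree_le_of_dvd (hdvd P hP) hne) (not_le.2 hdeg)
    ext l
    have h1 := congrArg (fun q => Polynomial.coeff q (l : ℕ)) hP0
    simp only [P, Polynomial.finsetSum_coeff, Polynomial.coeff_C_mul, Polynomial.coeff_X_pow,
      Polynomial.coeff_zero] at h1
    rw [Finset.sum_eq_single l] at h1
    · simpa using h1
    · intro b _ hb
      have : (l : ℕ) ≠ (b : ℕ) := fun h => hb (Fin.ext h.symm)
      simp [this]
    · intro h; exact absurd (Finset.mem_univ l) h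
  have hex : ∀ t : T, ∃ m : Fin f.natDegree → A, a₀ • t = u m := by
    intro t
    obtain ⟨h, hh⟩ := hspan t
    obtain ⟨m, hm⟩ := exists_comb f hf θ hθ h
    exact ⟨m, by rw [hh, hm, hu]⟩
  choose m hm using hex
  let w₀ : T →ₗ[A] (Fin f.natDegree → A) :=
    { toFun := m
      map_add' := fun x y => huinj (by rw [← hm, smul_add, hm, hm, map_add])
      map_smul' := fun a x => huinj (by rw [← hm, smul_comm, hm, map_smul, RingHom.id_apply]) }
  have hw₀ : ∀ t, u (w₀ t) = a₀ • t := fun t => (hm t).symm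
  refine ⟨u, c₀ • w₀, fun x => huinj ?_, fun t => ?_⟩
  · rw [LinearMap.smul_apply, map_smul, hw₀, smul_smul, mul_comm, hσ, map_smul]
  · rw [LinearMap.smul_apply, map_smul, hw₀, smul_smul, mul_comm, hσ]

/-- **rank data of `T_L`** -/
theorem exists_rank_data {A F L : Type} [CommRing A] [IsDomain A] [IsIntegrallyClosed A]
    [Field F] [Algebra A F] [IsFractionRing A F] [Field L] [Algebra F L] [Algebra A L]
    [IsScalarTower A F L] [FiniteDimensional F L] [IsGalois F L]
    (hfac : ∀ a : A, a ≠ 0 → ∃ (c : A) (k : ℕ) (D : A), a * c = (p : A) ^ k * D ∧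
      RegMod D (p : A)) :
    ∃ (u : (Fin (Module.finrank F L) → A) →ₗ[A] integralClosure A L)
      (w : integralClosure A L →ₗ[A] (Fin (Module.finrank F L) → A)) (k : ℕ) (D : A),
      RegMod D (p : A) ∧ (∀ x, w (u x) = ((p : A) ^ k * D) • x) ∧
        (∀ t, u (w t) = ((p : A) ^ k * D) • t) := by
  obtain ⟨θ, f, a₀, h0, hf, hdeg, hθ, hdvd, hspan, -, -⟩ :=
    exists_gen (A := A) (F := F) (L := L)
  obtain ⟨c, k, D, hcD, hD⟩ := hfac a₀ h0
  have key := exists_uw θ f a₀ hf hθ hdvd hspan ((p : A) ^ k * D) c hcD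
  rw [hdeg] at key
  obtain ⟨u, w, h1, h2⟩ := key
  exact ⟨u, w, k, D, hD, h1, h2⟩

end Crest.Agent.R188.Tring
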