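import Crest.Agent.R188.Trk4
import Mathlib.LinearAlgebra.TensorProduct.Finiteness

/-!
# R188 (helper645), block Trk, part 5: the rank lemma (RK).
-/

set_option autoImplicit false
set_option linter.dupNamespace false
set_option linter.unusedSectionVars false

namespace Crest.Agent.R188.Trk

open scoped ENNReal TensorProduct
open Crest.Agent.R183 Crest.Agent.R183.BInf Crest.Agent.R188.Tow IsLocalRing

universe u v w

/-- limit argument -/
theorem le_of_growth {a b c : ℝ≥0∞} (hc : c ≠ ⊤) (d : ℕ)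
    (h : ∀ N : ℕ, 0 < N → a * (N : ℝ≥0∞) ^ d * N ≤ b * (N : ℝ≥0∞) ^ d * N + c * (N : ℝ≥0∞) ^ d) :
    a ≤ b := by
  have h1 : ∀ N : ℕ, 0 < N → a ≤ b + c / N := by
    intro N hN
    have hN0 : (N : ℝ≥0∞) ≠ 0 := by exact_mod_cast hN.ne'
    have hNt : (N : ℝ≥0∞) ≠ ⊤ := ENNReal.natCast_ne_top _
    have hX0 : (N : ℝ≥0∞) ^ d * N ≠ 0 := mul_ne_zero (pow_ne_zero _ hN0) hN0
    have hXt : (N : ℝ≥0∞) ^ d * N ≠ ⊤ := ENNReal.mul_ne_top (ENNReal.pow_ne_top hNt) hNt
    have h2 : a * ((N : ℝ≥0∞) ^ d * N) ≤ (b + c / N) * ((N : ℝ≥0∞) ^ d * N) := by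
      have h3 := h N hN
      have h4 : (b + c / N) * ((N : ℝ≥0∞) ^ d * N) =
          b * (N : ℝ≥0∞) ^ d * N + c * (N : ℝ≥0∞) ^ d := by
        rw [add_mul, ← mul_assoc]
        congr 1
        rw [mul_comm ((N : ℝ≥0∞) ^ d) (N : ℝ≥0∞), ← mul_assoc, ENNReal.div_mul_cancel hN0 hNt]
      rw [h4, ← mul_assoc]
      exact h3
    exact (ENNReal.mul_le_mul_iff_left hX0 hXt).mp h2
  have h2 : Filter.Tendsto (fun N : ℕ => b + c / (N : ℝ≥0∞)) Filter.atTop (nhds (b + 0)) := by
    refine Filter.Tendsto.add tendsto_const_nhds ?_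
    have := ENNReal.Tendsto.const_mul (a := c) ENNReal.tendsto_inv_nat_nhds_zero (Or.inr hc)
    rw [mul_zero] at this
    exact this
  rw [add_zero] at h2
  refine ge_of_tendsto h2 ?_
  filter_upwards [Filter.eventually_gt_atTop 0] with N hN
  exact h1 N hN

section Gen

variable {A : Type u} [CommRing A] (Λ : AddLen.{u, u} A)

/-- `V / σ V` -/
abbrev QS (σ : A) (V : Type u) [AddCommGroup V] [Module A V] : Type u :=
  V ⧸ LinearMap.range (LinearMap.lsmul A V σ)

/-- `V[σ]` -/
abbrev KS (σ : A) (V : Type u) [AddCommGroup V] [Module A V] : Type u :=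
  LinearMap.ker (LinearMap.lsmul A V σ)

theorem L_KS (σ : A) (V : Type u) [AddCommGroup V] [Module A V] (h : Λ.L V ≠ ⊤) :
    Λ.L (KS σ V) = Λ.L (QS σ V) := by
  have h1 := Λ.L_ker_add_range (LinearMap.lsmul A V σ)
  have h2 := Λ.L_eq_add_quotient (LinearMap.range (LinearMap.lsmul A V σ))
  have h3 : Λ.L (LinearMap.range (LinearMap.lsmul A V σ)) ≠ ⊤ :=
    ne_top_of_le_ne_top h (Λ.L_submodule_le _)
  rw [h1, add_comm] at h2
  exact (ENNReal.add_right_inj h3).mp h2

/-- `(A^n) ⊗ V ≃ V^n` -/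
noncomputable def freeE (n : ℕ) (V : Type u) [AddCommGroup V] [Module A V] :
    (Fin n → A) ⊗[A] V ≃ₗ[A] (Fin n → V) :=
  (TensorProduct.comm A (Fin n → A) V).trans (TensorProduct.piScalarRight A A V (Fin n))

theorem L_free (n : ℕ) (V : Type u) [AddCommGroup V] [Module A V] :
    Λ.L ((Fin n → A) ⊗[A] V) = n * Λ.L V := by
  rw [Λ.L_congr (freeE n V), Λ.L_finset_pi]

theorem tors_tensor {κ : Type*} {t : κ → A} (T : Type u) [AddCommGroup T] [Module A T] {V : Type u}
    [AddCommGroup V] [Module A V] (h : Tors t V) : Tors t (T ⊗[A] V) := by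
  intro x i
  induction x using TensorProduct.induction_on with
  | zero => exact ⟨0, smul_zero _⟩
  | tmul c m =>
    obtain ⟨n, hn⟩ := h m i
    exact ⟨n, by rw [← TensorProduct.tmul_smul, hn, TensorProduct.tmul_zero]⟩
  | add x y hx hy =>
    obtain ⟨n, hn⟩ := hx
    obtain ⟨m, hm⟩ := hy
    refine ⟨n + m, ?_⟩
    have e1 : t i ^ (n + m) • x = 0 := by rw [add_comm, pow_add, mul_smul, hn, smul_zero]
    have e2 : t i ^ (n + m) • y = 0 := by rw [pow_add, mul_smul, hm, smul_zero]
    rw [smul_add, e1, e2, add_zero]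

end Gen

section RK

variable {A : Type u} [CommRing A] (Λ : AddLen.{u, u} A) {κ : Type*} (t : κ → A)
variable (T : Type u) [AddCommGroup T] [Module A T]

/-- tensoring with `T` is exact up to null on torsion modules -/
def Tor0 : Prop := ∀ {V' V : Type u} [AddCommGroup V'] [Module A V'] [AddCommGroup V] [Module A V]
  (f : V' →ₗ[A] V), Function.Injective f → Tors t V →
  Λ.L (LinearMap.ker (f.lTensor T)) = 0

variable {t T} (h0 : Tor0 Λ t T)

include h0 in
theorem phi_add {M N P : Type u} [AddCommGroup M] [Module A M] [AddCommGroup N] [Module A N]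
    [AddCommGroup P] [Module A P] (f : M →ₗ[A] N) (g : N →ₗ[A] P) (hf : Function.Injective f)
    (hg : Function.Surjective g) (H : Function.Exact f g) (hN : Tors t N) :
    Λ.L (T ⊗[A] N) = Λ.L (T ⊗[A] M) + Λ.L (T ⊗[A] P) := by
  have h1 : Λ.L (T ⊗[A] N) = Λ.L (LinearMap.ker (g.lTensor T)) + Λ.L (T ⊗[A] P) :=
    Λ.add' (LinearMap.ker (g.lTensor T)).subtype (g.lTensor T) (Submodule.subtype_injective _)
      (LinearMap.lTensor_surjective T hg) (LinearMap.exact_subtype_ker_map _)
  have h2 : LinearMap.ker (g.lTensor T) = LinearMap.range (f.lTensor T) :=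
    (lTensor_exact T H hg).linearMap_ker_eq
  have h3 := Λ.L_ker_add_range (f.lTensor T)
  rw [h0 f hf hN, zero_add] at h3
  rw [h1, h2, h3]

open Classical in
/-- `V ↦ Λ(T ⊗ V)` -/
noncomputable def phi : AddLen.{u, u} A where
  L := fun V _ _ => if Tors t V then Λ.L (T ⊗[A] V) else ⊤
  zero' := fun V _ _ h => by
    have : Tors t V := fun x i => ⟨0, Subsingleton.elim _ _⟩
    rw [if_pos this]
    exact Λ.L_subsingleton
  add' := by
    intro M N P _ _ _ _ _ _ f g hf hg H
    by_cases hN : Tors t N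
    · rw [if_pos hN, if_pos (hN.of_injective f hf), if_pos (hN.of_surjective g hg)]
      exact phi_add Λ h0 f g hf hg H hN
    · rw [if_neg hN]
      by_cases hM : Tors t M
      · by_cases hP : Tors t P
        · exact absurd (hM.of_exact hP f g H) hN
        · rw [if_neg hP, add_top]
      · rw [if_neg hM, top_add]

theorem phi_L {V : Type u} [AddCommGroup V] [Module A V] (h : Tors t V) :
    (phi Λ h0).L V = Λ.L (T ⊗[A] V) := if_pos h

theorem phi_cont (hc : ContOn Λ t) : ContOn (phi Λ h0) t := by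
  classical
  intro V _ _ hV
  rw [phi_L Λ h0 hV]
  refine (hc _ (tors_tensor T hV)).trans (iSup_le fun F => ?_)
  obtain ⟨N, hN, hF⟩ := TensorProduct.exists_finite_submodule_right_of_setFinite
    (F : Set (T ⊗[A] V)) F.finite_toSet
  rw [Module.Finite.iff_fg] at hN
  obtain ⟨E, rfl⟩ := hN
  have h1 : Submodule.span A (F : Set (T ⊗[A] V)) ≤
      LinearMap.range ((Submodule.span A (E : Set V)).subtype.lTensor T) := by
    rw [Submodule.span_le]; exact hF
  refine le_trans ?_ (le_iSup _ E)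
  rw [phi_L Λ h0 (hV.submodule _)]
  exact (L_mono Λ h1).trans (Λ.L_le_of_surjective _ (LinearMap.surjective_rangeRestrict _))

open Classical in
/-- `V ↦ Λ(im(T₀ ⊗ V → T ⊗ V))` is superadditive -/
noncomputable def psi (T₀ : Submodule A T) : SupLen A where
  L := fun V _ _ => if Tors t V then Λ.L (LinearMap.range (T₀.subtype.rTensor V)) else ⊤
  congr := by
    intro M N _ _ _ _ e
    have key : ∀ {M N : Type u} [AddCommGroup M] [Module A M] [AddCommGroup N] [Module A N]
      (e : M ≃ₗ[A] N), Tors t M → (Tors t N ∧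
        Λ.L (LinearMap.range (T₀.subtype.rTensor N)) ≤
          Λ.L (LinearMap.range (T₀.subtype.rTensor M))) := by
      intro M N _ _ _ _ e hM
      refine ⟨hM.of_injective e.symm.toLinearMap e.symm.injective, ?_⟩
      refine Λ.L_le_of_surjective (((e.toLinearMap.lTensor T).domRestrict _).codRestrict
        (LinearMap.range (T₀.subtype.rTensor N)) ?_) ?_
      · rintro ⟨_, x, rfl⟩
        refine ⟨e.toLinearMap.lTensor T₀ x, ?_⟩
        change (T₀.subtype.rTensor N) (e.toLinearMap.lTensor T₀ x) =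
          (e.toLinearMap.lTensor T) (T₀.subtype.rTensor M x)
        rw [← LinearMap.comp_apply, ← LinearMap.comp_apply, LinearMap.lTensor_comp_rTensor,
          LinearMap.rTensor_comp_lTensor]
      · rintro ⟨_, x, rfl⟩
        obtain ⟨y, rfl⟩ := (LinearMap.lTensor_surjective T₀ e.surjective :
          Function.Surjective (e.toLinearMap.lTensor T₀)) x
        refine ⟨⟨T₀.subtype.rTensor M y, y, rfl⟩, Subtype.ext ?_⟩
        change (e.toLinearMap.lTensor T) (T₀.subtype.rTensor M y) =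
          (T₀.subtype.rTensor N) (e.toLinearMap.lTensor T₀ y)
        rw [← LinearMap.comp_apply, ← LinearMap.comp_apply, LinearMap.lTensor_comp_rTensor,
          LinearMap.rTensor_comp_lTensor]
    by_cases hM : Tors t M
    · obtain ⟨hN, h1⟩ := key e hM
      obtain ⟨_, h2⟩ := key e.symm hN
      rw [if_pos hM, if_pos hN]
      exact le_antisymm h2 h1
    · have hN : ¬ Tors t N := fun h => hM (key e.symm h).1
      rw [if_neg hM, if_neg hN]
  sup := by
    intro M N P _ _ _ _ _ _ f g hf hg H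
    by_cases hN : Tors t N
    swap
    · rw [if_neg hN]; exact le_top
    have hM := hN.of_injective f hf
    have hP := hN.of_surjective g hg
    rw [if_pos hN, if_pos hM, if_pos hP]
    have comm : ∀ {X Y : Type u} [AddCommGroup X] [Module A X] [AddCommGroup Y] [Module A Y]
        (h : X →ₗ[A] Y) (x : T₀ ⊗[A] X), (h.lTensor T) (T₀.subtype.rTensor X x) =
          (T₀.subtype.rTensor Y) (h.lTensor T₀ x) := by
      intro X Y _ _ _ _ h x
      rw [← LinearMap.comp_apply, ← LinearMap.comp_apply, LinearMap.lTensor_comp_rTensor,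
        LinearMap.rTensor_comp_lTensor]
    let res : ∀ {X Y : Type u} [AddCommGroup X] [Module A X] [AddCommGroup Y] [Module A Y]
        (_ : X →ₗ[A] Y), LinearMap.range (T₀.subtype.rTensor X) →ₗ[A]
          LinearMap.range (T₀.subtype.rTensor Y) := fun {X Y} _ _ _ _ h =>
      ((h.lTensor T).domRestrict _).codRestrict (LinearMap.range (T₀.subtype.rTensor Y)) (by
        rintro ⟨_, x, rfl⟩
        exact ⟨h.lTensor T₀ x, (comm h x).symm⟩)
    have hG : Function.Surjective (res g) := by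
      rintro ⟨_, x, rfl⟩
      obtain ⟨y, rfl⟩ := LinearMap.lTensor_surjective T₀ hg x
      exact ⟨⟨T₀.subtype.rTensor N y, y, rfl⟩, Subtype.ext (comm g y)⟩
    have h1 : Λ.L (LinearMap.range (T₀.subtype.rTensor N)) =
        Λ.L (LinearMap.ker (res g)) + Λ.L (LinearMap.range (T₀.subtype.rTensor P)) :=
      Λ.add' (LinearMap.ker (res g)).subtype (res g) (Submodule.subtype_injective _) hG
        (LinearMap.exact_subtype_ker_map _)
    have h2 := Λ.L_ker_add_range (res f)
    have h3 : Λ.L (LinearMap.ker (res f)) = 0 := by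
      have h4 := h0 f hf hN
      refine le_antisymm (le_trans ?_ h4.le) zero_le
      refine Λ.L_le_of_injective (((LinearMap.range (T₀.subtype.rTensor M)).subtype.domRestrict
        (LinearMap.ker (res f))).codRestrict (LinearMap.ker (f.lTensor T)) ?_) ?_
      · rintro ⟨x, hx⟩
        rw [LinearMap.mem_ker] at hx ⊢
        exact congrArg Subtype.val hx
      · intro x y hxy
        have := congrArg Subtype.val hxy
        exact Subtype.ext (Subtype.ext this)
    have h4 : LinearMap.range (res f) ≤ LinearMap.ker (res g) := by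
      rintro _ ⟨x, rfl⟩
      rw [LinearMap.mem_ker]
      apply Subtype.ext
      change (g.lTensor T) ((f.lTensor T) (x : T ⊗[A] M)) = 0
      rw [← LinearMap.comp_apply, ← LinearMap.lTensor_comp]
      have : g ∘ₗ f = 0 := LinearMap.ext fun y => H.apply_apply_eq_zero y
      rw [this, LinearMap.lTensor_zero, LinearMap.zero_apply]
    rw [h2, h3, zero_add, h1]
    exact add_le_add (L_mono Λ h4) le_rfl

theorem psi_L (T₀ : Submodule A T) {V : Type u} [AddCommGroup V] [Module A V] (h : Tors t V) :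
    (psi Λ h0 T₀).L V = Λ.L (LinearMap.range (T₀.subtype.rTensor V)) := if_pos h

/-- upper bound for `psi` -/
theorem psi_bound {n : ℕ} (u : (Fin n → A) →ₗ[A] T) (w : T →ₗ[A] (Fin n → A)) (σ : A)
    (huw : ∀ x, u (w x) = σ • x) {r : ℕ} (x : Fin r → T) (V : Type u) [AddCommGroup V]
    [Module A V] :
    Λ.L (LinearMap.range ((LinearMap.range u ⊔ Submodule.span A (Set.range x)).subtype.rTensor V)) ≤
      n * Λ.L V + r * Λ.L (QS σ V) := by
  classical
  let P := LinearMap.range (u.rTensor V)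
  let s : (Fin r → V) →ₗ[A] T ⊗[A] V :=
    LinearMap.lsum A (fun _ => V) A (fun j => TensorProduct.mk A T V (x j))
  have hs : ∀ v, s v = ∑ j, x j ⊗ₜ v j := by
    intro v
    change (LinearMap.lsum A (fun _ => V) A (fun j => TensorProduct.mk A T V (x j))) v = _
    rw [LinearMap.lsum_apply, LinearMap.sum_apply]
    rfl
  let S := LinearMap.range s
  have h1 : LinearMap.range
      ((LinearMap.range u ⊔ Submodule.span A (Set.range x)).subtype.rTensor V) ≤ P ⊔ S := by
    rintro _ ⟨z, rfl⟩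
    induction z using TensorProduct.induction_on with
    | zero => rw [map_zero]; exact Submodule.zero_mem _
    | add a b ha hb => rw [map_add]; exact Submodule.add_mem _ ha hb
    | tmul y v =>
      rw [LinearMap.rTensor_tmul]
      obtain ⟨y, hy⟩ := y
      obtain ⟨a, ⟨a, rfl⟩, b, hb, rfl⟩ := Submodule.mem_sup.mp hy
      rw [Submodule.mem_span_range_iff_exists_fun] at hb
      obtain ⟨c, rfl⟩ := hb
      change (u a + ∑ i, c i • x i) ⊗ₜ[A] v ∈ _
      rw [TensorProduct.add_tmul]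
      refine Submodule.add_mem_sup ⟨a ⊗ₜ v, by rw [LinearMap.rTensor_tmul]⟩
        ⟨fun i => c i • v, ?_⟩
      rw [hs, TensorProduct.sum_tmul]
      refine Finset.sum_congr rfl fun i _ => ?_
      rw [TensorProduct.tmul_smul, TensorProduct.smul_tmul']
  have hj : ∀ j, LinearMap.range (LinearMap.lsmul A V σ) ≤
      LinearMap.ker (P.mkQ ∘ₗ TensorProduct.mk A T V (x j)) := by
    rintro j _ ⟨v, rfl⟩
    rw [LinearMap.mem_ker, LinearMap.comp_apply, TensorProduct.mk_apply, LinearMap.lsmul_apply,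
      TensorProduct.tmul_smul, TensorProduct.smul_tmul', ← huw, Submodule.mkQ_apply,
      Submodule.Quotient.mk_eq_zero]
    exact ⟨w (x j) ⊗ₜ v, by rw [LinearMap.rTensor_tmul]⟩
  let h : (Fin r → QS σ V) →ₗ[A] (T ⊗[A] V) ⧸ P :=
    LinearMap.lsum A (fun _ => QS σ V) A (fun j => Submodule.liftQ _ _ (hj j))
  have hh : ∀ v : Fin r → V, h (fun j => Submodule.Quotient.mk (v j)) = P.mkQ (s v) := by
    intro v
    change (LinearMap.lsum A (fun _ => QS σ V) A (fun j => Submodule.liftQ _ _ (hj j)))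
      (fun j => Submodule.Quotient.mk (v j)) = _
    rw [LinearMap.lsum_apply, LinearMap.sum_apply, hs, map_sum]
    rfl
  let g : (P ⊔ S : Submodule A (T ⊗[A] V)) →ₗ[A] (T ⊗[A] V) ⧸ P := P.mkQ ∘ₗ (P ⊔ S).subtype
  have h2 := Λ.L_ker_add_range g
  have h3 : Λ.L (LinearMap.ker g) ≤ n * Λ.L V := by
    rw [← L_free Λ n V]
    refine le_trans ?_ (Λ.L_le_of_surjective (u.rTensor V).rangeRestrict
      (LinearMap.surjective_rangeRestrict _))
    refine Λ.L_le_of_injective (((P ⊔ S).subtype.domRestrict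
      (LinearMap.ker g)).codRestrict P ?_) ?_
    · rintro ⟨y, hy⟩
      rw [LinearMap.mem_ker] at hy
      change P.mkQ (y : T ⊗[A] V) = 0 at hy
      rw [Submodule.mkQ_apply, Submodule.Quotient.mk_eq_zero] at hy
      exact hy
    · intro y z hyz
      have := congrArg Subtype.val hyz
      exact Subtype.ext (Subtype.ext this)
  have h4 : Λ.L (LinearMap.range g) ≤ r * Λ.L (QS σ V) := by
    have h5 : LinearMap.range g ≤ LinearMap.range h := by
      rintro _ ⟨⟨y, hy⟩, rfl⟩
      obtain ⟨a, ha, b, ⟨v, rfl⟩, rfl⟩ := Submodule.mem_sup.mp hy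
      refine ⟨fun j => Submodule.Quotient.mk (v j), ?_⟩
      rw [hh]
      change _ = P.mkQ (a + s v)
      have h6 : P.mkQ a = 0 := (Submodule.Quotient.mk_eq_zero P).mpr ha
      rw [map_add, h6, zero_add]
    refine (L_mono Λ h5).trans ((Λ.L_le_of_surjective _
      (LinearMap.surjective_rangeRestrict h)).trans (le_of_eq ?_))
    rw [Λ.L_finset_pi]
  refine (L_mono Λ h1).trans ?_
  rw [h2]
  exact add_le_add h3 h4

/-- lower bound for `phi` -/
theorem phi_lower {n : ℕ} (u : (Fin n → A) →ₗ[A] T) (w : T →ₗ[A] (Fin n → A)) (σ : A)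
    (hwu : ∀ x, w (u x) = σ • x) (V : Type u) [AddCommGroup V]
    [Module A V] (hV : Λ.L V ≠ ⊤) :
    n * Λ.L V ≤ n * Λ.L (QS σ V) + Λ.L (T ⊗[A] V) := by
  have h1 := Λ.L_ker_add_range (u.rTensor V)
  rw [L_free] at h1
  rw [h1]
  refine add_le_add ?_ (Λ.L_submodule_le _)
  rw [← L_KS Λ σ V hV, ← Λ.L_finset_pi]
  have hcomp : ∀ z : (Fin n → A) ⊗[A] V, w.rTensor V (u.rTensor V z) = σ • z := by
    intro z
    rw [← LinearMap.comp_apply, ← LinearMap.rTensor_comp]
    have : w ∘ₗ u = σ • LinearMap.id := LinearMap.ext fun y => hwu y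
    rw [this, LinearMap.rTensor_smul, LinearMap.rTensor_id]
    rfl
  refine Λ.L_le_of_injective (LinearMap.pi fun j =>
    (((LinearMap.proj j ∘ₗ (freeE n V).toLinearMap).domRestrict
      (LinearMap.ker (u.rTensor V))).codRestrict (LinearMap.ker (LinearMap.lsmul A V σ)) ?_)) ?_
  · rintro ⟨z, hz⟩
    rw [LinearMap.mem_ker] at hz
    have h2 : σ • z = 0 := by rw [← hcomp, hz, map_zero]
    rw [LinearMap.mem_ker, LinearMap.lsmul_apply]
    change σ • ((freeE n V) z) j = 0
    rw [← Pi.smul_apply, ← map_smul, h2, map_zero, Pi.zero_apply]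
  · intro y z hyz
    apply Subtype.ext
    apply (freeE n V).injective
    funext j
    exact congrArg Subtype.val (congrFun hyz j)

end RK

section Main

variable {d : ℕ} (p : ℕ) {B : Type u} [CommRing B] [IsNoetherianRing B] [IsLocalRing B]
variable (t : Fin d → B) (hp : 0 < p)
variable {A : Type u} [CommRing A] [Algebra (BInf p t) A] [Algebra B A]
  [IsScalarTower B (BInf p t) A]
variable (hc : Om.IsCompl (p : BInf p t) (algebraMap (BInf p t) A)) {i0 : Fin d}
  (hP : Par p t i0)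

theorem tors_one {A : Type u} [CommRing A] {κ : Type*} (t : κ → A) :
    Tors t (A ⧸ Ideal.span (Set.range t)) := by
  intro x i
  obtain ⟨x, rfl⟩ := Ideal.Quotient.mk_surjective x
  refine ⟨1, ?_⟩
  have h2 : (t i ^ 1) • (Ideal.Quotient.mk (Ideal.span (Set.range t)) x) =
      Ideal.Quotient.mk _ (t i ^ 1 * x) := rfl
  rw [h2, Ideal.Quotient.eq_zero_iff_mem, pow_one]
  exact Ideal.mul_mem_right _ _ (Ideal.subset_span ⟨i, rfl⟩)

include hc hP

/-- **(RK)**, growth form -/
theorem rk_growth {T : Type u} [AddCommGroup T] [Module A T] {n : ℕ} (u : (Fin n → A) →ₗ[A] T)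
    (w : T →ₗ[A] (Fin n → A)) (σ : A) (hwu : ∀ x, w (u x) = σ • x)
    (huw : ∀ x, u (w x) = σ • x) (C : ℝ≥0∞) (hC : C ≠ ⊤)
    (hσ : ∀ N : ℕ, 0 < N →
      (LA p t hp A).L (QS σ (QN (tA p t A) N)) * N ≤ C * (N : ℝ≥0∞) ^ d)
    (h0 : Tor0 (LA p t hp A) (tA p t A) T) (V : Type u) [AddCommGroup V] [Module A V]
    (hV : Tors (tA p t A) V) : (LA p t hp A).L (T ⊗[A] V) = n * (LA p t hp A).L V := by
  classical
  -- step (b)
  have hb : (LA p t hp A).L (T ⊗[A] (A ⧸ Ideal.span (Set.range (tA p t A)))) ≤ n := by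
    refine (contOn_LA p t hp (A := A) _ (tors_tensor T (tors_one (tA p t A)))).trans
      (iSup_le fun F => ?_)
    obtain ⟨N', hN', hF⟩ := TensorProduct.exists_finite_submodule_left_of_setFinite
      (F : Set (T ⊗[A] (A ⧸ Ideal.span (Set.range (tA p t A))))) F.finite_toSet
    rw [Module.Finite.iff_fg, Submodule.fg_iff_exists_fin_generating_family] at hN'
    obtain ⟨r, x, rfl⟩ := hN'
    let T₀ := LinearMap.range u ⊔ Submodule.span A (Set.range x)
    have h1 : (LA p t hp A).L (Submodule.span A (F : Set (T ⊗[A] (A ⧸ Ideal.span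
        (Set.range (tA p t A)))))) ≤ (psi (LA p t hp A) h0 T₀).L
          (A ⧸ Ideal.span (Set.range (tA p t A))) := by
      rw [psi_L _ h0 T₀ (tors_one (tA p t A))]
      refine L_mono _ ?_
      rw [Submodule.span_le]
      refine hF.trans ?_
      rintro _ ⟨z, rfl⟩
      refine ⟨(Submodule.inclusion (le_sup_right :
        Submodule.span A (Set.range x) ≤ T₀)).rTensor _ z, ?_⟩
      rw [← LinearMap.comp_apply, ← LinearMap.rTensor_comp]
      rfl
    refine h1.trans ?_
    have hrC : (r : ℝ≥0∞) * C ≠ ⊤ := ENNReal.mul_ne_top (ENNReal.natCast_ne_top _) hC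
    refine le_of_growth hrC d fun N hN => ?_
    have h2 := SupLen.QN_le p t hc hP (psi (LA p t hp A) h0 T₀) N
    rw [psi_L _ h0 T₀ (tors_QN (tA p t A) N)] at h2
    have h3 := psi_bound (LA p t hp A) u w σ huw x (QN (tA p t A) N)
    rw [LA_QN p t hp hc hP] at h3
    have h4 := h2.trans h3
    have h5 := hσ N hN
    calc _ = (N : ℝ≥0∞) ^ d * (psi (LA p t hp A) h0 T₀).L
          (A ⧸ Ideal.span (Set.range (tA p t A))) * N := by ring
      _ ≤ (n * (N : ℝ≥0∞) ^ d + r * (LA p t hp A).L (QS σ (QN (tA p t A) N))) * N :=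
          mul_le_mul_left h4 _
      _ = n * (N : ℝ≥0∞) ^ d * N + r * ((LA p t hp A).L (QS σ (QN (tA p t A) N)) * N) := by ring
      _ ≤ n * (N : ℝ≥0∞) ^ d * N + r * (C * (N : ℝ≥0∞) ^ d) :=
          add_le_add le_rfl (mul_le_mul_right h5 _)
      _ = n * (N : ℝ≥0∞) ^ d * N + r * C * (N : ℝ≥0∞) ^ d := by ring
  -- step (a)
  have hρ := phi_L (LA p t hp A) h0 (tors_one (tA p t A))
  set ρ := (LA p t hp A).L (T ⊗[A] (A ⧸ Ideal.span (Set.range (tA p t A)))) with hρdef
  have hρt : (phi (LA p t hp A) h0).L (A ⧸ Ideal.span (Set.range (tA p t A))) ≠ ⊤ := by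
    rw [hρ]; exact ne_top_of_le_ne_top (ENNReal.natCast_ne_top _) hb
  have ha : ∀ (V : Type u) [AddCommGroup V] [Module A V], Tors (tA p t A) V →
      (LA p t hp A).L (T ⊗[A] V) = ρ * (LA p t hp A).L V := by
    intro V _ _ hV
    have := eq_of_cont p t hp hc hP (phi (LA p t hp A) h0)
      (phi_cont (LA p t hp A) h0 (contOn_LA p t hp)) hρt V hV
    rwa [phi_L _ h0 hV, hρ] at this
  -- step (c)
  have hcc : (n : ℝ≥0∞) ≤ ρ := by
    have hnC : (n : ℝ≥0∞) * C ≠ ⊤ := ENNReal.mul_ne_top (ENNReal.natCast_ne_top _) hC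
    refine le_of_growth hnC d fun N hN => ?_
    have hfin : (LA p t hp A).L (QN (tA p t A) N) ≠ ⊤ := by
      rw [LA_QN p t hp hc hP]
      exact ENNReal.pow_ne_top (ENNReal.natCast_ne_top _)
    have h1 := phi_lower (LA p t hp A) u w σ hwu (QN (tA p t A) N) hfin
    rw [ha _ (tors_QN (tA p t A) N), LA_QN p t hp hc hP] at h1
    have h5 := hσ N hN
    calc (n : ℝ≥0∞) * (N : ℝ≥0∞) ^ d * N
        ≤ (n * (LA p t hp A).L (QS σ (QN (tA p t A) N)) + ρ * (N : ℝ≥0∞) ^ d) * N :=
          mul_le_mul_left h1 _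
      _ = ρ * (N : ℝ≥0∞) ^ d * N + n * ((LA p t hp A).L (QS σ (QN (tA p t A) N)) * N) := by ring
      _ ≤ ρ * (N : ℝ≥0∞) ^ d * N + n * (C * (N : ℝ≥0∞) ^ d) :=
          add_le_add le_rfl (mul_le_mul_right h5 _)
      _ = ρ * (N : ℝ≥0∞) ^ d * N + n * C * (N : ℝ≥0∞) ^ d := by ring
  rw [ha V hV, le_antisymm hb hcc]

end Main

end Crest.Agent.R188.Trk
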