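/-
R188 (Serre positivity), block Tring, part 9: (FL) `λ(T_L ⊗_A V) = [L : F] λ(V)` for the integral
closures `T_L`, from the rank lemma (helper645, Trk5), Tor0 (helper814, TowNul2) and the almost
splitting (Tring7), rank data (Tring8).  Author: helper270
-/
import Crest.Agent.R188.Tring8
import Crest.Agent.R188.Trk5
import Crest.Agent.R188.TowNul2

set_option autoImplicit false
set_option linter.unusedSectionVars false

open TensorProduct Polynomial
open scoped ENNReal

namespace Crest.Agent.R188.Tring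

open Crest.Agent.R183 Crest.Agent.R183.BInf Crest.Agent.R183.Om Crest.Agent.R188.Tow
  Crest.Agent.R188.TowN Crest.Agent.R188.Trk Crest.Agent.R188.TowI

variable {p : ℕ} [hpr : Fact p.Prime]

/-- the multiplier `μ_e` of an almost splitting -/
noncomputable def AlmSplit.mu {A T : Type} [CommRing A] [CommRing T] [Algebra A T]
    {ϖ : ℕ → A} {H : Set (T →ₐ[A] T)} (M : AlmSplit p A T ϖ H) (e : ℕ) : M.Ω :=
  algebraMap A M.Ω (ϖ e) * M.δ e

theorem AlmSplit.flat {A T : Type} [CommRing A] [CommRing T] [Algebra A T]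
    {ϖ : ℕ → A} {H : Set (T →ₐ[A] T)} (M : AlmSplit p A T ϖ H) (n : ℕ) :
    Om.FlatQ A (B := M.Ω) (Ideal.span {(p : A) ^ n}) := Env.flatQ_of_good M.good n

theorem AlmSplit.facN {A T : Type} [CommRing A] [CommRing T] [Algebra A T]
    {ϖ : ℕ → A} {H : Set (T →ₐ[A] T)} (M : AlmSplit p A T ϖ H) : Fac (p : A) M.mu T := M.fac

/-- **(TOR0)** for the ring of an almost splitting -/
theorem AlmSplit.tor0 {A T : Type} [CommRing A] [CommRing T] [Algebra A T]
    {ϖ : ℕ → A} {H : Set (T →ₐ[A] T)} (M : AlmSplit p A T ϖ H) {Λ : AddLen.{0, 0} A} {κ : Type}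
    {s : κ → A} (i0 : κ) (hs : s i0 = p) (hc : ContOn Λ s) (F : FactN Λ s M.mu) :
    Trk.Tor0 Λ s T := by
  intro V' V _ _ _ _ f hf hV
  exact ker_lTensor_null F hc i0 (fun n => by rw [hs]; exact M.flat n) (by rw [hs]; exact M.facN)
    f hf hV

section FL

variable {d : ℕ} {B : Type} [CommRing B] [IsNoetherianRing B] [IsLocalRing B]
variable (t : Fin d → B) (hp : 0 < p)
variable {A : Type} [CommRing A] [Algebra (BInf p t) A] [Algebra B A]
  [IsScalarTower B (BInf p t) A]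

/-- the growth hypothesis of the rank lemma for `σ = p^k D` -/
def Grow (p : ℕ) {d : ℕ} {B : Type} [CommRing B] [IsNoetherianRing B] [IsLocalRing B]
    (t : Fin d → B) (hp : 0 < p) (A : Type) [CommRing A] [Algebra (BInf p t) A] [Algebra B A]
    [IsScalarTower B (BInf p t) A] : Prop :=
  ∀ (k : ℕ) (D : A), RegMod D (p : A) → ∃ C : ℝ≥0∞, C ≠ ⊤ ∧ ∀ N : ℕ, 0 < N →
    (LA p t hp A).L (QS ((p : A) ^ k * D) (QN (tA p t A) N)) * N ≤ C * (N : ℝ≥0∞) ^ d

/-- **(FL)** -/
theorem hypFL [IsDomain A] [IsIntegrallyClosed A] {F K : Type} [Field F] [Field K] [Algebra A F]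
    [IsFractionRing A F] [Algebra F K] [Algebra A K] [IsScalarTower A F K]
    (hc : Om.IsCompl (p : BInf p t) (algebraMap (BInf p t) A)) {i0 : Fin d}
    (hP : Par p t i0) {ϖ : ℕ → A} (M₀ : Env.Model p A ϖ) (hCIC : Cic.CIC A)
    (hfac : ∀ a : A, a ≠ 0 → ∃ (c : A) (k : ℕ) (D : A), a * c = (p : A) ^ k * D ∧
      RegMod D (p : A))
    (hgrow : Grow p t hp A)
    (hfact : ∀ (T : Type) [CommRing T] [Algebra A T] (H : Set (T →ₐ[A] T))
      (M : AlmSplit p A T ϖ H), FactN (LA p t hp A) (tA p t A) M.mu) :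
    HypFL A F K (tA p t A) (LA p t hp A) := by
  intro L V _ _ hV
  obtain ⟨u, w, k, D, hD, h1, h2⟩ := exists_rank_data (p := p) (A := A) (F := F) (L := L) hfac
  obtain ⟨C, hC, hσ⟩ := hgrow k D hD
  obtain ⟨M⟩ := nonempty_almSplit (F := F) (L := L) M₀ hCIC hfac
  have hs : tA p t A i0 = (p : A) := by
    rw [tA, hP.eq, map_natCast, map_natCast]
  exact rk_growth p t hp hc hP u w _ h1 h2 C hC hσ
    (M.tor0 i0 hs (contOn_LA p t hp) (hfact _ _ M)) V hV

end FL

end Crest.Agent.R188.Tring
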