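/-
R188 (Serre positivity), block TowNul4: (DEC) and (KOS0) for the integral closures `T_L`.
Author: helper814.
-/
import Crest.Agent.R188.Tring9
import Crest.Agent.R188.TowNul3
import Crest.Agent.R188.PerfB8

set_option autoImplicit false
set_option linter.unusedSectionVars false

namespace Crest.Agent.R188.TowN

open scoped ENNReal TensorProduct Pointwise
open Crest.Agent.R183 Crest.Agent.R183.BInf Crest.Agent.R183.Om Crest.Agent.R188.Tow
  Crest.Agent.R188.TowI Crest.Agent.R188.Tring Crest.Agent.R188.Trk Crest.Agent.R188.KosG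
open RingTheory.Sequence

section

variable {p : ℕ} [hpr : Fact p.Prime]
variable {d : ℕ} {B : Type} [CommRing B] [IsNoetherianRing B] [IsLocalRing B]
variable (t : Fin d → B) (hp : 0 < p)
variable {A : Type} [CommRing A] [Algebra (BInf p t) A] [Algebra B A]
  [IsScalarTower B (BInf p t) A]

theorem tA_i0 {i0 : Fin d} (hP : Par p t i0) : tA p t A i0 = (p : A) := by
  rw [tA, hP.eq, map_natCast, map_natCast]

/-- **(DEC)** for the integral closures `T_L` -/
theorem hypDEC [IsDomain A] [IsIntegrallyClosed A] {F K : Type} [Field F] [Field K] [Algebra A F]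
    [IsFractionRing A F] [Algebra F K] [Algebra A K] [IsScalarTower A F K]
    {i0 : Fin d} (hP : Par p t i0) {ϖ : ℕ → A} (M₀ : Env.Model p A ϖ) (hCIC : Cic.CIC A)
    (hfac : ∀ a : A, a ≠ 0 → ∃ (c : A) (k : ℕ) (D : A), a * c = (p : A) ^ k * D ∧
      RegMod D (p : A))
    (hfact : ∀ (T : Type) [CommRing T] [Algebra A T] (H : Set (T →ₐ[A] T))
      (M : AlmSplit p A T ϖ H), FactN (LA p t hp A) (tA p t A) M.mu) :
    HypDEC A F K (tA p t A) (LA p t hp A) := by
  intro L V _ _ _ _ hV
  obtain ⟨M⟩ := nonempty_almSplit (F := F) (L := L) M₀ hCIC hfac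
  have hs : tA p t A i0 = (p : A) := tA_i0 t hP
  refine dec_null (hfact _ _ M) (contOn_LA p t hp) i0 (fun n => by rw [hs]; exact M.flat n)
    (H := galH A F L) (by rw [hs]; exact M.sep) ?_ hV
  intro g g0 hg
  refine ⟨((g0⁻¹ * g).restrictScalars A).mapIntegralClosure, ⟨g0⁻¹ * g, fun h => hg ?_, rfl⟩, ?_⟩
  · exact (inv_mul_eq_one.1 h).symm
  · refine AlgHom.ext fun x => Subtype.ext ?_
    change (g (x : L) : L) = g0 ((g0⁻¹ * g) (x : L))
    rw [AlgEquiv.mul_apply]
    exact (g0.apply_symm_apply _).symm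

variable (hc : Om.IsCompl (p : BInf p t) (algebraMap (BInf p t) A))
include hc

/-- the images of a weakly regular sequence `p, l` of `B` in `A / p` -/
theorem regular_quot (l : List B) (hreg : IsWeaklyRegular B ((p : B) :: l)) :
    IsWeaklyRegular (A ⧸ Ideal.span {(p : A)}) (l.map (algebraMap B A)) := by
  have h1 : IsWeaklyRegular (BInf p t) (((p : B) :: l).map (algebraMap B (BInf p t))) :=
    hreg.of_flat
  rw [List.map_cons, map_natCast, isWeaklyRegular_cons_iff] at h1
  have h2 := h1.2
  -- `BInf / p ≅ A / p`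
  let f : BInf p t →ₗ[BInf p t] (A ⧸ Ideal.span {(p : A)}) :=
    Algebra.linearMap (BInf p t) (A ⧸ Ideal.span {(p : A)})
  have hf : ∀ x, f x = Ideal.Quotient.mk _ (algebraMap (BInf p t) A x) := by
    intro x
    exact IsScalarTower.algebraMap_apply (BInf p t) A (A ⧸ Ideal.span {(p : A)}) x
  have hp0 : algebraMap (BInf p t) A (p : BInf p t) = (p : A) := map_natCast _ _
  have hs : Function.Surjective f := by
    intro y
    obtain ⟨a, rfl⟩ := Ideal.Quotient.mk_surjective y
    obtain ⟨b, hb⟩ := hc.dense 1 a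
    refine ⟨b, ?_⟩
    rw [hf, Ideal.Quotient.eq, Ideal.mem_span_singleton, ← dvd_neg, neg_sub, ← hp0]
    rwa [pow_one] at hb
  have hk : (p : BInf p t) • (⊤ : Submodule (BInf p t) (BInf p t)) = LinearMap.ker f := by
    ext x
    rw [LinearMap.mem_ker, hf, Ideal.Quotient.eq_zero_iff_mem, Ideal.mem_span_singleton]
    constructor
    · intro hx
      obtain ⟨y, -, rfl⟩ := (Submodule.mem_smul_pointwise_iff_exists _ _ _).1 hx
      rw [smul_eq_mul, map_mul, hp0]
      exact dvd_mul_right _ _
    · intro hx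
      have h3 := hc.sat 1 x (by rw [pow_one, hp0]; exact hx)
      rw [pow_one] at h3
      obtain ⟨y, rfl⟩ := h3
      exact Submodule.smul_mem_pointwise_smul _ _ _ trivial
  let e : QuotSMulTop (p : BInf p t) (BInf p t) ≃ₗ[BInf p t] (A ⧸ Ideal.span {(p : A)}) :=
    (Submodule.quotEquivOfEq _ _ hk).trans (f.quotKerEquivOfSurjective hs)
  have h4 : IsWeaklyRegular (A ⧸ Ideal.span {(p : A)}) (l.map (algebraMap B (BInf p t))) :=
    (e.isWeaklyRegular_congr _).1 h2
  have h5 := (isWeaklyRegular_map_algebraMap_iff (M := A ⧸ Ideal.span {(p : A)})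
    (R := BInf p t) (S := A) (l.map (algebraMap B (BInf p t)))).2 h4
  rw [List.map_map] at h5
  have h6 : (algebraMap (BInf p t) A : BInf p t → A) ∘ (algebraMap B (BInf p t)) =
      algebraMap B A := by
    funext b
    exact (IsScalarTower.algebraMap_apply B (BInf p t) A b).symm
  rwa [h6] at h5

end

section zero

variable {p : ℕ} [hpr : Fact p.Prime]
variable {n : ℕ} {B : Type} [CommRing B] [IsNoetherianRing B] [IsLocalRing B]
variable (t : Fin (n + 1) → B) (hp : 0 < p)
variable {A : Type} [CommRing A] [Algebra (BInf p t) A] [Algebra B A]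
  [IsScalarTower B (BInf p t) A]
variable (hc : Om.IsCompl (p : BInf p t) (algebraMap (BInf p t) A))
include hc

/-- **(KOS0)** for the ring of an almost splitting -/
theorem kos0_almSplit (hP : Par p t 0) (hreg : IsWeaklyRegular B (List.ofFn t))
    {T : Type} [CommRing T] [Algebra A T] (hT : ∀ x : T, (p : T) * x = 0 → x = 0)
    {ϖ : ℕ → A} {H : Set (T →ₐ[A] T)} (M : AlmSplit p A T ϖ H)
    (hfact : FactN (LA p t hp A) (tA p t A) M.mu) (i : ℤ) (hi : 1 ≤ i) :
    kh (LA p t hp A) (List.ofFn (tA p t A)) T i = 0 := by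
  have hs : tA p t A 0 = (p : A) := tA_i0 t hP
  rw [List.ofFn_succ] at hreg ⊢
  refine kos0 hfact (contOn_LA p t hp) 0 (fun n => by rw [hs]; exact M.flat n)
    (by rw [hs]; exact M.facN) ?_ (List.ofFn fun j : Fin n => tA p t A j.succ) ?_ ?_ i hi
  · intro x hx
    rw [hs, Algebra.smul_def, map_natCast] at hx
    exact hT x hx
  · intro k
    refine Fin.cases (Or.inl rfl) (fun j => Or.inr ?_) k
    exact (List.mem_ofFn' _ _).2 ⟨j, rfl⟩
  · rw [hs]
    rw [hP.eq] at hreg
    have h1 := regular_quot t hc _ hreg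
    rw [List.map_ofFn] at h1
    have h2 : (algebraMap B A : B → A) ∘ (fun j : Fin n => t j.succ) =
        fun j : Fin n => tA p t A j.succ := by
      funext j
      exact (IsScalarTower.algebraMap_apply B (BInf p t) A _)
    rwa [h2] at h1

/-- **(KOS0)** for the levels of the Galois tower -/
theorem kos0_SL [IsDomain A] [IsIntegrallyClosed A] {F K : Type} [Field F] [Field K] [Algebra A F]
    [IsFractionRing A F] [Algebra F K] [Algebra A K] [IsScalarTower A F K]
    (hP : Par p t 0) (hreg : IsWeaklyRegular B (List.ofFn t)) {ϖ : ℕ → A}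
    (M₀ : Env.Model p A ϖ) (hCIC : Cic.CIC A)
    (hfac : ∀ a : A, a ≠ 0 → ∃ (c : A) (k : ℕ) (D : A), a * c = (p : A) ^ k * D ∧
      RegMod D (p : A))
    (hfact : ∀ (T : Type) [CommRing T] [Algebra A T] (H : Set (T →ₐ[A] T))
      (M : AlmSplit p A T ϖ H), FactN (LA p t hp A) (tA p t A) M.mu)
    (L : FiniteGaloisIntermediateField F K) (i : ℤ) (hi : 1 ≤ i) :
    kh (LA p t hp A) (List.ofFn (tA p t A)) (SL A F K L) i = 0 := by
  obtain ⟨M⟩ := nonempty_almSplit (F := F) (L := L) M₀ hCIC hfac
  have hp0 : (p : A) ≠ 0 := by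
    intro h
    have := M₀.props.2.1 1 (by rw [h, zero_mul])
    exact one_ne_zero this
  have hinjL : Function.Injective (algebraMap A L) := by
    rw [IsScalarTower.algebraMap_eq A F L]
    exact (algebraMap F L).injective.comp (IsFractionRing.injective A F)
  have hpL : (p : integralClosure A L) ≠ 0 := by
    intro h
    apply hp0
    apply hinjL
    rw [map_natCast, map_zero]
    have := congrArg (algebraMap (integralClosure A L) L) h
    rwa [map_natCast, map_zero] at this
  have h1 := kos0_almSplit t hp hc hP hreg (T := integralClosure A L)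
    (fun x hx => (mul_eq_zero.1 hx).resolve_left hpL) M (hfact _ _ M) i hi
  rw [← h1]
  exact PerfB.kh_congr (LA p t hp A) (eL (L : IntermediateField F K)).symm.toLinearEquiv _ i

end zero

section Witt

open IsLocalRing

variable (n p : ℕ) [hp : Fact p.Prime] (K : Type) [Field K] [CharP K p] [PerfectRing K p]

/-- `(p, X_1, …, X_n)` is weakly regular on `W(K)[[X]]` -/
theorem isWeaklyRegular_tb :
    IsWeaklyRegular (MvPowerSeries (Fin n) (WittVector p K)) (List.ofFn (tb n p (WittVector p K))) := by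
  have hregW : IsRegularLocalRing (WittVector p K) :=
    (Cohen.isCohen_witt p K).isRegularLocalRing
  refine PerfB.isWeaklyRegular_of_ofList ?_ ?_
  · have h1 : ringKrullDim (WittVector p K) = 1 :=
      IsDiscreteValuationRing.ringKrullDim_eq_one _
    rw [List.length_ofFn, Cohen.ringKrullDim_mvPowerSeries, h1, add_comm]
    rfl
  · rw [maximalIdeal_tb, Ideal.ofList]
    congr 1
    ext x
    simp only [List.mem_ofFn, Set.mem_range, Set.mem_ofPred_eq]

end Witt

end Crest.Agent.R188.TowN
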