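import Crest.Agent.R188.Trk7
import Crest.Agent.R188.TowNul1
import Crest.Agent.R188.TringD

/-!
# R188 (helper645), block Trk, part 8: (FACT).
-/

set_option autoImplicit false
set_option linter.dupNamespace false
set_option linter.unusedSectionVars false

namespace Crest.Agent.R188.Trk

open scoped ENNReal TensorProduct
open Crest.Agent.R183 Crest.Agent.R183.BInf Crest.Agent.R188.Tow IsLocalRing

universe u v w

theorem dvd_sub_pow_sub {R : Type*} [CommRing R] {p : ℕ} [hp : Fact p.Prime] (x y : R) (m : ℕ) :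
    (p : R) ∣ (x - y) ^ p ^ m - (x ^ p ^ m - y ^ p ^ m) := by
  rw [← Ideal.mem_span_singleton, ← Ideal.Quotient.eq_zero_iff_mem]
  by_cases hu : IsUnit (p : R)
  · rw [Ideal.Quotient.eq_zero_iff_mem, Ideal.span_singleton_eq_top.2 hu]; trivial
  · have : Nontrivial (R ⧸ Ideal.span {(p : R)}) :=
      Ideal.Quotient.nontrivial_iff.2 (fun h => hu (Ideal.span_singleton_eq_top.1 h))
    have : CharP (R ⧸ Ideal.span {(p : R)}) p := by
      refine (CharP.charP_iff_prime_eq_zero hp.out).2 ?_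
      rw [← map_natCast (Ideal.Quotient.mk (Ideal.span {(p : R)})),
        Ideal.Quotient.eq_zero_iff_mem]
      exact Ideal.mem_span_singleton_self _
    rw [map_sub, map_sub, map_pow, map_pow, map_pow, map_sub, sub_pow_char_pow, sub_self]

section Flat

variable {A : Type u} [CommRing A] {Ω : Type v} [CommRing Ω] [Algebra A Ω]

/-- colon ideals and flatness modulo `a^N` -/
theorem colon_mem (a : A) (N : ℕ) (hfl : Om.FlatQ A (B := Ω) (Ideal.span {a ^ N}))
    (I I'' : Ideal A) (ha : a ^ N ∈ I) (x : A) (h1 : ∀ y ∈ I'', x * y ∈ I)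
    (h2 : ∀ y, x * y ∈ I → y ∈ I'') (ω : Ω)
    (hω : algebraMap A Ω x * ω ∈ I.map (algebraMap A Ω)) : ω ∈ I''.map (algebraMap A Ω) := by
  let f : (A ⧸ I'') →ₗ[A] (A ⧸ I) := Submodule.mapQ I'' I (LinearMap.mulLeft A x)
    (fun y hy => h1 y hy)
  have hf : Function.Injective f := by
    rw [injective_iff_map_eq_zero]
    intro y hy
    obtain ⟨y, rfl⟩ := Submodule.mkQ_surjective _ y
    change Submodule.mkQ I (x * y) = 0 at hy
    rw [Submodule.mkQ_apply, Submodule.Quotient.mk_eq_zero] at hy ⊢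
    exact h2 y hy
  have h3 := TowN.lTensor_inj (Ω := Ω) (Ideal.span {a ^ N}) hfl f hf (by
    intro b hb v
    obtain ⟨c, rfl⟩ := Ideal.mem_span_singleton'.1 hb
    obtain ⟨v, rfl⟩ := Submodule.mkQ_surjective _ v
    rw [← map_smul, Submodule.mkQ_apply, Submodule.Quotient.mk_eq_zero, smul_eq_mul]
    exact I.mul_mem_right _ (I.mul_mem_left _ ha))
  have key : ∀ (J : Ideal A) (z : Ω), z ∈ J.map (algebraMap A Ω) ↔
      z ⊗ₜ[A] (Submodule.mkQ J (1 : A)) = 0 := by
    intro J z
    let e' := Algebra.TensorProduct.quotIdealMapEquivTensorQuot Ω J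
    have h4 : e' (algebraMap Ω _ z) = algebraMap Ω _ z := e'.commutes z
    rw [Algebra.TensorProduct.algebraMap_apply] at h4
    change e' (Ideal.Quotient.mk _ z) = z ⊗ₜ[A] (Submodule.mkQ J (1 : A)) at h4
    rw [← h4, map_eq_zero_iff _ e'.injective, Ideal.Quotient.eq_zero_iff_mem]
  rw [key]
  rw [key] at hω
  apply h3
  rw [map_zero, LinearMap.lTensor_tmul, ← hω]
  have h5 : f (Submodule.mkQ I'' 1) = x • Submodule.mkQ I (1 : A) := by
    change Submodule.mkQ I (x * 1) = _
    rw [← map_smul, smul_eq_mul]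
  rw [h5, TensorProduct.tmul_smul, TensorProduct.smul_tmul', Algebra.smul_def]

/-- contraction of ideals along a good cover -/
theorem mem_of_map_mem {p : ℕ} (h : W.Good (p : A) (algebraMap A Ω)) (N : ℕ) (J : Ideal A)
    (hJ : (p : A) ^ N ∈ J) (y : A) (hy : algebraMap A Ω y ∈ J.map (algebraMap A Ω)) : y ∈ J := by
  have hff := Env.faithfullyFlat_of_good h N
  set I0 : Ideal A := Ideal.span {(p : A) ^ N} with hI0
  let R := A ⧸ I0
  let S := Ω ⧸ I0.map (algebraMap A Ω)
  let Jb : Ideal R := J.map (Ideal.Quotient.mk I0)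
  have h1 : (Jb.map (algebraMap R S)).comap (algebraMap R S) = Jb :=
    Ideal.comap_map_eq_self_of_faithfullyFlat Jb
  have h2 : Ideal.Quotient.mk I0 y ∈ Jb := by
    rw [← h1, Ideal.mem_comap]
    have h3 : algebraMap R S (Ideal.Quotient.mk I0 y) =
      Ideal.Quotient.mk (I0.map (algebraMap A Ω)) (algebraMap A Ω y) := rfl
    rw [h3]
    have h4 : (J.map (algebraMap A Ω)).map (Ideal.Quotient.mk (I0.map (algebraMap A Ω))) ≤
        Jb.map (algebraMap R S) := by
      rw [Ideal.map_map, Ideal.map_le_iff_le_comap]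
      intro z hz
      rw [Ideal.mem_comap]
      exact Ideal.mem_map_of_mem (algebraMap R S) (Ideal.mem_map_of_mem _ hz)
    exact h4 (Ideal.mem_map_of_mem _ hy)
  have h5 : I0 ≤ J := by rw [hI0, Ideal.span_singleton_le_iff_mem]; exact hJ
  have h6 : y ∈ Jb.comap (Ideal.Quotient.mk I0) := h2
  rwa [Ideal.comap_map_of_surjective' _ Ideal.Quotient.mk_surjective, Ideal.mk_ker,
    sup_eq_left.mpr h5] at h6

end Flat

section Fact

variable {n p : ℕ} [hp : Fact p.Prime] {K : Type u} [Field K] [CharP K p] [PerfectRing K p]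

local notation "BX" => MvPowerSeries (Fin n) (WittVector p K)
local notation "tX" => tb n p (WittVector p K)

variable {A : Type u} [CommRing A] [Algebra (BInf p (tb n p (WittVector p K))) A]
  [Algebra (MvPowerSeries (Fin n) (WittVector p K)) A]
  [IsScalarTower (MvPowerSeries (Fin n) (WittVector p K)) (BInf p (tb n p (WittVector p K))) A]
variable (hc : Om.IsCompl (p : BInf p (tb n p (WittVector p K)))
  (algebraMap (BInf p (tb n p (WittVector p K))) A))
variable {ϖ : ℕ → A} (hpd : Om.PData p A ϖ)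
variable {Ω : Type v} [CommRing Ω] [Algebra A Ω]

include hc hpd in
/-- **(FACT)** -/
theorem factN (hpu : ¬ IsUnit (p : A)) (good : W.Good (p : A) (algebraMap A Ω))
    (pdata : Om.PData p Ω (fun e => algebraMap A Ω (ϖ e))) (reg : Om.Reg (p : Ω)) (D : A)
    (regD : Om.RegMod D (p : A)) (δ : ℕ → Ω) (δ_zero : δ 0 = algebraMap A Ω D)
    (δ_succ : ∀ e, δ (e + 1) ^ p = δ e) :
    TowN.FactN (LA p tX hp.out.pos A) (tA p tX A) (fun e => algebraMap A Ω (ϖ e) * δ e) := by
  intro I hI hμ
  choose N' hN' using hI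
  let N := ∑ i, N' i
  have hN : ∀ i, tA p tX A i ^ N ∈ I := by
    intro i
    obtain ⟨c, hcc⟩ := Nat.exists_eq_add_of_le
      (Finset.single_le_sum (f := N') (fun _ _ => Nat.zero_le _) (Finset.mem_univ i))
    change tA p tX A i ^ (∑ i, N' i) ∈ I
    rw [hcc, pow_add]
    exact I.mul_mem_right _ (hN' i)
  have hJI : LenNull.J (tA p tX A) N ≤ I := by
    unfold LenNull.J
    rw [Ideal.span_le]
    rintro _ ⟨i, rfl⟩
    exact hN i
  have hpI : (p : A) ^ N ∈ I := by
    have h1 := hN 0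
    have h2 : tA p tX A 0 = (p : A) := by
      unfold tA
      rw [tb_zero, map_natCast, map_natCast]
    rwa [h2] at h1
  have hδ : ∀ m, δ m ^ p ^ m = algebraMap A Ω D := by
    intro m
    induction m with
    | zero => rw [pow_zero, pow_one, δ_zero]
    | succ m ih => rw [pow_succ', pow_mul, δ_succ, ih]
  have hη : ∀ m, ∃ η : A, (p : A) ∣ η ^ p ^ m - D := by
    intro m
    induction m with
    | zero => exact ⟨D, by rw [pow_zero, pow_one, sub_self]; exact dvd_zero _⟩
    | succ m ih =>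
      obtain ⟨η, hη⟩ := ih
      obtain ⟨y, hy⟩ := hpd.fsurj η
      refine ⟨y, ?_⟩
      have h1 : (p : A) ∣ (y ^ p) ^ p ^ m - η ^ p ^ m :=
        (dvd_sub_comm.mp hy).trans (sub_dvd_pow_sub_pow _ _ _)
      have h2 := dvd_add h1 hη
      rw [← pow_mul, ← pow_succ'] at h2
      convert h2 using 1
      ring
  choose η hη using hη
  rw [← le_zero_iff]
  refine ENNReal.le_of_forall_pos_le_add ?_
  intro ε hε _
  rw [zero_add]
  obtain ⟨m, hm⟩ := small hc hpd hpu D regD η hη 1 N ε (by exact_mod_cast hε)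
  refine le_trans ?_ hm
  rw [Nat.cast_one, one_mul]
  -- the colon ideal
  let I'' : Ideal A := Submodule.comap (LinearMap.mulLeft A (ϖ m)) I
  have hI''1 : ∀ y ∈ I'', ϖ m * y ∈ I := fun y hy => hy
  have hII'' : I ≤ I'' := fun y hy => I.mul_mem_left _ hy
  have h1 : δ m ∈ I''.map (algebraMap A Ω) :=
    colon_mem (p : A) N (Env.flatQ_of_good good N) I I'' hpI (ϖ m) hI''1 (fun y hy => hy) (δ m)
      (hμ m)
  have h2 : algebraMap A Ω (ϖ m) ∣ algebraMap A Ω (η m) - δ m := by
    refine pdata.finj_iter reg m ?_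
    have h3 := dvd_sub_pow_sub (p := p) (algebraMap A Ω (η m)) (δ m) m
    have h4 : (p : Ω) ∣ algebraMap A Ω (η m) ^ p ^ m - δ m ^ p ^ m := by
      rw [hδ, ← map_pow, ← map_sub, ← map_natCast (algebraMap A Ω)]
      exact map_dvd _ (hη m)
    have h5 := dvd_add h3 h4
    rwa [sub_add_cancel] at h5
  have h3 : η m ∈ I'' ⊔ Ideal.span {ϖ m} := by
    refine mem_of_map_mem good N _ (Ideal.mem_sup_left (hII'' hpI)) _ ?_
    obtain ⟨z, hz⟩ := h2
    have h4 : algebraMap A Ω (η m) = δ m + algebraMap A Ω (ϖ m) * z := by rw [← hz]; ring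
    rw [h4, Ideal.map_sup]
    refine Ideal.add_mem _ (Ideal.mem_sup_left h1) (Ideal.mem_sup_right ?_)
    exact Ideal.mul_mem_right _ _ (Ideal.mem_map_of_mem _ (Ideal.mem_span_singleton_self _))
  have h4 := L_colon_le (LA p tX hp.out.pos A) I I'' (ϖ m) hI''1
  have h5 : (LA p tX hp.out.pos A).L (A ⧸ I'') ≤ ((p ^ m * N : ℕ) : ℝ≥0∞) *
      (LA p tX hp.out.pos A).L (A ⧸ (I'' ⊔ Ideal.span {ϖ m})) := by
    refine L_le_pow _ _ _ _ (hII'' ?_)
    rw [pow_mul, hpd.pow_eq_p]
    exact hpI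
  refine h4.trans ?_
  rw [add_comm]
  refine add_le_add (L_quot_anti _ (sup_le_sup_right hJI _)) (h5.trans ?_)
  refine mul_le_mul_right (L_quot_anti _ ?_) _
  refine sup_le (sup_le ((hJI.trans hII'').trans le_sup_left) le_sup_right) ?_
  rw [Ideal.span_singleton_le_iff_mem]
  exact h3

end Fact

section Split

variable {n p : ℕ} [hp : Fact p.Prime] {K : Type} [Field K] [CharP K p] [PerfectRing K p]

local notation "BX" => MvPowerSeries (Fin n) (WittVector p K)
local notation "tX" => tb n p (WittVector p K)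

variable {A : Type} [CommRing A] [Algebra (BInf p (tb n p (WittVector p K))) A]
  [Algebra (MvPowerSeries (Fin n) (WittVector p K)) A]
  [IsScalarTower (MvPowerSeries (Fin n) (WittVector p K)) (BInf p (tb n p (WittVector p K))) A]
variable (hc : Om.IsCompl (p : BInf p (tb n p (WittVector p K)))
  (algebraMap (BInf p (tb n p (WittVector p K))) A))
variable {ϖ : ℕ → A} (hpd : Om.PData p A ϖ)

include hc hpd in
/-- (FACT) for almost splitting data -/
theorem factN_almSplit (hpu : ¬ IsUnit (p : A)) {T : Type} [CommRing T] [Algebra A T]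
    {H : Set (T →ₐ[A] T)} (M : Tring.AlmSplit p A T ϖ H) :
    TowN.FactN (LA p tX hp.out.pos A) (tA p tX A) (fun e => algebraMap A M.Ω (ϖ e) * M.δ e) :=
  factN hc hpd hpu M.good M.pdata M.reg M.D M.regD M.δ M.δ_zero M.δ_succ

end Split

end Crest.Agent.R188.Trk
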