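/-
R188, block (L): `Nonempty (Asm.World p k b)`.   helper200
-/
import Mathlib
import Crest.Agent.R188.LenWorld6
import Crest.Agent.R188.TowNul4
import Crest.Agent.R188.Trk8

set_option autoImplicit false
set_option linter.unusedSectionVars false

namespace Crest.Agent.R188.LenWorld

open WittVector Crest.Agent.R183 Crest.Agent.R188.Prf Crest.Agent.R188.Wit
open Crest.Agent.R188.LenW Crest.Agent.R188.Tow Crest.Agent.R188.KosG Crest.Agent.R188.Apl
open Crest.Agent.R188.Asm (BB BPlus tB SharpPair World LP)
open Crest.Agent.R183.Om (PData Reg RegMod IsCompl)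
open Crest.Agent.R183.BInf
open scoped ENNReal TensorProduct

theorem nonempty_world (p : ℕ) [hp : Fact p.Prime] (k : Type) [Field k] [CharP k p]
    [PerfectRing k p] (b : ℕ) : Nonempty (World p k b) := by
  obtain ⟨A, _, _, _, ϖ, hA⟩ := exists_isBase p k b
  have hdom := hA.dom
  have hnor := hA.normal
  have htow := hA.tower
  obtain ⟨M₀⟩ := hA.model
  have hfac : ∀ a : A, a ≠ 0 → ∃ (c : A) (k : ℕ) (D : A), a * c = (p : A) ^ k * D ∧
      RegMod D (p : A) := by
    intro a ha
    obtain ⟨e, i, m, D, -, hD, hDr⟩ := hA.fac a ha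
    exact ⟨_, _, _, hD, hDr⟩
  have htA : Trk.tA p (tb b p (WittVector p k)) A = tA p k b A := by
    funext i
    exact (IsScalarTower.algebraMap_apply (BB p k b) (BI p k b) A _).symm
  have hfact : ∀ (T : Type) [CommRing T] [Algebra A T] (H : Set (T →ₐ[A] T))
      (M : Tring.AlmSplit p A T ϖ H), TowN.FactN (Trk.LA p (tb b p (WittVector p k)) hp.out.pos A)
        (Trk.tA p (tb b p (WittVector p k)) A) M.mu :=
    fun T _ _ H M => Trk.factN_almSplit hA.compl hA.pdata hA.nonunit M
  have hgrow : Tring.Grow p (tb b p (WittVector p k)) hp.out.pos A := by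
    intro m D hD
    obtain ⟨C, hC⟩ := Trk.growthA_sigma hA.compl hA.nonunit D hD m
    exact ⟨C, ENNReal.natCast_ne_top C, hC⟩
  have hpar := Trk.par_witt b p k
  have hFL := Tring.hypFL (tb b p (WittVector p k)) hp.out.pos (F := FractionRing A)
    (K := AlgebraicClosure (FractionRing A)) hA.compl hpar M₀ hA.cic hfac hgrow hfact
  have hDEC := TowN.hypDEC (tb b p (WittVector p k)) hp.out.pos (F := FractionRing A)
    (K := AlgebraicClosure (FractionRing A)) hpar M₀ hA.cic hfac hfact
  have hsmall := Trk.small hA.compl hA.pdata hA.nonunit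
  rw [htA] at hFL hDEC hsmall
  refine nonempty_world_of_hyp hA (F := FractionRing A)
    (K := AlgebraicClosure (FractionRing A)) hFL hDEC ?_ hsmall
  intro L n hn
  obtain ⟨M⟩ := Tring.nonempty_almSplit (F := FractionRing A) (L := L) M₀ hA.cic hfac
  have h1 := TowN.kos0_almSplit (tb b p (WittVector p k)) hp.out.pos hA.compl hpar
    (TowN.isWeaklyRegular_tb b p k) (T := integralClosure A L) ?_ M (hfact _ _ M) n hn
  · rw [htA] at h1
    exact h1
  · have hcA : CharZero A := IsBase.charZero hA
    have hcF : CharZero (FractionRing A) :=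
      charZero_of_injective_algebraMap (IsFractionRing.injective A (FractionRing A))
    have hcL : CharZero L := charZero_of_injective_algebraMap (algebraMap (FractionRing A) L).injective
    intro x hx
    have hpL : (p : integralClosure A L) ≠ 0 := by
      intro h
      have := congrArg (algebraMap (integralClosure A L) L) h
      rw [map_natCast, map_zero] at this
      exact hp.out.ne_zero (by exact_mod_cast this)
    exact (mul_eq_zero.1 hx).resolve_left hpL

end Crest.Agent.R188.LenWorld
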