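import Mathlib

/-!
# R188 / Lft1 (helper46) : the Dieudonné–Dwork lift

`S` a `p`-torsion free ring with a lift of Frobenius `F` (`p ∣ F s - s ^ p`).  Then there is a
ring homomorphism `dw : S →+* W(S)` with ghost components `(s, F s, F² s, …)`.
-/

set_option autoImplicit false
set_option linter.style.haveILetI false
set_option linter.unusedSectionVars false

namespace Crest.Agent.R188.Lft

open WittVector

universe u

variable {p : ℕ} [hp : Fact p.Prime]

/-- `F` is a lift of Frobenius -/
def IsFrobLift (p : ℕ) {S : Type*} [CommRing S] (F : S →+* S) : Prop :=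
  ∀ s : S, (p : S) ∣ F s - s ^ p

/-- `p`-torsion free -/
def PTf (p : ℕ) (S : Type*) [CommRing S] : Prop := ∀ s : S, (p : S) * s = 0 → s = 0

lemma PTf.pow {S : Type*} [CommRing S] (h : PTf p S) (n : ℕ) {s : S} (hs : (p : S) ^ n * s = 0) :
    s = 0 := by
  induction n with
  | zero => simpa using hs
  | succ n ih =>
    apply ih
    apply h
    rw [← mul_assoc, ← pow_succ', hs]

lemma ghost_eq {S : Type*} [CommRing S] (w : WittVector p S) (n : ℕ) :
    ghostComponent n w = ∑ i ∈ Finset.range (n + 1), (p : S) ^ i * w.coeff i ^ p ^ (n - i) := by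
  rw [ghostComponent_apply, wittPolynomial_eq_sum_C_mul_X_pow, map_sum]
  refine Finset.sum_congr rfl fun i _ => ?_
  simp

/-- ghost components determine a Witt vector over a `p`-torsion free ring -/
theorem ghost_ext {S : Type*} [CommRing S] (h : PTf p S) {u v : WittVector p S}
    (huv : ∀ n, ghostComponent n u = ghostComponent n v) : u = v := by
  ext n
  induction n using Nat.strong_induction_on with
  | _ n ih =>
    have h1 := huv n
    rw [ghost_eq, ghost_eq, Finset.sum_range_succ, Finset.sum_range_succ, Nat.sub_self, pow_zero,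
      pow_one, pow_one] at h1
    have h2 : ∑ i ∈ Finset.range n, (p : S) ^ i * u.coeff i ^ p ^ (n - i) =
        ∑ i ∈ Finset.range n, (p : S) ^ i * v.coeff i ^ p ^ (n - i) := by
      refine Finset.sum_congr rfl fun i hi => ?_
      rw [ih i (Finset.mem_range.1 hi)]
    rw [h2] at h1
    have h3 := add_left_cancel h1
    rw [← sub_eq_zero]
    apply h.pow n
    rw [mul_sub, h3, sub_self]

section

variable {S : Type*} [CommRing S] (F : S →+* S)

open Classical in
/-- the Witt coordinates of the Dwork lift -/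
noncomputable def dwSeq (p : ℕ) (s : S) : ℕ → S
  | n => if h : (p : S) ^ n ∣ F^[n] s - ∑ i : Fin n, (p : S) ^ (i : ℕ) *
        (dwSeq p s i) ^ p ^ (n - (i : ℕ)) then h.choose else 0
  decreasing_by exact i.2

lemma dwSeq_spec {p : ℕ} {s : S} {n : ℕ}
    (h : (p : S) ^ n ∣ F^[n] s - ∑ i : Fin n, (p : S) ^ (i : ℕ) *
      (dwSeq F p s i) ^ p ^ (n - (i : ℕ))) :
    F^[n] s - ∑ i : Fin n, (p : S) ^ (i : ℕ) * (dwSeq F p s i) ^ p ^ (n - (i : ℕ)) =
      (p : S) ^ n * dwSeq F p s n := by
  conv_rhs => rw [dwSeq]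
  rw [dif_pos h]
  exact h.choose_spec

lemma dwSeq_sum (hF : IsFrobLift p F) (s : S) (n : ℕ) :
    F^[n] s = ∑ i ∈ Finset.range (n + 1), (p : S) ^ i * dwSeq F p s i ^ p ^ (n - i) := by
  induction n with
  | zero =>
    have := dwSeq_spec F (p := p) (s := s) (n := 0) (by simp)
    simpa using this
  | succ n ih =>
    have h1 : (p : S) ^ (n + 1) ∣ F^[n + 1] s - ∑ i : Fin (n + 1), (p : S) ^ (i : ℕ) *
      (dwSeq F p s i) ^ p ^ (n + 1 - (i : ℕ)) := by
      rw [Function.iterate_succ_apply', ih, map_sum,
        Fin.sum_univ_eq_sum_range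
          (fun i => (p : S) ^ i * (dwSeq F p s i) ^ p ^ (n + 1 - i)) (n + 1),
        ← Finset.sum_sub_distrib]
      refine Finset.dvd_sum fun i hi => ?_
      have hi' : i ≤ n := Nat.lt_succ_iff.1 (Finset.mem_range.1 hi)
      rw [map_mul, map_pow, map_pow, map_natCast, ← mul_sub]
      have h2 : (p : S) ^ (n - i + 1) ∣
          (F (dwSeq F p s i)) ^ p ^ (n - i) - (dwSeq F p s i ^ p) ^ p ^ (n - i) :=
        dvd_sub_pow_of_dvd_sub (hF _) _
      rw [← pow_mul, ← pow_succ'] at h2
      have h3 : n + 1 - i = n - i + 1 := by omega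
      rw [h3]
      have h4 : (p : S) ^ (n + 1) = (p : S) ^ i * (p : S) ^ (n - i + 1) := by
        rw [← pow_add]
        congr 1
        omega
      rw [h4]
      exact mul_dvd_mul_left _ h2
    have h5 := dwSeq_spec F h1
    rw [Finset.sum_range_succ, Nat.sub_self, pow_zero, pow_one, ← h5,
      Fin.sum_univ_eq_sum_range (fun i => (p : S) ^ i * (dwSeq F p s i) ^ p ^ (n + 1 - i)) (n + 1)]
    ring

/-- the Dwork lift, as a function -/
noncomputable def dwFun (p : ℕ) (s : S) : WittVector p S := ⟨dwSeq F p s⟩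

lemma ghost_dwFun (hF : IsFrobLift p F) (s : S) (n : ℕ) :
    ghostComponent n (dwFun F p s) = F^[n] s := by
  rw [ghost_eq, dwSeq_sum F hF s n]
  rfl

/-- **The Dieudonné–Dwork lift.** -/
noncomputable def dw (hF : IsFrobLift p F) (h : PTf p S) : S →+* WittVector p S where
  toFun := dwFun F p
  map_one' := ghost_ext h fun n => by rw [ghost_dwFun F hF, map_one, iterate_map_one]
  map_zero' := ghost_ext h fun n => by rw [ghost_dwFun F hF, map_zero, iterate_map_zero]
  map_mul' x y := ghost_ext h fun n => by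
    rw [map_mul, ghost_dwFun F hF, ghost_dwFun F hF, ghost_dwFun F hF, iterate_map_mul]
  map_add' x y := ghost_ext h fun n => by
    rw [map_add, ghost_dwFun F hF, ghost_dwFun F hF, ghost_dwFun F hF, iterate_map_add]

variable {F} (hF : IsFrobLift p F) (h : PTf p S)

lemma ghost_dw (s : S) (n : ℕ) : ghostComponent n (dw F hF h s) = F^[n] s :=
  ghost_dwFun F hF s n

@[simp]
lemma dw_coeff_zero (s : S) : (dw F hF h s).coeff 0 = s := by
  have := ghost_dw hF h s 0
  rw [ghost_eq] at this
  simpa using this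

lemma dw_F (s : S) : dw F hF h (F s) = WittVector.frobenius (dw F hF h s) := by
  apply ghost_ext h
  intro n
  rw [ghost_dw, ghostComponent_frobenius, ghost_dw, Function.iterate_succ_apply]

lemma dw_of_pow {x : S} (hx : F x = x ^ p) : dw F hF h x = teichmuller p x := by
  apply ghost_ext h
  intro n
  rw [ghost_dw, ghostComponent_teichmuller]
  induction n with
  | zero => simp
  | succ n ih =>
    rw [Function.iterate_succ_apply', ih, map_pow, hx, ← pow_mul, ← pow_succ']

end

end Crest.Agent.R188.Lft
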