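import Crest.Agent.R188.Lft1
import Crest.Agent.R183.Om6

/-!
# R188 / Lft2 (helper46) : lifting a Frobenius-compatible family `b n : S →+* Ω` to `W(Ω^♭)`

`S` a `p`-torsion free ring with a lift of Frobenius `F`, `Ω` a `p`-complete ring,
`b n : S →+* Ω` with `b (n + 1) ∘ F = b n`.  Then there is `phi : S →+* W(PreTilt Ω p)` with
`θ ∘ phi = b 0`.
-/

set_option autoImplicit false
set_option linter.style.haveILetI false
set_option linter.unusedSectionVars false

namespace Crest.Agent.R188.Lft

open WittVector Crest.Agent.R183.Om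

variable {p : ℕ} [hp : Fact p.Prime]

/-- uniqueness: Frobenius-compatible families agree if they agree modulo `p` -/
theorem family_unique {S : Type*} [CommRing S] {F : S →+* S} (hF : IsFrobLift p F)
    {T : Type*} [CommRing T] (hsep : ∀ x : T, (∀ n : ℕ, (p : T) ^ n ∣ x) → x = 0)
    (a b : ℕ → (S →+* T)) (ha : ∀ n s, a (n + 1) (F s) = a n s)
    (hb : ∀ n s, b (n + 1) (F s) = b n s) (hab : ∀ n s, (p : T) ∣ a n s - b n s) (n : ℕ) :
    a n = b n := by
  have key : ∀ (c n : ℕ) (s : S), (p : T) ^ (c + 1) ∣ a n s - b n s := by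
    intro c
    induction c with
    | zero => intro n s; rw [zero_add, pow_one]; exact hab n s
    | succ c ih =>
      intro n s
      obtain ⟨t, ht⟩ := hF s
      have h1 : F s = s ^ p + p * t := by rw [← ht]; ring
      rw [← ha n s, ← hb n s, h1, map_add, map_add, map_mul, map_mul, map_pow, map_pow,
        map_natCast, map_natCast]
      have h2 : (p : T) ^ (c + 1 + 1) ∣ (a (n + 1) s) ^ p - (b (n + 1) s) ^ p := by
        obtain ⟨z, hz⟩ := ih (n + 1) s
        have hz' : a (n + 1) s = b (n + 1) s + (p : T) ^ (c + 1) * z := by rw [← hz]; ring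
        rw [hz', add_pow, Finset.sum_range_succ, Nat.sub_self, pow_zero, mul_one,
          Nat.choose_self, Nat.cast_one, mul_one, add_sub_cancel_right]
        refine Finset.dvd_sum fun i hi => ?_
        have hi' : i < p := Finset.mem_range.1 hi
        rcases Nat.eq_zero_or_pos i with rfl | h3
        · rw [Nat.sub_zero, mul_pow, ← pow_mul]
          refine Dvd.dvd.mul_right (Dvd.dvd.mul_left (Dvd.dvd.mul_right ?_ _) _) _
          apply pow_dvd_pow
          have := hp.out.two_le
          nlinarith
        · have h5 : p ∣ p.choose i := hp.out.dvd_choose_self (by omega) hi'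
          obtain ⟨q, hq⟩ := h5
          obtain ⟨j, hj⟩ : ∃ j, p - i = j + 1 := ⟨p - i - 1, by omega⟩
          rw [hq, Nat.cast_mul, hj, mul_pow, pow_succ ((p : T) ^ (c + 1)) j, pow_succ (p : T) (c + 1)]
          exact ⟨b (n + 1) s ^ i * ((p : T) ^ (c + 1)) ^ j * z ^ (j + 1) * q, by ring⟩
      have h6 : (p : T) ^ (c + 1 + 1) ∣ (p : T) * a (n + 1) t - (p : T) * b (n + 1) t := by
        rw [← mul_sub, pow_succ' (p : T) (c + 1)]
        exact mul_dvd_mul_left _ (ih (n + 1) t)
      have h7 := dvd_add h2 h6
      convert h7 using 1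
      ring
  ext s
  rw [← sub_eq_zero]
  refine hsep _ fun m => ?_
  exact (pow_dvd_pow _ (Nat.le_succ m)).trans (key m n s)

/-- the Witt vector Frobenius is natural -/
lemma map_frobenius' {A B : Type*} [CommRing A] [CommRing B] (f : A →+* B) (x : WittVector p A) :
    WittVector.map f (WittVector.frobenius x) = WittVector.frobenius (WittVector.map f x) := by
  ext n
  rw [map_coeff, coeff_frobenius, coeff_frobenius, MvPolynomial.aeval_def, MvPolynomial.aeval_def,
    MvPolynomial.hom_eval₂]
  congr 1
  exact RingHom.ext_int _ _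

section Tilt

variable {S : Type*} [CommRing S] {F : S →+* S} (hF : IsFrobLift p F) (hS : PTf p S)
variable {Ω : Type*} [CommRing Ω] [Fact ¬IsUnit (p : Ω)]
variable (b : ℕ → (S →+* Ω)) (hb : ∀ n s, b (n + 1) (F s) = b n s)

include hF hb in
lemma fam_pow (n : ℕ) (s : S) : (p : Ω) ∣ b (n + 1) s ^ p - b n s := by
  rw [← hb n s, ← map_pow, ← map_sub, ← dvd_neg, ← map_neg, neg_sub]
  have := map_dvd (b (n + 1)) (hF s)
  rwa [map_natCast] at this

/-- the map `S → Ω^♭`, as a function -/
noncomputable def toTiltFun (s : S) : PreTilt Ω p :=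
  (⟨fun n => Ideal.Quotient.mk _ (b n s), fun n => by
    rw [← map_pow, Ideal.Quotient.mk_eq_mk_iff_sub_mem, Ideal.mem_span_singleton]
    exact fam_pow hF b hb n s⟩ : Perfection (ModP Ω p) p)

lemma coeff_toTiltFun (n : ℕ) (s : S) :
    PreTilt.coeff n (toTiltFun hF b hb s) = Ideal.Quotient.mk _ (b n s) := rfl

/-- the map `S → Ω^♭` -/
noncomputable def toTilt : S →+* PreTilt Ω p where
  toFun := toTiltFun hF b hb
  map_one' := PreTilt_ext fun n => by
    rw [map_one (PreTilt.coeff n), coeff_toTiltFun, map_one, map_one]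
  map_zero' := PreTilt_ext fun n => by
    rw [map_zero (PreTilt.coeff n), coeff_toTiltFun, map_zero, map_zero]
  map_mul' x y := PreTilt_ext fun n => by
    rw [map_mul (PreTilt.coeff n), coeff_toTiltFun, coeff_toTiltFun, coeff_toTiltFun, map_mul,
      map_mul]
  map_add' x y := PreTilt_ext fun n => by
    rw [map_add (PreTilt.coeff n), coeff_toTiltFun, coeff_toTiltFun, coeff_toTiltFun, map_add,
      map_add]

lemma coeff_toTilt (n : ℕ) (s : S) :
    PreTilt.coeff n (toTilt hF b hb s) = Ideal.Quotient.mk _ (b n s) := rfl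

/-- **The lift** `S →+* W(Ω^♭)`. -/
noncomputable def phi : S →+* WittVector p (PreTilt Ω p) :=
  (WittVector.map (toTilt hF b hb)).comp (dw F hF hS)

lemma phi_coeff_zero (s : S) : (phi hF hS b hb s).coeff 0 = toTilt hF b hb s := by
  rw [phi, RingHom.comp_apply, map_coeff, dw_coeff_zero]

lemma phi_F (s : S) : phi hF hS b hb (F s) = WittVector.frobenius (phi hF hS b hb s) := by
  rw [phi, RingHom.comp_apply, RingHom.comp_apply, dw_F, map_frobenius']

/-- **`θ ∘ phi = b 0`.** -/
theorem theta_phi [IsAdicComplete (Ideal.span {(p : Ω)}) Ω] (s : S) :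
    fontaineTheta Ω p (phi hF hS b hb s) = b 0 s := by
  let a : ℕ → (S →+* Ω) := fun n => ((fontaineTheta Ω p).comp
    (((WittVector.frobeniusEquiv p (PreTilt Ω p)).symm ^ n :
      WittVector p (PreTilt Ω p) ≃+* WittVector p (PreTilt Ω p)) :
        WittVector p (PreTilt Ω p) →+* WittVector p (PreTilt Ω p))).comp (phi hF hS b hb)
  have hsep : ∀ x : Ω, (∀ n : ℕ, (p : Ω) ^ n ∣ x) → x = 0 := fun x hx =>
    Crest.Agent.R183.Om.sep_of_isAdicComplete x hx
  have h := family_unique hF hsep a b ?_ hb ?_ 0
  · have := RingHom.congr_fun h s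
    simpa [a] using this
  · intro n s
    show fontaineTheta Ω p (((WittVector.frobeniusEquiv p (PreTilt Ω p)).symm ^ (n + 1))
      (phi hF hS b hb (F s))) = fontaineTheta Ω p (((WittVector.frobeniusEquiv p
        (PreTilt Ω p)).symm ^ n) (phi hF hS b hb s))
    rw [phi_F, pow_succ, RingAut.mul_apply]
    congr 2
    exact (WittVector.frobeniusEquiv p (PreTilt Ω p)).symm_apply_apply _
  · intro n s
    show (p : Ω) ∣ fontaineTheta Ω p (((WittVector.frobeniusEquiv p (PreTilt Ω p)).symm ^ n)
      (phi hF hS b hb s)) - b n s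
    have key : ∀ (n m : ℕ) (w : WittVector p (PreTilt Ω p)), PreTilt.coeff m
        ((((WittVector.frobeniusEquiv p (PreTilt Ω p)).symm ^ n) w).coeff 0) =
          PreTilt.coeff (m + n) (w.coeff 0) := by
      intro n
      induction n with
      | zero => intro m w; rfl
      | succ n ih =>
        intro m w
        rw [pow_succ, RingAut.mul_apply, ih]
        have h1 : ∀ v : WittVector p (PreTilt Ω p),
            PreTilt.coeff (m + (n + 1)) ((WittVector.frobenius v).coeff 0) =
              PreTilt.coeff (m + n) (v.coeff 0) := by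
          intro v
          rw [coeff_frobenius_charP]
          exact PreTilt.coeff_frobenius (m + n) (v.coeff 0)
        have h2 := h1 ((WittVector.frobeniusEquiv p (PreTilt Ω p)).symm w)
        rw [← h2]
        congr 2
        exact (WittVector.frobeniusEquiv p (PreTilt Ω p)).apply_symm_apply w
    rw [← Ideal.mem_span_singleton, ← Ideal.Quotient.mk_eq_mk_iff_sub_mem, mk_fontaineTheta,
      key, phi_coeff_zero, zero_add, coeff_toTilt]

lemma phi_of_pow {x : S} (hx : F x = x ^ p) :
    phi hF hS b hb x = teichmuller p (toTilt hF b hb x) := by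
  rw [phi, RingHom.comp_apply, dw_of_pow hF hS hx, map_teichmuller]

end Tilt

end Crest.Agent.R188.Lft
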