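import Crest.Agent.R188.Lft2
import Crest.Agent.R188.Wit2

/-!
# R188 / Lft3 (helper46) : the lift `S →+* W(P)` for `Om ξ = W(P)/ξ`

`P` a perfect ring, `π`-adically complete, `ξ = [π] + p u`; `S` a `p`-torsion free ring with a
lift of Frobenius `F`, `b n : S →+* Om ξ` with `b (n + 1) ∘ F = b n`.  Then there is
`liftW : S →+* W(P)` with `θ ∘ liftW = b 0`, and `liftW x = [a]` if `F x = x ^ p`.
-/

set_option autoImplicit false
set_option linter.style.haveILetI false
set_option linter.unusedSectionVars false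

namespace Crest.Agent.R188.Lft

open WittVector Crest.Agent.R188.Prf Crest.Agent.R188.Wit

universe u

variable {p : ℕ} [hp : Fact p.Prime] {P : Type u} [CommRing P]

/-- `P = lim P/π` along Frobenius: existence -/
theorem exists_lim (hP : IsPerf p P) {π : P} [IsAdicComplete (Ideal.span {π}) P] (c : ℕ → P)
    (hc : ∀ n, π ∣ c (n + 1) ^ p - c n) : ∃ a, ∀ n, π ∣ hP.rtn n a - c n := by
  have h1 : ∀ n, π ^ p ^ n ∣ c (n + 1) ^ p ^ (n + 1) - c n ^ p ^ n := by
    intro n
    rw [pow_succ' p n, pow_mul, ← sub_pow_pn hP.p_zero]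
    exact pow_dvd_pow_of_dvd (hc n) _
  have h2 : ∀ n m, n ≤ m → π ^ p ^ n ∣ c m ^ p ^ m - c n ^ p ^ n := by
    intro n m hnm
    induction m, hnm using Nat.le_induction with
    | base => rw [sub_self]; exact dvd_zero _
    | succ m hm ih =>
      have h3 := dvd_add ((pow_dvd_pow π (Nat.pow_le_pow_right hp.out.pos hm)).trans (h1 m)) ih
      rwa [sub_add_sub_cancel] at h3
  obtain ⟨a, ha⟩ := IsPrecomplete.prec (I := Ideal.span {π}) (M := P) inferInstance
    (f := fun n => c n ^ p ^ n) (by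
      intro m n hmn
      rw [SModEq.sub_mem, smul_eq_mul, Ideal.mul_top, Ideal.span_singleton_pow,
        Ideal.mem_span_singleton, ← dvd_neg, neg_sub]
      exact (pow_dvd_pow π (Nat.lt_pow_self hp.out.one_lt).le).trans (h2 m n hmn))
  refine ⟨a, fun n => ?_⟩
  have h4 : π ^ p ^ n ∣ a - c n ^ p ^ n := by
    have h5 := ha (p ^ n)
    rw [SModEq.sub_mem, smul_eq_mul, Ideal.mul_top, Ideal.span_singleton_pow,
      Ideal.mem_span_singleton, ← dvd_neg, neg_sub] at h5
    have h6 := dvd_add h5 (h2 n (p ^ n) (Nat.lt_pow_self hp.out.one_lt).le)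
    rwa [sub_add_sub_cancel] at h6
  obtain ⟨t, ht⟩ := h4
  refine ⟨hP.rtn n t, ?_⟩
  apply hP.pow_pn_inj (n := n)
  rw [sub_pow_pn hP.p_zero, hP.rtn_pow, mul_pow, hP.rtn_pow, ht]

/-- `P = lim P/π` along Frobenius: uniqueness -/
theorem lim_unique (hP : IsPerf p P) {π : P} [IsAdicComplete (Ideal.span {π}) P] {a a' : P}
    (h : ∀ n, π ∣ hP.rtn n a - hP.rtn n a') : a = a' := by
  rw [← sub_eq_zero]
  refine IsHausdorff.haus (I := Ideal.span {π}) inferInstance _ fun n => ?_
  rw [SModEq.zero, smul_eq_mul, Ideal.mul_top, Ideal.span_singleton_pow, Ideal.mem_span_singleton]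
  refine (pow_dvd_pow π (Nat.lt_pow_self hp.out.one_lt).le).trans ?_
  have h1 := pow_dvd_pow_of_dvd (h n) (p ^ n)
  rwa [sub_pow_pn hP.p_zero, hP.rtn_pow, hP.rtn_pow] at h1

section Om

variable (hP : IsPerf p P) {ξ : WittVector p P} {π : P} (hξ : IsDist ξ π)

include hP hξ

/-- `W(P)/(p, ξ) = P/π` -/
theorem p_dvd_θ_iff {w : WittVector p P} : (p : Om ξ) ∣ θ ξ w ↔ π ∣ w.coeff 0 := by
  obtain ⟨u, hu, he⟩ := hξ.ex
  have hc : ∀ x y : WittVector p P, (x + y).coeff 0 = x.coeff 0 + y.coeff 0 := fun x y =>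
    (constantCoeff : WittVector p P →+* P).map_add x y
  have hm : ∀ x y : WittVector p P, (x * y).coeff 0 = x.coeff 0 * y.coeff 0 := fun x y =>
    (constantCoeff : WittVector p P →+* P).map_mul x y
  have hpc : ∀ x : WittVector p P, ((p : WittVector p P) * x).coeff 0 = 0 := fun x => by
    rw [mul_comm, mul_p_coeff_zero hP.p_zero]
  constructor
  · rintro ⟨y, hy⟩
    obtain ⟨y, rfl⟩ := θ_surjective ξ y
    have h1 : θ ξ (w - p * y) = 0 := by
      rw [map_sub, map_mul, map_natCast, ← hy, sub_self]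
    obtain ⟨z, hz⟩ := θ_eq_zero_iff.1 h1
    have h2 : w = p * y + ξ * z := by rw [← hz]; ring
    refine ⟨z.coeff 0, ?_⟩
    rw [h2, hc, hpc, zero_add, hm, he, hc, hpc, add_zero, teichmuller_coeff_zero]
  · rintro ⟨t, ht⟩
    obtain ⟨y, hy⟩ := exists_eq_teich_add hP w
    have h3 : w = ξ * teichmuller p t + p * (y - u * teichmuller p t) := by
      rw [hy, ht, map_mul, he]
      ring
    refine ⟨θ ξ (y - u * teichmuller p t), ?_⟩
    rw [h3, map_add, map_mul, θ_xi, zero_mul, zero_add, map_mul, map_natCast]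

lemma p_dvd_θ_sub_sh (w : WittVector p P) : (p : Om ξ) ∣ θ ξ w - sh ξ (w.coeff 0) := by
  obtain ⟨y, hy⟩ := exists_eq_teich_add hP w
  have h1 : θ ξ w = sh ξ (w.coeff 0) + p * θ ξ y := by
    have h2 := congrArg (θ ξ) hy
    rw [map_add, map_mul, map_natCast] at h2
    exact h2
  exact ⟨θ ξ y, by rw [h1, add_sub_cancel_left]⟩

theorem p_dvd_sh_sub_iff {x y : P} : (p : Om ξ) ∣ sh ξ x - sh ξ y ↔ π ∣ x - y := by
  rw [sh, sh, ← map_sub, p_dvd_θ_iff hP hξ]
  have : (teichmuller p x - teichmuller p y).coeff 0 = x - y := by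
    have h1 := (constantCoeff : WittVector p P →+* P).map_sub (teichmuller p x) (teichmuller p y)
    have h2 : ∀ z : WittVector p P, (constantCoeff : WittVector p P →+* P) z = z.coeff 0 :=
      fun z => rfl
    rw [h2, h2, h2, teichmuller_coeff_zero, teichmuller_coeff_zero] at h1
    exact h1
  rw [this]

/-- `Om ξ^♭ = P`: existence -/
theorem exists_tilt_elt [IsAdicComplete (Ideal.span {π}) P] (β : ℕ → Om ξ)
    (hβ : ∀ n, (p : Om ξ) ∣ β (n + 1) ^ p - β n) :
    ∃ a : P, ∀ n, (p : Om ξ) ∣ sh ξ (hP.rtn n a) - β n := by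
  have h1 : ∀ n, ∃ c : P, (p : Om ξ) ∣ β n - sh ξ c := by
    intro n
    obtain ⟨w, hw⟩ := θ_surjective ξ (β n)
    exact ⟨w.coeff 0, by rw [← hw]; exact p_dvd_θ_sub_sh hP hξ w⟩
  choose c hc using h1
  obtain ⟨a, ha⟩ := exists_lim hP (π := π) c (fun n => by
    rw [← p_dvd_sh_sub_iff hP hξ, sh_pow]
    have h2 : (p : Om ξ) ∣ β (n + 1) ^ p - sh ξ (c (n + 1)) ^ p :=
      (hc (n + 1)).trans (sub_dvd_pow_sub_pow _ _ _)
    have h3 := dvd_sub (dvd_add (hβ n) (hc n)) h2
    convert h3 using 1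
    ring)
  refine ⟨a, fun n => ?_⟩
  have h4 := (p_dvd_sh_sub_iff hP hξ).2 (ha n)
  have h5 := dvd_sub h4 (hc n)
  convert h5 using 1
  ring

/-- `Om ξ^♭ = P`: uniqueness -/
theorem tilt_elt_unique [IsAdicComplete (Ideal.span {π}) P] {β : ℕ → Om ξ} {a a' : P}
    (ha : ∀ n, (p : Om ξ) ∣ sh ξ (hP.rtn n a) - β n)
    (ha' : ∀ n, (p : Om ξ) ∣ sh ξ (hP.rtn n a') - β n) : a = a' := by
  refine lim_unique hP (π := π) fun n => ?_
  rw [← p_dvd_sh_sub_iff hP hξ]
  have h := dvd_sub (ha n) (ha' n)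
  rwa [sub_sub_sub_cancel_right] at h

/-- exact root systems are sharps -/
theorem sh_rtn_eq {β : ℕ → Om ξ} (hβ : ∀ n, β (n + 1) ^ p = β n) {a : P}
    (ha : ∀ n, (p : Om ξ) ∣ sh ξ (hP.rtn n a) - β n) (n : ℕ) : sh ξ (hP.rtn n a) = β n := by
  have hβ' : ∀ m, β (n + m) ^ p ^ m = β n := by
    intro m
    induction m with
    | zero => simp
    | succ m ih => rw [pow_succ', pow_mul, ← add_assoc, hβ, ih]
  rw [← sub_eq_zero]
  apply Om_separated hP hξ
  intro m
  have h1 := dvd_sub_pow_of_dvd_sub (ha (n + m)) m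
  rw [← sh_pow, hP.rtn_add_pow, hβ'] at h1
  obtain ⟨b, hb⟩ := (pow_dvd_pow _ (Nat.le_succ m)).trans h1
  exact ⟨b, hb⟩

/-- **sharp pairs**: every compatible system of `p`-power roots in `Om ξ` is `(a^{1/p^n})^♯`. -/
theorem exists_sharp [IsAdicComplete (Ideal.span {π}) P] (β : ℕ → Om ξ)
    (hβ : ∀ n, β (n + 1) ^ p = β n) : ∃ a : P, ∀ n, sh ξ (hP.rtn n a) = β n := by
  obtain ⟨a, ha⟩ := exists_tilt_elt hP hξ β (fun n => by rw [hβ, sub_self]; exact dvd_zero _)
  exact ⟨a, sh_rtn_eq hP hξ hβ ha⟩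

end Om

section Lift

variable (hP : IsPerf p P) {ξ : WittVector p P} {π : P} (hξ : IsDist ξ π)
variable {S : Type*} [CommRing S] {F : S →+* S} (hF : IsFrobLift p F) (hS : PTf p S)
variable (b : ℕ → (S →+* Om ξ)) (hb : ∀ n s, b (n + 1) (F s) = b n s)

include hF hb in
lemma fam_pow' (n : ℕ) (s : S) : (p : Om ξ) ∣ b (n + 1) s ^ p - b n s := by
  rw [← hb n s, ← map_pow, ← map_sub, ← dvd_neg, ← map_neg, neg_sub]
  have := map_dvd (b (n + 1)) (hF s)
  rwa [map_natCast] at this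

section h

variable [IsAdicComplete (Ideal.span {π}) P]

/-- the map `S → P = Om ξ^♭`, as a function -/
noncomputable def toPFun (s : S) : P :=
  (exists_tilt_elt hP hξ (fun n => b n s) (fam_pow' hF b hb · s)).choose

lemma toPFun_spec (s : S) (n : ℕ) :
    (p : Om ξ) ∣ sh ξ (hP.rtn n (toPFun hP hξ hF b hb s)) - b n s :=
  (exists_tilt_elt hP hξ (fun n => b n s) (fam_pow' hF b hb · s)).choose_spec n

omit [IsAdicComplete (Ideal.span {π}) P] in
include hP hξ in
lemma sh_add_dvd (x y : P) : (p : Om ξ) ∣ sh ξ (x + y) - (sh ξ x + sh ξ y) := by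
  have h1 : sh ξ x + sh ξ y = θ ξ (teichmuller p x + teichmuller p y) := by
    rw [map_add]; rfl
  have h2 := p_dvd_θ_sub_sh hP hξ (teichmuller p x + teichmuller p y)
  have h3 : (teichmuller p x + teichmuller p y).coeff 0 = x + y := by
    have h4 := (constantCoeff : WittVector p P →+* P).map_add (teichmuller p x) (teichmuller p y)
    have h5 : ∀ z : WittVector p P, (constantCoeff : WittVector p P →+* P) z = z.coeff 0 :=
      fun z => rfl
    rw [h5, h5, h5, teichmuller_coeff_zero, teichmuller_coeff_zero] at h4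
    exact h4
  rw [h3, ← h1] at h2
  rwa [← dvd_neg, neg_sub]

/-- the map `S → P = Om ξ^♭` -/
noncomputable def toP : S →+* P where
  toFun := toPFun hP hξ hF b hb
  map_one' := tilt_elt_unique hP hξ (toPFun_spec hP hξ hF b hb 1) fun n => by
    rw [hP.rtn_one, sh_one, map_one, sub_self]
    exact dvd_zero _
  map_zero' := tilt_elt_unique hP hξ (toPFun_spec hP hξ hF b hb 0) fun n => by
    rw [hP.rtn_zero, sh_zero, map_zero, sub_self]
    exact dvd_zero _
  map_mul' x y := tilt_elt_unique hP hξ (toPFun_spec hP hξ hF b hb (x * y)) fun n => by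
    rw [hP.rtn_mul, sh_mul, map_mul]
    obtain ⟨u, hu⟩ := toPFun_spec hP hξ hF b hb x n
    obtain ⟨v, hv⟩ := toPFun_spec hP hξ hF b hb y n
    exact ⟨u * sh ξ (hP.rtn n (toPFun hP hξ hF b hb y)) + b n x * v, by
      linear_combination (sh ξ (hP.rtn n (toPFun hP hξ hF b hb y))) * hu + b n x * hv⟩
  map_add' x y := tilt_elt_unique hP hξ (toPFun_spec hP hξ hF b hb (x + y)) fun n => by
    rw [hP.rtn_add, map_add]
    have h1 := sh_add_dvd hP hξ (hP.rtn n (toPFun hP hξ hF b hb x))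
      (hP.rtn n (toPFun hP hξ hF b hb y))
    have h2 := dvd_add h1 (dvd_add (toPFun_spec hP hξ hF b hb x n)
      (toPFun_spec hP hξ hF b hb y n))
    convert h2 using 1
    ring

lemma toP_spec (s : S) (n : ℕ) :
    (p : Om ξ) ∣ sh ξ (hP.rtn n (toP hP hξ hF b hb s)) - b n s :=
  toPFun_spec hP hξ hF b hb s n

/-- **The lift** `S →+* W(P)`. -/
noncomputable def liftW : S →+* WittVector p P :=
  (WittVector.map (toP hP hξ hF b hb)).comp (dw F hF hS)

lemma liftW_coeff_zero (s : S) : (liftW hP hξ hF hS b hb s).coeff 0 = toP hP hξ hF b hb s := by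
  rw [liftW, RingHom.comp_apply, map_coeff, dw_coeff_zero]

lemma liftW_F (s : S) :
    liftW hP hξ hF hS b hb (F s) = WittVector.frobenius (liftW hP hξ hF hS b hb s) := by
  rw [liftW, RingHom.comp_apply, RingHom.comp_apply, dw_F, map_frobenius']

lemma liftW_of_pow {x : S} (hx : F x = x ^ p) :
    liftW hP hξ hF hS b hb x = teichmuller p (toP hP hξ hF b hb x) := by
  rw [liftW, RingHom.comp_apply, dw_of_pow hF hS hx, map_teichmuller]

/-- the `p^n`-th root as a ring homomorphism -/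
noncomputable def rtnHom (hP : IsPerf p P) (n : ℕ) : P →+* P where
  toFun := hP.rtn n
  map_one' := hP.rtn_one n
  map_zero' := hP.rtn_zero n
  map_mul' := hP.rtn_mul n
  map_add' := hP.rtn_add n

/-- **`θ ∘ liftW = b 0`.** -/
theorem θ_liftW (s : S) : θ ξ (liftW hP hξ hF hS b hb s) = b 0 s := by
  let a : ℕ → (S →+* Om ξ) := fun n =>
    ((θ ξ).comp (WittVector.map (rtnHom hP n))).comp (liftW hP hξ hF hS b hb)
  have hsep : ∀ x : Om ξ, (∀ n : ℕ, (p : Om ξ) ^ n ∣ x) → x = 0 := fun x hx =>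
    Om_separated hP hξ fun n => hx n
  have h := family_unique hF hsep a b ?_ hb ?_ 0
  · have h1 := RingHom.congr_fun h s
    have h2 : rtnHom hP 0 = RingHom.id P := RingHom.ext fun x => rfl
    have h3 : a 0 s = θ ξ (liftW hP hξ hF hS b hb s) := by
      show θ ξ (WittVector.map (rtnHom hP 0) _) = _
      rw [h2]
      congr 1
    rw [← h3, h1]
  · intro n s
    show θ ξ (WittVector.map (rtnHom hP (n + 1)) (liftW hP hξ hF hS b hb (F s))) =
      θ ξ (WittVector.map (rtnHom hP n) (liftW hP hξ hF hS b hb s))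
    rw [liftW_F]
    congr 1
    rcases subsingleton_or_nontrivial P with hs | hn
    · exact WittVector.ext fun i => Subsingleton.elim _ _
    · haveI := charP_of hP.p_zero
      ext i
      rw [map_coeff, map_coeff, coeff_frobenius_charP]
      show hP.rtn (n + 1) _ = hP.rtn n _
      rw [hP.rtn_pow_comm, hP.rtn_succ_pow]
  · intro n s
    show (p : Om ξ) ∣ θ ξ (WittVector.map (rtnHom hP n) (liftW hP hξ hF hS b hb s)) - b n s
    have h1 := p_dvd_θ_sub_sh hP hξ
      (WittVector.map (rtnHom hP n) (liftW hP hξ hF hS b hb s))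
    rw [map_coeff, liftW_coeff_zero] at h1
    change (p : Om ξ) ∣ _ - sh ξ (hP.rtn n (toP hP hξ hF b hb s)) at h1
    have h2 := dvd_add h1 (toP_spec hP hξ hF b hb s n)
    rwa [sub_add_sub_cancel] at h2

end h

end Lift

end Crest.Agent.R188.Lft
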