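import Crest.Agent.R188.Lft3
import Crest.Agent.R188.Tay1
import Crest.Agent.R183.CohenWitt

/-!
# R188 / Lft4 (helper46) : the Frobenius-compatible family `b n : W(k)[[x]] →+* T`

`k` perfect, `S = W(k)[[x_1..x_d]]`, `B` Noetherian and complete, `A` a finite `B`-algebra,
`σ : S → A`, `γ : A →ₐ[B] T` with `T` a `B`-algebra closed under `p`-th roots.  Then there are
`b n : S →+* T` with `b 0 = γ ∘ σ` and `b (n + 1) ∘ F = b n`.
-/

set_option autoImplicit false
set_option linter.style.haveILetI false
set_option linter.unusedSectionVars false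

namespace Crest.Agent.R188.Lft

open WittVector Crest.Agent.R188.Prf Crest.Agent.R188.Wit Crest.Agent.R188.Tay
open Crest.Agent.R183.Cohen

universe u v w

/-- Completeness for a larger ideal defining the same topology. -/
theorem isAdicComplete_of_pow_le' {B : Type v} [CommRing B] {I J : Ideal B}
    [hI : IsAdicComplete I B] (hIJ : I ≤ J) {M : ℕ} (hM : 0 < M) (hJ : J ^ M ≤ I) :
    IsAdicComplete J B where
  haus' := fun x hx => by
    refine hI.haus' x fun n => ?_
    have h1 := hx (M * n)
    rw [SModEq.zero, smul_eq_mul, Ideal.mul_top] at h1 ⊢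
    rw [pow_mul] at h1
    exact Ideal.pow_right_mono hJ n h1
  prec' := fun f hf => by
    obtain ⟨L, hL⟩ := hI.prec' (fun a => f (M * a)) (fun {m n} hmn => by
      have h1 := hf (show M * m ≤ M * n from Nat.mul_le_mul_left M hmn)
      rw [SModEq.sub_mem, smul_eq_mul, Ideal.mul_top] at h1 ⊢
      rw [pow_mul] at h1
      exact Ideal.pow_right_mono hJ m h1)
    refine ⟨L, fun n => ?_⟩
    have h1 := hf (show n ≤ M * n from Nat.le_mul_of_pos_left n hM)
    have h2 := hL n
    rw [SModEq.sub_mem, smul_eq_mul, Ideal.mul_top] at h1 h2 ⊢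
    have h3 := (J ^ n).add_mem h1 (Ideal.pow_right_mono hIJ n h2)
    rwa [sub_add_sub_cancel] at h3

section Ev

variable {σ : Type*} [Finite σ] {W : Type*} [CommRing W] {N : Type*} [CommRing N]
  [IsNoetherianRing N] (I : Ideal N) [IsAdicComplete I N]

theorem isAdicComplete_radical : IsAdicComplete I.radical N := by
  obtain ⟨M, hM⟩ := Ideal.exists_pow_le_of_le_radical_of_fg (I := I.radical) (J := I) le_rfl
    (IsNoetherian.noetherian _)
  exact isAdicComplete_of_pow_le' Ideal.le_radical (M := M + 1) (Nat.succ_pos M)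
    ((Ideal.pow_le_pow_right (Nat.le_succ M)).trans hM)

/-- evaluation of power series at elements of the radical -/
theorem exists_ev (φ : W →+* N) (t : σ → N) (ht : ∀ i, t i ∈ I.radical) :
    ∃ f : MvPowerSeries σ W →+* N, (∀ w, f (MvPowerSeries.C w) = φ w) ∧
      ∀ i, f (MvPowerSeries.X i) = t i := by
  haveI := isAdicComplete_radical I
  exact ⟨psEval I.radical φ t ht, fun w => psEval_C _ _ _ _ w, fun i => psEval_X _ _ _ _ i⟩

theorem ev_unique (f g : MvPowerSeries σ W →+* N)
    (hC : ∀ w, f (MvPowerSeries.C w) = g (MvPowerSeries.C w))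
    (hX : ∀ i, f (MvPowerSeries.X i) = g (MvPowerSeries.X i))
    (ht : ∀ i, g (MvPowerSeries.X i) ∈ I.radical) : f = g := by
  haveI := isAdicComplete_radical I
  rw [eq_psEval I.radical (g.comp MvPowerSeries.C) (fun i => g (MvPowerSeries.X i)) ht f
    (fun a => hC a) hX, ← eq_psEval I.radical (g.comp MvPowerSeries.C)
      (fun i => g (MvPowerSeries.X i)) ht g (fun a => rfl) (fun i => rfl)]

end Ev

section Frob

variable {p : ℕ} [hp : Fact p.Prime] (k : Type u) [Field k] [CharP k p] [PerfectRing k p]
variable (σ : Type) [Finite σ]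

lemma X_pow_mem_IX (W : Type*) [CommRing W] (i : σ) {n : ℕ} (hn : 0 < n) :
    (MvPowerSeries.X i : MvPowerSeries σ W) ^ n ∈ IX σ W :=
  Ideal.pow_mem_of_mem _ (Ideal.subset_span (Set.mem_range_self i)) n hn

/-- the lift of Frobenius on `W(k)[[x]]` with `x_i ↦ x_i ^ p`. -/
noncomputable def frobS (p : ℕ) [hp : Fact p.Prime] (k : Type u) [Field k] [CharP k p]
    (σ : Type) [Finite σ] :
    MvPowerSeries σ (WittVector p k) →+* MvPowerSeries σ (WittVector p k) :=
  psEval (IX σ (WittVector p k)) (MvPowerSeries.C.comp WittVector.frobenius)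
    (fun i => MvPowerSeries.X i ^ p) (fun i => X_pow_mem_IX σ _ i hp.out.pos)

@[simp] lemma frobS_C (w : WittVector p k) :
    frobS p k σ (MvPowerSeries.C w) = MvPowerSeries.C (WittVector.frobenius w) :=
  psEval_C _ _ _ _ w

@[simp] lemma frobS_X (i : σ) : frobS p k σ (MvPowerSeries.X i) = MvPowerSeries.X i ^ p :=
  psEval_X _ _ _ _ i

/-- `W(k)[[x]]` is `p`-torsion free -/
theorem pTf_S : PTf p (MvPowerSeries σ (WittVector p k)) := by
  intro s hs
  ext n
  have h1 := congrArg (MvPowerSeries.coeff n) hs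
  rw [map_zero, ← nsmul_eq_mul, map_nsmul, nsmul_eq_mul] at h1
  rw [map_zero, Wit.p_regular (IsPerf.of_perfectRing (p := p) (R := k)) h1]

theorem isFrobLift_S : IsFrobLift p (frobS p k σ) := by
  haveI : IsNoetherianRing (WittVector p k) := (isCohen_witt p k).isNoetherianRing
  haveI : IsNoetherianRing (MvPowerSeries σ (WittVector p k)) := inferInstance
  let S := MvPowerSeries σ (WittVector p k)
  let Q := S ⧸ Ideal.span {(p : S)}
  intro s
  rw [← Ideal.mem_span_singleton, ← Ideal.Quotient.mk_eq_mk_iff_sub_mem]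
  rcases subsingleton_or_nontrivial Q with hs | hn
  · exact Subsingleton.elim _ _
  have hpQ : (p : Q) = 0 := by
    have : (p : Q) = Ideal.Quotient.mk (Ideal.span {(p : S)}) (p : S) := (map_natCast _ p).symm
    rw [this, Ideal.Quotient.eq_zero_iff_mem]
    exact Ideal.mem_span_singleton_self _
  haveI : CharP Q p := charP_of hpQ
  haveI : IsAdicComplete ((IX σ (WittVector p k)).map (algebraMap S Q)) Q :=
    isAdicComplete_map (IX σ (WittVector p k)) Q
  have h := ev_unique (N := Q) ((IX σ (WittVector p k)).map (algebraMap S Q))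
    ((Ideal.Quotient.mk (Ideal.span {(p : S)})).comp (frobS p k σ))
    ((_root_.frobenius Q p).comp (Ideal.Quotient.mk (Ideal.span {(p : S)}))) ?_ ?_ ?_
  · exact RingHom.congr_fun h s
  · intro w
    rw [RingHom.comp_apply, RingHom.comp_apply, frobS_C, frobenius_def, ← map_pow,
      Ideal.Quotient.mk_eq_mk_iff_sub_mem, Ideal.mem_span_singleton, ← map_pow, ← map_sub]
    have h1 : (p : WittVector p k) ∣ WittVector.frobenius w - w ^ p := by
      rw [Wit.p_dvd_iff (IsPerf.of_perfectRing (p := p) (R := k))]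
      have h2 := (constantCoeff : WittVector p k →+* k).map_sub (WittVector.frobenius w) (w ^ p)
      have h3 : ∀ z : WittVector p k, (constantCoeff : WittVector p k →+* k) z = z.coeff 0 :=
        fun z => rfl
      rw [map_pow, h3, h3, h3, coeff_frobenius_charP, sub_self] at h2
      exact h2
    have h4 := map_dvd (MvPowerSeries.C (σ := σ) (R := WittVector p k)) h1
    rwa [map_natCast] at h4
  · intro i
    rw [RingHom.comp_apply, RingHom.comp_apply, frobS_X, frobenius_def, map_pow]
  · intro i
    apply Ideal.le_radical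
    rw [RingHom.comp_apply, frobenius_def, ← map_pow]
    exact Ideal.mem_map_of_mem _ (X_pow_mem_IX σ _ i hp.out.pos)

end Frob

section Family

variable {p : ℕ} [hp : Fact p.Prime] {k : Type u} [Field k] [CharP k p] [PerfectRing k p]
variable {σ : Type} [Finite σ]
variable {B : Type v} [CommRing B] [IsNoetherianRing B] (m : Ideal B) [IsAdicComplete m B]
  (j : WittVector p k →+* B)
variable {A : Type v} [CommRing A] [Algebra B A] [Module.Finite B A]
variable {T : Type w} [CommRing T] [Algebra B T] (γ : A →ₐ[B] T)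
variable (g : MvPowerSeries σ (WittVector p k) →+* A)

/-- the finite subalgebra of `T` in which the `n`-th member of the family takes its values -/
def NN (s : Finset A) (r : σ → ℕ → T) (n : ℕ) : Subalgebra B T :=
  Algebra.adjoin B ((γ '' (s : Set A)) ∪ Set.range fun i => r i n)

variable {m j γ g}

lemma finite_NN (s : Finset A) (r : σ → ℕ → T) (n : ℕ) (hr : ∀ i, IsIntegral B (r i n)) :
    Module.Finite B (NN γ s r n) := by
  have h1 : ((γ '' (s : Set A)) ∪ Set.range fun i => r i n).Finite :=
    (s.finite_toSet.image _).union (Set.finite_range _)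
  have h2 := fg_adjoin_of_finite (R := B) h1 (by
    rintro x (⟨a, _, rfl⟩ | ⟨i, rfl⟩)
    · exact (Algebra.IsIntegral.isIntegral (R := B) a).map γ
    · exact hr i)
  exact Module.Finite.iff_fg.2 h2

lemma range_le_NN (s : Finset A) (hs : Submodule.span B (s : Set A) = ⊤) (r : σ → ℕ → T) (n : ℕ)
    (a : A) : γ a ∈ NN γ s r n := by
  have h1 : a ∈ Submodule.span B (s : Set A) := by rw [hs]; trivial
  induction h1 using Submodule.span_induction with
  | mem x hx => exact Algebra.subset_adjoin (Or.inl ⟨x, hx, rfl⟩)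
  | zero => rw [map_zero]; exact zero_mem _
  | add x y _ _ hx hy => rw [map_add]; exact add_mem hx hy
  | smul b x _ hx => rw [map_smul]; exact Subalgebra.smul_mem _ hx b

/-- **The Frobenius-compatible family.** -/
theorem exists_family (hg : ∀ w, g (MvPowerSeries.C w) = algebraMap B A (j w))
    (hX : ∀ i, g (MvPowerSeries.X i) ∈ (m.map (algebraMap B A)).radical)
    (r : σ → ℕ → T) (h0 : ∀ i, r i 0 = γ (g (MvPowerSeries.X i)))
    (hr : ∀ i n, r i (n + 1) ^ p = r i n) :
    ∃ b : ℕ → (MvPowerSeries σ (WittVector p k) →+* T), (∀ s, b 0 s = γ (g s)) ∧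
      (∀ n s, b (n + 1) (frobS p k σ s) = b n s) ∧
      (∀ n i, b n (MvPowerSeries.X i) = r i n) := by
  obtain ⟨s, hs⟩ := (Module.Finite.fg_top : (⊤ : Submodule B A).FG)
  have hr' : ∀ i n, r i n ^ p ^ n = r i 0 := by
    intro i n
    induction n with
    | zero => simp
    | succ n ih => rw [pow_succ', pow_mul, hr, ih]
  have hint : ∀ i n, IsIntegral B (r i n) := by
    intro i n
    apply IsIntegral.of_pow (pow_pos hp.out.pos n)
    rw [hr', h0]
    exact (Algebra.IsIntegral.isIntegral (R := B) _).map γ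
  haveI : ∀ n, Module.Finite B (NN γ s r n) := fun n => finite_NN s r n fun i => hint i n
  haveI : ∀ n, IsNoetherianRing (NN γ s r n) := fun n => IsNoetherianRing.of_finite B _
  haveI : ∀ n, IsAdicComplete (m.map (algebraMap B (NN γ s r n))) (NN γ s r n) := fun n =>
    isAdicComplete_map m _
  have hmem : ∀ n i, r i n ∈ NN γ s r n := fun n i =>
    Algebra.subset_adjoin (Or.inr ⟨i, rfl⟩)
  have hrad : ∀ n i, (⟨r i n, hmem n i⟩ : NN γ s r n) ∈
      (m.map (algebraMap B (NN γ s r n))).radical := by
    intro n i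
    obtain ⟨K, hK⟩ := hX i
    refine ⟨p ^ n * K, ?_⟩
    let γ' : A →ₐ[B] NN γ s r n := γ.codRestrict _ (range_le_NN s hs r n)
    have h1 := Ideal.mem_map_of_mem (γ' : A →+* NN γ s r n) hK
    rw [Ideal.map_map] at h1
    have h2 : (γ' : A →+* NN γ s r n).comp (algebraMap B A) = algebraMap B _ :=
      RingHom.ext fun x => γ'.commutes x
    have h3 : (⟨r i n, hmem n i⟩ : NN γ s r n) ^ (p ^ n * K) =
        γ' (g (MvPowerSeries.X i) ^ K) := by
      apply Subtype.ext
      show r i n ^ (p ^ n * K) = γ (g (MvPowerSeries.X i) ^ K)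
      rw [pow_mul, hr', h0, map_pow]
    rw [h3, ← h2]
    exact h1
  have hex : ∀ n, ∃ f : MvPowerSeries σ (WittVector p k) →+* NN γ s r n,
      (∀ w, f (MvPowerSeries.C w) =
        algebraMap B _ (j (((WittVector.frobeniusEquiv p k).symm ^ n) w))) ∧
      ∀ i, f (MvPowerSeries.X i) = ⟨r i n, hmem n i⟩ := by
    intro n
    exact exists_ev (m.map (algebraMap B (NN γ s r n)))
      (((algebraMap B (NN γ s r n)).comp j).comp
        (((WittVector.frobeniusEquiv p k).symm ^ n : WittVector p k ≃+* WittVector p k) :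
          WittVector p k →+* WittVector p k)) (fun i => ⟨r i n, hmem n i⟩) (hrad n)
  choose f hfC hfX using hex
  refine ⟨fun n => (NN γ s r n).val.toRingHom.comp (f n), ?_, ?_, ?_⟩
  · intro x
    let γ' : A →ₐ[B] NN γ s r 0 := γ.codRestrict _ (range_le_NN s hs r 0)
    have h := ev_unique (m.map (algebraMap B (NN γ s r 0))) ((γ' : A →+* NN γ s r 0).comp g) (f 0)
      ?_ ?_ ?_
    · have h1 := congrArg Subtype.val (RingHom.congr_fun h x)
      exact h1.symm
    · intro w
      rw [hfC, pow_zero, RingHom.comp_apply, hg]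
      exact γ'.commutes _
    · intro i
      rw [hfX]
      apply Subtype.ext
      exact (h0 i).symm
    · intro i
      rw [hfX]
      exact hrad 0 i
  · intro n x
    have hle : NN γ s r n ≤ NN γ s r (n + 1) := by
      refine Algebra.adjoin_le ?_
      rintro y (⟨a, ha, rfl⟩ | ⟨i, rfl⟩)
      · exact Algebra.subset_adjoin (Or.inl ⟨a, ha, rfl⟩)
      · show r i n ∈ _
        rw [← hr i n]
        exact pow_mem (hmem (n + 1) i) p
    have h := ev_unique (m.map (algebraMap B (NN γ s r (n + 1)))) ((f (n + 1)).comp (frobS p k σ))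
      ((Subalgebra.inclusion hle : NN γ s r n →+* NN γ s r (n + 1)).comp (f n)) ?_ ?_ ?_
    · exact congrArg Subtype.val (RingHom.congr_fun h x)
    · intro w
      rw [RingHom.comp_apply, RingHom.comp_apply, frobS_C, hfC, hfC]
      apply Subtype.ext
      show algebraMap B T _ = algebraMap B T _
      rw [pow_succ, RingAut.mul_apply]
      congr 3
      exact (WittVector.frobeniusEquiv p k).symm_apply_apply w
    · intro i
      rw [RingHom.comp_apply, RingHom.comp_apply, frobS_X, map_pow, hfX, hfX]
      apply Subtype.ext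
      exact hr i n
    · intro i
      rw [RingHom.comp_apply, hfX]
      have h1 : (Subalgebra.inclusion hle : NN γ s r n →+* NN γ s r (n + 1))
          ⟨r i n, hmem n i⟩ = (⟨r i (n + 1), hmem (n + 1) i⟩ : NN γ s r (n + 1)) ^ p :=
        Subtype.ext (hr i n).symm
      rw [h1]
      exact Ideal.pow_mem_of_mem _ (hrad (n + 1) i) p hp.out.pos
  · intro n i
    show ((f n (MvPowerSeries.X i) : NN γ s r n) : T) = r i n
    rw [hfX]

end Family

end Crest.Agent.R188.Lft
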