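import Crest.Agent.R188.Kos3
import Crest.Agent.R188.KosF
import Crest.Agent.R188.ChiReg

/-!
# R188, S-level (helper546), part 1: functoriality of Koszul lengths of `F ⊗ X`
-/

set_option autoImplicit false

namespace Crest.Agent.R188.SX

open scoped ENNReal
open Crest.Agent.R183 Crest.Agent.R183.Res
open Crest.Agent.R188.Kos Crest.Agent.R188.Chi Crest.Agent.R188.KosG

universe u v w v₁ v₂ v₃

section general

variable {A : Type u} [CommRing A] {C D E C' C'' : Cx.{u, v} A}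

/-- cone of a morphism `φ` (not the mapping cone): `K(b) ⊗ φ`. -/
def homCone (φ : C.Hom D) (b : A) : (C.cone b).Hom (D.cone b) where
  f n := match n with
    | 0 => φ.f 0
    | (n + 1) => (LinearMap.prodMap (φ.f (n + 1)) (φ.f n) :
        (C.X (n + 1) × C.X n) →ₗ[A] (D.X (n + 1) × D.X n))
  comm n := by
    cases n with
    | zero =>
      rintro ⟨x, y⟩
      show φ.f 0 (C.d 0 x + b • y) = D.d 0 (φ.f 1 x) + b • φ.f 0 y
      rw [map_add, φ.comm, map_smul]
    | succ n =>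
      rintro ⟨x, y⟩
      refine Prod.ext ?_ ?_
      · show φ.f (n + 1) (C.d (n + 1) x + b • y) = D.d (n + 1) (φ.f (n + 2) x) + b • φ.f (n + 1) y
        rw [map_add, φ.comm, map_smul]
      · show φ.f n (-(C.d n y)) = -(D.d n (φ.f (n + 1) y))
        rw [map_neg, φ.comm]

/-- cone of a short exact sequence -/
def sesCone (S : Ses C' C C'') (b : A) : Ses (C'.cone b) (C.cone b) (C''.cone b) where
  i := homCone S.i b
  p := homCone S.p b
  inj n := by
    cases n with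
    | zero => exact S.inj 0
    | succ n =>
      rintro ⟨x, y⟩ ⟨x', y'⟩ h
      exact Prod.ext (S.inj _ (congrArg Prod.fst h)) (S.inj _ (congrArg Prod.snd h))
  surj n := by
    cases n with
    | zero => exact S.surj 0
    | succ n =>
      rintro ⟨x, y⟩
      obtain ⟨x, rfl⟩ := S.surj _ x
      obtain ⟨y, rfl⟩ := S.surj _ y
      exact ⟨(x, y), rfl⟩
  exact n := by
    cases n with
    | zero => exact S.exact 0
    | succ n =>
      rintro ⟨x, y⟩
      constructor
      · intro h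
        obtain ⟨x', hx⟩ := (S.exact _ _).1 (congrArg Prod.fst h)
        obtain ⟨y', hy⟩ := (S.exact _ _).1 (congrArg Prod.snd h)
        exact ⟨(x', y'), Prod.ext hx hy⟩
      · rintro ⟨⟨x', y'⟩, h⟩
        exact Prod.ext ((S.exact _ _).2 ⟨x', congrArg Prod.fst h⟩)
          ((S.exact _ _).2 ⟨y', congrArg Prod.snd h⟩)

/-- Koszul complexes of a short exact sequence -/
def sesKos (S : Ses C' C C'') : ∀ l : List A, Ses (kos l C') (kos l C) (kos l C'')
  | [] => S
  | (b :: l) => sesCone (sesKos S l) b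

/-- homotopies -/
def Hmt (φ ψ : C.Hom D) : Prop :=
  ∃ s : ∀ n, C.X n →ₗ[A] D.X (n + 1), (∀ x, φ.f 0 x - ψ.f 0 x = D.d 0 (s 0 x)) ∧
    ∀ n x, φ.f (n + 1) x - ψ.f (n + 1) x = D.d (n + 1) (s (n + 1) x) + s n (C.d n x)

theorem Hmt.cone {φ ψ : C.Hom D} (h : Hmt φ ψ) (b : A) : Hmt (homCone φ b) (homCone ψ b) := by
  obtain ⟨s, h0, h1⟩ := h
  let s' : ∀ n, (C.cone b).X n →ₗ[A] (D.cone b).X (n + 1) := fun n => match n with
    | 0 => (LinearMap.prod (s 0) 0 : C.X 0 →ₗ[A] (D.X 1 × D.X 0))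
    | (n + 1) => (LinearMap.prodMap (s (n + 1)) (-(s n)) :
        (C.X (n + 1) × C.X n) →ₗ[A] (D.X (n + 2) × D.X (n + 1)))
  refine ⟨s', ?_, ?_⟩
  · intro x
    show φ.f 0 x - ψ.f 0 x = D.d 0 (s 0 x) + b • (0 : D.X 0)
    rw [h0, smul_zero, add_zero]
  · intro n
    cases n with
    | zero =>
      rintro ⟨x, y⟩
      refine Prod.ext ?_ ?_
      · show φ.f 1 x - ψ.f 1 x = (D.d 1 (s 1 x) + b • (-(s 0 y))) + s 0 (C.d 0 x + b • y)
        rw [h1, map_add, map_smul, smul_neg]; abel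
      · show φ.f 0 y - ψ.f 0 y = -(D.d 0 (-(s 0 y))) + 0
        rw [h0, map_neg, neg_neg, add_zero]
    | succ n =>
      rintro ⟨x, y⟩
      refine Prod.ext ?_ ?_
      · show φ.f (n + 2) x - ψ.f (n + 2) x = (D.d (n + 2) (s (n + 2) x) + b • (-(s (n + 1) y))) +
          s (n + 1) (C.d (n + 1) x + b • y)
        rw [h1, map_add, map_smul, smul_neg]; abel
      · show φ.f (n + 1) y - ψ.f (n + 1) y = -(D.d (n + 1) (-(s (n + 1) y))) + -(s n (-(C.d n y)))
        rw [h1, map_neg, neg_neg, map_neg, neg_neg]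

/-- homotopy equivalent complexes -/
def HEq (C D : Cx.{u, v} A) : Prop :=
  ∃ (f : C.Hom D) (g : D.Hom C), Hmt (g.comp f) (Cx.Hom.id C) ∧ Hmt (f.comp g) (Cx.Hom.id D)

theorem homCone_comp (g : D.Hom E) (f : C.Hom D) (b : A) :
    (homCone g b).comp (homCone f b) = homCone (g.comp f) b := by
  unfold homCone Cx.Hom.comp
  congr 1
  funext n
  cases n with
  | zero => rfl
  | succ n => rfl

theorem homCone_id (b : A) : homCone (Cx.Hom.id C) b = Cx.Hom.id (C.cone b) := by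
  unfold homCone Cx.Hom.id
  congr 1
  funext n
  cases n with
  | zero => rfl
  | succ n => rfl

theorem HEq.cone (h : HEq C D) (b : A) : HEq (C.cone b) (D.cone b) := by
  obtain ⟨f, g, h1, h2⟩ := h
  refine ⟨homCone f b, homCone g b, ?_, ?_⟩
  · rw [homCone_comp, ← homCone_id]
    exact h1.cone b
  · rw [homCone_comp, ← homCone_id]
    exact h2.cone b

theorem HEq.kos (h : HEq C D) (l : List A) : HEq (kos l C) (kos l D) := by
  induction l with
  | nil => exact h
  | cons b l ih => exact ih.cone b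

theorem HEq.l_eq (h : HEq C D) (Λ : AddLen.{u, v} A) (n : ℕ) : C.l Λ n = D.l Λ n := by
  obtain ⟨f, g, ⟨s, hs0, hs⟩, ⟨t, ht0, ht⟩⟩ := h
  exact Λ.L_congr (Chi.Hequiv (d := C.d) (d' := D.d) (f := f.f) (g := g.f) f.comm g.comm
    (s := s) (t := t) ⟨hs0, hs⟩ ⟨ht0, ht⟩ n)

end general

section FTlemmas

variable {R : Type w} [CommRing R] {A : Type u} [CommRing A]
variable {X : Type v} [AddCommGroup X] [Module A X] [Module R X] [SMulCommClass R A X]

/-- morphisms of matrix complexes -/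
def FTmap {F G : MCx R} (Φ : MMap F G) : (FT F A X).Hom (FT G A X) where
  f n := actA A X (Φ.Φ n)
  comm := Φ.isMap A X

theorem FTmap_hmt {F G : MCx R} {Φ Ψ : MMap F G} {s : ∀ n, Matrix (G.ι (n + 1)) (F.ι n) R}
    (hs : MHtpy Φ Ψ s) : Hmt (FTmap (A := A) (X := X) Φ) (FTmap Ψ) :=
  ⟨fun n => actA A X (s n), (hs.htpy A X).1, (hs.htpy A X).2⟩

theorem FTmap_comp {F G K : MCx R} (Ψ : MMap G K) (Φ : MMap F G) :
    (FTmap (A := A) (X := X) Ψ).comp (FTmap Φ) = FTmap (Ψ.comp Φ) := by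
  unfold FTmap Cx.Hom.comp MMap.comp
  congr 1
  funext n
  refine LinearMap.ext fun v => ?_
  show act X (Ψ.Φ n) (act X (Φ.Φ n) v) = act X (Ψ.Φ n * Φ.Φ n) v
  rw [act_mul]

theorem FTmap_id (F : MCx R) : FTmap (A := A) (X := X) (MMap.id F) = Cx.Hom.id (FT F A X) := by
  unfold FTmap Cx.Hom.id MMap.id
  congr 1
  funext n
  refine LinearMap.ext fun v => ?_
  exact act_one' X v

variable {M : Type v₁} [AddCommGroup M] [Module R M] {M' : Type v₂} [AddCommGroup M'] [Module R M']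
  {M'' : Type v₃} [AddCommGroup M''] [Module R M'']

/-- (B1) -/
theorem FT_HEq {F G : MCx R} {εF : (F.ι 0 → R) →ₗ[R] M} (hF : IsRes F εF)
    {εG : (G.ι 0 → R) →ₗ[R] M'} (hG : IsRes G εG) (e : M ≃ₗ[R] M') :
    HEq (FT F A X) (FT G A X) := by
  obtain ⟨Φ, Ψ, s, t, hs, ht, -, -⟩ := exists_HXequiv hF hG e
  refine ⟨FTmap Φ, FTmap Ψ, ?_, ?_⟩
  · rw [FTmap_comp, ← FTmap_id]
    exact FTmap_hmt hs
  · rw [FTmap_comp, ← FTmap_id]
    exact FTmap_hmt ht

/-- lengths of Koszul homology of `F ⊗ X` -/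
noncomputable def hK (Λ : AddLen.{u, v} A) (l : List A) (F : MCx R) (X : Type v) [AddCommGroup X]
    [Module A X] [Module R X] [SMulCommClass R A X] (i : ℕ) : ℝ≥0∞ := (kos l (FT F A X)).l Λ i

variable (Λ : AddLen.{u, v} A)

theorem hK_nil (F : MCx R) (i : ℕ) : hK Λ [] F X i = hX Λ F X i := rfl

theorem hK_perm {l l' : List A} (h : l.Perm l') (F : MCx R) (i : ℕ) :
    hK Λ l F X i = hK Λ l' F X i := by
  obtain ⟨φ⟩ := kos_perm h (FT F A X)
  exact φ.l_eq Λ i

theorem hK_eq_of_isRes {F G : MCx R} {εF : (F.ι 0 → R) →ₗ[R] M} (hF : IsRes F εF)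
    {εG : (G.ι 0 → R) →ₗ[R] M'} (hG : IsRes G εG) (e : M ≃ₗ[R] M') (l : List A) (i : ℕ) :
    hK Λ l F X i = hK Λ l G X i :=
  ((FT_HEq hF hG e).kos l).l_eq Λ i

/-- the short exact sequence of an extension of matrix complexes -/
def sesFText (F F' : MCx R) (θ : ∀ n, Matrix (F.ι n) (F'.ι (n + 1)) R)
    (hθ : ∀ n, F.d n * θ (n + 1) + θ n * F'.d (n + 1) = 0) :
    Ses (FT F A X) (FT (Chi.ext F F' θ hθ) A X) (FT F' A X) where
  i := ⟨fun n => inlA A X (F.ι n) (F'.ι n), (sesExt A X F F' θ hθ).cf⟩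
  p := ⟨fun n => sndA A X (F.ι n) (F'.ι n), (sesExt A X F F' θ hθ).cg⟩
  inj := (sesExt A X F F' θ hθ).inj
  surj := (sesExt A X F F' θ hθ).surj
  exact := (sesExt A X F F' θ hθ).exact

/-- (B2) subadditivity in `M` -/
theorem hK_left_mid_le {F F' F'' : MCx R} {ε : (F.ι 0 → R) →ₗ[R] M} {ε' : (F'.ι 0 → R) →ₗ[R] M'}
    {ε'' : (F''.ι 0 → R) →ₗ[R] M''}
    (hF' : IsRes F' ε') (hF : IsRes F ε) (hF'' : IsRes F'' ε'')
    {α : M' →ₗ[R] M} {β : M →ₗ[R] M''} (hα : Function.Injective α) (hβ : Function.Surjective β)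
    (hex : Function.Exact α β) (l : List A) (i : ℕ) :
    hK Λ l F X i ≤ hK Λ l F' X i + hK Λ l F'' X i := by
  obtain ⟨θ, hθ, ε₁, h₁⟩ := exists_horseshoe hF' hF'' hα hβ hex
  rw [hK_eq_of_isRes Λ hF h₁ (LinearEquiv.refl R M)]
  exact (sesKos (sesFText F' F'' θ hθ) l).l_le Λ i

/-- extensionality of the cone: `F(t) ⊗ X = cone_b (F ⊗ X)` when `t` acts as `b` -/
def FTcone (F : MCx R) (t : R) (b : A) (hb : ∀ x : X, t • x = b • x) :
    (FT (F.cone t) A X).Iso ((FT F A X).cone b) where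
  e n := match n with
    | 0 => LinearEquiv.refl A (F.ι 0 → X)
    | (n + 1) => (LinearEquiv.sumArrowLequivProdArrow (F.ι (n + 1)) (F.ι n) A X)
  comm n := by
    cases n with
    | zero =>
      intro x
      show act X (Matrix.fromCols (F.d 0) (t • (1 : Matrix (F.ι 0) (F.ι 0) R))) x =
        act X (F.d 0) (x ∘ Sum.inl) + b • (x ∘ Sum.inr)
      funext a
      rw [act_apply, Fintype.sum_sum_type]
      show _ = act X (F.d 0) (x ∘ Sum.inl) a + b • x (Sum.inr a)
      rw [act_apply]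
      congr 1
      rw [Finset.sum_eq_single a]
      · simp [hb]
      · intro c _ hc
        simp [Matrix.one_apply_ne hc.symm]
      · intro h
        exact absurd (Finset.mem_univ a) h
    | succ n =>
      intro x
      have e1 : act X (Matrix.fromBlocks (F.d (n + 1)) (t • (1 : Matrix (F.ι (n + 1)) (F.ι (n + 1)) R))
          0 (-(F.d n))) x = Sum.elim (act X (F.d (n + 1)) (x ∘ Sum.inl) +
          act X (t • (1 : Matrix (F.ι (n + 1)) (F.ι (n + 1)) R)) (x ∘ Sum.inr))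
            (act X (-(F.d n)) (x ∘ Sum.inr)) := act_fromBlocks' X _ _ _ x
      refine Prod.ext ?_ ?_
      · funext a
        refine (congrFun e1 (Sum.inl a)).trans ?_
        show act X (F.d (n + 1)) (x ∘ Sum.inl) a +
          act X (t • (1 : Matrix (F.ι (n + 1)) (F.ι (n + 1)) R)) (x ∘ Sum.inr) a =
          act X (F.d (n + 1)) (x ∘ Sum.inl) a + b • x (Sum.inr a)
        rw [act_smul_one]
        exact congrArg _ (hb _)
      · funext a
        refine (congrFun e1 (Sum.inr a)).trans ?_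
        show act X (-(F.d n)) (x ∘ Sum.inr) a = -(act X (F.d n) (x ∘ Sum.inr) a)
        rw [act_neg]; rfl

theorem hK_cone (F : MCx R) (t : R) (b : A) (hb : ∀ x : X, t • x = b • x) (l : List A) (i : ℕ) :
    hK Λ l (F.cone t) X i = hK Λ (l ++ [b]) F X i := by
  unfold hK
  rw [kos_append]
  exact ((FTcone F t b hb).kos l).l_eq Λ i

/-- (B4) -/
theorem mem_Nh_FT {F : MCx R} {t : R} (ht : F.NHom t) {b : A} (hb : ∀ x : X, t • x = b • x) :
    b ∈ (FT F A X).Nh := by
  obtain ⟨s, hs0, hs⟩ := ht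
  rw [Cx.mem_Nh]
  refine ⟨fun n => actA A X (s n), ?_, ?_⟩
  · intro x
    show act X (F.d 0) (act X (s 0) x) = b • x
    rw [← act_mul, hs0, act_smul_one]
    funext a
    exact hb _
  · intro n x
    show act X (F.d (n + 1)) (act X (s (n + 1)) x) + act X (s n) (act X (F.d n) x) = b • x
    rw [← act_mul, ← act_mul, ← act_add, hs, act_smul_one]
    funext a
    exact hb _

end FTlemmas

end Crest.Agent.R188.SX
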