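import Crest.Agent.R188.SX3

/-!
# R188, S-level (helper546), part 4: adjoining one nilpotent variable `q`, `q^n = 0`
-/

set_option autoImplicit false

namespace Crest.Agent.R188.SX

open scoped ENNReal Pointwise Polynomial
open Polynomial
open Crest.Agent.R183 Crest.Agent.R183.Res
open Crest.Agent.R188.Kos Crest.Agent.R188.Chi

universe u v w v₁ v₂ v₃

section restrictLemmas

variable {A : Type u} [CommRing A]

theorem addLen_ext {Λ Λ' : AddLen.{u, v} A}
    (h : ∀ (M : Type v) [AddCommGroup M] [Module A M], Λ.L M = Λ'.L M) : Λ = Λ' := by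
  cases Λ with
  | mk L z a =>
    cases Λ' with
    | mk L' z' a' =>
      have : L = L' := by
        funext M i j
        exact h M
      subst this
      rfl

theorem restrict_id (Λ : AddLen.{u, v} A) {f : A →+* A} (hf : f = RingHom.id A) :
    Λ.restrict f = Λ := by
  subst hf
  exact addLen_ext fun M _ _ => AddLen.restrict_L Λ (RingHom.id A) M (fun _ _ => rfl)

theorem restrict_restrict (Λ : AddLen.{u, v} A) {B : Type w} [CommRing B] {C : Type v₁} [CommRing C]
    (f : A →+* B) (g : B →+* C) : (Λ.restrict f).restrict g = Λ.restrict (g.comp f) := by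
  refine addLen_ext fun M _ _ => ?_
  let iB : Module B M := Module.compHom M g
  let iA : Module A M := Module.compHom M f
  rw [AddLen.restrict_L (Λ.restrict f) g M (fun _ _ => rfl),
    AddLen.restrict_L Λ f M (fun _ _ => rfl), AddLen.restrict_L Λ (g.comp f) M (fun _ _ => rfl)]

end restrictLemmas

section mapIso

variable {A : Type u} [CommRing A] {S : Type w} [CommRing S] {X : Type v} [AddCommGroup X]
  [Module A X] [Module S X] [SMulCommClass S A X]

/-- scalar extension of the matrices does not change anything -/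
def FTmapIso (F : MCx S) (φ : S →+* A) (h : ∀ (s : S) (x : X), s • x = φ s • x) :
    (KosG.FT F A X).Iso (KosG.FT (F.map φ) A X) where
  e n := LinearEquiv.refl A (F.ι n → X)
  comm n x := by
    show act X (F.d n) x = act X ((F.d n).map φ) x
    funext a
    rw [act_apply, act_apply]
    exact Finset.sum_congr rfl fun b _ => h _ _

variable (Λ : AddLen.{u, v} A)

theorem hK_map (F : MCx S) (φ : S →+* A) (h : ∀ (s : S) (x : X), s • x = φ s • x) (l : List A)
    (i : ℕ) : hK Λ l F X i = hK Λ l (F.map φ) X i := ((FTmapIso F φ h).kos l).l_eq Λ i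

theorem hX_map (F : MCx S) (φ : S →+* A) (h : ∀ (s : S) (x : X), s • x = φ s • x)
    (i : ℕ) : hX Λ F X i = hX Λ (F.map φ) X i := (FTmapIso F φ h).l_eq Λ i

theorem chiX_map (F : MCx S) (φ : S →+* A) (h : ∀ (s : S) (x : X), s • x = φ s • x)
    (N : ℕ) : chiX Λ F X N = chiX Λ (F.map φ) X N := by
  rw [chiX_eq, chiX_eq]
  exact Finset.sum_congr rfl fun i _ => by rw [hX_map Λ F φ h]

end mapIso

section poly

variable {B : Type u} [CommRing B] {E : Type v} [AddCommGroup E] [Module B E]

theorem coeff_X_pow_smul (n : ℕ) (p : PolynomialModule B E) (m : ℕ) :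
    ((X ^ n : B[X]) • p).coeff m = if n ≤ m then p.coeff (m - n) else 0 := by
  rw [← monomial_one_right_eq_X_pow, PolynomialModule.monomial_smul_apply]
  simp

theorem X_pow_regular (n : ℕ) (p : PolynomialModule B E) (h : (X ^ n : B[X]) • p = 0) : p = 0 := by
  apply PolynomialModule.ext
  ext m
  have := congrArg (fun r => r.coeff (m + n)) h
  simp only [coeff_X_pow_smul] at this
  simpa using this

theorem coeff_C_smul (c : B) (p : PolynomialModule B E) (m : ℕ) :
    ((C c : B[X]) • p).coeff m = c • p.coeff m := by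
  rw [← monomial_zero_left, PolynomialModule.monomial_smul_apply]
  simp

theorem X_add_C_regular (c : B) (p : PolynomialModule B E) (h : (X + C c : B[X]) • p = 0) :
    p = 0 := by
  have h1 : ∀ m, p.coeff m = -(c • p.coeff (m + 1)) := by
    intro m
    have := congrArg (fun r => r.coeff (m + 1)) h
    simp only [add_smul, PolynomialModule.coeff_add, Finsupp.add_apply, coeff_C_smul] at this
    have h2 := coeff_X_pow_smul 1 p (m + 1)
    rw [pow_one] at h2
    rw [h2] at this
    simp only [le_add_iff_nonneg_left, zero_le, if_true, Nat.add_sub_cancel] at this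
    exact eq_neg_of_add_eq_zero_left this
  have h2 : ∀ k m, p.coeff m = (-c) ^ k • p.coeff (m + k) := by
    intro k
    induction k with
    | zero => intro m; simp
    | succ k ih =>
      intro m
      rw [ih, h1 (m + k), pow_succ, mul_smul, neg_smul, add_assoc]
  apply PolynomialModule.ext
  ext m
  obtain ⟨k, hk⟩ : ∃ k, p.coeff (m + k) = 0 := by
    by_contra hcon
    push Not at hcon
    have hfin := p.coeff.finite_support
    refine Set.infinite_of_injective_forall_mem (f := fun k : ℕ => m + k) (fun a b hab => ?_)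
      (fun k => ?_) hfin
    · simpa using hab
    · exact hcon k
  rw [h2 k m, hk, smul_zero]
  rfl

theorem eval_eq_zero_iff (c : B) (p : PolynomialModule B E) :
    PolynomialModule.eval (-c) p = 0 ↔ ∃ r, (X + C c : B[X]) • r = p := by
  constructor
  · intro h
    have key : ∀ p : PolynomialModule B E, ∃ r, (X + C c : B[X]) • r =
        p - PolynomialModule.single B 0 (PolynomialModule.eval (-c) p) := by
      intro p
      induction p using PolynomialModule.induction_linear with
      | zero => exact ⟨0, by simp⟩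
      | add p q hp hq =>
        obtain ⟨r, hr⟩ := hp
        obtain ⟨s, hs⟩ := hq
        refine ⟨r + s, ?_⟩
        rw [smul_add, hr, hs, map_add, PolynomialModule.single_add]
        abel
      | single i m =>
        obtain ⟨g, hg⟩ := sub_dvd_pow_sub_pow (X : B[X]) (C (-c)) i
        refine ⟨g • PolynomialModule.single B 0 m, ?_⟩
        rw [smul_smul]
        have e1 : (X + C c : B[X]) * g = X ^ i - C (-c) ^ i := by
          rw [hg, C_neg, sub_neg_eq_add]
        rw [e1, sub_smul, ← monomial_one_right_eq_X_pow, PolynomialModule.monomial_smul_single,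
          ← C_pow, ← monomial_zero_left, PolynomialModule.monomial_smul_single,
          PolynomialModule.eval_single]
        simp
    obtain ⟨r, hr⟩ := key p
    rw [h] at hr
    exact ⟨r, by rw [hr]; simp⟩
  · rintro ⟨r, rfl⟩
    rw [PolynomialModule.eval_smul]
    simp

variable (B E) in
/-- the ring `B[q]/(q^n)` -/
abbrev B1 (n : ℕ) := B[X] ⧸ (Ideal.span {(X : B[X]) ^ n})

variable (B E) in
/-- the module `E[q]/(q^n)` -/
abbrev E1 (n : ℕ) := PolynomialModule B E ⧸
  ((Ideal.span {(X : B[X]) ^ n}) • (⊤ : Submodule B[X] (PolynomialModule B E)))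

variable (B) in
/-- the structure map -/
noncomputable def io (n : ℕ) : B →+* B1 B n := (Ideal.Quotient.mk _).comp C

variable (B) in
/-- the variable -/
noncomputable def qq (n : ℕ) : B1 B n := Ideal.Quotient.mk _ X

theorem qq_pow (n : ℕ) : qq B n ^ n = 0 := by
  rw [qq, ← map_pow, Ideal.Quotient.eq_zero_iff_mem]
  exact Ideal.mem_span_singleton_self _

variable (B) in
/-- the augmentation `q ↦ 0` -/
noncomputable def ep {n : ℕ} (hn : 1 ≤ n) : B1 B n →+* B :=
  Ideal.Quotient.lift _ (evalRingHom 0) (by
    intro a ha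
    rw [Ideal.mem_span_singleton] at ha
    obtain ⟨g, rfl⟩ := ha
    rw [map_mul, map_pow, coe_evalRingHom, eval_X, zero_pow (by omega), zero_mul])

theorem ep_mk {n : ℕ} (hn : 1 ≤ n) (f : B[X]) : ep B hn (Ideal.Quotient.mk _ f) = f.eval 0 := rfl

theorem ep_io {n : ℕ} (hn : 1 ≤ n) (b : B) : ep B hn (io B n b) = b := by
  show (C b).eval 0 = b
  simp

theorem ep_comp_io {n : ℕ} (hn : 1 ≤ n) : (ep B hn).comp (io B n) = RingHom.id B :=
  RingHom.ext (ep_io hn)

theorem ep_qq {n : ℕ} (hn : 1 ≤ n) : ep B hn (qq B n) = 0 := by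
  show (X : B[X]).eval 0 = 0
  simp

theorem mem_smul_top_iff (n : ℕ) (p : PolynomialModule B E) :
    p ∈ ((Ideal.span {(X : B[X]) ^ n}) • (⊤ : Submodule B[X] (PolynomialModule B E))) ↔
      ∃ r, (X ^ n : B[X]) • r = p := by
  rw [Submodule.ideal_span_singleton_smul, Submodule.mem_smul_pointwise_iff_exists]
  exact ⟨fun ⟨y, _, hy⟩ => ⟨y, hy⟩, fun ⟨y, hy⟩ => ⟨y, trivial, hy⟩⟩

variable (Λ : AddLen.{u, v} B)

/-- **(D1)** -/
theorem h0_E1 (n : ℕ) (c : B) (l : List B) (j : ℕ) :
    h0 (Λ.restrict (io B n)) (l.map (io B n) ++ [io B n c + qq B n]) (E1 B E n) j =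
      h0 Λ (l ++ [c ^ n]) E j := by
  let ΛX : AddLen.{u, v} B[X] := Λ.restrict C
  have e1 : h0 (Λ.restrict (io B n)) (l.map (io B n) ++ [io B n c + qq B n]) (E1 B E n) j =
      h0 ΛX (l.map C ++ [X + C c]) (E1 B E n) j := by
    rw [h0_restrict (Ideal.Quotient.mk (Ideal.span {(X : B[X]) ^ n})) (fun a x => rfl) ΛX
      (l.map C ++ [X + C c]) j, restrict_restrict]
    congr 1
    rw [List.map_append, List.map_map]
    congr 1
    rw [List.map_singleton, map_add, add_comm]
    rfl
  rw [e1, ← h0_cons_regular ΛX (X := PolynomialModule B E) (X ^ n : B[X])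
    (l.map C ++ [X + C c]) (Submodule.mkQ _) (X_pow_regular n) (Submodule.mkQ_surjective _)
    (fun x => by
      rw [Submodule.mkQ_apply, Submodule.Quotient.mk_eq_zero]
      exact mem_smul_top_iff n x) j]
  rw [h0_perm ΛX (l' := (X + C c : B[X]) :: (l.map C ++ [X ^ n])) (by
    refine List.Perm.trans (List.Perm.cons _ (List.perm_append_singleton _ _)) ?_
    refine List.Perm.trans (List.Perm.swap _ _ _) ?_
    exact List.Perm.cons _ (List.perm_append_singleton _ _).symm) j]
  let iE : Module B[X] E := Module.compHom E (evalRingHom (-c))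
  have hE : ∀ (f : B[X]) (x : E), f • x = (evalRingHom (-c)) f • x := fun _ _ => rfl
  let g : PolynomialModule B E →ₗ[B[X]] E :=
    { toFun := PolynomialModule.eval (-c)
      map_add' := map_add _
      map_smul' := fun f p => PolynomialModule.eval_smul f p (-c) }
  rw [h0_cons_regular ΛX (X + C c : B[X]) (l.map C ++ [X ^ n]) g (X_add_C_regular c)
    (fun x => ⟨PolynomialModule.single B 0 x, by
      show PolynomialModule.eval (-c) _ = x
      rw [PolynomialModule.eval_single, pow_zero, one_smul]⟩)
    (fun p => eval_eq_zero_iff c p) j]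
  rw [h0_restrict (evalRingHom (-c)) hE, restrict_restrict, restrict_id Λ (by
    ext b; simp), List.map_append, List.map_map, List.map_singleton]
  have e2 : List.map (⇑(evalRingHom (-c)) ∘ ⇑C) l = l := by
    conv_rhs => rw [← List.map_id l]
    refine List.map_congr_left fun b _ => ?_
    simp
  rw [e2, map_pow, coe_evalRingHom, eval_X]
  rw [h0_perm Λ (List.perm_append_singleton ((-c) ^ n) l), h0_perm Λ
    (List.perm_append_singleton (c ^ n) l)]
  have e3 : (-c) ^ n = (((-1 : Bˣ) ^ n : Bˣ) : B) * c ^ n := by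
    rw [Units.val_pow_eq_pow_val, Units.val_neg, Units.val_one, neg_pow]
  rw [e3, h0_cons_unit]

end poly

end Crest.Agent.R188.SX
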