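import Crest.Agent.R188.SX4

/-!
# R188, S-level (helper546), part 5: Euler characteristics over `B[q]/(q^n)`
-/

set_option autoImplicit false

namespace Crest.Agent.R188.SX

open scoped ENNReal Pointwise Polynomial
open Polynomial
open Crest.Agent.R183 Crest.Agent.R183.Res
open Crest.Agent.R188.Kos Crest.Agent.R188.Chi

universe u v w v₁ v₂ v₃

section filt

variable {B : Type u} [CommRing B] {E : Type v} [AddCommGroup E] [Module B E] {n : ℕ}

variable (B E n) in
/-- `q^i E₁` -/
noncomputable abbrev Wf (i : ℕ) : Submodule (B1 B n) (E1 B E n) :=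
  (qq B n ^ i) • (⊤ : Submodule (B1 B n) (E1 B E n))

theorem mem_Wf {i : ℕ} {x : E1 B E n} : x ∈ Wf B E n i ↔ ∃ y, (qq B n ^ i) • y = x := by
  rw [Submodule.mem_smul_pointwise_iff_exists]
  exact ⟨fun ⟨y, _, hy⟩ => ⟨y, hy⟩, fun ⟨y, hy⟩ => ⟨y, trivial, hy⟩⟩

theorem Wf_succ_le (i : ℕ) : Wf B E n (i + 1) ≤ Wf B E n i := by
  intro x hx
  rw [mem_Wf] at hx ⊢
  obtain ⟨y, rfl⟩ := hx
  exact ⟨qq B n • y, by rw [smul_smul, pow_succ]⟩

/-- class in `E₁` of a polynomial -/
noncomputable def toE1 (p : PolynomialModule B E) : E1 B E n := Submodule.Quotient.mk p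

theorem qq_pow_smul (i : ℕ) (p : PolynomialModule B E) :
    (qq B n ^ i) • (toE1 p : E1 B E n) = toE1 ((X ^ i : B[X]) • p) := by
  rw [qq, ← map_pow]
  rfl

theorem toE1_add (p r : PolynomialModule B E) : (toE1 (p + r) : E1 B E n) = toE1 p + toE1 r := rfl

theorem toE1_eq_zero {p : PolynomialModule B E} :
    (toE1 p : E1 B E n) = 0 ↔ ∃ r, (X ^ n : B[X]) • r = p := by
  unfold toE1
  rw [Submodule.Quotient.mk_eq_zero]
  exact mem_smul_top_iff n p

theorem toE1_surjective (x : E1 B E n) : ∃ p, toE1 p = x := by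
  obtain ⟨p, hp⟩ := Submodule.Quotient.mk_surjective _ x
  exact ⟨p, hp⟩

theorem exists_split (p : PolynomialModule B E) :
    ∃ r e, p = (X : B[X]) • r + PolynomialModule.single B 0 e := by
  have h : PolynomialModule.eval (-0) (p - PolynomialModule.single B 0
      (PolynomialModule.eval (0 : B) p)) = 0 := by
    rw [neg_zero, map_sub, PolynomialModule.eval_single, pow_zero, one_smul, sub_self]
  obtain ⟨r, hr⟩ := (eval_eq_zero_iff (0 : B) _).1 h
  refine ⟨r, PolynomialModule.eval (0 : B) p, ?_⟩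
  rw [C_0, add_zero] at hr
  rw [hr]
  abel

theorem poly_smul_single (f : B[X]) (e : E) : f • PolynomialModule.single B 0 e =
    (X : B[X]) • (f.divX • PolynomialModule.single B 0 e) +
      PolynomialModule.single B 0 (f.eval 0 • e) := by
  have h1 : f = X * f.divX + C (f.eval 0) := by
    conv_lhs => rw [← X_mul_divX_add f, coeff_zero_eq_eval_zero]
  conv_lhs => rw [h1, add_smul, mul_smul]
  congr 1
  rw [← monomial_zero_left, PolynomialModule.monomial_smul_single]

variable (hn : 1 ≤ n)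

/-- the graded pieces -/
noncomputable def fE (i : ℕ) [Module (B1 B n) E] (hE : ∀ (b : B1 B n) (e : E), b • e = ep B hn b • e) :
    E →ₗ[B1 B n] (E1 B E n ⧸ Wf B E n (i + 1)) where
  toFun e := Submodule.Quotient.mk ((qq B n ^ i) • (toE1 (PolynomialModule.single B 0 e) : E1 B E n))
  map_add' e e' := by
    rw [PolynomialModule.single_add, toE1_add, smul_add]
    rfl
  map_smul' b e := by
    obtain ⟨f, rfl⟩ := Ideal.Quotient.mk_surjective b
    rw [RingHom.id_apply, hE, ep_mk, ← Submodule.Quotient.mk_smul, Submodule.Quotient.eq,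
      smul_comm, ← smul_sub]
    have h1 : (Ideal.Quotient.mk (Ideal.span {(X : B[X]) ^ n}) f) •
        (toE1 (PolynomialModule.single B 0 e) : E1 B E n) =
        toE1 (f • PolynomialModule.single B 0 e) := rfl
    rw [h1, poly_smul_single, toE1_add]
    rw [mem_Wf]
    refine ⟨-(toE1 (f.divX • PolynomialModule.single B 0 e)), ?_⟩
    have h2 : (toE1 ((X : B[X]) • (f.divX • PolynomialModule.single B 0 e)) : E1 B E n) =
        qq B n • toE1 (f.divX • PolynomialModule.single B 0 e) := rfl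
    rw [h2, pow_succ, mul_smul, smul_neg]
    congr 1
    abel

theorem fE_injective {i : ℕ} (hi : i < n) [Module (B1 B n) E]
    (hE : ∀ (b : B1 B n) (e : E), b • e = ep B hn b • e) :
    Function.Injective (fE hn i hE) := by
  rw [injective_iff_map_eq_zero]
  intro e he
  have h1 : (qq B n ^ i) • (toE1 (PolynomialModule.single B 0 e) : E1 B E n) ∈ Wf B E n (i + 1) :=
    (Submodule.Quotient.mk_eq_zero _).1 he
  rw [mem_Wf] at h1
  obtain ⟨y, hy⟩ := h1
  obtain ⟨p, rfl⟩ := toE1_surjective y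
  rw [qq_pow_smul, qq_pow_smul, ← sub_eq_zero] at hy
  obtain ⟨r, hr⟩ := toE1_eq_zero.1 (show (toE1 ((X ^ (i + 1) : B[X]) • p -
    (X ^ i : B[X]) • PolynomialModule.single B 0 e) : E1 B E n) = 0 from hy)
  have h2 := congrArg (fun r => r.coeff i) hr
  have h3 : ((X ^ (i + 1) : B[X]) • p).coeff i = 0 := by
    rw [coeff_X_pow_smul, if_neg (by omega)]
  have h4 : ((X ^ i : B[X]) • PolynomialModule.single B 0 e).coeff i = e := by
    rw [coeff_X_pow_smul, if_pos le_rfl]
    simp
  have h5 : ((X ^ n : B[X]) • r).coeff i = 0 := by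
    rw [coeff_X_pow_smul, if_neg (by omega)]
  have h6 : ((X ^ (i + 1) : B[X]) • p - (X ^ i : B[X]) • PolynomialModule.single B 0 e).coeff i =
      ((X ^ (i + 1) : B[X]) • p).coeff i -
        ((X ^ i : B[X]) • PolynomialModule.single B 0 e).coeff i := by
    rw [sub_eq_add_neg, PolynomialModule.coeff_add, Finsupp.add_apply, sub_eq_add_neg]
    rfl
  have h7 : ((X ^ n : B[X]) • r).coeff i = ((X ^ (i + 1) : B[X]) • p -
    (X ^ i : B[X]) • PolynomialModule.single B 0 e).coeff i := h2
  rw [h5, h6, h3, h4, zero_sub] at h7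
  exact neg_eq_zero.1 h7.symm

theorem fE_exact (i : ℕ) [Module (B1 B n) E]
    (hE : ∀ (b : B1 B n) (e : E), b • e = ep B hn b • e) :
    Function.Exact (fE hn i hE) (Submodule.factor (Wf_succ_le (B := B) (E := E) (n := n) i)) := by
  intro x
  obtain ⟨x, rfl⟩ := Submodule.mkQ_surjective _ x
  rw [Submodule.mkQ_apply]
  constructor
  · intro h
    have h1 : x ∈ Wf B E n i := (Submodule.Quotient.mk_eq_zero _).1 h
    rw [mem_Wf] at h1
    obtain ⟨y, rfl⟩ := h1
    obtain ⟨p, rfl⟩ := toE1_surjective y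
    obtain ⟨r, e, rfl⟩ := exists_split p
    refine ⟨e, ?_⟩
    show Submodule.Quotient.mk _ = _
    rw [Submodule.Quotient.eq, ← smul_sub, toE1_add, mem_Wf]
    refine ⟨-(toE1 r), ?_⟩
    have h2 : (toE1 ((X : B[X]) • r) : E1 B E n) = qq B n • toE1 r := rfl
    rw [h2, pow_succ, mul_smul, smul_neg]
    congr 1
    abel
  · rintro ⟨e, he⟩
    rw [← he]
    show (Submodule.Quotient.mk ((qq B n ^ i) • (toE1 (PolynomialModule.single B 0 e) :
      E1 B E n)) : E1 B E n ⧸ Wf B E n i) = 0
    rw [Submodule.Quotient.mk_eq_zero, mem_Wf]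
    exact ⟨_, rfl⟩

variable (Λ : AddLen.{u, v} B) (F : MCx (B1 B n))

theorem hX_E (hn : 1 ≤ n) [Module (B1 B n) E]
    (hE : ∀ (b : B1 B n) (e : E), b • e = ep B hn b • e) (i : ℕ) :
    hX (Λ.restrict (io B n)) F E i = hX Λ (F.map (ep B hn)) E i := by
  have hc : SMulCommClass (B1 B n) B E := ⟨fun a b x => by rw [hE, hE, smul_comm]⟩
  rw [hX_restrict F hE (Λ.restrict (io B n)) i, restrict_restrict, restrict_id Λ (ep_comp_io hn),
    hX_map Λ F (ep B hn) hE]

theorem hX_Z_le (i : ℕ) (hi : i ≤ n) (j : ℕ) :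
    hX (Λ.restrict (io B n)) F (E1 B E n ⧸ Wf B E n i) j ≤
      i * hX Λ (F.map (ep B hn)) E j := by
  let iE : Module (B1 B n) E := Module.compHom E (ep B hn)
  have hE : ∀ (b : B1 B n) (e : E), b • e = ep B hn b • e := fun _ _ => rfl
  induction i with
  | zero =>
    have : Subsingleton (E1 B E n ⧸ Wf B E n 0) := by
      rw [Submodule.Quotient.subsingleton_iff, eq_top_iff]
      intro x _
      rw [mem_Wf]
      exact ⟨x, by rw [pow_zero, one_smul]⟩
    rw [hX_subsingleton]
    exact zero_le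
  | succ i ih =>
    have h1 := hX_mid_le (Λ.restrict (io B n)) (f := fE hn i hE)
      (g := Submodule.factor (Wf_succ_le (B := B) (E := E) (n := n) i)) F
      (fun a x => map_smul _ a x) (fun a x => map_smul _ a x) (fE_injective hn (by omega) hE)
      (Submodule.factor_surjective _) (fE_exact hn i hE) j
    refine h1.trans ?_
    rw [hX_E Λ F hn hE j]
    push_cast
    rw [add_mul, one_mul, add_comm]
    gcongr
    exact ih (by omega)

theorem chiX_Z (N : ℕ) (hf : ∀ j < N, hX Λ (F.map (ep B hn)) E j ≠ ⊤)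
    (h0 : hX Λ (F.map (ep B hn)) E N = 0) (i : ℕ) (hi : i ≤ n) :
    chiX (Λ.restrict (io B n)) F (E1 B E n ⧸ Wf B E n i) N =
      i * chiX Λ (F.map (ep B hn)) E N := by
  let iE : Module (B1 B n) E := Module.compHom E (ep B hn)
  have hE : ∀ (b : B1 B n) (e : E), b • e = ep B hn b • e := fun _ _ => rfl
  induction i with
  | zero =>
    have : Subsingleton (E1 B E n ⧸ Wf B E n 0) := by
      rw [Submodule.Quotient.subsingleton_iff, eq_top_iff]
      intro x _
      rw [mem_Wf]
      exact ⟨x, by rw [pow_zero, one_smul]⟩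
    rw [chiX_eq]
    simp [hX_subsingleton]
  | succ i ih =>
    have hfin : ∀ j < N, hX (Λ.restrict (io B n)) F (E1 B E n ⧸ Wf B E n i) j ≠ ⊤ := fun j hj =>
      ne_top_of_le_ne_top (ENNReal.mul_ne_top (ENNReal.natCast_ne_top _) (hf j hj))
        (hX_Z_le hn Λ F i (by omega) j)
    have hz : hX (Λ.restrict (io B n)) F (E1 B E n ⧸ Wf B E n i) N = 0 := by
      have := hX_Z_le hn Λ F (E := E) i (by omega) N
      rw [h0, mul_zero] at this
      exact le_antisymm this zero_le
    have h1 := chiX_add (Λ.restrict (io B n)) (f := fE hn i hE)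
      (g := Submodule.factor (Wf_succ_le (B := B) (E := E) (n := n) i)) F
      (fun a x => map_smul _ a x) (fun a x => map_smul _ a x) (fE_injective hn (by omega) hE)
      (Submodule.factor_surjective _) (fE_exact hn i hE) N
      (fun j hj => by rw [hX_E Λ F hn hE j]; exact hf j hj) hfin hz
    have h2 : chiX (Λ.restrict (io B n)) F E N = chiX Λ (F.map (ep B hn)) E N := by
      rw [chiX_eq, chiX_eq]
      exact Finset.sum_congr rfl fun j _ => by rw [hX_E Λ F hn hE j]
    rw [h1, ih (by omega), h2]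
    push_cast
    ring

/-- `Z_n = E₁` -/
noncomputable def Zn : (E1 B E n ⧸ Wf B E n n) ≃ₗ[B1 B n] E1 B E n :=
  Submodule.quotEquivOfEqBot _ (by
    rw [eq_bot_iff]
    intro x hx
    rw [mem_Wf] at hx
    obtain ⟨y, hy⟩ := hx
    have h1 : (qq B n ^ n) • y = 0 := by rw [qq_pow]; exact zero_smul (B1 B n) y
    rw [← hy, h1]
    exact Submodule.zero_mem _)

/-- **(D2)**, lengths -/
theorem hX_E1_le (j : ℕ) :
    hX (Λ.restrict (io B n)) F (E1 B E n) j ≤ n * hX Λ (F.map (ep B hn)) E j := by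
  rw [← hX_congr (Λ.restrict (io B n)) F (Zn (B := B) (E := E) (n := n))
    (fun a x => map_smul _ a x) j]
  exact hX_Z_le hn Λ F n le_rfl j

/-- **(D2)**, Euler characteristics -/
theorem chiX_E1 (N : ℕ) (hf : ∀ j < N, hX Λ (F.map (ep B hn)) E j ≠ ⊤)
    (h0 : hX Λ (F.map (ep B hn)) E N = 0) :
    chiX (Λ.restrict (io B n)) F (E1 B E n) N = n * chiX Λ (F.map (ep B hn)) E N := by
  rw [← chiX_congr (Λ.restrict (io B n)) F (Zn (B := B) (E := E) (n := n))
    (fun a x => map_smul _ a x) N]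
  exact chiX_Z hn Λ F N hf h0 n le_rfl

end filt

end Crest.Agent.R188.SX
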