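import Crest.Agent.R188.SX5

/-!
# R188, S-level (helper546), part 6: the tower `Γ[q_1..q_d]/(q_i^n)`
-/

set_option autoImplicit false

namespace Crest.Agent.R188.SX

open scoped ENNReal Pointwise Polynomial
open Polynomial
open Crest.Agent.R183 Crest.Agent.R183.Res
open Crest.Agent.R188.Kos Crest.Agent.R188.Chi

universe u v w v₁ v₂ v₃

/-- The result of adjoining nilpotent variables `q_c` (`c ∈ cs`), `q_c^n = 0`. -/
structure Tow {Γ : Type u} [CommRing Γ] (Λ : AddLen.{u, v} Γ) (D : Type v) [AddCommGroup D]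
    [Module Γ D] (n : ℕ) (cs : List Γ) where
  B : Type u
  [ring : CommRing B]
  ι : Γ →+* B
  ρ : B →+* Γ
  ρι : ρ.comp ι = RingHom.id Γ
  q : List B
  len : q.length = cs.length
  ρq : ∀ x ∈ q, ρ x = 0
  qn : ∀ x ∈ q, x ^ n = 0
  nil : RingHom.ker ρ ^ (cs.length * n + 1) = ⊥
  E : Type v
  [grp : AddCommGroup E]
  [mod : Module B E]
  h0eq : ∀ (l : List Γ) (j : ℕ), h0 (Λ.restrict ι)
    (l.map ι ++ List.zipWith (fun c x => ι c + x) cs q) E j = h0 Λ (l ++ cs.map (· ^ n)) D j
  hXle : ∀ (F : MCx B) (j : ℕ), hX (Λ.restrict ι) F E j ≤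
    ((n ^ cs.length : ℕ) : ℝ≥0∞) * hX Λ (F.map ρ) D j
  chi : ∀ (F : MCx B) (N : ℕ), (∀ j < N, hX Λ (F.map ρ) D j ≠ ⊤) → hX Λ (F.map ρ) D N = 0 →
    chiX (Λ.restrict ι) F E N = ((n ^ cs.length : ℕ) : ℝ) * chiX Λ (F.map ρ) D N
  lift : ∀ (T : Type u) [CommRing T] (ψ : Γ →+* T) (r : List T), r.length = cs.length →
    (∀ x ∈ r, x ^ n = 0) → ∃ ψ' : B →+* T, ψ'.comp ι = ψ ∧ q.map ψ' = r
  η : D →+ E
  ηs : ∀ (a : Γ) (x : D), η (a • x) = ι a • η x
  ext : ∀ (Y : Type v) [AddCommGroup Y] [Module B Y] (g : D →+ Y),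
    (∀ (a : Γ) (x : D), g (a • x) = ι a • g x) → ∃ g' : E →ₗ[B] Y, ∀ x, g' (η x) = g x

attribute [instance] Tow.ring Tow.grp Tow.mod

section base

variable {Γ : Type u} [CommRing Γ] (Λ : AddLen.{u, v} Γ) (D : Type v) [AddCommGroup D]
    [Module Γ D] (n : ℕ)

theorem MCx_map_id (F : MCx Γ) : F.map (RingHom.id Γ) = F := by
  cases F with
  | mk ι fin dec d dd =>
    refine MCx.ext' fun n => ?_
    ext i j
    rfl

/-- no variable -/
noncomputable def towNil : Tow Λ D n [] where
  B := Γ
  ι := RingHom.id Γ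
  ρ := RingHom.id Γ
  ρι := rfl
  q := []
  len := rfl
  ρq := fun x hx => absurd hx List.not_mem_nil
  qn := fun x hx => absurd hx List.not_mem_nil
  nil := by
    rw [List.length_nil, zero_mul, zero_add, pow_one, eq_bot_iff]
    intro x hx
    exact hx
  E := D
  h0eq := fun l j => by
    rw [restrict_id Λ rfl]
    simp
  hXle := fun F j => by
    rw [restrict_id Λ rfl, MCx_map_id]
    simp
  chi := fun F N _ _ => by
    rw [restrict_id Λ rfl, MCx_map_id]
    simp
  lift := fun T _ ψ r hr _ => ⟨ψ, rfl, (List.eq_nil_of_length_eq_zero hr).symm⟩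
  η := AddMonoidHom.id D
  ηs := fun _ _ => rfl
  ext := fun Y _ _ g hg => ⟨{ toFun := g, map_add' := map_add g, map_smul' := hg }, fun _ => rfl⟩

end base

section step

variable {B : Type u} [CommRing B] {E : Type v} [AddCommGroup E] [Module B E] {n : ℕ}

theorem sub_io_ep_mem (hn : 1 ≤ n) (b : B1 B n) : b - io B n (ep B hn b) ∈ Ideal.span {qq B n} := by
  obtain ⟨f, rfl⟩ := Ideal.Quotient.mk_surjective b
  rw [ep_mk]
  have h1 : (X : B[X]) ∣ f - C (f.eval 0) := by
    rw [X_dvd_iff]
    simp [coeff_zero_eq_eval_zero]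
  obtain ⟨g, hg⟩ := h1
  rw [Ideal.mem_span_singleton]
  refine ⟨Ideal.Quotient.mk _ g, ?_⟩
  rw [qq, ← map_mul, ← hg, map_sub]
  rfl

/-- extension of semilinear maps -/
theorem exists_extE (Y : Type v) [AddCommGroup Y] [Module (B1 B n) Y] (g : E →+ Y)
    (hg : ∀ (a : B) (x : E), g (a • x) = io B n a • g x) :
    ∃ g' : E1 B E n →ₗ[B1 B n] Y, ∀ x, g' (toE1 (PolynomialModule.single B 0 x)) = g x := by
  let iY : Module B[X] Y := Module.compHom Y (Ideal.Quotient.mk (Ideal.span {(X : B[X]) ^ n}))
  have hY : ∀ (f : B[X]) (y : Y), f • y = (Ideal.Quotient.mk (Ideal.span {(X : B[X]) ^ n}) f) • y :=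
    fun _ _ => rfl
  -- the map on polynomials
  let G : PolynomialModule B E →+ Y :=
    { toFun := fun p => p.coeff.sum fun i e => (X ^ i : B[X]) • g e
      map_zero' := Finsupp.sum_zero_index
      map_add' := fun p r => by
        rw [PolynomialModule.coeff_add]
        exact Finsupp.sum_add_index' (fun i => by rw [map_zero, smul_zero])
          (fun i a b => by rw [map_add, smul_add]) }
  have hG : ∀ i e, G (PolynomialModule.single B i e) = (X ^ i : B[X]) • g e := by
    intro i e
    show (PolynomialModule.single B i e).coeff.sum (fun i e => (X ^ i : B[X]) • g e) = _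
    rw [PolynomialModule.coeff_single]
    exact Finsupp.sum_single_index (by rw [map_zero, smul_zero])
  have hGl : ∀ (f : B[X]) (p : PolynomialModule B E), G (f • p) = f • G p := by
    intro f p
    induction p using PolynomialModule.induction_linear with
    | zero => rw [smul_zero, map_zero, smul_zero]
    | add p r hp hr => rw [smul_add, map_add, hp, hr, map_add, smul_add]
    | single i e =>
      induction f using Polynomial.induction_on' with
      | add f h hf hh => rw [add_smul, map_add, hf, hh, add_smul]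
      | monomial k b =>
        rw [PolynomialModule.monomial_smul_single, hG, hG, hg, smul_smul,
          ← C_mul_X_pow_eq_monomial, mul_assoc, ← pow_add, mul_comm (C b), mul_smul]
        rfl
  let G' : PolynomialModule B E →ₗ[B[X]] Y :=
    { toFun := G, map_add' := map_add G, map_smul' := hGl }
  have hk : ((Ideal.span {(X : B[X]) ^ n}) • (⊤ : Submodule B[X] (PolynomialModule B E))) ≤
      LinearMap.ker G' := by
    intro p hp
    rw [mem_smul_top_iff] at hp
    obtain ⟨r, rfl⟩ := hp
    rw [LinearMap.mem_ker, map_smul, hY, map_pow]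
    have := qq_pow (B := B) n
    rw [qq] at this
    rw [this]
    exact zero_smul (B1 B n) (G' r)
  let G'' := Submodule.liftQ _ G' hk
  refine ⟨{ toFun := G'', map_add' := map_add G'', map_smul' := ?_ }, ?_⟩
  · intro b x
    obtain ⟨f, rfl⟩ := Ideal.Quotient.mk_surjective b
    exact map_smul G'' f x
  · intro x
    show G (PolynomialModule.single B 0 x) = g x
    rw [hG, pow_zero, one_smul]

theorem exists_liftB1 (T : Type u) [CommRing T] (ψ : B →+* T) (r : T) (hr : r ^ n = 0) :
    ∃ ψ' : B1 B n →+* T, ψ'.comp (io B n) = ψ ∧ ψ' (qq B n) = r := by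
  refine ⟨Ideal.Quotient.lift _ (eval₂RingHom ψ r) ?_, ?_, ?_⟩
  · intro a ha
    rw [Ideal.mem_span_singleton] at ha
    obtain ⟨g, rfl⟩ := ha
    rw [map_mul, map_pow, coe_eval₂RingHom, eval₂_X, hr, zero_mul]
  · ext b
    show eval₂ ψ r (C b) = ψ b
    simp
  · show eval₂ ψ r X = r
    simp

end step

section cons

variable {Γ : Type u} [CommRing Γ] {Λ : AddLen.{u, v} Γ} {D : Type v} [AddCommGroup D]
    [Module Γ D] {n : ℕ} {cs : List Γ}

/-- one more variable -/
noncomputable def Tow.cons (hn : 1 ≤ n) (T : Tow Λ D n cs) (c : Γ) : Tow Λ D n (c :: cs) where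
  B := B1 T.B n
  ι := (io T.B n).comp T.ι
  ρ := T.ρ.comp (ep T.B hn)
  ρι := by
    rw [RingHom.comp_assoc, ← RingHom.comp_assoc T.ι, ep_comp_io, RingHom.id_comp, T.ρι]
  q := qq T.B n :: T.q.map (io T.B n)
  len := by simp [T.len]
  ρq := by
    intro x hx
    rw [List.mem_cons] at hx
    rcases hx with rfl | hx
    · rw [RingHom.comp_apply, ep_qq, map_zero]
    · rw [List.mem_map] at hx
      obtain ⟨y, hy, rfl⟩ := hx
      rw [RingHom.comp_apply, ep_io, T.ρq y hy]
  qn := by
    intro x hx
    rw [List.mem_cons] at hx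
    rcases hx with rfl | hx
    · exact qq_pow n
    · rw [List.mem_map] at hx
      obtain ⟨y, hy, rfl⟩ := hx
      rw [← map_pow, T.qn y hy, map_zero]
  nil := by
    have h1 : RingHom.ker (T.ρ.comp (ep T.B hn)) ≤
        (RingHom.ker T.ρ).map (io T.B n) ⊔ Ideal.span {qq T.B n} := by
      intro b hb
      rw [← sub_add_cancel b (io T.B n (ep T.B hn b))]
      refine Ideal.add_mem _ (Ideal.mem_sup_right (sub_io_ep_mem hn b))
        (Ideal.mem_sup_left (Ideal.mem_map_of_mem _ ?_))
      exact hb
    have h2 : (c :: cs).length * n + 1 = (cs.length * n + 1) + n := by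
      rw [List.length_cons]; ring
    rw [eq_bot_iff, h2]
    refine (Ideal.pow_right_mono h1 _).trans (Ideal.sup_pow_add_le_pow_sup_pow.trans ?_)
    rw [← Ideal.map_pow, T.nil, Ideal.map_bot, Ideal.span_singleton_pow, qq_pow]
    simp
  E := E1 T.B T.E n
  h0eq := by
    intro l j
    have e1 : List.zipWith (fun c x => ((io T.B n).comp T.ι) c + x) (c :: cs)
        (qq T.B n :: T.q.map (io T.B n)) = (io T.B n (T.ι c) + qq T.B n) ::
        (List.zipWith (fun c x => T.ι c + x) cs T.q).map (io T.B n) := by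
      rw [List.zipWith_cons_cons, List.map_zipWith, List.zipWith_map_right]
      simp
    rw [e1, ← restrict_restrict]
    have e2 : (l.map ((io T.B n).comp T.ι) ++ ((io T.B n (T.ι c) + qq T.B n) ::
        (List.zipWith (fun c x => T.ι c + x) cs T.q).map (io T.B n))).Perm
        ((l.map T.ι ++ List.zipWith (fun c x => T.ι c + x) cs T.q).map (io T.B n) ++
          [io T.B n (T.ι c) + qq T.B n]) := by
      rw [List.map_append, List.map_map, List.append_assoc]
      exact List.Perm.append_left _ (List.perm_append_singleton _ _).symm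
    rw [h0_perm _ e2, h0_E1]
    have e3 : ((l.map T.ι ++ List.zipWith (fun c x => T.ι c + x) cs T.q) ++ [T.ι c ^ n]).Perm
        ((c ^ n :: l).map T.ι ++ List.zipWith (fun c x => T.ι c + x) cs T.q) := by
      rw [List.map_cons, List.cons_append, map_pow]
      exact List.perm_append_singleton _ _
    rw [h0_perm _ e3, T.h0eq]
    refine h0_perm _ ?_ j
    rw [List.map_cons, List.cons_append]
    exact List.perm_middle.symm
  hXle := by
    intro F j
    rw [← restrict_restrict]
    refine (hX_E1_le hn (Λ.restrict T.ι) F j).trans ?_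
    have h1 := T.hXle (F.map (ep T.B hn)) j
    rw [List.length_cons, pow_succ', Nat.cast_mul, mul_assoc]
    gcongr
    exact h1
  chi := by
    intro F N hf h0
    have h1 : hX (Λ.restrict T.ι) (F.map (ep T.B hn)) T.E N = 0 := by
      have := T.hXle (F.map (ep T.B hn)) N
      have h2 : hX Λ ((F.map (ep T.B hn)).map T.ρ) D N = 0 := h0
      rw [h2, mul_zero] at this
      exact le_antisymm this zero_le
    have h2 : ∀ j < N, hX (Λ.restrict T.ι) (F.map (ep T.B hn)) T.E j ≠ ⊤ := fun j hj =>
      ne_top_of_le_ne_top (ENNReal.mul_ne_top (ENNReal.natCast_ne_top _) (hf j hj))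
        (T.hXle (F.map (ep T.B hn)) j)
    rw [← restrict_restrict, chiX_E1 hn (Λ.restrict T.ι) F N h2 h1,
      T.chi (F.map (ep T.B hn)) N hf h0, List.length_cons, pow_succ']
    push_cast
    rw [mul_assoc]
    rfl
  lift := by
    intro R _ ψ r hr hrn
    cases r with
    | nil => simp at hr
    | cons r₀ r =>
      obtain ⟨ψ₁, h1, h2⟩ := T.lift R ψ r (by simpa using hr)
        (fun x hx => hrn x (List.mem_cons_of_mem _ hx))
      obtain ⟨ψ₂, h3, h4⟩ := exists_liftB1 (n := n) R ψ₁ r₀ (hrn _ List.mem_cons_self)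
      refine ⟨ψ₂, ?_, ?_⟩
      · rw [← RingHom.comp_assoc, h3, h1]
      · rw [List.map_cons, h4, List.map_map, ← h2]
        congr 1
        refine List.map_congr_left fun x _ => ?_
        rw [← h3]
        rfl
  η :=
    { toFun := fun x => toE1 (PolynomialModule.single T.B 0 (T.η x))
      map_zero' := by rw [map_zero, PolynomialModule.single_zero]; rfl
      map_add' := fun x y => by rw [map_add, PolynomialModule.single_add]; rfl }
  ηs := by
    intro a x
    show toE1 (PolynomialModule.single T.B 0 (T.η (a • x))) = _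
    rw [T.ηs]
    have : PolynomialModule.single T.B 0 (T.ι a • T.η x) =
        (C (T.ι a) : T.B[X]) • PolynomialModule.single T.B 0 (T.η x) := by
      rw [← monomial_zero_left, PolynomialModule.monomial_smul_single]
    rw [this]
    rfl
  ext := by
    intro Y _ _ g hg
    let iY : Module T.B Y := Module.compHom Y (io T.B n)
    obtain ⟨g₁, h1⟩ := T.ext Y g hg
    obtain ⟨g₂, h2⟩ := exists_extE (n := n) Y g₁.toAddMonoidHom (fun a x => map_smul g₁ a x)
    exact ⟨g₂, fun x => (h2 _).trans (h1 x)⟩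

variable (Λ D n) in
/-- the tower exists -/
noncomputable def tow (hn : 1 ≤ n) : ∀ cs : List Γ, Tow Λ D n cs
  | [] => towNil Λ D n
  | (c :: cs) => (tow hn cs).cons hn c

end cons

end Crest.Agent.R188.SX
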