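import Crest.Agent.R188.SX6
import Crest.Agent.R188.KosPos

/-!
# R188, S-level (helper546), part 7: VANISH and POSITIVE (abstract form)
-/

set_option autoImplicit false

namespace Crest.Agent.R188.SX

open scoped ENNReal Pointwise
open IsLocalRing
open Crest.Agent.R183 Crest.Agent.R183.Res
open Crest.Agent.R188.Kos Crest.Agent.R188.Chi

universe u v w v₁ v₂ v₃

section nh

variable {S : Type w} [CommRing S] {Γ : Type u} [CommRing Γ] {B : Type u} [CommRing B]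

/-- null-homotopic powers -/
theorem pow_mem_Nh {ρ : B →+* Γ} (hρ : Function.Surjective ρ) {e : ℕ}
    (hnil : RingHom.ker ρ ^ e = ⊥) {τ : S →+* B} {φ : S →+* Γ} (hτ : ρ.comp τ = φ)
    {M : Type v₁} [AddCommGroup M] [Module S M] {F : MCx S} {ε : (F.ι 0 → S) →ₗ[S] M}
    (hF : IsRes F ε) {X : Type v} [AddCommGroup X] [Module B X] [Module S X] [SMulCommClass S B X]
    (hX : ∀ (s : S) (x : X), s • x = τ s • x) {b : B} {K : ℕ}
    (hb : ρ b ^ K ∈ (Module.annihilator S M).map φ) {m : ℕ} (hm : K * (1 + e) ≤ m) :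
    b ^ m ∈ (KosG.FT F B X).Nh := by
  set J : Ideal B := (Module.annihilator S M).map τ with hJ
  have h1 : J ≤ (KosG.FT F B X).Nh := by
    rw [hJ, Ideal.map_le_iff_le_comap]
    intro a ha
    rw [Ideal.mem_comap]
    exact mem_Nh_FT (hF.nhom fun y => Module.mem_annihilator.1 ha y) (hX a)
  have h2 : b ^ K ∈ J ⊔ RingHom.ker ρ := by
    have h3 : b ^ K ∈ (J.map ρ).comap ρ := by
      rw [Ideal.mem_comap, map_pow, hJ, Ideal.map_map, hτ]
      exact hb
    rw [Ideal.comap_map_of_surjective ρ hρ] at h3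
    exact h3
  have h3 : (b ^ K) ^ (1 + e) ∈ J := by
    have h4 : (J ⊔ RingHom.ker ρ) ^ (1 + e) ≤ J ^ 1 ⊔ (RingHom.ker ρ) ^ e :=
      Ideal.sup_pow_add_le_pow_sup_pow
    have h5 := h4 (Ideal.pow_mem_pow h2 (1 + e))
    rwa [pow_one, hnil, sup_bot_eq] at h5
  apply h1
  obtain ⟨k, rfl⟩ := Nat.exists_eq_add_of_le hm
  rw [pow_add, pow_mul]
  exact Ideal.mul_mem_right _ _ h3

end nh

section bounds

variable {S : Type w} [CommRing S] {A : Type u} [CommRing A] (Λ : AddLen.{u, v} A)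
variable {X : Type v} [AddCommGroup X] [Module A X] [Module S X] [SMulCommClass S A X]

theorem hX_le_hK (F : MCx S) {l : List A} (hl : ∀ b ∈ l, b ∈ (KosG.FT F A X).Nh) (i : ℕ) :
    hX Λ F X i ≤ hK Λ l F X i := by
  have h1 : hK Λ l F X i = sh^[l.length] ((KosG.FT F A X).l Λ) i := l_kos_eq_sh Λ hl i
  rw [h1]
  exact le_sh_iterate _ _ _

theorem hX_le_hK_add (F : MCx S) {l : List A} (hl : ∀ b ∈ l, b ∈ (KosG.FT F A X).Nh) (i : ℕ) :
    hX Λ F X i ≤ hK Λ l F X (i + l.length) := by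
  have h1 : hK Λ l F X (i + l.length) = sh^[l.length] ((KosG.FT F A X).l Λ) (i + l.length) :=
    l_kos_eq_sh Λ hl _
  rw [h1]
  exact le_sh_iterate_add _ _ _

theorem h0_pow_le (l : List A) (a : A) (m j : ℕ) :
    h0 Λ (a :: l.map (· ^ m)) X j ≤ (m : ℝ≥0∞) ^ l.length * h0 Λ (a :: l) X j := by
  have e1 : ∀ l' : List A, h0 Λ (a :: l') X j = (Kos.kos l' ((deg0 A X).cone a)).l Λ j := fun l' =>
    ((kos_cone_comm l' a (deg0 A X)).some.l_eq Λ j).symm
  rw [e1, e1]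
  exact l_kos_pow_le Λ l _ m j

end bounds

section abstract

variable {S : Type w} [CommRing S] {Γ : Type u} [CommRing Γ] {Λ : AddLen.{u, v} Γ}
  {D : Type v} [AddCommGroup D] [Module Γ D] {s0 : S} {xs : List S} {φ : S →+* Γ}

/-- the reference numbers of the tower -/
theorem bn_tow_le {n : ℕ} (T : Tow Λ D n (xs.map φ)) (τ : S →+* T.B)
    (hτ0 : τ s0 = T.ι (φ s0))
    (hτx : xs.map τ = List.zipWith (fun c x => T.ι c + x) (xs.map φ) T.q)
    [Module S T.E] [SMulCommClass S T.B T.E] (l : List Γ) (j : ℕ) :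
    bn τ (Λ.restrict T.ι) (s0 :: xs) (l.map T.ι) T.E j ≤
      sh^[xs.length] (h0 Λ (φ s0 :: l) D) j := by
  rw [bn_eq, List.map_cons, hτ0, hτx]
  have e1 : ((T.ι (φ s0) :: List.zipWith (fun c x => T.ι c + x) (xs.map φ) T.q) ++
      l.map T.ι).Perm ((φ s0 :: l).map T.ι ++
      List.zipWith (fun c x => T.ι c + x) (xs.map φ) T.q) := by
    rw [List.map_cons, List.cons_append, List.cons_append]
    exact List.Perm.cons _ List.perm_append_comm
  rw [h0_perm _ e1, T.h0eq]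
  have e2 : ((φ s0 :: l) ++ (xs.map φ).map (· ^ n)).Perm ((xs.map φ).map (· ^ n) ++ (φ s0 :: l)) :=
    List.perm_append_comm
  rw [h0_perm _ e2]
  have h := h0_le_sh (X := D) Λ ((xs.map φ).map (· ^ n)) (φ s0 :: l) j
  rw [List.length_map, List.length_map] at h
  exact h

/-- the reference numbers at the bottom -/
theorem bn_le [Module S D] [SMulCommClass S Γ D] (l : List Γ) (j : ℕ) :
    bn φ Λ (s0 :: xs) l D j ≤ sh^[xs.length] (h0 Λ (φ s0 :: l) D) j := by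
  rw [bn_eq, List.map_cons]
  have e1 : ((φ s0 :: xs.map φ) ++ l).Perm (xs.map φ ++ (φ s0 :: l)) := by
    rw [List.cons_append]
    exact List.perm_middle.symm
  rw [h0_perm _ e1]
  have h := h0_le_sh (X := D) Λ (xs.map φ) (φ s0 :: l) j
  rwa [List.length_map] at h

theorem sh_const_le {h : ℕ → ℝ≥0∞} {c : ℝ≥0∞} (H : ∀ j, h j ≤ c) (e j : ℕ) :
    sh^[e] h j ≤ 2 ^ e * c := sh_iterate_le fun m _ _ => H m

variable [IsNoetherianRing S] [IsLocalRing S]
  (hs : RingTheory.Sequence.IsWeaklyRegular S (s0 :: xs))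
  (hsm : Ideal.ofList (s0 :: xs) = maximalIdeal S)
  {M : Type v₁} [AddCommGroup M] [Module S M] [Module.Finite S M]
  {F : MCx S} {ε : (F.ι 0 → S) →ₗ[S] M} (hF : IsRes F ε) {t : List S}
  (hM : ∃ N : ℕ, maximalIdeal S ^ N ≤ Module.annihilator S M ⊔ Ideal.ofList t)
  {v : List Γ} {K : ℕ}
  (hv : ∀ x ∈ v, x ^ K ∈ (Module.annihilator S M).map φ)
  (ht : ∀ x ∈ t, φ x ^ K ∈ (Module.annihilator S M).map φ)

include hs hsm hF hM hv ht in
/-- finiteness -/
theorem hX_finite [Module S D] [SMulCommClass S Γ D] (hφ : ∀ (s : S) (x : D), s • x = φ s • x)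
    (hfin : ∀ m, 1 ≤ m → ∀ j, h0 Λ (φ s0 :: v.map (· ^ m)) D j ≠ ⊤) (i : ℕ) :
    hX Λ F D i ≠ ⊤ := by
  obtain ⟨C, m₀, H⟩ := bd_main.{u, v} hs hsm t M hM
  set m := max (max m₀ (2 * K)) 1 with hm
  have hm0 : m₀ ≤ m := le_trans (le_max_left _ _) (le_max_left _ _)
  have hmK : K * (1 + 1) ≤ m := by
    rw [mul_comm]
    exact le_trans (le_max_right _ _) (le_max_left _ _)
  have hm1 : 1 ≤ m := le_max_right _ _
  have hker : RingHom.ker (RingHom.id Γ) ^ 1 = ⊥ := by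
    rw [pow_one, eq_bot_iff]
    intro x hx
    exact hx
  have hNh : ∀ b ∈ t.map (fun x => φ x ^ m) ++ v.map (· ^ m), b ∈ (KosG.FT F Γ D).Nh := by
    intro b hb
    rw [List.mem_append, List.mem_map, List.mem_map] at hb
    rcases hb with ⟨x, hx, rfl⟩ | ⟨x, hx, rfl⟩
    · exact pow_mem_Nh (ρ := RingHom.id Γ) Function.surjective_id hker rfl hF hφ (ht x hx) hmK
    · exact pow_mem_Nh (ρ := RingHom.id Γ) Function.surjective_id hker rfl hF hφ (hv x hx) hmK
  have h1 := H m hm0 Γ φ Λ D hφ (v.map (· ^ m)) F ε hF i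
  have h2 : ∀ j, bn φ Λ (s0 :: xs) (v.map (· ^ m)) D j ≠ ⊤ := fun j =>
    ne_top_of_le_ne_top (sh_iterate_ne_top (hfin m hm1) _ _) (bn_le _ j)
  have h3 : (m : ℝ≥0∞) * hK Λ (t.map (fun x => φ x ^ m) ++ v.map (· ^ m)) F D i ≠ ⊤ := by
    refine ne_top_of_le_ne_top ?_ h1
    refine ENNReal.mul_ne_top (ENNReal.natCast_ne_top _) (ENNReal.add_ne_top.2 ⟨?_, ?_⟩)
    · exact ENNReal.mul_ne_top (ENNReal.pow_ne_top (ENNReal.natCast_ne_top _)) (h2 i)
    · refine ENNReal.mul_ne_top (ENNReal.pow_ne_top (ENNReal.natCast_ne_top _)) ?_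
      exact ENNReal.sum_ne_top.2 fun j _ => h2 j
  refine ne_top_of_le_ne_top h3 ((hX_le_hK Λ F hNh i).trans ?_)
  exact le_mul_of_one_le_left zero_le (by exact_mod_cast hm1)

end abstract

/-- cancellation -/
theorem le_of_nat_mul_le {m : ℕ} (hm : 1 ≤ m) {x y : ℝ≥0∞} (h : (m : ℝ≥0∞) * x ≤ m * y) :
    x ≤ y := by
  have h0 : (m : ℝ≥0∞) ≠ 0 := by
    have : m ≠ 0 := by omega
    exact_mod_cast this
  exact (ENNReal.mul_le_mul_iff_right h0 (ENNReal.natCast_ne_top m)).1 h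

end Crest.Agent.R188.SX
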