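import Crest.Agent.R188.SX7

/-!
# R188, S-level (helper546), part 8: VANISH and POSITIVE (abstract form), continued
-/

set_option autoImplicit false

namespace Crest.Agent.R188.SX

open scoped ENNReal Pointwise
open IsLocalRing
open Crest.Agent.R183 Crest.Agent.R183.Res
open Crest.Agent.R188.Kos Crest.Agent.R188.Chi

universe u v w v₁ v₂ v₃

theorem MCx_map_map {A : Type u} [CommRing A] {B : Type v} [CommRing B] {C : Type w} [CommRing C]
    (F : MCx A) (f : A →+* B) (g : B →+* C) : (F.map f).map g = F.map (g.comp f) := rfl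

/-- Taylor data: for every `n`, a lift `τ_n` of `φ` to the tower -/
structure TData {S : Type w} [CommRing S] {Γ : Type u} [CommRing Γ] (Λ : AddLen.{u, v} Γ)
    (D : Type v) [AddCommGroup D] [Module Γ D] (s0 : S) (xs : List S) (φ : S →+* Γ) (n : ℕ) where
  T : Tow Λ D n (xs.map φ)
  τ : S →+* T.B
  τ0 : τ s0 = T.ι (φ s0)
  τx : xs.map τ = List.zipWith (fun c x => T.ι c + x) (xs.map φ) T.q
  τρ : T.ρ.comp τ = φ

section abstract

variable {S : Type w} [CommRing S] {Γ : Type u} [CommRing Γ] {Λ : AddLen.{u, v} Γ}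
  {D : Type v} [AddCommGroup D] [Module Γ D] {s0 : S} {xs : List S} {φ : S →+* Γ} {n : ℕ}

namespace TData

variable (Θ : TData Λ D s0 xs φ n)

/-- the length over the tower ring -/
noncomputable abbrev ΛB : AddLen.{u, v} Θ.T.B := Λ.restrict Θ.T.ι

/-- the complex `G_n` -/
noncomputable abbrev G (F : MCx S) : MCx Θ.T.B := F.map Θ.τ

theorem chi_G (F : MCx S) (N : ℕ) (hf : ∀ j < N, hX Λ (F.map φ) D j ≠ ⊤)
    (h0 : hX Λ (F.map φ) D N = 0) :
    chiX Θ.ΛB (Θ.G F) Θ.T.E N = ((n ^ xs.length : ℕ) : ℝ) * chiX Λ (F.map φ) D N := by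
  have e : (Θ.G F).map Θ.T.ρ = F.map φ := by rw [G, MCx_map_map, Θ.τρ]
  have := Θ.T.chi (Θ.G F) N (by rw [e]; exact hf) (by rw [e]; exact h0)
  rw [this, e, List.length_map]

variable {M : Type v₁} [AddCommGroup M] [Module S M]
  {F : MCx S} {ε : (F.ι 0 → S) →ₗ[S] M} (hF : IsRes F ε) {t : List S}
  {v : List Γ} {K : ℕ}
  (hv : ∀ x ∈ v, x ^ K ∈ (Module.annihilator S M).map φ)
  (ht : ∀ x ∈ t, φ x ^ K ∈ (Module.annihilator S M).map φ)

include hF hv ht in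
/-- all estimates for one `n` -/
theorem step {C m₀ : ℕ} (H : ∀ m, m₀ ≤ m → ∀ (A : Type u) [CommRing A] (φ : S →+* A)
    (Λ : AddLen.{u, v} A)
    (X : Type v) [AddCommGroup X] [Module A X] [Module S X] [SMulCommClass S A X]
    (_ : ∀ (a : S) (x : X), a • x = φ a • x) (l : List A) (F : MCx S)
    (ε : (F.ι 0 → S) →ₗ[S] M) (_ : IsRes F ε) (i : ℕ),
    (m : ℝ≥0∞) * hK Λ (t.map (fun x => φ x ^ m) ++ l) F X i ≤
      C * ((m : ℝ≥0∞) ^ (t.length + 1) * bn φ Λ (s0 :: xs) l X i +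
        (m : ℝ≥0∞) ^ t.length * ∑ j ∈ Finset.range i, bn φ Λ (s0 :: xs) l X j))
    {m : ℕ} (hm : m₀ ≤ m) (hmK : K * (1 + (xs.length * n + 1)) ≤ m) :
    ∃ hk b : ℕ → ℝ≥0∞, (∀ i, (m : ℝ≥0∞) * hk i ≤ C * ((m : ℝ≥0∞) ^ (t.length + 1) * b i +
        (m : ℝ≥0∞) ^ t.length * ∑ j ∈ Finset.range i, b j)) ∧
      (∀ i, hX Θ.ΛB (Θ.G F) Θ.T.E i ≤ hk i) ∧
      (∀ i, hX Θ.ΛB (Θ.G F) Θ.T.E i ≤ hk (i + (t.length + v.length))) ∧
      (∀ j, b j ≤ sh^[xs.length] (h0 Λ (φ s0 :: v.map (· ^ m)) D) j) := by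
  let iE : Module S Θ.T.E := Module.compHom Θ.T.E Θ.τ
  have hE : ∀ (s : S) (x : Θ.T.E), s • x = Θ.τ s • x := fun _ _ => rfl
  have hc : SMulCommClass S Θ.T.B Θ.T.E := ⟨fun a b x => by rw [hE, hE, smul_comm]⟩
  have hρ : Function.Surjective Θ.T.ρ := fun x => ⟨Θ.T.ι x, RingHom.congr_fun Θ.T.ρι x⟩
  have hnil := Θ.T.nil
  rw [List.length_map] at hnil
  have hNh : ∀ b ∈ t.map (fun x => Θ.τ x ^ m) ++ (v.map (· ^ m)).map Θ.T.ι,
      b ∈ (KosG.FT F Θ.T.B Θ.T.E).Nh := by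
    intro b hb
    rw [List.mem_append, List.mem_map, List.mem_map] at hb
    rcases hb with ⟨x, hx, rfl⟩ | ⟨y, hy, rfl⟩
    · refine pow_mem_Nh hρ hnil Θ.τρ hF hE ?_ hmK
      have : Θ.T.ρ (Θ.τ x) = φ x := RingHom.congr_fun Θ.τρ x
      rw [this]
      exact ht x hx
    · rw [List.mem_map] at hy
      obtain ⟨x, hx, rfl⟩ := hy
      rw [map_pow]
      refine pow_mem_Nh hρ hnil Θ.τρ hF hE ?_ hmK
      have : Θ.T.ρ (Θ.T.ι x) = x := RingHom.congr_fun Θ.T.ρι x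
      rw [this]
      exact hv x hx
  refine ⟨hK Θ.ΛB (t.map (fun x => Θ.τ x ^ m) ++ (v.map (· ^ m)).map Θ.T.ι) F Θ.T.E,
    bn Θ.τ Θ.ΛB (s0 :: xs) ((v.map (· ^ m)).map Θ.T.ι) Θ.T.E, ?_, ?_, ?_, ?_⟩
  · intro i
    exact H m hm Θ.T.B Θ.τ Θ.ΛB Θ.T.E hE ((v.map (· ^ m)).map Θ.T.ι) F ε hF i
  · intro i
    rw [← hX_map Θ.ΛB F Θ.τ hE]
    exact hX_le_hK Θ.ΛB F hNh i
  · intro i
    rw [← hX_map Θ.ΛB F Θ.τ hE]
    have h := hX_le_hK_add Θ.ΛB F hNh i
    simpa only [List.length_append, List.length_map] using h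
  · intro j
    exact bn_tow_le Θ.T Θ.τ Θ.τ0 Θ.τx (v.map (· ^ m)) j

end TData

variable [IsNoetherianRing S] [IsLocalRing S]
  (hs : RingTheory.Sequence.IsWeaklyRegular S (s0 :: xs))
  (hsm : Ideal.ofList (s0 :: xs) = maximalIdeal S)
  {M : Type v₁} [AddCommGroup M] [Module S M] [Module.Finite S M]
  {F : MCx S} {ε : (F.ι 0 → S) →ₗ[S] M} (hF : IsRes F ε) {t : List S}
  (hM : ∃ N : ℕ, maximalIdeal S ^ N ≤ Module.annihilator S M ⊔ Ideal.ofList t)
  {v : List Γ} {K : ℕ}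
  (hv : ∀ x ∈ v, x ^ K ∈ (Module.annihilator S M).map φ)
  (ht : ∀ x ∈ t, φ x ^ K ∈ (Module.annihilator S M).map φ)
  (Θ : ∀ n, 1 ≤ n → TData Λ D s0 xs φ n)

theorem abs_chiX_le {A : Type u} [CommRing A] (Λ : AddLen.{u, v} A) (F : MCx A) {X : Type v}
    [AddCommGroup X] [Module A X] (N : ℕ) :
    |chiX Λ F X N| ≤ ∑ i ∈ Finset.range N, (hX Λ F X i).toReal := by
  rw [chiX_eq]
  refine (Finset.abs_sum_le_sum_abs _ _).trans (Finset.sum_le_sum fun i _ => ?_)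
  rw [abs_mul, abs_pow, abs_neg, abs_one, one_pow, one_mul, abs_of_nonneg ENNReal.toReal_nonneg]

include hs hsm hF hM hv ht Θ in
/-- **VANISH** -/
theorem vanish [Module S D] [SMulCommClass S Γ D] (hφ : ∀ (s : S) (x : D), s • x = φ s • x)
    {Dd : ℕ} (hlen : F.Len Dd) {N : ℕ} (hN : Dd < N) {C' b' : ℕ}
    (hgr : ∀ m : ℕ, 1 ≤ m → ∀ j, h0 Λ (φ s0 :: v.map (· ^ m)) D j ≤ C' * (m : ℝ≥0∞) ^ b')
    (hab : t.length + b' < xs.length) : chiX Λ F D N = 0 := by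
  -- enlarge `K`
  have hv' : ∀ x ∈ v, x ^ (K + 1) ∈ (Module.annihilator S M).map φ := fun x hx => by
    rw [pow_succ]; exact Ideal.mul_mem_right _ _ (hv x hx)
  have ht' : ∀ x ∈ t, φ x ^ (K + 1) ∈ (Module.annihilator S M).map φ := fun x hx => by
    rw [pow_succ]; exact Ideal.mul_mem_right _ _ (ht x hx)
  have hfin : ∀ i, hX Λ F D i ≠ ⊤ := hX_finite hs hsm hF hM hv ht hφ (fun m hm j =>
    ne_top_of_le_ne_top (ENNReal.mul_ne_top (ENNReal.natCast_ne_top _)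
      (ENNReal.pow_ne_top (ENNReal.natCast_ne_top _))) (hgr m hm j))
  obtain ⟨C, m₀, H⟩ := bd_main.{u, v} hs hsm t M hM
  set d := xs.length with hd
  set a := t.length with ha
  -- the constant
  set K1 : ℕ := C * ((1 + N) * (2 ^ d * C')) * ((K + 1) * (d + 2)) ^ (a + b') with hK1
  have hd1 : 1 ≤ d := by omega
  have key : ∀ n : ℕ, m₀ ≤ n → ∀ hn : 1 ≤ n, ∀ i < N,
      hX (Θ n hn).ΛB ((Θ n hn).G F) (Θ n hn).T.E i ≤ ((K1 * n ^ (a + b') : ℕ) : ℝ≥0∞) := by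
    intro n hn0 hn i hi
    set m := (K + 1) * (1 + (d * n + 1)) with hm
    have hmn : n ≤ m := by
      rw [hm]
      calc n ≤ d * n := Nat.le_mul_of_pos_left n (by omega)
        _ ≤ 1 * (1 + (d * n + 1)) := by omega
        _ ≤ (K + 1) * (1 + (d * n + 1)) := Nat.mul_le_mul_right _ (by omega)
    have hm1 : 1 ≤ m := le_trans hn hmn
    have hm2 : m ≤ (K + 1) * (d + 2) * n := by
      rw [hm, mul_assoc]
      refine Nat.mul_le_mul_left _ ?_
      have : 1 + (d * n + 1) ≤ d * n + 2 * n := by omega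
      exact this.trans (le_of_eq (by ring))
    obtain ⟨hk, b, h1, h2, -, h4⟩ := (Θ n hn).step hF hv' ht' H (hn0.trans hmn) le_rfl
    have h5 : ∀ j, b j ≤ ((2 ^ d * C' * m ^ b' : ℕ) : ℝ≥0∞) := by
      intro j
      refine (h4 j).trans ((sh_const_le (hgr m hm1) _ _).trans (le_of_eq ?_))
      push_cast
      ring
    have h6 : hk i ≤ ((C * ((1 + N) * (2 ^ d * C')) * m ^ (a + b') : ℕ) : ℝ≥0∞) := by
      refine le_of_nat_mul_le hm1 ((h1 i).trans ?_)
      have h7 : ∑ j ∈ Finset.range i, b j ≤ ((N * (2 ^ d * C' * m ^ b') : ℕ) : ℝ≥0∞) := by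
        calc ∑ j ∈ Finset.range i, b j ≤ ∑ j ∈ Finset.range i,
              ((2 ^ d * C' * m ^ b' : ℕ) : ℝ≥0∞) := Finset.sum_le_sum fun j _ => h5 j
          _ = ((i * (2 ^ d * C' * m ^ b') : ℕ) : ℝ≥0∞) := by
              rw [Finset.sum_const, Finset.card_range, nsmul_eq_mul]
              push_cast
              ring
          _ ≤ _ := by
              exact_mod_cast Nat.mul_le_mul_right _ hi.le
      calc (C : ℝ≥0∞) * ((m : ℝ≥0∞) ^ (a + 1) * b i + (m : ℝ≥0∞) ^ a * ∑ j ∈ Finset.range i, b j)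
          ≤ (C : ℝ≥0∞) * ((m : ℝ≥0∞) ^ (a + 1) * ((2 ^ d * C' * m ^ b' : ℕ) : ℝ≥0∞) +
            (m : ℝ≥0∞) ^ a * ((N * (2 ^ d * C' * m ^ b') : ℕ) : ℝ≥0∞)) := by
            gcongr
            exact h5 i
        _ = ((C * (m ^ (a + 1) * (2 ^ d * C' * m ^ b') +
            m ^ a * (N * (2 ^ d * C' * m ^ b'))) : ℕ) : ℝ≥0∞) := by push_cast; ring
        _ ≤ ((C * (m ^ (a + 1) * (2 ^ d * C' * m ^ b') +
            m ^ (a + 1) * (N * (2 ^ d * C' * m ^ b'))) : ℕ) : ℝ≥0∞) := by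
            have : m ^ a ≤ m ^ (a + 1) := Nat.pow_le_pow_right hm1 (Nat.le_succ a)
            exact_mod_cast Nat.mul_le_mul_left _ (Nat.add_le_add_left
              (Nat.mul_le_mul_right _ this) _)
        _ = _ := by push_cast; ring
    refine (h2 i).trans (h6.trans ?_)
    have h8 : m ^ (a + b') ≤ ((K + 1) * (d + 2)) ^ (a + b') * n ^ (a + b') := by
      rw [← mul_pow]
      exact Nat.pow_le_pow_left hm2 _
    have h9 : C * ((1 + N) * (2 ^ d * C')) * m ^ (a + b') ≤ K1 * n ^ (a + b') := by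
      rw [hK1, mul_assoc (C * ((1 + N) * (2 ^ d * C')))]
      exact Nat.mul_le_mul_left _ h8
    exact_mod_cast h9
  have hmap : ∀ i, hX Λ (F.map φ) D i = hX Λ F D i := fun i => (hX_map Λ F φ hφ i).symm
  have hchi : chiX Λ (F.map φ) D N = chiX Λ F D N := (chiX_map Λ F φ hφ N).symm
  have hz : hX Λ F D N = 0 := hX_eq_zero_of_len Λ F D hlen hN
  refine KosG.eq_zero_of_growth (K := N * K1) hab fun N₁ => ?_
  refine ⟨max (max N₁ m₀) 1, le_trans (le_max_left _ _) (le_max_left _ _), ?_⟩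
  set n := max (max N₁ m₀) 1 with hn
  have hn0 : m₀ ≤ n := le_trans (le_max_right _ _) (le_max_left _ _)
  have hn1 : 1 ≤ n := le_max_right _ _
  have e1 := (Θ n hn1).chi_G F N (fun j _ => by rw [hmap]; exact hfin j) (by rw [hmap]; exact hz)
  rw [hchi] at e1
  have e2 : (n : ℝ) ^ d * |chiX Λ F D N| =
      |chiX (Θ n hn1).ΛB ((Θ n hn1).G F) (Θ n hn1).T.E N| := by
    rw [e1, abs_mul, Nat.cast_pow, abs_of_nonneg (by positivity : (0 : ℝ) ≤ (n : ℝ) ^ d)]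
  rw [e2]
  refine (abs_chiX_le _ _ _).trans ?_
  calc ∑ i ∈ Finset.range N, (hX (Θ n hn1).ΛB ((Θ n hn1).G F) (Θ n hn1).T.E i).toReal
      ≤ ∑ i ∈ Finset.range N, (K1 : ℝ) * (n : ℝ) ^ (a + b') := by
        refine Finset.sum_le_sum fun i hi => ?_
        have := ENNReal.toReal_mono (ENNReal.natCast_ne_top _)
          (key n hn0 hn1 i (Finset.mem_range.1 hi))
        rw [ENNReal.toReal_natCast] at this
        exact this.trans (le_of_eq (by push_cast; ring))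
    _ = _ := by
        rw [Finset.sum_const, Finset.card_range, nsmul_eq_mul]
        ring

include hs hsm hF hM hv ht Θ in
/-- **POSITIVE** -/
theorem positive [Module S D] [SMulCommClass S Γ D] (hφ : ∀ (s : S) (x : D), s • x = φ s • x)
    {Dd : ℕ} (hlen : F.Len Dd) {N : ℕ} (hN : Dd < N)
    (hreg : ∀ j, 1 ≤ j → h0 Λ (φ s0 :: v) D j = 0) (hne : h0 Λ (φ s0 :: v) D 0 ≠ ⊤)
    {d' : ℕ} (hd' : xs.length = d' + 1) (hab : t.length + v.length = xs.length)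
    {c : ℝ} (hc : 0 < c) (hlow : ∀ N₁ : ℕ, ∃ n₁, N₁ ≤ n₁ ∧ ∀ hn : 1 ≤ n₁,
      ENNReal.ofReal (c * (n₁ : ℝ) ^ xs.length) ≤
        hX (Θ n₁ hn).ΛB ((Θ n₁ hn).G F) (Θ n₁ hn).T.E 0) :
    0 < chiX Λ F D N := by
  -- enlarge `K`
  have hv' : ∀ x ∈ v, x ^ (K + 1) ∈ (Module.annihilator S M).map φ := fun x hx => by
    rw [pow_succ]; exact Ideal.mul_mem_right _ _ (hv x hx)
  have ht' : ∀ x ∈ t, φ x ^ (K + 1) ∈ (Module.annihilator S M).map φ := fun x hx => by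
    rw [pow_succ]; exact Ideal.mul_mem_right _ _ (ht x hx)
  obtain ⟨C', hC'⟩ : ∃ C' : ℕ, h0 Λ (φ s0 :: v) D 0 ≤ C' := by
    obtain ⟨C', h⟩ := ENNReal.exists_nat_gt hne
    exact ⟨C', h.le⟩
  have hgr : ∀ m : ℕ, ∀ j, h0 Λ (φ s0 :: v.map (· ^ m)) D j ≤
      (C' : ℝ≥0∞) * (m : ℝ≥0∞) ^ v.length := by
    intro m j
    refine (h0_pow_le Λ v (φ s0) m j).trans ?_
    rw [mul_comm (C' : ℝ≥0∞)]
    gcongr
    rcases Nat.eq_zero_or_pos j with rfl | hj
    · exact hC'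
    · rw [hreg j hj]; exact zero_le
  have hz0 : ∀ m : ℕ, ∀ j, 0 < j → h0 Λ (φ s0 :: v.map (· ^ m)) D j = 0 := by
    intro m j hj
    have := h0_pow_le (X := D) Λ v (φ s0) m j
    rw [hreg j hj, mul_zero] at this
    exact le_antisymm this zero_le
  have hfin : ∀ i, hX Λ F D i ≠ ⊤ := hX_finite hs hsm hF hM hv ht hφ (fun m hm j =>
    ne_top_of_le_ne_top (ENNReal.mul_ne_top (ENNReal.natCast_ne_top _)
      (ENNReal.pow_ne_top (ENNReal.natCast_ne_top _))) (hgr m j))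
  obtain ⟨C, m₀, H⟩ := bd_main.{u, v} hs hsm t M hM
  set d := xs.length with hd
  set a := t.length with ha
  set b' := v.length with hb'
  -- the constant
  set K1 : ℕ := C * ((N + d) * (2 ^ d * C')) * ((K + 1) * (d + 2)) ^ d' with hK1
  have hd1 : 1 ≤ d := by omega
  have key : ∀ n : ℕ, m₀ ≤ n → ∀ hn : 1 ≤ n, ∀ i < N, 1 ≤ i →
      hX (Θ n hn).ΛB ((Θ n hn).G F) (Θ n hn).T.E i ≤ ((K1 * n ^ d' : ℕ) : ℝ≥0∞) := by
    intro n hn0 hn i hi hi1
    set m := (K + 1) * (1 + (d * n + 1)) with hm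
    have hmn : n ≤ m := by
      rw [hm]
      calc n ≤ d * n := Nat.le_mul_of_pos_left n (by omega)
        _ ≤ 1 * (1 + (d * n + 1)) := by omega
        _ ≤ (K + 1) * (1 + (d * n + 1)) := Nat.mul_le_mul_right _ (by omega)
    have hm1 : 1 ≤ m := le_trans hn hmn
    have hm2 : m ≤ (K + 1) * (d + 2) * n := by
      rw [hm, mul_assoc]
      refine Nat.mul_le_mul_left _ ?_
      have : 1 + (d * n + 1) ≤ d * n + 2 * n := by omega
      exact this.trans (le_of_eq (by ring))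
    obtain ⟨hk, b, h1, -, h2, h4⟩ := (Θ n hn).step hF hv' ht' H (hn0.trans hmn) le_rfl
    have h5 : ∀ j, b j ≤ ((2 ^ d * C' * m ^ b' : ℕ) : ℝ≥0∞) := by
      intro j
      refine (h4 j).trans ((sh_const_le (hgr m) _ _).trans (le_of_eq ?_))
      push_cast
      ring
    have h50 : b (i + d) = 0 := by
      refine le_antisymm ((h4 _).trans ?_) zero_le
      exact (sh_iterate_eq_zero (m := 0) (hz0 m) d (i + d) (by omega)).le
    have h2i := h2 i
    rw [hab] at h2i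
    have h6 : hk (i + d) ≤ ((C * ((N + d) * (2 ^ d * C')) * m ^ d' : ℕ) : ℝ≥0∞) := by
      refine le_of_nat_mul_le hm1 ((h1 (i + d)).trans ?_)
      have h7 : ∑ j ∈ Finset.range (i + d), b j ≤
          (((N + d) * (2 ^ d * C' * m ^ b') : ℕ) : ℝ≥0∞) := by
        calc ∑ j ∈ Finset.range (i + d), b j ≤ ∑ j ∈ Finset.range (i + d),
              ((2 ^ d * C' * m ^ b' : ℕ) : ℝ≥0∞) := Finset.sum_le_sum fun j _ => h5 j
          _ = (((i + d) * (2 ^ d * C' * m ^ b') : ℕ) : ℝ≥0∞) := by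
              rw [Finset.sum_const, Finset.card_range, nsmul_eq_mul]
              push_cast
              ring
          _ ≤ _ := by
              have : i + d ≤ N + d := by omega
              exact_mod_cast Nat.mul_le_mul_right _ this
      rw [h50, mul_zero, zero_add]
      have e1 : m ^ a * m ^ b' = m * m ^ d' := by
        rw [← pow_add, ← pow_succ']
        congr 1
        omega
      calc (C : ℝ≥0∞) * ((m : ℝ≥0∞) ^ a * ∑ j ∈ Finset.range (i + d), b j)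
          ≤ (C : ℝ≥0∞) * ((m : ℝ≥0∞) ^ a *
            (((N + d) * (2 ^ d * C' * m ^ b') : ℕ) : ℝ≥0∞)) := by gcongr
        _ = ((C * ((N + d) * (2 ^ d * C')) * (m ^ a * m ^ b') : ℕ) : ℝ≥0∞) := by
            push_cast; ring
        _ = _ := by rw [e1]; push_cast; ring
    refine h2i.trans (h6.trans ?_)
    have h8 : m ^ d' ≤ ((K + 1) * (d + 2)) ^ d' * n ^ d' := by
      rw [← mul_pow]
      exact Nat.pow_le_pow_left hm2 _
    have h9 : C * ((N + d) * (2 ^ d * C')) * m ^ d' ≤ K1 * n ^ d' := by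
      rw [hK1, mul_assoc (C * ((N + d) * (2 ^ d * C')))]
      exact Nat.mul_le_mul_left _ h8
    exact_mod_cast h9
  have hmap : ∀ i, hX Λ (F.map φ) D i = hX Λ F D i := fun i => (hX_map Λ F φ hφ i).symm
  have hchi : chiX Λ (F.map φ) D N = chiX Λ F D N := (chiX_map Λ F φ hφ N).symm
  have hz : hX Λ F D N = 0 := hX_eq_zero_of_len Λ F D hlen hN
  refine KosG.pos_of_growth (K := N * K1) (c := c) (d := d') hc fun N₁ => ?_
  obtain ⟨n, hnN, hlow'⟩ := hlow (max (max N₁ m₀) 1)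
  have hn0 : m₀ ≤ n := le_trans (le_trans (le_max_right _ _) (le_max_left _ _)) hnN
  have hn1 : 1 ≤ n := le_trans (le_max_right _ _) hnN
  refine ⟨n, le_trans (le_trans (le_max_left _ _) (le_max_left _ _)) hnN, ?_⟩
  have e1 := (Θ n hn1).chi_G F N (fun j _ => by rw [hmap]; exact hfin j) (by rw [hmap]; exact hz)
  rw [hchi] at e1
  rw [← hd'] 
  have e2 : (n : ℝ) ^ d * chiX Λ F D N =
      chiX (Θ n hn1).ΛB ((Θ n hn1).G F) (Θ n hn1).T.E N := by
    rw [e1, Nat.cast_pow]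
  rw [e2, chiX_eq]
  obtain ⟨N', rfl⟩ : ∃ N', N = N' + 1 := ⟨N - 1, by omega⟩
  rw [Finset.sum_range_succ']
  have hG0 : hX (Θ n hn1).ΛB ((Θ n hn1).G F) (Θ n hn1).T.E 0 ≠ ⊤ := by
    have h1 := (Θ n hn1).T.hXle ((Θ n hn1).G F) 0
    refine ne_top_of_le_ne_top (ENNReal.mul_ne_top (ENNReal.natCast_ne_top _) ?_) h1
    have e : ((Θ n hn1).G F).map (Θ n hn1).T.ρ = F.map φ := by
      rw [TData.G, MCx_map_map, (Θ n hn1).τρ]
    rw [e, hmap]
    exact hfin 0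
  have h10 : c * (n : ℝ) ^ d ≤ (hX (Θ n hn1).ΛB ((Θ n hn1).G F) (Θ n hn1).T.E 0).toReal := by
    have := ENNReal.toReal_mono hG0 (hlow' hn1)
    rwa [ENNReal.toReal_ofReal (by positivity)] at this
  have h11 : |∑ i ∈ Finset.range N', (-1 : ℝ) ^ (i + 1) *
      (hX (Θ n hn1).ΛB ((Θ n hn1).G F) (Θ n hn1).T.E (i + 1)).toReal| ≤
      ((N' + 1 : ℕ) : ℝ) * K1 * (n : ℝ) ^ d' := by
    refine (Finset.abs_sum_le_sum_abs _ _).trans ?_
    calc ∑ i ∈ Finset.range N', |(-1 : ℝ) ^ (i + 1) *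
          (hX (Θ n hn1).ΛB ((Θ n hn1).G F) (Θ n hn1).T.E (i + 1)).toReal|
        ≤ ∑ i ∈ Finset.range N', (K1 : ℝ) * (n : ℝ) ^ d' := by
          refine Finset.sum_le_sum fun i hi => ?_
          rw [abs_mul, abs_pow, abs_neg, abs_one, one_pow, one_mul,
            abs_of_nonneg ENNReal.toReal_nonneg]
          have := ENNReal.toReal_mono (ENNReal.natCast_ne_top _)
            (key n hn0 hn1 (i + 1) (by have := Finset.mem_range.1 hi; omega) (by omega))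
          rw [ENNReal.toReal_natCast] at this
          exact this.trans (le_of_eq (by push_cast; ring))
      _ = (N' : ℝ) * (K1 * (n : ℝ) ^ d') := by
          rw [Finset.sum_const, Finset.card_range, nsmul_eq_mul]
      _ ≤ ((N' + 1 : ℕ) : ℝ) * (K1 * (n : ℝ) ^ d') := by
          have : (N' : ℝ) ≤ ((N' + 1 : ℕ) : ℝ) := by push_cast; linarith
          exact mul_le_mul_of_nonneg_right this (by positivity)
      _ = _ := by ring
  have h12 := (abs_le.1 h11).1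
  rw [pow_zero, one_mul]
  linarith

end abstract

end Crest.Agent.R188.SX
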