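import Crest.Agent.R188.SX8
import Crest.Agent.R188.Asm3
import Crest.Agent.R188.PerfB8
import Crest.Agent.R188.Tay1
import Crest.Agent.R183.CohenWitt
import Crest.Agent.R183.CohenNoether
import Crest.Agent.R183.BInf7

/-!
# R188, S-level (helper546), part 9: `Asm.SVanish`
-/

set_option autoImplicit false

namespace Crest.Agent.R188.SX

open scoped ENNReal Pointwise
open IsLocalRing
open Crest.Agent.R183 Crest.Agent.R183.Res
open Crest.Agent.R188.Kos Crest.Agent.R188.Chi

universe u v w v₁ v₂ v₃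

section taylor

variable {d : ℕ} {W : Type u} [CommRing W] [IsNoetherianRing W] {Γ : Type u} [CommRing Γ]
  {Λ : AddLen.{u, v} Γ} {D : Type v} [AddCommGroup D] [Module Γ D]
  (φ : MvPowerSeries (Fin d) W →+* Γ) {n : ℕ}

/-- the variables of the power series ring -/
noncomputable abbrev xsL (d : ℕ) (W : Type u) [CommRing W] : List (MvPowerSeries (Fin d) W) :=
  List.ofFn fun i : Fin d => (MvPowerSeries.X i : MvPowerSeries (Fin d) W)

variable {φ} in
theorem q_length (T : Tow Λ D n ((xsL d W).map φ)) : T.q.length = d := by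
  rw [T.len, List.length_map, List.length_ofFn]

/-- `Q d n Γ → T.B` -/
noncomputable def qB (T : Tow Λ D n ((xsL d W).map φ)) : Tay.Q d n Γ →+* T.B :=
  Ideal.Quotient.lift (Tay.pI d n Γ)
    (MvPolynomial.eval₂Hom T.ι fun i : Fin d => T.q.get (Fin.cast (q_length T).symm i)) (by
      intro a ha
      have h1 : Tay.pI d n Γ ≤ RingHom.ker
          (MvPolynomial.eval₂Hom T.ι fun i : Fin d => T.q.get (Fin.cast (q_length T).symm i)) := by
        rw [Tay.pI, Ideal.span_le]
        rintro _ ⟨i, rfl⟩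
        change MvPolynomial.eval₂Hom _ _ (MvPolynomial.X i ^ n) = 0
        rw [map_pow, MvPolynomial.eval₂Hom_X']
        exact T.qn _ (List.get_mem _ _)
      exact RingHom.mem_ker.1 (h1 ha))

theorem qB_algebraMap (T : Tow Λ D n ((xsL d W).map φ)) (c : Γ) :
    qB φ T (algebraMap Γ (Tay.Q d n Γ) c) = T.ι c := by
  rw [Tay.algebraMap_Q, qB, Ideal.Quotient.lift_mk, MvPolynomial.eval₂Hom_C]

theorem qB_q (T : Tow Λ D n ((xsL d W).map φ)) (i : Fin d) :
    qB φ T (Tay.q i) = T.q.get (Fin.cast (q_length T).symm i) := by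
  rw [Tay.q, qB, Ideal.Quotient.lift_mk, MvPolynomial.eval₂Hom_X']

variable (Λ D) in
/-- Taylor data for power series rings -/
noncomputable def tdata (s0 : W) (hn : 1 ≤ n) :
    TData Λ D (MvPowerSeries.C s0 : MvPowerSeries (Fin d) W) (xsL d W) φ n where
  T := tow Λ D n hn ((xsL d W).map φ)
  τ := (qB φ (tow Λ D n hn ((xsL d W).map φ))).comp (Tay.tau n φ)
  τ0 := by
    rw [RingHom.comp_apply, Tay.tau_C, qB_algebraMap]
  τx := by
    have hl := q_length (tow Λ D n hn ((xsL d W).map φ))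
    refine List.ext_getElem ?_ ?_
    · rw [List.length_map, List.length_ofFn, List.length_zipWith, List.length_map,
        List.length_ofFn, hl, min_self]
    · intro i h1 h2
      rw [List.getElem_map, List.getElem_zipWith, List.getElem_map, List.getElem_ofFn,
        RingHom.comp_apply, Tay.tau_X, map_add, qB_algebraMap, qB_q]
      rfl
  τρ := by
    set T := tow Λ D n hn ((xsL d W).map φ) with hT
    have h1 : ∀ x ∈ Tay.qI d n Γ, T.ρ (qB φ T x) = 0 := by
      have h2 : Tay.qI d n Γ ≤ RingHom.ker (T.ρ.comp (qB φ T)) := by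
        rw [Tay.qI, Ideal.span_le]
        rintro _ ⟨i, rfl⟩
        change T.ρ (qB φ T (Tay.q i)) = 0
        rw [qB_q]
        exact T.ρq _ (List.get_mem _ _)
      intro x hx
      exact h2 hx
    ext f
    have h2 := h1 _ (Tay.tau_sub_mem n φ f)
    rw [map_sub, map_sub, qB_algebraMap, sub_eq_zero] at h2
    rw [RingHom.comp_apply, RingHom.comp_apply, h2]
    exact RingHom.congr_fun T.ρι _

end taylor

section h0kh

variable {A : Type u} [CommRing A] (Λ : AddLen.{u, v} A) {X : Type v} [AddCommGroup X] [Module A X]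

theorem h0_eq_kh (l : List A) (j : ℕ) : h0 Λ l X j = KosG.kh Λ l X j :=
  PerfB.hK_one Λ l j

end h0kh

section witt

variable {p : ℕ} [hp : Fact p.Prime] {k : Type} [Field k] [CharP k p] [IsAlgClosed k] {d : ℕ}

theorem sys_max : Ideal.ofList ((MvPowerSeries.C (p : WittVector p k) :
    MvPowerSeries (Fin d) (WittVector p k)) :: xsL d (WittVector p k)) =
    maximalIdeal (MvPowerSeries (Fin d) (WittVector p k)) := by
  rw [Crest.Agent.R183.BInf.maximalIdeal_tb]
  unfold Ideal.ofList Crest.Agent.R183.BInf.tb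
  rw [Fin.range_cons, map_natCast]
  congr 1
  ext x
  simp only [List.mem_cons, List.mem_ofFn, Set.mem_insert_iff, Set.mem_range, Set.mem_ofPred_eq]

theorem mB_eq : Asm.mB p k d = maximalIdeal (MvPowerSeries (Fin d) (WittVector p k)) := by
  rw [Crest.Agent.R183.BInf.maximalIdeal_tb]
  rfl

theorem dim_S : ringKrullDim (MvPowerSeries (Fin d) (WittVector p k)) = ((d + 1 : ℕ) : ℕ∞) := by
  have h1 : ringKrullDim (WittVector p k) = 1 :=
    IsDiscreteValuationRing.ringKrullDim_eq_one _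
  rw [Cohen.ringKrullDim_mvPowerSeries, h1, add_comm]
  rfl

theorem sys_reg : RingTheory.Sequence.IsWeaklyRegular (MvPowerSeries (Fin d) (WittVector p k))
    ((MvPowerSeries.C (p : WittVector p k) :
    MvPowerSeries (Fin d) (WittVector p k)) :: xsL d (WittVector p k)) := by
  have hregW : IsRegularLocalRing (WittVector p k) :=
    (Cohen.isCohen_witt p k).isRegularLocalRing
  refine PerfB.isWeaklyRegular_of_ofList ?_ sys_max
  rw [List.length_cons, List.length_ofFn, dim_S]
  rfl

theorem exists_uniform {A : Type u} [CommRing A] (J : Ideal A) (l : List A)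
    (h : ∀ x ∈ l, ∃ K : ℕ, x ^ K ∈ J) : ∃ K : ℕ, ∀ x ∈ l, x ^ K ∈ J := by
  induction l with
  | nil => exact ⟨0, fun x hx => absurd hx List.not_mem_nil⟩
  | cons a l ih =>
    obtain ⟨K, hK⟩ := ih fun x hx => h x (List.mem_cons_of_mem _ hx)
    obtain ⟨K', hK'⟩ := h a List.mem_cons_self
    refine ⟨K + K', fun x hx => ?_⟩
    rw [List.mem_cons] at hx
    rcases hx with rfl | hx
    · rw [pow_add]; exact Ideal.mul_mem_left _ _ hK'
    · rw [pow_add]; exact Ideal.mul_mem_right _ _ (hK x hx)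

theorem kh_bound {A : Type u} [CommRing A] (Λ : AddLen.{u, v} A) (l : List A) {X : Type v}
    [AddCommGroup X] [Module A X] (h : ∀ j, h0 Λ l X j ≠ ⊤) : ∃ C : ℕ, ∀ j, h0 Λ l X j ≤ C := by
  have h1 : ∑ j ∈ Finset.range (l.length + 1), h0 Λ l X j ≠ ⊤ :=
    ENNReal.sum_ne_top.2 fun j _ => h j
  obtain ⟨C, hC⟩ := ENNReal.exists_nat_gt h1
  refine ⟨C, fun j => ?_⟩
  by_cases hj : j < l.length + 1
  · refine le_trans ?_ hC.le
    exact Finset.single_le_sum (f := fun j => h0 Λ l X j) (fun _ _ => zero_le)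
      (Finset.mem_range.2 hj)
  · rw [h0_eq_kh, KosG.kh_eq_zero Λ X l j (Or.inr (by exact_mod_cast (by omega : l.length < j)))]
    exact zero_le

/-- **`Asm.SVanish`** -/
theorem svanish : Asm.SVanish p k := by
  intro d M _ _ _ F ε hF D₀ hD₀ Γ _ φ Λ D _ _ t v hM htm hφm hvK hfin hab
  let iD : Module (MvPowerSeries (Fin d) (WittVector p k)) D := Module.compHom D φ
  have hD : ∀ (s : MvPowerSeries (Fin d) (WittVector p k)) (x : D), s • x = φ s • x :=
    fun _ _ => rfl
  have hc : SMulCommClass (MvPowerSeries (Fin d) (WittVector p k)) Γ D :=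
    ⟨fun a b x => by rw [hD, hD, smul_comm]⟩
  have hregW : IsRegularLocalRing (WittVector p k) :=
    (Cohen.isCohen_witt p k).isRegularLocalRing
  obtain ⟨K₁, hK₁⟩ := exists_uniform _ v hvK
  obtain ⟨K₂, hK₂⟩ := exists_uniform ((Module.annihilator
    (MvPowerSeries (Fin d) (WittVector p k)) M).map φ) (t.map φ) (by
      intro x hx
      rw [List.mem_map] at hx
      obtain ⟨y, hy, rfl⟩ := hx
      exact hφm y (htm y hy))
  have hv : ∀ x ∈ v, x ^ (K₁ + K₂) ∈ (Module.annihilator
      (MvPowerSeries (Fin d) (WittVector p k)) M).map φ := fun x hx => by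
    rw [pow_add]; exact Ideal.mul_mem_right _ _ (hK₁ x hx)
  have ht : ∀ x ∈ t, φ x ^ (K₁ + K₂) ∈ (Module.annihilator
      (MvPowerSeries (Fin d) (WittVector p k)) M).map φ := fun x hx => by
    rw [pow_add]; exact Ideal.mul_mem_left _ _ (hK₂ _ (List.mem_map_of_mem hx))
  have hM' : ∃ N : ℕ, maximalIdeal (MvPowerSeries (Fin d) (WittVector p k)) ^ N ≤
      Module.annihilator (MvPowerSeries (Fin d) (WittVector p k)) M ⊔ Ideal.ofList t := by
    rw [← mB_eq]; exact hM
  have hp0 : φ (MvPowerSeries.C (p : WittVector p k)) = (p : Γ) := by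
    rw [map_natCast, map_natCast]
  have hperm : ((p : Γ) :: v).Perm (v ++ [(p : Γ)]) := (List.perm_append_singleton _ _).symm
  have hfin' : ∀ j, h0 Λ ((p : Γ) :: v) D j ≠ ⊤ := fun j => by
    rw [h0_perm Λ hperm, h0_eq_kh]
    exact hfin j
  obtain ⟨C', hC'⟩ := kh_bound Λ _ hfin'
  have hgr : ∀ m : ℕ, 1 ≤ m → ∀ j, h0 Λ (φ (MvPowerSeries.C (p : WittVector p k)) ::
      v.map (· ^ m)) D j ≤ C' * (m : ℝ≥0∞) ^ v.length := by
    intro m _ j
    rw [hp0]
    refine (h0_pow_le Λ v (p : Γ) m j).trans ?_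
    rw [mul_comm (C' : ℝ≥0∞)]
    gcongr
    exact hC' j
  refine ⟨fun i => ?_, ?_⟩
  · rw [← hX_map Λ F φ hD]
    exact hX_finite sys_reg sys_max hF hM' hv ht hD (fun m hm j =>
      ne_top_of_le_ne_top (ENNReal.mul_ne_top (ENNReal.natCast_ne_top _)
        (ENNReal.pow_ne_top (ENNReal.natCast_ne_top _))) (hgr m hm j)) i
  · rw [← chiX_map Λ F φ hD]
    refine vanish sys_reg sys_max hF hM' hv ht (fun n hn => tdata Λ D φ (p : WittVector p k) hn)
      hD hD₀ (Nat.lt_succ_self D₀) hgr ?_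
    rw [List.length_ofFn]
    exact hab

end witt

end Crest.Agent.R188.SX
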