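import Crest.Agent.R188.Str0
import Crest.Agent.R183.CohenNoether
import Crest.Agent.R183.CohenWitt

/-!
# R188, block A2 (helper645): Cohen structure of complete regular local rings
-/

set_option autoImplicit false

namespace Crest.Agent.R188.Str

open Ideal IsLocalRing MvPowerSeries Crest.Agent.R183.Cohen

universe u

section Surj

variable {σ Λ S : Type*} [Finite σ] [CommRing Λ] [IsLocalRing Λ] [CommRing S] [IsLocalRing S]
  [IsNoetherianRing S] [IsAdicComplete (maximalIdeal S) S] (φ : Λ →+* S) (t : σ → S)

/-- **Surjectivity of evaluation**: if `Λ → S` is surjective on residue fields and `t` together with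
the maximal ideal of `Λ` generates the maximal ideal of `S`, then `Λ[[x]] → S` is surjective. -/
theorem psEval_surjective [IsPrecomplete (maximalIdeal Λ) Λ] (hφ : IsLocalHom φ)
    (hres : Function.Surjective ((residue S).comp φ)) (ht : ∀ i, t i ∈ maximalIdeal S)
    (hc : maximalIdeal S ≤ (maximalIdeal Λ).map φ ⊔ span (Set.range t)) :
    Function.Surjective (psEval (maximalIdeal S) φ t ht) := by
  let P := MvPowerSeries σ Λ
  let ev : P →+* S := psEval (maximalIdeal S) φ t ht
  let _ : Algebra P S := ev.toAlgebra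
  have hfin : Module.Finite P S :=
    psEval_finite φ t hφ (RingHom.Finite.of_surjective _ hres) ht 1 (by rw [pow_one]; exact hc)
  have hφm : (maximalIdeal Λ).map φ ≤ maximalIdeal S := by
    rw [Ideal.map_le_iff_le_comap]
    exact ((local_hom_TFAE φ).out 0 3).1 hφ
  have hmap : maximalIdeal S ≤ (maximalIdeal P).map ev := by
    refine hc.trans (sup_le ?_ ?_)
    · have h1 : (maximalIdeal Λ).map φ = ((maximalIdeal Λ).map (C : Λ →+* P)).map ev := by
        rw [Ideal.map_map]
        congr 1
        ext a
        exact (psEval_C _ _ _ ht a).symm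
      rw [h1]
      apply Ideal.map_mono
      rw [maximalIdeal_mvPowerSeries]
      exact le_sup_left
    · rw [span_le]
      rintro _ ⟨i, rfl⟩
      have h1 : ev (X i) = t i := psEval_X _ _ _ ht i
      rw [← h1]
      apply Ideal.mem_map_of_mem
      rw [maximalIdeal_mvPowerSeries]
      exact Ideal.mem_sup_right (subset_span ⟨i, rfl⟩)
  -- Nakayama
  have htop : (⊤ : Submodule P S) ≤ Submodule.span P {(1 : S)} ⊔ (maximalIdeal P) • ⊤ := by
    intro s _
    obtain ⟨a, ha⟩ := hres (residue S s)
    have h1 : s - φ a ∈ maximalIdeal S := by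
      rw [← residue_eq_zero_iff, map_sub, sub_eq_zero]
      exact ha.symm
    have h2 : s = φ a + (s - φ a) := by ring
    rw [h2]
    refine Submodule.add_mem_sup ?_ ?_
    · refine Submodule.mem_span_singleton.2 ⟨C a, ?_⟩
      rw [Algebra.smul_def, mul_one]
      exact psEval_C _ _ _ ht a
    · rw [Ideal.smul_top_eq_map]
      exact hmap h1
  have h3 : Submodule.span P {(1 : S)} = ⊤ := by
    have h4 := Submodule.le_of_le_smul_of_le_jacobson_bot (I := maximalIdeal P)
      (N := Submodule.span P {(1 : S)}) (N' := ⊤) Module.Finite.fg_top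
      (IsLocalRing.maximalIdeal_le_jacobson _) htop
    exact top_le_iff.1 h4
  intro s
  have h5 : s ∈ Submodule.span P {(1 : S)} := by rw [h3]; trivial
  obtain ⟨f, hf⟩ := Submodule.mem_span_singleton.1 h5
  refine ⟨f, ?_⟩
  rw [Algebra.smul_def, mul_one] at hf
  exact hf

end Surj

section EqualChar

/-- **Equal characteristic**: a complete regular local ring with a coefficient field is a power
series ring. -/
theorem psEval_bijective_of_field {k : Type*} [Field k] {S : Type*} [CommRing S]
    [IsRegularLocalRing S] [IsAdicComplete (maximalIdeal S) S] (σ : k →+* S)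
    (hσ : Function.Surjective ((residue S).comp σ)) {d : ℕ} (hd : ringKrullDim S = (d : ℕ))
    (t : Fin d → S) (ht : ∀ i, t i ∈ maximalIdeal S) (hspan : span (Set.range t) = maximalIdeal S) :
    Function.Bijective (psEval (maximalIdeal S) σ t ht) := by
  have hbot : maximalIdeal k = ⊥ := IsLocalRing.maximalIdeal_eq_bot
  have hpre : IsPrecomplete (maximalIdeal k) k := by
    rw [hbot]; infer_instance
  refine ⟨(noether_equal σ (RingHom.Finite.of_surjective _ hσ) hd t ht (c := 1)
    (by rw [pow_one, hspan])).1, ?_⟩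
  exact psEval_surjective σ t inferInstance hσ ht (by rw [hspan]; exact le_sup_right)

end EqualChar

section Mixed

variable {p : ℕ} {C₀ : Type*} [CommRing C₀] [IsLocalRing C₀]

theorem notMem_sq_of_sub (hC : IsCohen p C₀) {d : ℕ} {f : MvPowerSeries (Fin d) C₀}
    (hf : f ∈ span (Set.range (X : Fin d → MvPowerSeries (Fin d) C₀))) :
    (C (p : C₀) : MvPowerSeries (Fin d) C₀) - f ∉
      maximalIdeal (MvPowerSeries (Fin d) C₀) ^ 2 := by
  have := hC.isDVR_dom
  intro hE
  let P := MvPowerSeries (Fin d) C₀
  let cc : P →+* C₀ := constantCoeff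
  have hsurj : Function.Surjective cc := fun a => ⟨C a, constantCoeff_C a⟩
  have h1 : cc ((C (p : C₀) : P) - f) ∈ maximalIdeal C₀ ^ 2 := by
    rw [← Str.map_maximalIdeal_of_surjective cc hsurj, ← Ideal.map_pow]
    exact Ideal.mem_map_of_mem _ hE
  have h2 : cc f = 0 := by
    have h3 : span (Set.range (X : Fin d → MvPowerSeries (Fin d) C₀)) ≤ RingHom.ker cc := by
      rw [span_le]
      rintro _ ⟨i, rfl⟩
      exact constantCoeff_X i
    exact h3 hf
  rw [map_sub, h2, sub_zero] at h1
  have h3 : cc (C (p : C₀) : P) = p := constantCoeff_C _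
  rw [h3, hC.maximalIdeal_eq, Ideal.span_singleton_pow, Ideal.mem_span_singleton] at h1
  obtain ⟨b, hb⟩ := h1
  have hp0 := hC.natCast_ne_zero
  have h4 : (p : C₀) * (1 - p * b) = 0 := by
    rw [mul_sub, mul_one, sub_eq_zero]
    calc (p : C₀) = (p : C₀) ^ 2 * b := hb
      _ = p * (p * b) := by ring
  rcases mul_eq_zero.1 h4 with h | h
  · exact hp0 h
  · have h5 : IsUnit (p : C₀) := IsUnit.of_mul_eq_one b (sub_eq_zero.1 h).symm
    have h6 : (p : C₀) ∈ maximalIdeal C₀ := by
      rw [hC.maximalIdeal_eq]; exact Ideal.mem_span_singleton_self _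
    exact (mem_maximalIdeal _).1 h6 h5

/-- **Mixed characteristic**: a complete regular local ring of residue characteristic `p` with
coefficient ring `C₀` is the quotient of a power series ring by an element `p - f`, `f ∈ (x)`. -/
theorem ker_psEval_mixed (hC : IsCohen p C₀) {S : Type*} [CommRing S]
    [IsRegularLocalRing S] [IsAdicComplete (maximalIdeal S) S] (g : C₀ →+* S) (hg : IsLocalHom g)
    (hres : Function.Surjective ((residue S).comp g)) {d : ℕ} (hd : ringKrullDim S = (d : ℕ))
    (t : Fin d → S) (ht : ∀ i, t i ∈ maximalIdeal S) (hspan : span (Set.range t) = maximalIdeal S) :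
    Function.Surjective (psEval (maximalIdeal S) g t ht) ∧
    ∃ f ∈ span (Set.range (X : Fin d → MvPowerSeries (Fin d) C₀)),
      RingHom.ker (psEval (maximalIdeal S) g t ht) = span {C (p : C₀) - f} := by
  have := hC.isDVR_dom
  have := hC.isNoetherianRing
  have := hC.isRegularLocalRing
  have hcomp : IsAdicComplete (maximalIdeal C₀) C₀ := hC.complete
  have hpre : IsPrecomplete (maximalIdeal C₀) C₀ := hcomp.toIsPrecomplete
  have hsurj : Function.Surjective (psEval (maximalIdeal S) g t ht) :=
    psEval_surjective g t hg hres ht (by rw [hspan]; exact le_sup_right)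
  refine ⟨hsurj, ?_⟩
  let P := MvPowerSeries (Fin d) C₀
  let ev : P →+* S := psEval (maximalIdeal S) g t ht
  have hpm : (p : S) ∈ maximalIdeal S := by
    have h1 : (p : C₀) ∈ maximalIdeal C₀ := by
      rw [hC.maximalIdeal_eq]; exact Ideal.mem_span_singleton_self _
    have h0 : maximalIdeal C₀ ≤ (maximalIdeal S).comap g := ((local_hom_TFAE g).out 0 3).1 hg
    have h2 := h0 h1
    rw [Ideal.mem_comap, map_natCast] at h2
    exact h2
  rw [← hspan] at hpm
  obtain ⟨c, hc⟩ := (Ideal.mem_span_range_iff_exists_fun).1 hpm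
  choose γ hγ using fun i => hsurj (c i)
  let f : P := ∑ i, γ i * X i
  have hf : f ∈ span (Set.range (X : Fin d → P)) :=
    (Ideal.mem_span_range_iff_exists_fun).2 ⟨γ, rfl⟩
  refine ⟨f, hf, ?_⟩
  have hevf : ev f = (p : S) := by
    simp only [f, map_sum, map_mul]
    rw [← hc]
    refine Finset.sum_congr rfl fun i _ => ?_
    congr 1
    · exact hγ i
    · exact psEval_X _ _ _ ht i
  have hevE : ev (C (p : C₀) - f) = 0 := by
    rw [map_sub, hevf, sub_eq_zero]
    have h1 : ev (C (p : C₀)) = g p := psEval_C _ _ _ ht _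
    rw [h1, map_natCast]
  have hEm : (C (p : C₀) : P) - f ∈ maximalIdeal P := by
    rw [maximalIdeal_mvPowerSeries]
    refine sub_mem (Ideal.mem_sup_left (Ideal.mem_map_of_mem _ ?_)) (Ideal.mem_sup_right hf)
    rw [hC.maximalIdeal_eq]; exact Ideal.mem_span_singleton_self _
  have hdP : ringKrullDim P = (d + 1 : ℕ) := by
    rw [ringKrullDim_mvPowerSeries, hC.ringKrullDim_eq]
    push_cast
    ring
  obtain ⟨hreg, hdim⟩ := regular_quotient_of_notMem_sq hdP _ hEm (notMem_sq_of_sub hC hf)
  have hdom : IsDomain (P ⧸ span {(C (p : C₀) : P) - f}) := isDomain_of_isRegularLocalRing _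
  have hle : span {(C (p : C₀) : P) - f} ≤ RingHom.ker ev := by
    rw [Ideal.span_singleton_le_iff_mem]
    exact hevE
  refine le_antisymm ?_ hle
  -- injectivity of `P / (E) → S`
  let q : P ⧸ span {(C (p : C₀) : P) - f} →+* S := Ideal.Quotient.lift _ ev (fun a ha => hle ha)
  have hq : Function.Surjective q := by
    intro s
    obtain ⟨a, rfl⟩ := hsurj s
    exact ⟨Ideal.Quotient.mk _ a, rfl⟩
  let _ : Algebra (P ⧸ span {(C (p : C₀) : P) - f}) S := q.toAlgebra
  have hint : Algebra.IsIntegral (P ⧸ span {(C (p : C₀) : P) - f}) S :=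
    (algebraMap _ S).isIntegral_of_surjective hq |> fun h => ⟨h⟩
  have hinj := injective_of_isIntegral_of_ringKrullDim_le
    (A := P ⧸ span {(C (p : C₀) : P) - f}) (S := S) ringKrullDim_lt_top.ne
    (by rw [hdim, hd])
  intro a ha
  rw [← Ideal.Quotient.eq_zero_iff_mem]
  apply hinj
  rw [map_zero]
  exact ha

end Mixed

end Crest.Agent.R188.Str
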