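import Crest.Agent.R188.Str1
import Crest.Agent.R183.G10

/-!
# R188, blocks A1 + A2 (helper645): reduction to complete regular local rings with algebraically
closed residue field, and their explicit form
-/

set_option autoImplicit false

namespace Crest.Agent.R188.Str

open Ideal IsLocalRing MvPowerSeries Crest.Agent.R183.Cohen

universe u v

/-- A flat local extension `S` of a regular local ring `R` with `m_R S = m_S` is regular. -/
theorem isRegularLocalRing_of_flat (R : Type u) (S : Type v) [CommRing R] [IsRegularLocalRing R]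
    [CommRing S] [IsLocalRing S] [IsNoetherianRing S] [Algebra R S] [Module.Flat R S]
    (hm : (maximalIdeal R).map (algebraMap R S) = maximalIdeal S) :
    IsRegularLocalRing S ∧ ringKrullDim S = ringKrullDim R := by
  have hdim := Crest.Agent.R183.G.ringKrullDim_eq_of_map_maximalIdeal hm
  have h1 := IsRegularLocalRing.spanFinrank_maximalIdeal (R := R)
  obtain ⟨t, ht⟩ := exists_generators R h1.symm
  have h2 : span (Set.range fun i => algebraMap R S (t i)) = maximalIdeal S := by
    have h3 : (span (Set.range t)).map (algebraMap R S) = maximalIdeal S := by rw [ht, hm]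
    rw [← h3, Ideal.map_span, ← Set.range_comp]
    rfl
  refine ⟨(isRegularLocalRing_of_span _ h2 ?_).1, hdim⟩
  rw [hdim, h1]

/-- **(A1)** Every regular local ring `R` has a flat local extension `S` with `m_R S = m_S` which is
complete regular local with algebraically closed residue field. -/
theorem exists_gonflement_regular (R : Type u) [CommRing R] [IsRegularLocalRing R] :
    ∃ (S : Type u) (_ : CommRing S) (_ : IsRegularLocalRing S) (_ : Algebra R S),
      IsAdicComplete (maximalIdeal S) S ∧ IsAlgClosed (ResidueField S) ∧ Module.Flat R S ∧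
      (maximalIdeal R).map (algebraMap R S) = maximalIdeal S ∧
      ringKrullDim S = ringKrullDim R := by
  obtain ⟨S, _, _, _, _, hc, e, hflat, hm, -⟩ :=
    Crest.Agent.R183.G.exists_gonflement R (AlgebraicClosure (ResidueField R))
  obtain ⟨hreg, hdim⟩ := isRegularLocalRing_of_flat R S hm
  exact ⟨S, inferInstance, hreg, inferInstance, hc, IsAlgClosed.of_ringEquiv _ _ e.symm, hflat,
    hm, hdim⟩

section Structure

variable (S : Type u) [CommRing S] [IsRegularLocalRing S]
  [IsAdicComplete (maximalIdeal S) S]

/-- **(A2b)** equal characteristic: `S ≃ k[[x_1, …, x_d]]` with `x_i ↦ t_i`, for every regular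
system of parameters `t`. -/
theorem exists_equiv_of_equalChar
    (h : CharZero (ResidueField S) ∨ ∃ p : ℕ, p.Prime ∧ (p : S) = 0) {d : ℕ}
    (hd : ringKrullDim S = (d : ℕ)) (t : Fin d → S) (hspan : span (Set.range t) = maximalIdeal S) :
    ∃ e : MvPowerSeries (Fin d) (ResidueField S) ≃+* S,
      (∀ i, e (X i) = t i) ∧ ∀ a, residue S (e (C a)) = a := by
  have hσ : ∃ σ : ResidueField S →+* S, ∀ x, residue S (σ x) = x := by
    rcases h with h | ⟨p, hp, hp0⟩
    · exact exists_coefficientField_charZero' S h
    · have : Fact p.Prime := ⟨hp⟩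
      exact exists_coefficientField_charP p S hp0
  obtain ⟨σ, hσ⟩ := hσ
  have ht : ∀ i, t i ∈ maximalIdeal S := fun i => hspan ▸ subset_span ⟨i, rfl⟩
  have hbij := psEval_bijective_of_field σ (fun x => ⟨x, hσ x⟩) hd t ht hspan
  refine ⟨RingEquiv.ofBijective _ hbij, fun i => psEval_X _ _ _ ht i, fun a => ?_⟩
  have h1 : RingEquiv.ofBijective _ hbij (C a) = σ a := psEval_C _ _ _ ht a
  rw [h1, hσ]

/-- **(A2a)** mixed characteristic, perfect residue field: `S = W(k)[[x_1, …, x_d]] / (p - f)` with
`f ∈ (x_1, …, x_d)` and `x_i ↦ t_i`, for every regular system of parameters `t`. Here `K` is the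
residue field, given with an isomorphism `e`. -/
theorem exists_surjective_of_perfect (p : ℕ) [Fact p.Prime] (hp : (p : S) ∈ maximalIdeal S)
    {K : Type v} [Field K] [CharP K p] [PerfectRing K p] (e : K ≃+* ResidueField S) {d : ℕ}
    (hd : ringKrullDim S = (d : ℕ)) (t : Fin d → S) (hspan : span (Set.range t) = maximalIdeal S) :
    ∃ π : MvPowerSeries (Fin d) (WittVector p K) →+* S, Function.Surjective π ∧
      (∀ i, π (X i) = t i) ∧
      (∀ a, residue S (π (C a)) = e (WittVector.constantCoeff a)) ∧
      ∃ f ∈ span (Set.range (X : Fin d → MvPowerSeries (Fin d) (WittVector p K))),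
        RingHom.ker π = span {C (p : WittVector p K) - f} := by
  have hC := isCohen_witt p K
  obtain ⟨g, hg⟩ := hC.exists_lift_residue (S := S) hp (e.toRingHom.comp WittVector.constantCoeff)
  have hgr : ∀ a, residue S (g a) = e (WittVector.constantCoeff a) := fun a =>
    RingHom.congr_fun hg a
  have hcsurj : Function.Surjective (WittVector.constantCoeff : WittVector p K →+* K) := by
    intro a
    refine ⟨WittVector.teichmuller p a, ?_⟩
    rw [WittVector.constantCoeff_apply, WittVector.teichmuller_coeff_zero]
  have hloc : IsLocalHom g := by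
    refine ⟨fun a ha => ?_⟩
    by_contra hcon
    have h1 : a ∈ maximalIdeal (WittVector p K) := (mem_maximalIdeal _).2 hcon
    rw [hC.maximalIdeal_eq, Ideal.mem_span_singleton] at h1
    obtain ⟨b, rfl⟩ := h1
    rw [map_mul, map_natCast] at ha
    exact (mem_maximalIdeal _).1 (Ideal.mul_mem_right _ _ hp) ha
  have hres : Function.Surjective ((residue S).comp g) := by
    rw [hg]
    exact e.surjective.comp hcsurj
  have ht : ∀ i, t i ∈ maximalIdeal S := fun i => hspan ▸ subset_span ⟨i, rfl⟩
  obtain ⟨hsurj, f, hf, hker⟩ := ker_psEval_mixed hC g hloc hres hd t ht hspan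
  refine ⟨psEval (maximalIdeal S) g t ht, hsurj, fun i => psEval_X _ _ _ ht i, fun a => ?_,
    f, hf, hker⟩
  rw [psEval_C, hgr]

/-- The dichotomy. -/
theorem charP_or_charZero (S : Type u) [CommRing S] [IsLocalRing S] :
    CharZero (ResidueField S) ∨ ∃ p : ℕ, p.Prime ∧ CharP (ResidueField S) p ∧
      (p : S) ∈ maximalIdeal S := by
  obtain ⟨p, hp⟩ := CharP.exists (ResidueField S)
  rcases CharP.char_is_prime_or_zero (ResidueField S) p with h | h
  · right
    refine ⟨p, h, hp, ?_⟩
    rw [← residue_eq_zero_iff, map_natCast]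
    exact CharP.cast_eq_zero _ p
  · left
    subst h
    exact CharP.charP_to_charZero _

/-- **Structure of complete regular local rings with algebraically closed residue field.** -/
theorem structure_of_isAlgClosed [IsAlgClosed (ResidueField S)] {d : ℕ}
    (hd : ringKrullDim S = (d : ℕ)) (t : Fin d → S) (hspan : span (Set.range t) = maximalIdeal S) :
    (∃ e : MvPowerSeries (Fin d) (ResidueField S) ≃+* S,
      (∀ i, e (X i) = t i) ∧ ∀ a, residue S (e (C a)) = a) ∨
    ∃ (p : ℕ) (_ : Fact p.Prime) (_ : CharP (ResidueField S) p), (p : S) ≠ 0 ∧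
      ∃ π : MvPowerSeries (Fin d) (WittVector p (ResidueField S)) →+* S, Function.Surjective π ∧
      (∀ i, π (X i) = t i) ∧
      (∀ a, residue S (π (C a)) = WittVector.constantCoeff a) ∧
      ∃ f ∈ span (Set.range (X : Fin d → MvPowerSeries (Fin d) (WittVector p (ResidueField S)))),
        RingHom.ker π = span {C (p : WittVector p (ResidueField S)) - f} := by
  rcases charP_or_charZero S with h | ⟨p, hp, hchar, hpm⟩
  · left
    exact exists_equiv_of_equalChar S (Or.inl h) hd t hspan
  · by_cases hp0 : (p : S) = 0
    · left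
      exact exists_equiv_of_equalChar S (Or.inr ⟨p, hp, hp0⟩) hd t hspan
    · right
      have : Fact p.Prime := ⟨hp⟩
      refine ⟨p, inferInstance, hchar, hp0, ?_⟩
      exact exists_surjective_of_perfect S p hpm (RingEquiv.refl _) hd t hspan

end Structure

end Crest.Agent.R188.Str
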