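import Crest.Agent.R188.KosD

/-!
# R188 (Serre positivity), S-level (e): lengths of `Y ⊗_W Q` for `Q` of finite length over a local
ring `W` with principal maximal ideal `(ϖ)` and `Y` with `Λ`-null `ϖ`-torsion.
helper415
-/

set_option autoImplicit false

namespace Crest.Agent.R188.Tay

open Crest.Agent.R183 TensorProduct
open scoped ENNReal

universe u v

section tens

variable {W : Type u} [CommRing W] {Γ : Type u} [CommRing Γ] [Algebra W Γ] {Y : Type u}
  [AddCommGroup Y] [Module W Y] [Module Γ Y] [IsScalarTower W Γ Y]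

omit [Algebra W Γ] [Module Γ Y] [IsScalarTower W Γ Y] in
theorem exact_ker (ϖ : W) {Q : Type u} [AddCommGroup Q] [Module W Q] (N : Submodule W Q) (q0 : Q)
    (h1 : ∀ w : W, w • q0 ∈ N ↔ ϖ ∣ w) (h2 : ∀ x : Q, ∃ w : W, x - w • q0 ∈ N)
    (hm : ϖ • q0 ∈ N) (z : Y ⊗[W] N) (hz : N.subtype.lTensor Y z = 0) :
    ∃ y : Y, ϖ • y = 0 ∧ z = y ⊗ₜ[W] (⟨ϖ • q0, hm⟩ : N) := by
  let f : W →ₗ[W] N × W := LinearMap.prod (LinearMap.toSpanSingleton W N ⟨ϖ • q0, hm⟩)
    (-(LinearMap.toSpanSingleton W W ϖ))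
  let g : N × W →ₗ[W] Q := LinearMap.coprod N.subtype (LinearMap.toSpanSingleton W Q q0)
  have hg : Function.Surjective g := by
    intro x
    obtain ⟨w, hw⟩ := h2 x
    exact ⟨(⟨_, hw⟩, w), sub_add_cancel _ _⟩
  have hfg : Function.Exact f g := by
    rintro ⟨n, w⟩
    constructor
    · intro h
      have h' : (n : Q) + w • q0 = 0 := h
      have h3 : w • q0 ∈ N := by
        have : w • q0 = -(n : Q) := by
          rw [eq_neg_iff_add_eq_zero, add_comm]
          exact h'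
        rw [this]
        exact N.neg_mem n.2
      obtain ⟨c, rfl⟩ := (h1 w).1 h3
      refine ⟨-c, Prod.ext (Subtype.ext ?_) ?_⟩
      · change (-c) • (ϖ • q0) = (n : Q)
        rw [smul_smul, neg_mul, neg_smul, mul_comm c ϖ]
        exact (eq_neg_of_add_eq_zero_left h').symm
      · change -((-c) • ϖ) = ϖ * c
        rw [neg_smul, neg_neg, smul_eq_mul, mul_comm]
    · rintro ⟨c, hc⟩
      have hc1 : c • (ϖ • q0) = (n : Q) := congrArg (fun t => (t.1 : Q)) hc
      have hc2 : -(c • ϖ) = w := congrArg Prod.snd hc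
      change (n : Q) + w • q0 = 0
      rw [← hc1, ← hc2, neg_smul, smul_eq_mul, smul_smul, add_neg_cancel]
  have hex := lTensor_exact Y hfg hg
  have h4 : (g.lTensor Y) ((LinearMap.inl W N W).lTensor Y z) = 0 := by
    rw [← LinearMap.lTensor_comp_apply]
    have : g ∘ₗ LinearMap.inl W N W = N.subtype := by
      ext n
      change (n : Q) + (0 : W) • q0 = n
      rw [zero_smul, add_zero]
    rw [this, hz]
  obtain ⟨t, ht⟩ := (hex _).1 h4
  obtain ⟨y, rfl⟩ : ∃ y : Y, y ⊗ₜ[W] (1 : W) = t := ⟨TensorProduct.rid W Y t, by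
    have := (TensorProduct.rid W Y).symm_apply_apply t
    rwa [TensorProduct.rid_symm_apply] at this⟩
  refine ⟨y, ?_, ?_⟩
  · have h5 := congrArg ((LinearMap.snd W N W).lTensor Y) ht
    rw [← LinearMap.lTensor_comp_apply, ← LinearMap.lTensor_comp_apply,
      LinearMap.snd_comp_inl, LinearMap.lTensor_zero, LinearMap.zero_apply,
      LinearMap.lTensor_tmul] at h5
    have h6 := congrArg (TensorProduct.rid W Y) h5
    rw [TensorProduct.rid_tmul, map_zero] at h6
    have h7 : (-((1 : W) • ϖ)) • y = 0 := h6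
    rw [one_smul, neg_smul, neg_eq_zero] at h7
    exact h7
  · have h5 := congrArg ((LinearMap.fst W N W).lTensor Y) ht
    rw [← LinearMap.lTensor_comp_apply, ← LinearMap.lTensor_comp_apply,
      LinearMap.fst_comp_inl, LinearMap.lTensor_id, LinearMap.id_apply,
      LinearMap.lTensor_tmul] at h5
    rw [← h5]
    congr 1
    change (1 : W) • (⟨ϖ • q0, hm⟩ : N) = _
    rw [one_smul]

variable (Γ Y) in
/-- `y ↦ y ⊗ q` -/
def tmulR {Q : Type u} [AddCommGroup Q] [Module W Q] (q : Q) : Y →ₗ[Γ] Y ⊗[W] Q where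
  toFun := fun y => y ⊗ₜ q
  map_add' := fun _ _ => TensorProduct.add_tmul _ _ _
  map_smul' := fun _ _ => rfl

/-- `Γ`-linear `Y ⊗ f` -/
def lT (Γ : Type u) [CommRing Γ] [Algebra W Γ] (Y : Type u)
    [AddCommGroup Y] [Module W Y] [Module Γ Y] [IsScalarTower W Γ Y]
    {Q Q' : Type u} [AddCommGroup Q] [Module W Q] [AddCommGroup Q'] [Module W Q']
    (f : Q →ₗ[W] Q') : Y ⊗[W] Q →ₗ[Γ] Y ⊗[W] Q' := AlgebraTensorModule.lTensor Γ Y f

theorem lT_apply {Q Q' : Type u} [AddCommGroup Q] [Module W Q] [AddCommGroup Q'] [Module W Q']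
    (f : Q →ₗ[W] Q') (z : Y ⊗[W] Q) : lT Γ Y f z = f.lTensor Y z := rfl

variable (Λ : AddLen.{u, u} Γ)

/-- `ϖ`-torsion -/
def tor (Γ : Type u) [CommRing Γ] [Algebra W Γ] (Y : Type u)
    [AddCommGroup Y] [Module W Y] [Module Γ Y] [IsScalarTower W Γ Y] (ϖ : W) : Submodule Γ Y :=
  LinearMap.ker (LinearMap.lsmul Γ Y (algebraMap W Γ ϖ))

theorem mem_tor {ϖ : W} {y : Y} : y ∈ tor Γ Y ϖ ↔ ϖ • y = 0 := by
  rw [tor, LinearMap.mem_ker, LinearMap.lsmul_apply, algebraMap_smul]

/-- the module `Y / ϖ Y` -/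
abbrev modϖ (Γ : Type u) [CommRing Γ] [Algebra W Γ] (Y : Type u)
    [AddCommGroup Y] [Module W Y] [Module Γ Y] [IsScalarTower W Γ Y] (ϖ : W) : Type u :=
  Y ⧸ LinearMap.range (LinearMap.lsmul Γ Y (algebraMap W Γ ϖ))

theorem L_step {ϖ : W} (hY : Λ.L (tor Γ Y ϖ) = 0) {Q : Type u} [AddCommGroup Q] [Module W Q]
    (N : Submodule W Q) (q0 : Q) (h1 : ∀ w : W, w • q0 ∈ N ↔ ϖ ∣ w)
    (h2 : ∀ x : Q, ∃ w : W, x - w • q0 ∈ N) :
    Λ.L (Y ⊗[W] Q) = Λ.L (Y ⊗[W] N) + Λ.L (modϖ Γ Y ϖ) := by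
  have hm : ϖ • q0 ∈ N := (h1 ϖ).2 dvd_rfl
  have e1 : Λ.L (Y ⊗[W] N) = Λ.L (LinearMap.range (lT Γ Y N.subtype)) := by
    rw [Λ.L_ker_add_range (lT Γ Y N.subtype)]
    have : Λ.L (LinearMap.ker (lT Γ Y N.subtype)) = 0 := by
      let φ : tor Γ Y ϖ →ₗ[Γ] LinearMap.ker (lT Γ Y N.subtype) :=
        ((tmulR Γ Y (⟨ϖ • q0, hm⟩ : N)) ∘ₗ (tor Γ Y ϖ).subtype).codRestrict _ (by
          rintro ⟨y, hy⟩
          rw [mem_tor] at hy
          rw [LinearMap.mem_ker, lT_apply]
          change N.subtype.lTensor Y (y ⊗ₜ (⟨ϖ • q0, hm⟩ : N)) = 0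
          rw [LinearMap.lTensor_tmul]
          change y ⊗ₜ[W] (ϖ • q0) = 0
          rw [← TensorProduct.smul_tmul, hy, TensorProduct.zero_tmul])
      have hφ : Function.Surjective φ := by
        rintro ⟨z, hz⟩
        rw [LinearMap.mem_ker, lT_apply] at hz
        obtain ⟨y, hy, rfl⟩ := exact_ker ϖ N q0 h1 h2 hm z hz
        exact ⟨⟨y, mem_tor.2 hy⟩, rfl⟩
      exact le_antisymm ((Λ.L_le_of_surjective φ hφ).trans hY.le) zero_le
    rw [this, zero_add]
  have e2 : Λ.L ((Y ⊗[W] Q) ⧸ LinearMap.range (lT Γ Y N.subtype)) = Λ.L (modϖ Γ Y ϖ) := by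
    refine (KosG.L_of_surj Λ ((LinearMap.range (lT Γ Y N.subtype)).mkQ ∘ₗ tmulR Γ Y q0) ?_ _ ?_).symm
    · intro x
      obtain ⟨x, rfl⟩ := (LinearMap.range (lT Γ Y N.subtype)).mkQ_surjective x
      induction x using TensorProduct.induction_on with
      | zero => exact ⟨0, by simp⟩
      | tmul y q =>
        obtain ⟨w, hw⟩ := h2 q
        refine ⟨w • y, ?_⟩
        change (LinearMap.range (lT Γ Y N.subtype)).mkQ ((w • y) ⊗ₜ q0) = _
        rw [← sub_eq_zero, ← map_sub, Submodule.mkQ_apply, Submodule.Quotient.mk_eq_zero]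
        refine ⟨-(y ⊗ₜ (⟨_, hw⟩ : N)), ?_⟩
        rw [map_neg, lT_apply, LinearMap.lTensor_tmul]
        change -(y ⊗ₜ[W] (q - w • q0)) = _
        rw [TensorProduct.tmul_sub, TensorProduct.smul_tmul]
        abel
      | add x x' hx hx' =>
        obtain ⟨y, hy⟩ := hx
        obtain ⟨y', hy'⟩ := hx'
        exact ⟨y + y', by rw [map_add, map_add, hy, hy']⟩
    · -- kernel
      ext y
      rw [LinearMap.mem_ker]
      change (LinearMap.range (lT Γ Y N.subtype)).mkQ (y ⊗ₜ q0) = 0 ↔ _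
      rw [Submodule.mkQ_apply, Submodule.Quotient.mk_eq_zero]
      constructor
      · rintro ⟨z, hz⟩
        rw [lT_apply] at hz
        -- map to Y ⊗ W/ϖ
        let ρ : Q →ₗ[W] Q ⧸ N := N.mkQ
        have hz1 : (N.mkQ).lTensor Y (y ⊗ₜ[W] q0) = 0 := by
          rw [← hz, ← LinearMap.lTensor_comp_apply]
          have : N.mkQ ∘ₗ N.subtype = 0 := by
            ext n
            simp
          rw [this, LinearMap.lTensor_zero, LinearMap.zero_apply]
        rw [LinearMap.lTensor_tmul] at hz1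
        -- Q/N ≅ W/(ϖ)
        have hs : Function.Surjective (LinearMap.toSpanSingleton W (Q ⧸ N) (N.mkQ q0)) := by
          intro x
          obtain ⟨x, rfl⟩ := N.mkQ_surjective x
          obtain ⟨w, hw⟩ := h2 x
          refine ⟨w, ?_⟩
          rw [LinearMap.toSpanSingleton_apply, ← map_smul, ← sub_eq_zero, ← map_sub,
            Submodule.mkQ_apply, Submodule.Quotient.mk_eq_zero, ← neg_mem_iff, neg_sub]
          exact hw
        have hk : LinearMap.ker (LinearMap.toSpanSingleton W (Q ⧸ N) (N.mkQ q0)) =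
            Ideal.span {ϖ} := by
          ext w
          rw [LinearMap.mem_ker, LinearMap.toSpanSingleton_apply, ← map_smul,
            Submodule.mkQ_apply, Submodule.Quotient.mk_eq_zero, h1, Ideal.mem_span_singleton]
        let e : (W ⧸ (Ideal.span {ϖ} : Ideal W)) ≃ₗ[W] (Q ⧸ N) :=
          (Submodule.quotEquivOfEq _ _ hk.symm).trans
            (LinearMap.quotKerEquivOfSurjective _ hs)
        have he : e (Ideal.Quotient.mk _ 1) = N.mkQ q0 := by
          change LinearMap.toSpanSingleton W (Q ⧸ N) (N.mkQ q0) 1 = _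
          rw [LinearMap.toSpanSingleton_apply, one_smul]
        have h5 : (y ⊗ₜ[W] (Ideal.Quotient.mk (Ideal.span {ϖ}) (1 : W)) :
            Y ⊗[W] (W ⧸ (Ideal.span {ϖ} : Ideal W))) = 0 := by
          have : (e.lTensor Y) (y ⊗ₜ[W] (Ideal.Quotient.mk (Ideal.span {ϖ}) (1 : W))) = 0 := by
            rw [LinearEquiv.lTensor_tmul, he, hz1]
          exact (LinearEquiv.map_eq_zero_iff _).1 this
        have h6 := congrArg (TensorProduct.tensorQuotEquivQuotSMul Y (Ideal.span {ϖ})) h5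
        rw [map_zero] at h6
        have h7 : TensorProduct.tensorQuotEquivQuotSMul Y (Ideal.span {ϖ})
            (y ⊗ₜ[W] (Ideal.Quotient.mk (Ideal.span {ϖ}) (1 : W))) =
            Submodule.Quotient.mk ((1 : W) • y) :=
          TensorProduct.tensorQuotEquivQuotSMul_tmul_mk _ _ _
        rw [h7, one_smul, Submodule.Quotient.mk_eq_zero, Submodule.ideal_span_singleton_smul] at h6
        obtain ⟨y', _, hy'⟩ := h6
        refine ⟨y', ?_⟩
        rw [LinearMap.lsmul_apply, algebraMap_smul]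
        exact hy'
      · rintro ⟨y', rfl⟩
        rw [LinearMap.lsmul_apply, algebraMap_smul]
        refine ⟨y' ⊗ₜ (⟨ϖ • q0, hm⟩ : N), ?_⟩
        rw [lT_apply, LinearMap.lTensor_tmul, TensorProduct.smul_tmul]
        rfl
  rw [Λ.L_eq_add_quotient (LinearMap.range (lT Γ Y N.subtype)), ← e1, e2]

/-- **Length of `Y ⊗_W Q`**, `Q` of finite length over a local `W`-algebra `S` with residue field
`W/ϖ`. -/
theorem L_tensor {S : Type u} [CommRing S] [Algebra W S] [IsLocalRing S] {ϖ : W}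
    (hs1 : ∀ w : W, algebraMap W S w ∈ IsLocalRing.maximalIdeal S ↔ ϖ ∣ w)
    (hs2 : ∀ s : S, ∃ w : W, s - algebraMap W S w ∈ IsLocalRing.maximalIdeal S)
    (hY : Λ.L (tor Γ Y ϖ) = 0) {Q : Type u} [AddCommGroup Q] [Module S Q]
    (hQ : IsFiniteLength S Q) (iQ : Module W Q) (iQ' : IsScalarTower W S Q) :
    ∃ n : ℕ, Module.length S Q = n ∧ Λ.L (Y ⊗[W] Q) = n * Λ.L (modϖ Γ Y ϖ) := by
  induction hQ with
  | of_subsingleton =>
    refine ⟨0, by simp, ?_⟩
    rw [Nat.cast_zero, zero_mul]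
    exact Λ.L_subsingleton
  | @of_simple_quotient Q _ _ N hs hN ih =>
    obtain ⟨n, hn, hn'⟩ := ih (N.restrictScalars W).module
      ⟨fun w s x => Subtype.ext (smul_assoc w s (x : Q))⟩
    obtain ⟨I, hI, ⟨e⟩⟩ := isSimpleModule_iff_quot_maximal.1 hs
    have hI' : I = IsLocalRing.maximalIdeal S := IsLocalRing.eq_maximalIdeal hI
    subst hI'
    obtain ⟨q0, hq0⟩ := N.mkQ_surjective (e.symm (Ideal.Quotient.mk _ 1))
    have hw : ∀ w : S, N.mkQ (w • q0) = e.symm (Ideal.Quotient.mk _ w) := by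
      intro w
      rw [map_smul, hq0, ← map_smul]
      congr 1
      change w • (Submodule.Quotient.mk 1 : S ⧸ IsLocalRing.maximalIdeal S) =
        Submodule.Quotient.mk w
      rw [← Submodule.Quotient.mk_smul, smul_eq_mul, mul_one]
    have h1' : ∀ w : S, w • q0 ∈ N ↔ w ∈ IsLocalRing.maximalIdeal S := by
      intro w
      rw [← Submodule.Quotient.mk_eq_zero, ← Submodule.mkQ_apply, hw, LinearEquiv.map_eq_zero_iff,
        Ideal.Quotient.eq_zero_iff_mem]
    have h1 : ∀ w : W, w • q0 ∈ N.restrictScalars W ↔ ϖ ∣ w := by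
      intro w
      rw [Submodule.restrictScalars_mem, ← algebraMap_smul S w q0, h1', hs1]
    have h2 : ∀ x : Q, ∃ w : W, x - w • q0 ∈ N.restrictScalars W := by
      intro x
      obtain ⟨s, hs'⟩ := Ideal.Quotient.mk_surjective (e (N.mkQ x))
      obtain ⟨w, hw'⟩ := hs2 s
      refine ⟨w, ?_⟩
      have h3 : x - s • q0 ∈ N := by
        rw [← Submodule.Quotient.mk_eq_zero, ← Submodule.mkQ_apply, map_sub, hw, hs',
          LinearEquiv.symm_apply_apply, sub_self]
      have h4 : (s - algebraMap W S w) • q0 ∈ N := (h1' _).2 hw'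
      rw [sub_smul, algebraMap_smul] at h4
      have h5 := N.add_mem h3 h4
      rwa [sub_add_sub_cancel] at h5
    refine ⟨n + 1, ?_, ?_⟩
    · rw [Module.length_eq_add_of_exact N.subtype N.mkQ N.subtype_injective N.mkQ_surjective
        (LinearMap.exact_subtype_mkQ N), hn, Module.length_eq_one S (Q ⧸ N)]
      push_cast
      rfl
    · rw [L_step Λ hY (N.restrictScalars W) q0 h1 h2]
      have h6 : Λ.L (Y ⊗[W] (N.restrictScalars W)) = n * Λ.L (modϖ Γ Y ϖ) := hn'
      rw [h6]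
      push_cast
      ring

end tens

end Crest.Agent.R188.Tay
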