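import Crest.Agent.R188.Tay1
import Crest.Agent.R188.Tay2

/-!
# R188 (Serre positivity), S-level (e): the lower bound for `Q_n(Γ) / τ(I) Q_n(Γ)`.
helper415
-/

set_option autoImplicit false
set_option linter.unusedSectionVars false

namespace Crest.Agent.R188.Tay

open Crest.Agent.R183 TensorProduct
open scoped ENNReal

noncomputable section

universe u

/-- nilpotent ideals are complete -/
theorem isAdicComplete_of_pow_eq_bot {B : Type u} [CommRing B] {J : Ideal B} {N : ℕ}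
    (hJ : J ^ N = ⊥) : IsAdicComplete J B where
  haus' := fun x hx => by
    have h1 := hx N
    rw [SModEq.zero, smul_eq_mul, Ideal.mul_top, hJ, Ideal.mem_bot] at h1
    exact h1
  prec' := fun f hf => by
    refine ⟨f N, fun n => ?_⟩
    rcases le_total n N with h | h
    · exact hf h
    · have h1 := hf h
      rw [SModEq.sub_mem, smul_eq_mul, Ideal.mul_top] at h1 ⊢
      rw [hJ, Ideal.mem_bot, sub_eq_zero] at h1
      rw [← h1, sub_self]
      exact Ideal.zero_mem _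

theorem sub_pow_zero {B : Type*} [CommRing B] {a b : B} {h n : ℕ} (ha : a ^ h = 0)
    (hb : b ^ h = 0) (hn : 2 * h ≤ n) : (a - b) ^ n = 0 := by
  rw [sub_eq_add_neg]
  refine (Commute.all _ _).add_pow_eq_zero_of_add_le_succ_of_pow_eq_zero ha (n := h) ?_ (by omega)
  rw [neg_pow, hb, mul_zero]

section psi

variable {d : ℕ} {n : ℕ} {W : Type u} [CommRing W] {Γ : Type u} [CommRing Γ]
  [Algebra W Γ] (φ : MvPowerSeries (Fin d) W →+* Γ)
  (B₁ : Type u) [CommRing B₁] [Algebra W B₁] [Algebra Γ B₁] [IsScalarTower W Γ B₁]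
  (B₂ : Type u) [CommRing B₂] [Algebra W B₂] [Algebra (MvPowerSeries (Fin d) W) B₂]
  [IsScalarTower W (MvPowerSeries (Fin d) W) B₂]

/-- the image of `x_i` -/
def ta (i : Fin d) : B₁ ⊗[W] B₂ :=
  (1 : B₁) ⊗ₜ[W] (algebraMap (MvPowerSeries (Fin d) W) B₂ (MvPowerSeries.X i))

/-- the image of `x_i'` -/
def tb (i : Fin d) : B₁ ⊗[W] B₂ :=
  (algebraMap Γ B₁ (φ (MvPowerSeries.X i))) ⊗ₜ[W] (1 : B₂)

/-- the image of `q_i` -/
def tq (i : Fin d) : B₁ ⊗[W] B₂ := ta B₁ B₂ i - tb φ B₁ B₂ i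

variable {φ B₁ B₂}

theorem ta_pow {h : ℕ}
    (hx : ∀ i : Fin d, (algebraMap (MvPowerSeries (Fin d) W) B₂ (MvPowerSeries.X i)) ^ h = 0)
    (i : Fin d) : (ta B₁ B₂ i : B₁ ⊗[W] B₂) ^ h = 0 := by
  rw [ta, Algebra.TensorProduct.tmul_pow, hx, TensorProduct.tmul_zero]

theorem tb_pow {ϖ : W} {h k : ℕ} (hk : algebraMap W B₂ ϖ ^ k = 0)
    (hx' : ∀ i : Fin d, algebraMap Γ B₁ (φ (MvPowerSeries.X i)) ^ h ∈
      Ideal.span {algebraMap W B₁ ϖ ^ k})
    (i : Fin d) : (tb φ B₁ B₂ i : B₁ ⊗[W] B₂) ^ h = 0 := by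
  rw [tb, Algebra.TensorProduct.tmul_pow, one_pow]
  obtain ⟨g, hg⟩ := Ideal.mem_span_singleton'.1 (hx' i)
  have e1 : (ϖ ^ k) • g = algebraMap Γ B₁ (φ (MvPowerSeries.X i)) ^ h := by
    rw [← hg, Algebra.smul_def, map_pow, mul_comm]
  have e2 : (ϖ ^ k) • (1 : B₂) = 0 := by
    rw [Algebra.smul_def, map_pow, hk, zero_mul]
  rw [← e1, TensorProduct.smul_tmul, e2, TensorProduct.tmul_zero]

variable (n) in
/-- the ring homomorphism `Q_n(Γ) → B₁ ⊗_W B₂` -/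
def psi (hq : ∀ i : Fin d, (tq φ B₁ B₂ i : B₁ ⊗[W] B₂) ^ n = 0) : Q d n Γ →+* B₁ ⊗[W] B₂ :=
  Ideal.Quotient.lift (pI d n Γ) (MvPolynomial.eval₂Hom
    ((Algebra.TensorProduct.includeLeftRingHom).comp (algebraMap Γ B₁)) (tq φ B₁ B₂)) (by
    intro a ha
    have h1 : pI d n Γ ≤ RingHom.ker (MvPolynomial.eval₂Hom
      ((Algebra.TensorProduct.includeLeftRingHom).comp (algebraMap Γ B₁)) (tq φ B₁ B₂)) := by
      rw [pI, Ideal.span_le]
      rintro _ ⟨i, rfl⟩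
      change MvPolynomial.eval₂Hom _ _ (MvPolynomial.X i ^ n) = 0
      rw [map_pow, MvPolynomial.eval₂Hom_X', hq]
    exact RingHom.mem_ker.1 (h1 ha))

theorem psi_algebraMap (hq : ∀ i : Fin d, (tq φ B₁ B₂ i : B₁ ⊗[W] B₂) ^ n = 0) (c : Γ) :
    psi n hq (algebraMap Γ (Q d n Γ) c) = (algebraMap Γ B₁ c) ⊗ₜ[W] (1 : B₂) := by
  rw [algebraMap_Q, psi, Ideal.Quotient.lift_mk, MvPolynomial.eval₂Hom_C]
  rfl

theorem psi_q (hq : ∀ i : Fin d, (tq φ B₁ B₂ i : B₁ ⊗[W] B₂) ^ n = 0) (i : Fin d) :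
    psi n hq (q i) = tq φ B₁ B₂ i := by
  rw [q, psi, Ideal.Quotient.lift_mk, MvPolynomial.eval₂Hom_X']

theorem psi_tau [IsNoetherianRing W] (hq : ∀ i : Fin d, (tq φ B₁ B₂ i : B₁ ⊗[W] B₂) ^ n = 0)
    (hφ : ∀ w, φ (MvPowerSeries.C w) = algebraMap W Γ w) {h : ℕ}
    (hx : ∀ i : Fin d, (algebraMap (MvPowerSeries (Fin d) W) B₂ (MvPowerSeries.X i)) ^ h = 0)
    (f : MvPowerSeries (Fin d) W) :
    psi n hq (tau n φ f) = (1 : B₁) ⊗ₜ[W] (algebraMap (MvPowerSeries (Fin d) W) B₂ f) := by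
  have ha : ∀ i, (ta B₁ B₂ i : B₁ ⊗[W] B₂) ^ h = 0 := ta_pow hx
  have hJ : Ideal.span (Set.range (ta B₁ B₂ : Fin d → B₁ ⊗[W] B₂)) ^ (d * h + 1) = ⊥ := by
    rw [eq_bot_iff]
    have h1 := span_pow_le (ta B₁ B₂ : Fin d → B₁ ⊗[W] B₂) h Finset.univ
    rw [Finset.card_univ, Fintype.card_fin, Finset.coe_univ, Set.image_univ] at h1
    refine h1.trans ?_
    rw [Ideal.span_le]
    rintro _ ⟨i, rfl⟩
    exact Ideal.mem_bot.2 (ha i)
  have hc : IsAdicComplete (Ideal.span (Set.range (ta B₁ B₂ : Fin d → B₁ ⊗[W] B₂)))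
    (B₁ ⊗[W] B₂) := isAdicComplete_of_pow_eq_bot hJ
  let g : MvPowerSeries (Fin d) W →+* B₁ ⊗[W] B₂ :=
    (Algebra.TensorProduct.includeRight.toRingHom).comp (algebraMap (MvPowerSeries (Fin d) W) B₂)
  have key : (psi n hq).comp (tau n φ) = g := by
    refine eq_of_X (J := Ideal.span (Set.range (ta B₁ B₂ : Fin d → B₁ ⊗[W] B₂))) ?_ ?_ ?_
    · intro w
      rw [RingHom.comp_apply, tau_C, psi_algebraMap, hφ]
      change (algebraMap Γ B₁ (algebraMap W Γ w)) ⊗ₜ[W] (1 : B₂) =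
        (1 : B₁) ⊗ₜ[W] (algebraMap (MvPowerSeries (Fin d) W) B₂ (MvPowerSeries.C w))
      have e1 : algebraMap Γ B₁ (algebraMap W Γ w) = w • (1 : B₁) := by
        rw [Algebra.smul_def, mul_one, ← IsScalarTower.algebraMap_apply]
      have e2 : algebraMap (MvPowerSeries (Fin d) W) B₂ (MvPowerSeries.C w) = w • (1 : B₂) := by
        rw [Algebra.smul_def, mul_one, IsScalarTower.algebraMap_apply W (MvPowerSeries (Fin d) W) B₂]
        rfl
      rw [e1, e2, TensorProduct.smul_tmul]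
    · intro i
      rw [RingHom.comp_apply, tau_X, map_add, psi_algebraMap, psi_q, tq]
      change tb φ B₁ B₂ i + (ta B₁ B₂ i - tb φ B₁ B₂ i) = ta B₁ B₂ i
      abel
    · intro i
      exact Ideal.subset_span ⟨i, rfl⟩
  exact RingHom.congr_fun key f

theorem psi_surjective [IsNoetherianRing W]
    (hq : ∀ i : Fin d, (tq φ B₁ B₂ i : B₁ ⊗[W] B₂) ^ n = 0)
    (hφ : ∀ w, φ (MvPowerSeries.C w) = algebraMap W Γ w) {h : ℕ}
    (hx : ∀ i : Fin d, (algebraMap (MvPowerSeries (Fin d) W) B₂ (MvPowerSeries.X i)) ^ h = 0)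
    (h1 : Function.Surjective (algebraMap Γ B₁))
    (h2 : Function.Surjective (algebraMap (MvPowerSeries (Fin d) W) B₂)) :
    Function.Surjective (psi n hq) := by
  intro z
  induction z using TensorProduct.induction_on with
  | zero => exact ⟨0, map_zero _⟩
  | tmul y s =>
    obtain ⟨y, rfl⟩ := h1 y
    obtain ⟨s, rfl⟩ := h2 s
    refine ⟨algebraMap Γ (Q d n Γ) y * tau n φ s, ?_⟩
    rw [map_mul, psi_algebraMap, psi_tau hq hφ hx, Algebra.TensorProduct.tmul_mul_tmul,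
      mul_one, one_mul]
  | add x y hx hy =>
    obtain ⟨a, rfl⟩ := hx
    obtain ⟨b, rfl⟩ := hy
    exact ⟨a + b, map_add _ _ _⟩

/-- `Γ`-linear version -/
def psiL (hq : ∀ i : Fin d, (tq φ B₁ B₂ i : B₁ ⊗[W] B₂) ^ n = 0) :
    Q d n Γ →ₗ[Γ] B₁ ⊗[W] B₂ where
  toFun := psi n hq
  map_add' := map_add _
  map_smul' := fun c x => by
    have h1 : c • x = algebraMap Γ (Q d n Γ) c * x := by
      obtain ⟨x, rfl⟩ := Ideal.Quotient.mk_surjective x
      rw [algebraMap_Q, ← map_mul, ← MvPolynomial.smul_eq_C_mul]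
      rfl
    rw [RingHom.id_apply, h1, map_mul, psi_algebraMap]
    generalize psi n hq x = z
    induction z using TensorProduct.induction_on with
    | zero => rw [mul_zero, smul_zero]
    | tmul y s =>
      rw [Algebra.TensorProduct.tmul_mul_tmul, one_mul, TensorProduct.smul_tmul', Algebra.smul_def]
    | add x y hx hy => rw [mul_add, smul_add, hx, hy]

/-- **Lower bound.** -/
theorem L_T_le (Λ : AddLen.{u, u} Γ) [IsNoetherianRing W]
    (hq : ∀ i : Fin d, (tq φ B₁ B₂ i : B₁ ⊗[W] B₂) ^ n = 0)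
    (hφ : ∀ w, φ (MvPowerSeries.C w) = algebraMap W Γ w) {h : ℕ}
    (hx : ∀ i : Fin d, (algebraMap (MvPowerSeries (Fin d) W) B₂ (MvPowerSeries.X i)) ^ h = 0)
    (h1 : Function.Surjective (algebraMap Γ B₁))
    (h2 : Function.Surjective (algebraMap (MvPowerSeries (Fin d) W) B₂))
    {I : Ideal (MvPowerSeries (Fin d) W)}
    (hI : I ≤ RingHom.ker (algebraMap (MvPowerSeries (Fin d) W) B₂)) :
    Λ.L (B₁ ⊗[W] B₂) ≤ Λ.L (Q d n Γ ⧸ (I.map (tau n φ)).restrictScalars Γ) := by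
  refine Λ.L_le_of_surjective (((I.map (tau n φ)).restrictScalars Γ).liftQ (psiL hq) ?_) ?_
  · intro x hx1
    have h1 : I.map (tau n φ) ≤ RingHom.ker (psi n hq) := by
      rw [Ideal.map_le_iff_le_comap]
      intro f hf
      rw [Ideal.mem_comap, RingHom.mem_ker, psi_tau hq hφ hx, RingHom.mem_ker.1 (hI hf),
        TensorProduct.tmul_zero]
    exact h1 hx1
  · intro z
    obtain ⟨x, hx1⟩ := psi_surjective hq hφ hx h1 h2 z
    exact ⟨Submodule.Quotient.mk x, hx1⟩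

end psi

section final

variable {d : ℕ} {n : ℕ} {W : Type u} [CommRing W] [IsLocalRing W] [IsNoetherianRing W]
  {Γ : Type u} [CommRing Γ] [Algebra W Γ] {φ : MvPowerSeries (Fin d) W →+* Γ}

/-- **Lower bound (e)**: the length of `Q_n(Γ)/τ(I)` is at least
`length(S/𝔞) · Λ(Γ/(𝔟, ϖ))`. -/
theorem lower_bound (Λ : AddLen.{u, u} Γ) {ϖ : W}
    (hϖ : IsLocalRing.maximalIdeal W = Ideal.span {ϖ})
    (hφ : ∀ w, φ (MvPowerSeries.C w) = algebraMap W Γ w)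
    {𝔞 : Ideal (MvPowerSeries (Fin d) W)} {𝔟 : Ideal Γ} {h k : ℕ} (hn : 2 * h ≤ n)
    (hx : ∀ i : Fin d, (MvPowerSeries.X i) ^ h ∈ 𝔞)
    (hk : (MvPowerSeries.C ϖ) ^ k ∈ 𝔞)
    (hx' : ∀ i : Fin d, φ (MvPowerSeries.X i) ^ h ∈ 𝔟 ⊔ Ideal.span {algebraMap W Γ ϖ ^ k})
    {I : Ideal (MvPowerSeries (Fin d) W)} (hI : I ≤ 𝔞)
    (hfin : IsFiniteLength (MvPowerSeries (Fin d) W) (MvPowerSeries (Fin d) W ⧸ 𝔞))
    (htor : Λ.L (tor Γ (Γ ⧸ 𝔟) ϖ) = 0) :
    ∃ N : ℕ, Module.length (MvPowerSeries (Fin d) W) (MvPowerSeries (Fin d) W ⧸ 𝔞) = N ∧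
      N * Λ.L (modϖ Γ (Γ ⧸ 𝔟) ϖ) ≤
        Λ.L (Q d n Γ ⧸ (I.map (tau n φ)).restrictScalars Γ) := by
  have hmem : ∀ s : MvPowerSeries (Fin d) W, s ∈ IsLocalRing.maximalIdeal (MvPowerSeries (Fin d) W) ↔
      ϖ ∣ MvPowerSeries.constantCoeff s := by
    intro s
    rw [IsLocalRing.mem_maximalIdeal, mem_nonunits_iff, MvPowerSeries.isUnit_iff_constantCoeff,
      ← mem_nonunits_iff, ← IsLocalRing.mem_maximalIdeal, hϖ, Ideal.mem_span_singleton]
  obtain ⟨N, hN, hN'⟩ := L_tensor (S := MvPowerSeries (Fin d) W) (Y := Γ ⧸ 𝔟) Λ (ϖ := ϖ)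
    (fun w => by
      rw [hmem]
      change ϖ ∣ MvPowerSeries.constantCoeff (MvPowerSeries.C w) ↔ _
      rw [MvPowerSeries.constantCoeff_C])
    (fun s => ⟨MvPowerSeries.constantCoeff s, by
      rw [hmem, map_sub]
      change ϖ ∣ MvPowerSeries.constantCoeff s -
        MvPowerSeries.constantCoeff (MvPowerSeries.C (MvPowerSeries.constantCoeff s))
      rw [MvPowerSeries.constantCoeff_C, sub_self]
      exact dvd_zero ϖ⟩) htor hfin inferInstance inferInstance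
  refine ⟨N, hN, ?_⟩
  rw [← hN']
  have e1 : ∀ i : Fin d, (algebraMap (MvPowerSeries (Fin d) W) (MvPowerSeries (Fin d) W ⧸ 𝔞)
      (MvPowerSeries.X i)) ^ h = 0 := fun i => by
    rw [← map_pow]
    exact Ideal.Quotient.eq_zero_iff_mem.2 (hx i)
  have e2 : algebraMap W (MvPowerSeries (Fin d) W ⧸ 𝔞) ϖ ^ k = 0 := by
    rw [← map_pow]
    refine Ideal.Quotient.eq_zero_iff_mem.2 ?_
    change MvPowerSeries.C (ϖ ^ k) ∈ 𝔞
    rw [map_pow]
    exact hk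
  have e3 : ∀ i : Fin d, algebraMap Γ (Γ ⧸ 𝔟) (φ (MvPowerSeries.X i)) ^ h ∈
      Ideal.span {algebraMap W (Γ ⧸ 𝔟) ϖ ^ k} := fun i => by
    have h1 := Ideal.mem_map_of_mem (Ideal.Quotient.mk 𝔟) (hx' i)
    rw [Ideal.map_sup, Ideal.map_quotient_self, bot_sup_eq, Ideal.map_span, Set.image_singleton,
      map_pow, map_pow] at h1
    exact h1
  have hq : ∀ i : Fin d, (tq φ (Γ ⧸ 𝔟) (MvPowerSeries (Fin d) W ⧸ 𝔞) i :
      (Γ ⧸ 𝔟) ⊗[W] (MvPowerSeries (Fin d) W ⧸ 𝔞)) ^ n = 0 := fun i =>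
    sub_pow_zero (ta_pow e1 i) (tb_pow e2 e3 i) hn
  refine L_T_le Λ hq hφ e1 Ideal.Quotient.mk_surjective Ideal.Quotient.mk_surjective ?_
  intro x hx1
  exact Ideal.Quotient.eq_zero_iff_mem.2 (hI hx1)

end final

end

end Crest.Agent.R188.Tay
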