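import Crest.Agent.R188.Eq1

/-!
# R188 (Serre positivity), S-level (e), Noetherian part: `e (l^m) W = m^{|l|} e l W` and
`length (W/(l^m)W) ≥ m^{|l|}` if `dim W = |l|`.
helper415
-/

set_option autoImplicit false

namespace Crest.Agent.R188.Tay

open IsLocalRing Module Function Crest.Agent.R188.Eq
open scoped Pointwise

universe u v

section ideals

variable {R : Type u} [CommRing R]

theorem sup_span_pow_le (I : Ideal R) (q : R) (m : ℕ) :
    (I ⊔ Ideal.span {q}) ^ m ≤ I ⊔ Ideal.span {q ^ m} := by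
  induction m with
  | zero =>
    rw [pow_zero, pow_zero, Ideal.span_singleton_one]
    exact le_sup_of_le_right le_top
  | succ m ih =>
    rw [pow_succ]
    refine (Ideal.mul_mono_left ih).trans ?_
    rw [Ideal.sup_mul, Ideal.mul_sup (Ideal.span {q ^ m}), Ideal.span_singleton_mul_span_singleton,
      ← pow_succ]
    exact sup_le (le_sup_of_le_left Ideal.mul_le_left) (sup_le (le_sup_of_le_left
      Ideal.mul_le_right) le_sup_right)

/-- `(I + (l))^K ≤ I^k + (l^m)` for `K ≥ k + |l| m`. -/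
theorem pow_ofList_le (I : Ideal R) (k m : ℕ) (l : List R) :
    (I ⊔ Ideal.ofList l) ^ (k + l.length * m) ≤ I ^ k ⊔ Ideal.ofList (l.map (· ^ m)) := by
  induction l with
  | nil => simp
  | cons a l ih =>
    have e1 : k + (a :: l).length * m = (k + l.length * m) + m := by
      rw [List.length_cons]
      ring
    have e2 : I ⊔ Ideal.ofList (a :: l) = (I ⊔ Ideal.ofList l) ⊔ Ideal.span {a} := by
      rw [Ideal.ofList_cons, sup_assoc, sup_comm (Ideal.span {a})]
    have e3 : Ideal.span {a} ^ m = Ideal.span {a ^ m} := Ideal.span_singleton_pow a m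
    have h := Ideal.sup_pow_add_le_pow_sup_pow (I := I ⊔ Ideal.ofList l) (J := Ideal.span {a})
      (n := k + l.length * m) (m := m)
    rw [e1, e2, List.map_cons, Ideal.ofList_cons]
    refine h.trans ?_
    rw [e3]
    refine sup_le (ih.trans ?_) ?_
    · exact sup_le le_sup_left (le_sup_of_le_right le_sup_right)
    · exact le_sup_of_le_right le_sup_left

end ideals

variable {A : Type u} [CommRing A] [IsLocalRing A]

theorem Good.pow_cons {q : A} {l : List A} {W : Type v} [AddCommGroup W] [Module A W]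
    (h : Good (q :: l) W) (m : ℕ) : Good (q ^ m :: l) W := by
  obtain ⟨h1, n, hn⟩ := h
  refine ⟨h1, n * m, ?_⟩
  rw [Ideal.ofList_cons, sup_left_comm, sup_comm] at hn ⊢
  rw [pow_mul]
  exact (Ideal.pow_right_mono hn m).trans (sup_span_pow_le _ q m)

theorem Good.cons_left {a b : A} {l : List A} {W : Type v} [AddCommGroup W] [Module A W]
    (h : Good (a * b :: l) W) : Good (a :: l) W := by
  obtain ⟨h1, n, hn⟩ := h
  refine ⟨h1, n, hn.trans (sup_le_sup_left ?_ _)⟩
  rw [Ideal.ofList_cons, Ideal.ofList_cons]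
  refine sup_le_sup_right ?_ _
  rw [Ideal.span_singleton_le_span_singleton]
  exact dvd_mul_right a b

theorem Good.cons_right {a b : A} {l : List A} {W : Type v} [AddCommGroup W] [Module A W]
    (h : Good (a * b :: l) W) : Good (b :: l) W := by
  rw [mul_comm] at h
  exact Good.cons_left h

theorem Good.map_pow {l : List A} {W : Type v} [AddCommGroup W] [Module A W]
    (h : Good l W) (m : ℕ) : Good (l.map (· ^ m)) W := by
  obtain ⟨h1, n, hn⟩ := h
  refine ⟨h1, n * (1 + l.length * m), ?_⟩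
  rw [pow_mul]
  refine (Ideal.pow_right_mono hn _).trans ?_
  have := pow_ofList_le (Module.annihilator A W) 1 m l
  rwa [pow_one] at this

variable [IsNoetherianRing A]

/-- the kernel-cokernel sequence -/
theorem e_cons_mul (a b : A) (l : List A) (W : Type v) [AddCommGroup W] [Module A W]
    (h : Good (a * b :: l) W) : e (a * b :: l) W = e (a :: l) W + e (b :: l) W := by
  have ha : Good (a :: l) W := Good.cons_left h
  have hb : Good (b :: l) W := Good.cons_right h
  let f1 : Submodule.torsionBy A W a →ₗ[A] Submodule.torsionBy A W (a * b) :=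
    Submodule.inclusion (fun (x : W) hx => by
      rw [Submodule.mem_torsionBy_iff] at hx ⊢
      rw [mul_comm, mul_smul, hx, smul_zero])
  let f2 : Submodule.torsionBy A W (a * b) →ₗ[A] Submodule.torsionBy A W b :=
    (LinearMap.lsmul A W a).restrict (fun x hx => by
      rw [Submodule.mem_torsionBy_iff] at hx ⊢
      rw [LinearMap.lsmul_apply, smul_smul, mul_comm, hx])
  let f3 : Submodule.torsionBy A W b →ₗ[A] QuotSMulTop a W :=
    (Submodule.mkQ (a • (⊤ : Submodule A W))).comp (Submodule.torsionBy A W b).subtype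
  let f4 : QuotSMulTop a W →ₗ[A] QuotSMulTop (a * b) W :=
    Submodule.mapQ (a • (⊤ : Submodule A W)) ((a * b) • (⊤ : Submodule A W))
      (LinearMap.lsmul A W b) (by
        rintro _ ⟨x, _, rfl⟩
        change b • a • x ∈ (a * b) • (⊤ : Submodule A W)
        rw [smul_smul, mul_comm]
        exact ⟨x, trivial, rfl⟩)
  let f5 : QuotSMulTop (a * b) W →ₗ[A] QuotSMulTop b W :=
    Submodule.mapQ ((a * b) • (⊤ : Submodule A W)) (b • (⊤ : Submodule A W)) LinearMap.id (by
        rintro _ ⟨x, _, rfl⟩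
        change (a * b) • x ∈ b • (⊤ : Submodule A W)
        rw [mul_comm, mul_smul]
        exact ⟨a • x, trivial, rfl⟩)
  have hmem : ∀ (c : A) (x : W), Submodule.mkQ (c • (⊤ : Submodule A W)) x = 0 ↔ ∃ y, c • y = x := by
    intro c x
    rw [Submodule.mkQ_apply, Submodule.Quotient.mk_eq_zero,
      Submodule.mem_smul_pointwise_iff_exists]
    exact ⟨fun ⟨y, _, hy⟩ => ⟨y, hy⟩, fun ⟨y, hy⟩ => ⟨y, trivial, hy⟩⟩
  have hf1 : Injective f1 := Submodule.inclusion_injective _
  have h12 : Exact f1 f2 := by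
    intro ⟨x, hx⟩
    constructor
    · intro h0
      exact ⟨⟨x, congrArg Subtype.val h0⟩, rfl⟩
    · rintro ⟨⟨y, hy⟩, hy'⟩
      apply Subtype.ext
      have h1 : y = x := congrArg Subtype.val hy'
      subst h1
      exact hy
  have h23 : Exact f2 f3 := by
    rintro ⟨x, hx⟩
    constructor
    · intro h0
      obtain ⟨y, hy⟩ := (hmem a x).1 h0
      refine ⟨⟨y, ?_⟩, Subtype.ext hy⟩
      rw [Submodule.mem_torsionBy_iff] at hx ⊢
      rw [mul_comm, mul_smul, hy, hx]
    · rintro ⟨⟨y, hy⟩, hy'⟩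
      have h1 : a • y = x := congrArg Subtype.val hy'
      exact (hmem a x).2 ⟨y, h1⟩
  have h34 : Exact f3 f4 := by
    intro x
    obtain ⟨x, rfl⟩ := Submodule.mkQ_surjective _ x
    constructor
    · intro h0
      have h1 : Submodule.mkQ ((a * b) • (⊤ : Submodule A W)) (b • x) = 0 := h0
      obtain ⟨y, hy⟩ := (hmem _ _).1 h1
      refine ⟨⟨x - a • y, ?_⟩, ?_⟩
      · rw [Submodule.mem_torsionBy_iff, smul_sub, smul_smul, mul_comm b a, hy, sub_self]
      · change Submodule.mkQ (a • (⊤ : Submodule A W)) (x - a • y) = _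
        rw [map_sub, (hmem a (a • y)).2 ⟨y, rfl⟩, sub_zero]
    · rintro ⟨⟨y, hy⟩, hy'⟩
      rw [← hy']
      change Submodule.mkQ ((a * b) • (⊤ : Submodule A W)) (b • y) = 0
      rw [Submodule.mem_torsionBy_iff] at hy
      rw [hy, map_zero]
  have h45 : Exact f4 f5 := by
    intro x
    obtain ⟨x, rfl⟩ := Submodule.mkQ_surjective _ x
    constructor
    · intro h0
      have h1 : Submodule.mkQ (b • (⊤ : Submodule A W)) x = 0 := h0
      obtain ⟨y, rfl⟩ := (hmem _ _).1 h1
      exact ⟨Submodule.mkQ (a • (⊤ : Submodule A W)) y, rfl⟩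
    · rintro ⟨y, hy⟩
      obtain ⟨y, rfl⟩ := Submodule.mkQ_surjective _ y
      rw [← hy]
      exact (hmem b _).2 ⟨y, rfl⟩
  have hf5 : Surjective f5 := by
    intro x
    obtain ⟨x, rfl⟩ := Submodule.mkQ_surjective _ x
    exact ⟨Submodule.mkQ ((a * b) • (⊤ : Submodule A W)) x, rfl⟩
  have e1 : e l (Submodule.torsionBy A W a) = e l (LinearMap.range f1) :=
    e_congr l (LinearEquiv.ofInjective _ hf1)
  have e2 := e_range l f1 f2 h12 h.tor
  have e3 := e_range l f2 f3 h23 hb.tor
  have e4 := e_range l f3 f4 h34 ha.quot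
  have e5 := e_range l f4 f5 h45 h.quot
  have e6 : e l (LinearMap.range f5) = e l (QuotSMulTop b W) :=
    e_congr l ((LinearEquiv.ofEq _ _ (LinearMap.range_eq_top.2 hf5)).trans Submodule.topEquiv)
  rw [e, e, e]
  omega

omit [IsLocalRing A] [IsNoetherianRing A] in
theorem e_cons_one (l : List A) (W : Type v) [AddCommGroup W] [Module A W] :
    e (1 :: l) W = 0 := by
  have h1 : Subsingleton (QuotSMulTop (1 : A) W) := by
    refine ⟨fun x y => ?_⟩
    have h0 : ∀ x : QuotSMulTop (1 : A) W, x = 0 := by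
      intro x
      obtain ⟨x, rfl⟩ := Submodule.mkQ_surjective _ x
      rw [Submodule.mkQ_apply, Submodule.Quotient.mk_eq_zero]
      exact ⟨x, trivial, one_smul A x⟩
    rw [h0 x, h0 y]
  have h2 : Subsingleton (Submodule.torsionBy A W (1 : A)) := by
    refine ⟨fun x y => Subtype.ext ?_⟩
    have h0 : ∀ x : Submodule.torsionBy A W (1 : A), (x : W) = 0 := by
      rintro ⟨x, hx⟩
      rw [Submodule.mem_torsionBy_iff, one_smul] at hx
      exact hx
    rw [h0 x, h0 y]
  rw [e, e_subsingleton, e_subsingleton, sub_zero]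

theorem e_cons_pow (q : A) (l : List A) (W : Type v) [AddCommGroup W] [Module A W]
    (h : Good (q :: l) W) (m : ℕ) : e (q ^ m :: l) W = m * e (q :: l) W := by
  induction m with
  | zero => rw [pow_zero, e_cons_one, Nat.cast_zero, zero_mul]
  | succ m ih =>
    rw [pow_succ, e_cons_mul, ih]
    · push_cast
      ring
    · rw [← pow_succ]
      exact Good.pow_cons h (m + 1)

/-- `e (l^m) W = m^{|l|} e l W` -/
theorem e_map_pow (m : ℕ) : ∀ (l : List A) (W : Type v) [AddCommGroup W] [Module A W]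
    (_ : Good l W), e (l.map (· ^ m)) W = (m : ℤ) ^ l.length * e l W
  | [], W, _, _, _ => by simp
  | (q :: l), W, _, _, h => by
    have h1 : Good (q :: l.map (· ^ m)) W := by
      obtain ⟨h1, n, hn⟩ := h
      refine ⟨h1, n * (1 + l.length * m), ?_⟩
      rw [pow_mul]
      refine (Ideal.pow_right_mono hn _).trans ?_
      rw [Ideal.ofList_cons, ← sup_assoc, Ideal.ofList_cons, ← sup_assoc]
      have := pow_ofList_le (Module.annihilator A W ⊔ Ideal.span {q}) 1 m l
      rwa [pow_one] at this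
    rw [List.map_cons, e_cons_pow _ _ _ h1, e, e, e_map_pow m l _ h.quot, e_map_pow m l _ h.tor,
      List.length_cons]
    ring

/-- `e l W ≤ length (W/(l)W)` -/
theorem e_le_length : ∀ (l : List A) (_ : ∀ a ∈ l, a ∈ maximalIdeal A) (W : Type v) [AddCommGroup W]
    [Module A W] (_ : Good l W),
    Module.length A (W ⧸ (Ideal.ofList l • (⊤ : Submodule A W))) ≠ ⊤ ∧
    e l W ≤ (Module.length A (W ⧸ (Ideal.ofList l • (⊤ : Submodule A W)))).toNat
  | [], _, W, _, _, h => by
    have h1 : Module.length A (W ⧸ (Ideal.ofList ([] : List A) • (⊤ : Submodule A W))) =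
        Module.length A W :=
      (Submodule.quotEquivOfEqBot _ (by rw [Ideal.ofList_nil, Submodule.bot_smul])).length_eq
    rw [h1, e]
    exact ⟨h.length_ne_top, le_rfl⟩
  | (q :: l), hl, W, _, _, h => by
    have hl' : ∀ a ∈ l, a ∈ maximalIdeal A := fun a ha => hl a (List.mem_cons_of_mem _ ha)
    obtain ⟨h1, h2⟩ := e_le_length l hl' (QuotSMulTop q W) h.quot
    have h3 := (Submodule.quotOfListConsSMulTopEquivQuotSMulTopInner W q l).length_eq
    rw [h3]
    refine ⟨h1, le_trans ?_ h2⟩
    rw [e]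
    have := (e_serre l hl' _ h.tor).1
    omega

/-- **Noetherian lower bound** -/
theorem pow_le_length (l : List A) (hl : ∀ a ∈ l, a ∈ maximalIdeal A) (W : Type v) [AddCommGroup W]
    [Module A W] (h : Good l W) (hd : Module.supportDim A W = (l.length : ℕ)) (m : ℕ) (hm : 0 < m) :
    Module.length A (W ⧸ (Ideal.ofList (l.map (· ^ m)) • (⊤ : Submodule A W))) ≠ ⊤ ∧
    m ^ l.length ≤
      (Module.length A (W ⧸ (Ideal.ofList (l.map (· ^ m)) • (⊤ : Submodule A W)))).toNat := by
  have h1 : ∀ a ∈ l.map (· ^ m), a ∈ maximalIdeal A := by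
    intro a ha
    rw [List.mem_map] at ha
    obtain ⟨b, hb, rfl⟩ := ha
    exact Ideal.pow_mem_of_mem _ (hl b hb) m hm
  obtain ⟨h2, h3⟩ := e_le_length _ h1 W (Good.map_pow h m)
  refine ⟨h2, ?_⟩
  rw [e_map_pow m l W h] at h3
  have h4 : 0 < e l W := (e_serre l hl W h).2.2 hd
  have h5 : ((m ^ l.length : ℕ) : ℤ) ≤ (m : ℤ) ^ l.length * e l W := by
    push_cast
    have : (0 : ℤ) ≤ (m : ℤ) ^ l.length := by positivity
    nlinarith
  exact_mod_cast h5.trans h3

end Crest.Agent.R188.Tay
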