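import Crest.Agent.R188.Tay3
import Crest.Agent.R188.Tay4
import Crest.Agent.R188.Tay5

/-!
# R188 (Serre positivity), S-level (e): the asymptotic lower bound
`n^d · L(Γ/(ϖ,v)) ≤ C^d · L(Q_n(Γ)/τ(I))`, `d = dim S/I + |v|`.
helper415
-/

set_option autoImplicit false

namespace Crest.Agent.R188.KosG

open Crest.Agent.R183
open scoped ENNReal

universe u v

variable {A : Type u} [CommRing A] (Λ : AddLen.{u, v} A)

theorem KFin.pow_append (C : Type v) [AddCommGroup C] [Module A C] (l' l'' : List A)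
    (h : KFin Λ C (l' ++ l'')) (n : ℕ) : KFin Λ C (l'.map (· ^ n) ++ l'') ∧
      chi Λ C (l'.map (· ^ n) ++ l'') = (n : ℝ) ^ l'.length * chi Λ C (l' ++ l'') := by
  induction l' generalizing l'' with
  | nil => exact ⟨h, by simp⟩
  | cons a l ih =>
    have h1 : (a :: l ++ l'').Perm (l ++ (a :: l'')) := List.perm_middle.symm
    obtain ⟨h2, h3⟩ := ih (a :: l'') (h.perm Λ C h1)
    have h4 : (l.map (· ^ n) ++ (a :: l'')).Perm (a :: (l.map (· ^ n) ++ l'')) := List.perm_middle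
    obtain ⟨h5, h6⟩ := chi_cons_pow Λ C (h2.perm Λ C h4) n
    refine ⟨h5, ?_⟩
    rw [List.map_cons, List.cons_append, h6, ← chi_perm Λ C h4, h3, ← chi_perm Λ C h1,
      List.length_cons]
    ring

/-- `H_0` of `(b, v^m)` and `b`-torsion of `C/(v^m)C`, when `(b, v)` is `Λ`-regular on `C`. -/
theorem quot_map_pow (C : Type v) [AddCommGroup C] [Module A C] (b : A) (v : List A)
    (h : ∀ i : ℤ, 1 ≤ i → kh Λ (b :: v) C i = 0) (h0 : kh Λ (b :: v) C 0 ≠ ⊤) (m : ℕ) :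
    an Λ b (C ⧸ (Ideal.ofList (v.map (· ^ m)) • (⊤ : Submodule A C))) = 0 ∧
    co Λ b (C ⧸ (Ideal.ofList (v.map (· ^ m)) • (⊤ : Submodule A C))) =
      (m : ℝ≥0∞) ^ v.length * kh Λ (b :: v) C 0 := by
  have p1 : (b :: v).Perm (v ++ [b]) := (List.perm_append_singleton b v).symm
  have p2 : (b :: v.map (· ^ m)).Perm (v.map (· ^ m) ++ [b]) :=
    (List.perm_append_singleton b _).symm
  have h1 : ∀ i : ℤ, 1 ≤ i → kh Λ (b :: v.map (· ^ m)) C i = 0 := by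
    intro i hi
    rw [kh_perm Λ C p2]
    refine le_antisymm ((h_cones_map_pow_le Λ (one A C) m v [b] i).trans ?_) zero_le
    have : (cones (v ++ [b]) (one A C)).h Λ i = 0 := by
      change kh Λ (v ++ [b]) C i = 0
      rw [← kh_perm Λ C p1, h i hi]
    rw [this, mul_zero]
  obtain ⟨φ, hφ, hk⟩ := exists_H0 C (v.map (· ^ m))
  let e : (C ⧸ (Ideal.ofList (v.map (· ^ m)) • (⊤ : Submodule A C))) ≃ₗ[A]
    (kos (v.map (· ^ m)) C).H 0 :=
    (Submodule.quotEquivOfEq _ _ hk.symm).trans (φ.quotKerEquivOfSurjective hφ)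
  constructor
  · have h2 := h1 1 le_rfl
    rw [kh_cons, add_eq_zero, sub_self] at h2
    rw [← h2.2]
    exact an_congr Λ b e
  · have h2 : kh Λ (b :: v.map (· ^ m)) C 0 = co Λ b ((kos (v.map (· ^ m)) C).H 0) := by
      rw [kh_cons]
      have : Subsingleton ((kos (v.map (· ^ m)) C).H (0 - 1)) :=
        H_subsingleton C _ _ (Or.inl (by norm_num))
      have h3 : an Λ b ((kos (v.map (· ^ m)) C).H (0 - 1)) = 0 :=
        le_antisymm ((an_le' Λ b _).trans Λ.L_subsingleton.le) zero_le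
      rw [h3, add_zero]
    rw [co_congr Λ b e, ← h2]
    have hF := KFin_of_regular Λ C (b :: v) h h0
    obtain ⟨h3, h4⟩ := KFin.pow_append Λ C v [b] (hF.perm Λ C p1) m
    rw [← chi_perm Λ C p2, ← chi_perm Λ C p1, chi_of_regular Λ C _ h1,
      chi_of_regular Λ C _ h] at h4
    have h5 : kh Λ (b :: v.map (· ^ m)) C 0 ≠ ⊤ := (h3.perm Λ C p2.symm) 0
    rw [← ENNReal.toReal_eq_toReal_iff' h5 (ENNReal.mul_ne_top (by simp) h0), h4,
      ENNReal.toReal_mul, ENNReal.toReal_pow, ENNReal.toReal_natCast]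

end Crest.Agent.R188.KosG

namespace Crest.Agent.R188.Tay

open Crest.Agent.R183 TensorProduct IsLocalRing
open scoped ENNReal

noncomputable section

universe u

section exps

variable {d : ℕ} {W : Type u} [CommRing W] [IsLocalRing W]
  {Γ : Type u} [CommRing Γ] (φ : MvPowerSeries (Fin d) W →+* Γ)

/-- the exponents -/
theorem exists_exps {ϖ : W} (hϖ : ϖ ∈ maximalIdeal W) {J : Ideal (MvPowerSeries (Fin d) W)}
    (t : List (MvPowerSeries (Fin d) W)) {N : ℕ}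
    (hJ : maximalIdeal (MvPowerSeries (Fin d) W) ^ N ≤ J ⊔ Ideal.ofList t)
    (v : List Γ) {K : ℕ} {c : Γ}
    (hv : ∀ i : Fin d, φ (MvPowerSeries.X i) ^ K ∈ Ideal.span {c} ⊔ Ideal.ofList v) :
    ∃ H : ℕ, ∀ m : ℕ, 0 < m → ∃ h k : ℕ, h ≤ H * m ∧
      (∀ i : Fin d, (MvPowerSeries.X i) ^ h ∈ J ⊔ Ideal.ofList (t.map (· ^ m))) ∧
      (MvPowerSeries.C ϖ) ^ k ∈ J ⊔ Ideal.ofList (t.map (· ^ m)) ∧
      (∀ i : Fin d, φ (MvPowerSeries.X i) ^ h ∈
        Ideal.ofList (v.map (· ^ m)) ⊔ Ideal.span {c ^ k}) := by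
  refine ⟨N * (1 + t.length) + K * (N * (1 + t.length) + v.length), fun m hm => ?_⟩
  let k := N * (1 + t.length * m)
  have hk : maximalIdeal (MvPowerSeries (Fin d) W) ^ k ≤ J ⊔ Ideal.ofList (t.map (· ^ m)) := by
    rw [pow_mul]
    refine (Ideal.pow_right_mono hJ _).trans ?_
    have := pow_ofList_le J 1 m t
    rwa [pow_one] at this
  have hk1 : k ≤ N * (1 + t.length) * m := by
    have : 1 + t.length * m ≤ (1 + t.length) * m := by nlinarith
    calc k ≤ N * ((1 + t.length) * m) := Nat.mul_le_mul_left _ this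
      _ = _ := by ring
  refine ⟨k + K * (k + v.length * m), k, ?_, fun i => ?_, ?_, fun i => ?_⟩
  · nlinarith
  · refine hk ?_
    refine Ideal.pow_le_pow_right (Nat.le_add_right _ _) (Ideal.pow_mem_pow ?_ _)
    rw [mem_maximalIdeal, mem_nonunits_iff, MvPowerSeries.isUnit_iff_constantCoeff,
      MvPowerSeries.constantCoeff_X]
    exact not_isUnit_zero
  · refine hk (Ideal.pow_mem_pow ?_ _)
    rw [mem_maximalIdeal, mem_nonunits_iff, MvPowerSeries.isUnit_iff_constantCoeff,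
      MvPowerSeries.constantCoeff_C]
    exact hϖ
  · have h1 := pow_ofList_le (Ideal.span {c}) k m v (Ideal.pow_mem_pow (hv i) (k + v.length * m))
    rw [Ideal.span_singleton_pow, sup_comm, ← pow_mul] at h1
    rw [pow_add]
    exact Ideal.mul_mem_left _ _ h1

end exps

section length

variable {S : Type u} [CommRing S]

theorem length_quot_sup (I J : Ideal S) :
    Module.length S (S ⧸ (I ⊔ J)) = Module.length S ((S ⧸ I) ⧸ (J • (⊤ : Submodule S (S ⧸ I)))) := by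
  let f : S →ₗ[S] (S ⧸ I) ⧸ (J • (⊤ : Submodule S (S ⧸ I))) :=
    (Submodule.mkQ (J • (⊤ : Submodule S (S ⧸ I)))) ∘ₗ (Submodule.mkQ I)
  have hf : Function.Surjective f :=
    (Submodule.mkQ_surjective _).comp (Submodule.mkQ_surjective _)
  have hk : LinearMap.ker f = I ⊔ J := by
    rw [LinearMap.ker_comp, Submodule.ker_mkQ]
    have h1 : J • (⊤ : Submodule S (S ⧸ I)) = Submodule.map (Submodule.mkQ I) J := by
      have h2 : (⊤ : Submodule S (S ⧸ I)) = Submodule.map (Submodule.mkQ I) ⊤ := by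
        rw [Submodule.map_top, Submodule.range_mkQ]
      rw [h2, ← Submodule.map_smul'']
      congr 1
      rw [smul_eq_mul, Ideal.mul_top]
    rw [h1, Submodule.comap_map_mkQ]
  exact ((Submodule.quotEquivOfEq _ _ hk.symm).trans (f.quotKerEquivOfSurjective hf)).length_eq

end length

section final

variable {d : ℕ} {W : Type u} [CommRing W] [IsLocalRing W] [IsNoetherianRing W]
  {Γ : Type u} [CommRing Γ] [Algebra W Γ] {φ : MvPowerSeries (Fin d) W →+* Γ}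
  [IsNoetherianRing (MvPowerSeries (Fin d) W)]

/-- **(e)**: the asymptotic lower bound. -/
theorem lower_asymp (Λ : AddLen.{u, u} Γ) {ϖ : W}
    (hϖ : maximalIdeal W = Ideal.span {ϖ})
    (hφ : ∀ w, φ (MvPowerSeries.C w) = algebraMap W Γ w)
    (I : Ideal (MvPowerSeries (Fin d) W)) (t : List (MvPowerSeries (Fin d) W))
    (ht : ∀ a ∈ t, a ∈ maximalIdeal (MvPowerSeries (Fin d) W))
    (hI : ∃ N : ℕ, maximalIdeal (MvPowerSeries (Fin d) W) ^ N ≤ I ⊔ Ideal.ofList t)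
    (hdim : Module.supportDim (MvPowerSeries (Fin d) W) (MvPowerSeries (Fin d) W ⧸ I) =
      (t.length : ℕ))
    (v : List Γ) (hv : ∃ K : ℕ, ∀ i : Fin d,
      φ (MvPowerSeries.X i) ^ K ∈ Ideal.span {algebraMap W Γ ϖ} ⊔ Ideal.ofList v)
    (hreg : ∀ i : ℤ, 1 ≤ i → KosG.kh Λ (algebraMap W Γ ϖ :: v) Γ i = 0)
    (htop : KosG.kh Λ (algebraMap W Γ ϖ :: v) Γ 0 ≠ ⊤) :
    ∃ C : ℕ, 0 < C ∧ ∀ n : ℕ, C ≤ n →
      (n : ℝ≥0∞) ^ (t.length + v.length) * KosG.kh Λ (algebraMap W Γ ϖ :: v) Γ 0 ≤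
        (C : ℝ≥0∞) ^ (t.length + v.length) *
          Λ.L (Q d n Γ ⧸ (I.map (tau n φ)).restrictScalars Γ) := by
  obtain ⟨N, hN⟩ := hI
  obtain ⟨K, hK⟩ := hv
  obtain ⟨H, hH⟩ := exists_exps φ (ϖ := ϖ)
    (by rw [hϖ]; exact Ideal.mem_span_singleton_self ϖ) t hN v hK
  have hgood : Eq.Good t (MvPowerSeries (Fin d) W ⧸ I) := by
    refine ⟨inferInstance, N, ?_⟩
    rw [Ideal.annihilator_quotient]
    exact hN
  -- the bound for each `m`
  have key : ∀ m n : ℕ, 0 < m → 2 * H * m ≤ n →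
      (m : ℝ≥0∞) ^ (t.length + v.length) * KosG.kh Λ (algebraMap W Γ ϖ :: v) Γ 0 ≤
        Λ.L (Q d n Γ ⧸ (I.map (tau n φ)).restrictScalars Γ) := by
    intro m n hm hn
    obtain ⟨h, k, hh, h1, h2, h3⟩ := hH m hm
    obtain ⟨h4, h5⟩ := pow_le_length t ht (MvPowerSeries (Fin d) W ⧸ I) hgood hdim m hm
    rw [← length_quot_sup] at h4 h5
    obtain ⟨h6, h7⟩ := KosG.quot_map_pow Λ Γ (algebraMap W Γ ϖ) v hreg htop m
    have h8 : (Ideal.ofList (v.map (· ^ m)) • (⊤ : Submodule Γ Γ)) = Ideal.ofList (v.map (· ^ m)) := by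
      rw [smul_eq_mul, Ideal.mul_top]
    rw [h8] at h6 h7
    obtain ⟨N', hN', hle⟩ := lower_bound (φ := φ) Λ hϖ hφ (𝔞 := I ⊔ Ideal.ofList (t.map (· ^ m)))
      (𝔟 := Ideal.ofList (v.map (· ^ m))) (h := h) (k := k) (n := n)
      (by nlinarith) h1 h2 (fun i => by
        have := h3 i
        rwa [← map_pow] at this ⊢) le_sup_left (Module.length_ne_top_iff.1 h4) h6
    refine le_trans ?_ hle
    rw [hN', ENat.toNat_natCast] at h5
    have h9 : Λ.L (modϖ Γ (Γ ⧸ Ideal.ofList (v.map (· ^ m))) ϖ) =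
      (m : ℝ≥0∞) ^ v.length * KosG.kh Λ (algebraMap W Γ ϖ :: v) Γ 0 := h7
    rw [h9, pow_add, mul_assoc]
    gcongr
    exact_mod_cast h5
  refine ⟨2 * (2 * H + 1), by omega, fun n hn => ?_⟩
  have hm : 0 < n / (2 * H + 1) := Nat.div_pos (by omega) (by omega)
  have h1 := key (n / (2 * H + 1)) n hm (by
    have := Nat.mul_div_le n (2 * H + 1)
    nlinarith)
  refine le_trans ?_ (mul_le_mul_right h1 _)
  rw [← mul_assoc, ← mul_pow]
  gcongr
  have h2 : n ≤ 2 * (2 * H + 1) * (n / (2 * H + 1)) := by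
    have h3 := Nat.div_add_mod n (2 * H + 1)
    have h4 := Nat.mod_lt n (show 0 < 2 * H + 1 by omega)
    nlinarith
  exact_mod_cast h2

/-- **(e)**, helper546's form -/
theorem lower_asymp' (Λ : AddLen.{u, u} Γ) {ϖ : W}
    (hϖ : maximalIdeal W = Ideal.span {ϖ})
    (hφ : ∀ w, φ (MvPowerSeries.C w) = algebraMap W Γ w)
    (I : Ideal (MvPowerSeries (Fin d) W)) (t : List (MvPowerSeries (Fin d) W))
    (ht : ∀ a ∈ t, a ∈ maximalIdeal (MvPowerSeries (Fin d) W))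
    (hI : ∃ N : ℕ, maximalIdeal (MvPowerSeries (Fin d) W) ^ N ≤ I ⊔ Ideal.ofList t)
    (hdim : Module.supportDim (MvPowerSeries (Fin d) W) (MvPowerSeries (Fin d) W ⧸ I) =
      (t.length : ℕ))
    (v : List Γ) (hv : ∃ K : ℕ, ∀ i : Fin d,
      φ (MvPowerSeries.X i) ^ K ∈ Ideal.span {algebraMap W Γ ϖ} ⊔ Ideal.ofList v)
    (hreg : ∀ i : ℤ, 1 ≤ i → KosG.kh Λ (algebraMap W Γ ϖ :: v) Γ i = 0)
    (htop : KosG.kh Λ (algebraMap W Γ ϖ :: v) Γ 0 ≠ ⊤)
    (hpos : KosG.kh Λ (algebraMap W Γ ϖ :: v) Γ 0 ≠ 0) (hd : t.length + v.length = d) :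
    ∃ c : ℝ, 0 < c ∧ ∃ n₀ : ℕ, ∀ n : ℕ, n₀ ≤ n →
      ENNReal.ofReal c * (n : ℝ≥0∞) ^ d ≤
          Λ.L (Q d n Γ ⧸ (I.map (tau n φ)).restrictScalars Γ) := by
  obtain ⟨C, hC, h⟩ := lower_asymp Λ hϖ hφ I t ht hI hdim v hv hreg htop
  rw [hd] at h
  have hC0 : ((C : ℝ≥0∞) ^ d) ≠ 0 := by
    have : (C : ℝ≥0∞) ≠ 0 := by exact_mod_cast hC.ne'
    exact pow_ne_zero _ this
  have hC1 : ((C : ℝ≥0∞) ^ d) ≠ ⊤ := by simp
  refine ⟨((KosG.kh Λ (algebraMap W Γ ϖ :: v) Γ 0) / (C : ℝ≥0∞) ^ d).toReal,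
    ENNReal.toReal_pos (ENNReal.div_ne_zero.2 ⟨hpos, hC1⟩) (ENNReal.div_ne_top htop hC0), C,
    fun n hn => ?_⟩
  rw [ENNReal.ofReal_toReal (ENNReal.div_ne_top htop hC0), ENNReal.div_eq_inv_mul, mul_assoc]
  refine (mul_le_mul_right (?_ : _ ≤ _) _).trans ((ENNReal.inv_mul_le_iff hC0 hC1).2 (h n hn))
  rw [mul_comm]

end final

end

end Crest.Agent.R188.Tay
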