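import Crest.Agent.R188.Tay6
import Crest.Agent.R188.ChiMat
import Crest.Agent.R188.ChiRes

/-!
# R188 (Serre positivity), S-level (e) for a general finitely generated module `M`.
helper415
-/

set_option autoImplicit false
set_option linter.unusedSectionVars false

namespace Crest.Agent.R188.Tay

open Crest.Agent.R183 Crest.Agent.R183.Res TensorProduct IsLocalRing
open scoped ENNReal

noncomputable section

universe u v w

section HX

variable {R : Type w} [CommRing R] {Γ : Type u} [CommRing Γ] {A : Type u} [CommRing A] (f : Γ →+* A)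
  (Λ : AddLen.{u, v} Γ) (F : MCx R) {X : Type v} [AddCommGroup X] [Module A X] [Module R X]
  [SMulCommClass R A X] {T : Type v} [AddCommGroup T] [Module Γ T]

/-- a quotient of `H_0(F ⊗ X)` -/
theorem L_le_hX_zero (g : (F.ι 0 → X) →+ T) (hs : Function.Surjective g)
    (hg : ∀ (c : Γ) (x : F.ι 0 → X), g (f c • x) = c • g x)
    (h0 : ∀ y : F.ι 1 → X, g (F.dA A X 0 y) = 0) :
    Λ.L T ≤ Chi.hX (Λ.restrict f) F X 0 := by
  let _ : Module Γ (Chi.HX A F X 0) := Module.compHom _ f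
  let g0 : ↥(Chi.Z (C := fun n => F.ι n → X) (F.dA A X) 0) →+ T :=
    g.comp (Chi.Z (C := fun n => F.ι n → X) (F.dA A X) 0).subtype.toAddMonoidHom
  let N := (Chi.B (C := fun n => F.ι n → X) (F.dA A X) 0).comap
    (Chi.Z (C := fun n => F.ι n → X) (F.dA A X) 0).subtype
  have hN : N.toAddSubgroup ≤ g0.ker := by
    rintro z ⟨y, hy⟩
    change g z.1 = 0
    rw [show z.1 = F.dA A X 0 y from hy.symm]
    exact h0 y
  let G0 : Chi.HX A F X 0 →+ T := QuotientAddGroup.lift N.toAddSubgroup g0 hN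
  let G : Chi.HX A F X 0 →ₗ[Γ] T :=
    { toFun := G0
      map_add' := map_add G0
      map_smul' := by
        intro c x
        obtain ⟨z, rfl⟩ := Submodule.mkQ_surjective _ x
        exact hg c z.1 }
  have hG : Function.Surjective G := by
    intro y
    obtain ⟨x, rfl⟩ := hs y
    exact ⟨Submodule.mkQ N ⟨x, trivial⟩, rfl⟩
  exact Λ.L_le_of_surjective G hG

end HX

section ev

variable {d : ℕ} {n : ℕ} {W : Type u} [CommRing W] {Γ : Type u} [CommRing Γ]
  [Algebra W Γ] {φ : MvPowerSeries (Fin d) W →+* Γ}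
  {B₁ : Type u} [CommRing B₁] [Algebra W B₁] [Algebra Γ B₁] [IsScalarTower W Γ B₁]
  {B₂ : Type u} [CommRing B₂] [Algebra W B₂] [Algebra (MvPowerSeries (Fin d) W) B₂]
  [IsScalarTower W (MvPowerSeries (Fin d) W) B₂]
  {M : Type u} [AddCommGroup M] [Module B₂ M] [Module (MvPowerSeries (Fin d) W) M] [Module W M]
  [IsScalarTower W B₂ M] [IsScalarTower (MvPowerSeries (Fin d) W) B₂ M]

/-- `b ↦ b m` -/
def fm (W : Type u) [CommRing W] {B₂ : Type u} [CommRing B₂] [Algebra W B₂] {M : Type u}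
    [AddCommGroup M] [Module B₂ M] [Module W M] [IsScalarTower W B₂ M] (m : M) : B₂ →ₗ[W] M :=
  (LinearMap.toSpanSingleton B₂ M m).restrictScalars W

theorem Q_smul {d n : ℕ} {Γ : Type u} [CommRing Γ] (c : Γ) (x : Q d n Γ) :
    c • x = algebraMap Γ (Q d n Γ) c * x := by
  obtain ⟨x, rfl⟩ := Ideal.Quotient.mk_surjective x
  rw [algebraMap_Q, ← map_mul, ← MvPolynomial.smul_eq_C_mul]
  rfl

theorem fm_apply (m : M) (b : B₂) : fm W m b = b • m := rfl

/-- `x ↦ ψ(x) m` -/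
def ev (hq : ∀ i : Fin d, (tq φ B₁ B₂ i : B₁ ⊗[W] B₂) ^ n = 0) (m : M) :
    Q d n Γ →ₗ[Γ] B₁ ⊗[W] M := (lT Γ B₁ (fm W m)) ∘ₗ psiL hq

theorem lT_fm_smul (s : MvPowerSeries (Fin d) W) (m : M) (z : B₁ ⊗[W] B₂) :
    lT Γ B₁ (fm W (B₂ := B₂) (s • m)) z = lT Γ B₁ (fm W m)
      (((1 : B₁) ⊗ₜ[W] (algebraMap (MvPowerSeries (Fin d) W) B₂ s)) * z) := by
  induction z using TensorProduct.induction_on with
  | zero => rw [mul_zero, map_zero, map_zero]
  | tmul y b =>
    rw [Algebra.TensorProduct.tmul_mul_tmul, one_mul, lT_apply, lT_apply, LinearMap.lTensor_tmul,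
      LinearMap.lTensor_tmul, fm_apply, fm_apply, ← algebraMap_smul B₂ s m, smul_smul, mul_comm]
  | add x y hx hy => rw [mul_add, map_add, map_add, hx, hy]

theorem lT_fm_add (m m' : M) (z : B₁ ⊗[W] B₂) :
    lT Γ B₁ (fm W (B₂ := B₂) (m + m')) z = lT Γ B₁ (fm W m) z + lT Γ B₁ (fm W m') z := by
  induction z using TensorProduct.induction_on with
  | zero => rw [map_zero, map_zero, map_zero, add_zero]
  | tmul y b =>
    rw [lT_apply, lT_apply, lT_apply, LinearMap.lTensor_tmul,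
      LinearMap.lTensor_tmul, LinearMap.lTensor_tmul, fm_apply, fm_apply, fm_apply, smul_add,
      TensorProduct.tmul_add]
  | add x y hx hy =>
    rw [map_add, map_add, map_add, hx, hy]
    abel

/-- additivity in `m` -/
def evA (hq : ∀ i : Fin d, (tq φ B₁ B₂ i : B₁ ⊗[W] B₂) ^ n = 0) (x : Q d n Γ) :
    M →+ B₁ ⊗[W] M :=
  AddMonoidHom.mk' (fun m => ev hq m x) (fun m m' => lT_fm_add m m' (psiL hq x))

theorem evA_apply (hq : ∀ i : Fin d, (tq φ B₁ B₂ i : B₁ ⊗[W] B₂) ^ n = 0) (x : Q d n Γ) (m : M) :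
    evA hq x m = ev hq m x := rfl

theorem ev_smul [IsNoetherianRing W]
    (hq : ∀ i : Fin d, (tq φ B₁ B₂ i : B₁ ⊗[W] B₂) ^ n = 0)
    (hφ : ∀ w, φ (MvPowerSeries.C w) = algebraMap W Γ w) {h : ℕ}
    (hx : ∀ i : Fin d, (algebraMap (MvPowerSeries (Fin d) W) B₂ (MvPowerSeries.X i)) ^ h = 0)
    (s : MvPowerSeries (Fin d) W) (m : M) (x : Q d n Γ) :
    ev hq (s • m) x = ev hq m (tau n φ s * x) := by
  have h1 : psiL hq (tau n φ s * x) = ((1 : B₁) ⊗ₜ[W] (algebraMap (MvPowerSeries (Fin d) W) B₂ s)) *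
      psiL hq x := by
    change psi n hq _ = _ * psi n hq x
    rw [map_mul, psi_tau hq hφ hx]
  rw [ev, ev, LinearMap.comp_apply, LinearMap.comp_apply, h1, lT_fm_smul]

end ev

section main

variable {d : ℕ} {n : ℕ} {W : Type u} [CommRing W] [IsNoetherianRing W] {Γ : Type u} [CommRing Γ]
  [Algebra W Γ] {φ : MvPowerSeries (Fin d) W →+* Γ}
  {B₁ : Type u} [CommRing B₁] [Algebra W B₁] [Algebra Γ B₁] [IsScalarTower W Γ B₁]
  {B₂ : Type u} [CommRing B₂] [Algebra W B₂] [Algebra (MvPowerSeries (Fin d) W) B₂]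
  [IsScalarTower W (MvPowerSeries (Fin d) W) B₂]
  {M : Type u} [AddCommGroup M] [Module B₂ M] [Module (MvPowerSeries (Fin d) W) M] [Module W M]
  [IsScalarTower W B₂ M] [IsScalarTower (MvPowerSeries (Fin d) W) B₂ M]

/-- `H_0(F ⊗ Q_n(Γ))` surjects onto `B₁ ⊗_W M̄` for a quotient `M̄` of `H_0(F)`. -/
theorem L_le_hX (Λ : AddLen.{u, u} Γ)
    (hq : ∀ i : Fin d, (tq φ B₁ B₂ i : B₁ ⊗[W] B₂) ^ n = 0)
    (hφ : ∀ w, φ (MvPowerSeries.C w) = algebraMap W Γ w) {h : ℕ}
    (hx : ∀ i : Fin d, (algebraMap (MvPowerSeries (Fin d) W) B₂ (MvPowerSeries.X i)) ^ h = 0)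
    (h1 : Function.Surjective (algebraMap Γ B₁))
    (h2 : Function.Surjective (algebraMap (MvPowerSeries (Fin d) W) B₂))
    (F : MCx (MvPowerSeries (Fin d) W))
    (ε : (F.ι 0 → MvPowerSeries (Fin d) W) →ₗ[MvPowerSeries (Fin d) W] M)
    (hε : Function.Surjective ε)
    (hd : ∀ y, ε (F.dM (MvPowerSeries (Fin d) W) 0 y) = 0) :
    Λ.L (B₁ ⊗[W] M) ≤
      Chi.hX (Λ.restrict (algebraMap Γ (Q d n Γ))) (F.map (tau n φ)) (Q d n Γ) 0 := by
  let g : ((F.map (tau n φ)).ι 0 → Q d n Γ) →+ B₁ ⊗[W] M :=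
    { toFun := fun x => ∑ a : F.ι 0, ev hq (ε (Pi.single a 1)) (x a)
      map_zero' := by
        refine Finset.sum_eq_zero fun a _ => ?_
        exact map_zero _
      map_add' := fun x y => by
        rw [← Finset.sum_add_distrib]
        exact Finset.sum_congr rfl fun a _ => map_add _ _ _ }
  have hgx : ∀ x : F.ι 0 → Q d n Γ, g x = ∑ a : F.ι 0, ev hq (ε (Pi.single a 1)) (x a) :=
    fun _ => rfl
  have hgen : ∀ v : F.ι 0 → MvPowerSeries (Fin d) W, ε v = ∑ a, v a • ε (Pi.single a 1) := by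
    intro v
    have h3 : v = ∑ a, v a • (Pi.single a (1 : MvPowerSeries (Fin d) W) :
        F.ι 0 → MvPowerSeries (Fin d) W) := by
      funext b
      rw [Finset.sum_apply]
      simp [Pi.single_apply]
    conv_lhs => rw [h3]
    rw [map_sum]
    exact Finset.sum_congr rfl fun a _ => map_smul _ _ _
  refine L_le_hX_zero (algebraMap Γ (Q d n Γ)) Λ (F.map (tau n φ)) g ?_ ?_ ?_
  · -- surjectivity
    intro z
    induction z using TensorProduct.induction_on with
    | zero => exact ⟨0, map_zero g⟩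
    | tmul y m =>
      obtain ⟨v, rfl⟩ := hε m
      choose x hx1 using fun a : F.ι 0 => psi_surjective hq hφ hx h1 h2
        (y ⊗ₜ[W] (algebraMap (MvPowerSeries (Fin d) W) B₂ (v a)))
      refine ⟨x, ?_⟩
      rw [hgx, hgen, TensorProduct.tmul_sum]
      refine Finset.sum_congr rfl fun a _ => ?_
      rw [ev, LinearMap.comp_apply]
      have h3 : psiL hq (x a) = y ⊗ₜ[W] (algebraMap (MvPowerSeries (Fin d) W) B₂ (v a)) := hx1 a
      rw [h3, lT_apply, LinearMap.lTensor_tmul, fm_apply, algebraMap_smul]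
    | add x y hx hy =>
      obtain ⟨a, rfl⟩ := hx
      obtain ⟨b, rfl⟩ := hy
      exact ⟨a + b, map_add _ _ _⟩
  · intro c x
    change (∑ a : F.ι 0, ev hq (ε (Pi.single a 1)) ((algebraMap Γ (Q d n Γ) c • x) a)) =
      c • ∑ a : F.ι 0, ev hq (ε (Pi.single a 1)) (x a)
    rw [Finset.smul_sum]
    refine Finset.sum_congr rfl fun a _ => ?_
    refine Eq.trans ?_ (map_smul _ _ _)
    exact congrArg _ (Q_smul c (x a)).symm
  · intro y
    change (∑ a : F.ι 0, ev hq (ε (Pi.single a 1))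
        (((F.map (tau n φ)).dA (Q d n Γ) (Q d n Γ) 0 y) a)) = 0
    have h3 : ∀ a : F.ι 0, ((F.map (tau n φ)).dA (Q d n Γ) (Q d n Γ) 0 y) a =
        ∑ b : F.ι 1, tau n φ (F.d 0 a b) * y b := fun a => rfl
    have h4 : ∀ a : F.ι 0, ev hq (ε (Pi.single a 1))
        (((F.map (tau n φ)).dA (Q d n Γ) (Q d n Γ) 0 y) a) =
        ∑ b : F.ι 1, ev hq (F.d 0 a b • ε (Pi.single a 1)) (y b) := by
      intro a
      rw [h3, map_sum]
      exact Finset.sum_congr rfl fun b _ => (ev_smul hq hφ hx _ _ _).symm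
    rw [Finset.sum_congr rfl fun a _ => h4 a, Finset.sum_comm]
    refine Finset.sum_eq_zero fun b _ => ?_
    have h5 : ∀ a : F.ι 0, ev hq (F.d 0 a b • ε (Pi.single a 1)) (y b) =
      evA hq (y b) (F.d 0 a b • ε (Pi.single a 1)) := fun a => rfl
    rw [Finset.sum_congr rfl fun a _ => h5 a, ← map_sum]
    have h6 : (∑ a : F.ι 0, F.d 0 a b • ε (Pi.single a 1)) = 0 := by
      rw [← hd (Pi.single b 1), hgen]
      refine Finset.sum_congr rfl fun a _ => ?_
      congr 1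
      change _ = ∑ c, F.d 0 a c • (Pi.single b (1 : MvPowerSeries (Fin d) W) :
        F.ι 1 → MvPowerSeries (Fin d) W) c
      simp [Pi.single_apply]
    rw [h6, map_zero]

end main

end

end Crest.Agent.R188.Tay
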