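import Mathlib

/-!
# R188, block FLAG DATA (helper645), part 1: simultaneous triangularisation over an algebraically
closed field
-/

set_option autoImplicit false

namespace Crest.Agent.R188.Tri

open TensorProduct

universe u v w

section eigen

variable {F : Type u} [Field F] [IsAlgClosed F] {A : Type v} [CommRing A] [Algebra F A]

/-- A nonzero finite dimensional module over a commutative `F`-algebra has a common eigenvector. -/
theorem exists_eigenvector (M : Type w) [AddCommGroup M] [Module A M] [Module F M]
    [IsScalarTower F A M] [Module.Finite F M] [Nontrivial M] :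
    ∃ (m : M) (γ : A →ₐ[F] F), m ≠ 0 ∧ ∀ a : A, a • m = γ a • m := by
  have hart : IsArtinian A M := isArtinian_of_tower F inferInstance
  obtain ⟨W, hW⟩ := IsAtomic.exists_atom (Submodule A M)
  have hs : IsSimpleModule A W := isSimpleModule_iff_isAtom.2 hW
  obtain ⟨I, hI, ⟨e⟩⟩ := isSimpleModule_iff_quot_maximal.mp hs
  let _ : Field (A ⧸ I) := Ideal.Quotient.field I
  have hfin : Module.Finite F (A ⧸ I) := by
    have h1 : Module.Finite F W :=
      Module.Finite.of_injective ((W.subtype).restrictScalars F) W.subtype_injective
    exact Module.Finite.of_surjective (e.toLinearMap.restrictScalars F) e.surjective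
  have hint : Algebra.IsIntegral F (A ⧸ I) := Algebra.IsIntegral.of_finite F _
  have hbij := IsAlgClosed.algebraMap_bijective_of_isIntegral (k := F) (K := A ⧸ I)
  let φ : F ≃ₐ[F] (A ⧸ I) := AlgEquiv.ofBijective (Algebra.ofId F (A ⧸ I)) hbij
  let γ : A →ₐ[F] F := φ.symm.toAlgHom.comp (Ideal.Quotient.mkₐ F I)
  have hγ : ∀ a : A, Ideal.Quotient.mk I a = (γ a) • (1 : A ⧸ I) := by
    intro a
    rw [Algebra.smul_def, mul_one]
    exact (φ.apply_symm_apply (Ideal.Quotient.mk I a)).symm
  refine ⟨((e.symm 1 : W) : M), γ, ?_, fun a => ?_⟩
  · intro h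
    have h1 : (e.symm 1 : W) = 0 := Subtype.ext h
    rw [LinearEquiv.map_eq_zero_iff] at h1
    exact one_ne_zero h1
  · have h1 : a • (e.symm 1 : W) = γ a • (e.symm 1 : W) := by
      rw [← map_smul]
      have h2 : a • (1 : A ⧸ I) = algebraMap F A (γ a) • (1 : A ⧸ I) := by
        have h3 : a • (1 : A ⧸ I) = Ideal.Quotient.mk I a := by
          rw [Algebra.smul_def, mul_one]; rfl
        rw [h3, hγ a, algebraMap_smul]
      rw [h2, map_smul, algebraMap_smul]
    exact congrArg Subtype.val h1

/-- **Flags**: a finite dimensional module over a commutative `F`-algebra has an `F`-basis in which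
the action is triangular, with characters on the diagonal. -/
theorem exists_flag (r : ℕ) : ∀ (M : Type w) [AddCommGroup M] [Module A M] [Module F M]
    [IsScalarTower F A M] [Module.Finite F M], Module.finrank F M = r →
    ∃ (l : Fin r → M) (γ : Fin r → A →ₐ[F] F), LinearIndependent F l ∧
      ∀ k a, ∃ c : Fin r → F, (∀ j, ¬ j < k → c j = 0) ∧
        a • l k = γ k a • l k + ∑ j, c j • l j := by
  induction r with
  | zero =>
    intro M _ _ _ _ _ _
    exact ⟨fun i => i.elim0, fun i => i.elim0, linearIndependent_empty_type, fun k => k.elim0⟩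
  | succ r ih =>
    intro M _ _ _ _ _ hr
    have hnt : Nontrivial M := Module.nontrivial_of_finrank_pos (R := F) (by rw [hr]; omega)
    obtain ⟨m, γ₀, hm, hγ₀⟩ := exists_eigenvector (F := F) (A := A) M
    let W : Submodule A M := Submodule.span A {m}
    have hW : ∀ x ∈ W, ∃ c : F, x = c • m := by
      intro x hx
      obtain ⟨a, rfl⟩ := Submodule.mem_span_singleton.1 hx
      exact ⟨γ₀ a, hγ₀ a⟩
    have hWF : (W.restrictScalars F) = Submodule.span F {m} := by
      apply le_antisymm
      · intro x hx
        obtain ⟨c, rfl⟩ := hW x hx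
        exact Submodule.mem_span_singleton.2 ⟨c, rfl⟩
      · rw [Submodule.span_le, Set.singleton_subset_iff]
        exact Submodule.mem_span_singleton_self m
    have hfr : Module.finrank F (M ⧸ W) = r := by
      have h1 := Submodule.finrank_quotient_add_finrank (R := F) (W.restrictScalars F)
      have h2 : Module.finrank F (W.restrictScalars F) = 1 := by
        rw [hWF]; exact finrank_span_singleton hm
      have h3 : Module.finrank F (M ⧸ (W.restrictScalars F)) = Module.finrank F (M ⧸ W) :=
        (Submodule.Quotient.restrictScalarsEquiv F W).finrank_eq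
      rw [h2, h3, hr] at h1
      omega
    obtain ⟨l, γ, hli, hl⟩ := ih (M ⧸ W) hfr
    choose l' hl' using fun i => Submodule.Quotient.mk_surjective W (l i)
    refine ⟨Fin.cons m l', Fin.cons γ₀ γ, ?_, ?_⟩
    · rw [linearIndependent_finCons]
      have h1 : LinearIndependent F ((W.mkQ.restrictScalars F) ∘ l') := by
        have : ((W.mkQ.restrictScalars F) ∘ l') = l := funext fun i => hl' i
        rw [this]; exact hli
      refine ⟨LinearIndependent.of_comp (W.mkQ.restrictScalars F) h1, ?_⟩
      intro hmem
      obtain ⟨c, hc⟩ := (Submodule.mem_span_range_iff_exists_fun F).1 hmem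
      have h2 : ∑ i, c i • l i = 0 := by
        have h3 : (W.mkQ.restrictScalars F) (∑ i, c i • l' i) = 0 := by
          rw [hc]
          exact (Submodule.Quotient.mk_eq_zero W).2 (Submodule.mem_span_singleton_self m)
        rw [map_sum] at h3
        rw [← h3]
        refine Finset.sum_congr rfl fun i _ => ?_
        rw [map_smul]
        exact congrArg (c i • ·) (hl' i).symm
      have h4 : ∀ i, c i = 0 := fun i => (Fintype.linearIndependent_iff.1 hli) c h2 i
      apply hm
      rw [← hc]
      exact Finset.sum_eq_zero fun i _ => by rw [h4 i, zero_smul]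
    · intro k a
      induction k using Fin.cases with
      | zero =>
        refine ⟨0, fun _ _ => rfl, ?_⟩
        simp only [Fin.cons_zero, Pi.zero_apply, zero_smul, Finset.sum_const_zero, add_zero]
        exact hγ₀ a
      | succ j =>
        obtain ⟨c, hc0, hc⟩ := hl j a
        have h1 : a • l' j - (γ j a • l' j + ∑ i, c i • l' i) ∈ W := by
          rw [← Submodule.Quotient.mk_eq_zero, Submodule.Quotient.mk_sub,
            Submodule.Quotient.mk_smul, hl', hc, sub_eq_zero, Submodule.Quotient.mk_add]
          have h2 : (Submodule.Quotient.mk (γ j a • l' j) : M ⧸ W) = γ j a • l j := by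
            rw [← hl' j]; rfl
          have h3 : (Submodule.Quotient.mk (∑ i, c i • l' i) : M ⧸ W) = ∑ i, c i • l i := by
            have h4 : (W.mkQ.restrictScalars F) (∑ i, c i • l' i) = ∑ i, c i • l i := by
              rw [map_sum]
              refine Finset.sum_congr rfl fun i _ => ?_
              rw [map_smul]
              exact congrArg (c i • ·) (hl' i)
            exact h4
          rw [h2, h3]
        obtain ⟨e, he⟩ := hW _ h1
        refine ⟨Fin.cons e c, ?_, ?_⟩
        · intro i hi
          induction i using Fin.cases with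
          | zero => exact absurd (Fin.succ_pos j) hi
          | succ i => exact hc0 i (fun h => hi (Fin.succ_lt_succ_iff.2 h))
        · rw [Fin.sum_univ_succ]
          simp only [Fin.cons_zero, Fin.cons_succ]
          rw [← he]
          abel

end eigen

end Crest.Agent.R188.Tri
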