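import Crest.Agent.R188.Tri1

/-!
# R188, block FLAG DATA (helper645), part 2: commuting matrices, rows with integral entries
-/

set_option autoImplicit false

namespace Crest.Agent.R188.Tri

open TensorProduct Matrix

universe u v w

section field

variable {B : Type u} {F : Type v} {A : Type w} [CommRing B] [CommRing A] [Algebra B A] [Field F]
  [Algebra B F]

theorem commute_ofId {r : ℕ} (ρ : A →ₐ[B] Matrix (Fin r) (Fin r) F) (x : F) (y : A) :
    Commute (Algebra.ofId F (Matrix (Fin r) (Fin r) F) x) (ρ y) := Algebra.commutes x (ρ y)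

/-- the `F`-algebra map `F ⊗ A → Mat_r(F)` -/
noncomputable def extHom {r : ℕ} (ρ : A →ₐ[B] Matrix (Fin r) (Fin r) F) :
    F ⊗[B] A →ₐ[F] Matrix (Fin r) (Fin r) F :=
  Algebra.TensorProduct.lift (Algebra.ofId F _) ρ (commute_ofId ρ)

theorem extHom_tmul {r : ℕ} (ρ : A →ₐ[B] Matrix (Fin r) (Fin r) F) (x : F) (a : A) :
    extHom ρ (x ⊗ₜ a) = x • ρ a := by
  rw [extHom, Algebra.TensorProduct.lift_tmul, Algebra.ofId_apply, ← Algebra.smul_def]

/-- row vectors as a module over a commutative algebra acting through matrices -/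
@[implicit_reducible]
noncomputable def rowModule {r : ℕ} {A' : Type*} [CommRing A']
    (σ : A' →+* Matrix (Fin r) (Fin r) F) : Module A' (Fin r → F) where
  smul a l := l ᵥ* σ a
  one_smul l := by change l ᵥ* σ 1 = l; rw [map_one, vecMul_one]
  mul_smul a b l := by
    change l ᵥ* σ (a * b) = (l ᵥ* σ b) ᵥ* σ a
    rw [vecMul_vecMul, ← map_mul, mul_comm]
  smul_zero a := by change (0 : Fin r → F) ᵥ* σ a = 0; exact zero_vecMul _
  smul_add a l m := by
    change (l + m) ᵥ* σ a = l ᵥ* σ a + m ᵥ* σ a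
    exact add_vecMul _ _ _
  add_smul a b l := by
    change l ᵥ* σ (a + b) = l ᵥ* σ a + l ᵥ* σ b
    rw [map_add, vecMul_add]
  zero_smul l := by change l ᵥ* σ 0 = 0; rw [map_zero, vecMul_zero]

/-- **Common triangularisation of commuting matrices** (row form). -/
theorem exists_flag_matrix [IsAlgClosed F] {r : ℕ} (ρ : A →ₐ[B] Matrix (Fin r) (Fin r) F) :
    ∃ (l : Fin r → Fin r → F) (γ : Fin r → A →ₐ[B] F), LinearIndependent F l ∧
      ∀ k a, ∃ c : Fin r → F, (∀ j, ¬ j < k → c j = 0) ∧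
        l k ᵥ* ρ a = γ k a • l k + ∑ j, c j • l j := by
  let A' := F ⊗[B] A
  let σ : A' →ₐ[F] Matrix (Fin r) (Fin r) F := extHom ρ
  let _ : Module A' (Fin r → F) := rowModule (σ : A' →+* Matrix (Fin r) (Fin r) F)
  have hsmul : ∀ (a : A') (l : Fin r → F), a • l = l ᵥ* σ a := fun a l => rfl
  have : IsScalarTower F A' (Fin r → F) := by
    refine ⟨fun c a l => ?_⟩
    rw [hsmul, hsmul, map_smul, vecMul_smul]
  obtain ⟨l, γ, hli, hl⟩ := exists_flag (F := F) (A := A') r (Fin r → F) (by simp)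
  refine ⟨l, fun k => ((γ k).restrictScalars B).comp Algebra.TensorProduct.includeRight, hli,
    fun k a => ?_⟩
  obtain ⟨c, hc0, hc⟩ := hl k ((1 : F) ⊗ₜ a)
  refine ⟨c, hc0, ?_⟩
  rw [hsmul] at hc
  have h1 : σ ((1 : F) ⊗ₜ a) = ρ a := by
    change extHom ρ _ = _
    rw [extHom_tmul, one_smul]
  rw [h1] at hc
  exact hc

omit [CommRing A] in
/-- scaling rows -/
theorem flag_scale {r : ℕ} {ρ : A → Matrix (Fin r) (Fin r) F} {l : Fin r → Fin r → F}
    {γ : Fin r → A → F}
    (h : ∀ k a, ∃ c : Fin r → F, (∀ j, ¬ j < k → c j = 0) ∧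
        l k ᵥ* ρ a = γ k a • l k + ∑ j, c j • l j) (b : Fin r → F) (hb : ∀ k, b k ≠ 0) :
    ∀ k a, ∃ c : Fin r → F, (∀ j, ¬ j < k → c j = 0) ∧
        (b k • l k) ᵥ* ρ a = γ k a • (b k • l k) + ∑ j, c j • (b j • l j) := by
  intro k a
  obtain ⟨c, hc0, hc⟩ := h k a
  refine ⟨fun j => b k * c j * (b j)⁻¹, fun j hj => by simp [hc0 j hj], ?_⟩
  rw [smul_vecMul, hc, smul_add, smul_comm, Finset.smul_sum]
  congr 1
  refine Finset.sum_congr rfl fun j _ => ?_
  rw [smul_smul, smul_smul, mul_assoc, inv_mul_cancel₀ (hb j), mul_one]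

end field

end Crest.Agent.R188.Tri
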