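import Crest.Agent.R188.Tri2

/-!
# R188, block FLAG DATA (helper645), part 3: rows with entries in the integral closure

`B` a domain, `F` an algebraically closed field, algebraic over `B`, `Bp` the integral closure of
`B` in `F`.  A commuting family `ρ : A →ₐ[B] Mat_r(B)`, `A` integral over `B`.
-/

set_option autoImplicit false
set_option linter.unusedSectionVars false

namespace Crest.Agent.R188.Tri

open TensorProduct Matrix

universe u v w x

section descend

variable {B : Type u} {A : Type w} [CommRing B] [CommRing A] [Algebra B A]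
  (F : Type v) [Field F] [Algebra B F]
  (Bp : Type x) [CommRing Bp] [Algebra B Bp] [Algebra Bp F] [IsScalarTower B Bp F]
  [IsIntegralClosure Bp B F]

/-- a character with values in `F` takes values in `Bp` (function) -/
noncomputable def descendFun [Algebra.IsIntegral B A] (γ : A →ₐ[B] F) (a : A) : Bp :=
  IsIntegralClosure.mk' Bp (γ a) ((Algebra.IsIntegral.isIntegral (R := B) a).map γ)

theorem algebraMap_descendFun [Algebra.IsIntegral B A] (γ : A →ₐ[B] F) (a : A) :
    algebraMap Bp F (descendFun F Bp γ a) = γ a :=
  IsIntegralClosure.algebraMap_mk' (R := B) Bp (γ a) _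

/-- a character with values in `F` takes values in `Bp` -/
noncomputable def descendChar [Algebra.IsIntegral B A] (γ : A →ₐ[B] F) : A →ₐ[B] Bp where
  toFun a := descendFun F Bp γ a
  map_one' := IsIntegralClosure.algebraMap_injective Bp B F (by
    rw [algebraMap_descendFun, map_one, map_one])
  map_zero' := IsIntegralClosure.algebraMap_injective Bp B F (by
    rw [algebraMap_descendFun, map_zero, map_zero])
  map_mul' a b := IsIntegralClosure.algebraMap_injective Bp B F (by
    rw [map_mul, algebraMap_descendFun, algebraMap_descendFun,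
      algebraMap_descendFun, map_mul])
  map_add' a b := IsIntegralClosure.algebraMap_injective Bp B F (by
    rw [map_add, algebraMap_descendFun, algebraMap_descendFun,
      algebraMap_descendFun, map_add])
  commutes' b := IsIntegralClosure.algebraMap_injective Bp B F (by
    rw [algebraMap_descendFun, AlgHom.commutes, ← IsScalarTower.algebraMap_apply])

theorem algebraMap_descendChar [Algebra.IsIntegral B A] (γ : A →ₐ[B] F) (a : A) :
    algebraMap Bp F (descendChar F Bp γ a) = γ a := algebraMap_descendFun F Bp γ a

variable {F} in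
/-- determinant of a matrix with linearly independent rows -/
theorem det_ne_zero_of_linearIndependent {r : ℕ} {l : Fin r → Fin r → F}
    (h : LinearIndependent F l) : (Matrix.of l).det ≠ 0 := by
  have h1 : IsUnit (Matrix.of l) := Matrix.linearIndependent_rows_iff_isUnit.1 h
  exact ((Matrix.isUnit_iff_isUnit_det _).1 h1).ne_zero

/-- **Flag data.** -/
theorem exists_rows [IsDomain B] [IsAlgClosed F] [Algebra.IsAlgebraic B F] [FaithfulSMul B F]
    [Algebra.IsIntegral B A] {r : ℕ} (ρ : A →ₐ[B] Matrix (Fin r) (Fin r) B) :
    ∃ (L : Matrix (Fin r) (Fin r) Bp) (γ : Fin r → A →ₐ[B] Bp), L.det ≠ 0 ∧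
      ∀ a : A, (∀ k j, k < j → (L * (ρ a).map (algebraMap B Bp) * L.adjugate) k j = 0) ∧
        ∀ k, (L * (ρ a).map (algebraMap B Bp) * L.adjugate) k k = L.det * γ k a := by
  classical
  have hinj := IsIntegralClosure.algebraMap_injective Bp B F
  let ρF : A →ₐ[B] Matrix (Fin r) (Fin r) F := (Algebra.ofId B F).mapMatrix.comp ρ
  have hρF : ∀ a, ρF a = ((ρ a).map (algebraMap B Bp)).map (algebraMap Bp F) := by
    intro a
    ext i j
    change algebraMap B F (ρ a i j) = _
    rw [Matrix.map_apply, Matrix.map_apply, ← IsScalarTower.algebraMap_apply]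
  obtain ⟨l, γ, hli, hl⟩ := exists_flag_matrix ρF
  -- scale the rows
  have hy : ∀ k, ∃ y : B, y ≠ 0 ∧ ∀ j, IsIntegral B (y • l k j) := by
    intro k
    obtain ⟨y, hy0, hy⟩ := Algebra.IsAlgebraic.exists_integral_multiples B
      (Finset.univ.image (l k))
    exact ⟨y, hy0, fun j => hy _ (Finset.mem_image_of_mem _ (Finset.mem_univ j))⟩
  choose y hy0 hy using hy
  let b : Fin r → F := fun k => algebraMap B F (y k)
  have hb : ∀ k, b k ≠ 0 := fun k => by
    simp only [b]
    rw [Ne, FaithfulSMul.algebraMap_eq_zero_iff]
    exact hy0 k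
  let L : Matrix (Fin r) (Fin r) Bp :=
    Matrix.of fun k j => IsIntegralClosure.mk' Bp (y k • l k j) (hy k j)
  let l' : Fin r → Fin r → F := fun k => b k • l k
  have hL : L.map (algebraMap Bp F) = Matrix.of l' := by
    ext k j
    rw [Matrix.map_apply]
    change algebraMap Bp F (IsIntegralClosure.mk' Bp (y k • l k j) (hy k j)) = _
    rw [IsIntegralClosure.algebraMap_mk', Algebra.smul_def]
    rfl
  have hli' : LinearIndependent F l' := by
    have h1 := hli.units_smul (fun k => Units.mk0 (b k) (hb k))
    exact h1
  have hdet : (L.map (algebraMap Bp F)).det ≠ 0 := by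
    rw [hL]; exact det_ne_zero_of_linearIndependent hli'
  have hmapdet : algebraMap Bp F L.det = (L.map (algebraMap Bp F)).det := RingHom.map_det _ _
  have hdet0 : L.det ≠ 0 := by
    intro h
    apply hdet
    rw [← hmapdet, h, map_zero]
  refine ⟨L, fun k => descendChar F Bp (γ k), hdet0, fun a => ?_⟩
  -- the triangular matrix
  have hsc := flag_scale (ρ := fun a => ρF a) (l := l) (γ := fun k a => γ k a) hl b hb
  choose c hc0 hc using fun k => hsc k a
  let T : Matrix (Fin r) (Fin r) F := Matrix.of fun k j => c k j + if k = j then γ k a else 0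
  have hT1 : ∀ k j, k < j → T k j = 0 := by
    intro k j hkj
    simp only [T, Matrix.of_apply]
    rw [hc0 k j (not_lt.2 hkj.le), if_neg hkj.ne, add_zero]
  have hT2 : ∀ k, T k k = γ k a := by
    intro k
    simp only [T, Matrix.of_apply, if_true]
    rw [hc0 k k (lt_irrefl k), zero_add]
  have hTL : (L.map (algebraMap Bp F)) * ρF a = T * (L.map (algebraMap Bp F)) := by
    rw [hL]
    ext k j
    have h1 : ((b k • l k) ᵥ* ρF a) j = (γ k a • b k • l k + ∑ i, c k i • b i • l i) j :=
      congrFun (hc k) j
    have h2 : ((Matrix.of l') * ρF a) k j = ((b k • l k) ᵥ* ρF a) j := rfl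
    have h3 : (T * Matrix.of l') k j = (γ k a • b k • l k + ∑ i, c k i • b i • l i) j := by
      rw [Matrix.mul_apply]
      simp only [T, Matrix.of_apply, add_mul, Finset.sum_add_distrib, Pi.add_apply,
        Finset.sum_apply, Pi.smul_apply, smul_eq_mul, l']
      rw [add_comm]
      congr 1
      rw [Finset.sum_eq_single k]
      · rw [if_pos rfl]
      · intro i _ hi
        rw [if_neg (Ne.symm hi), zero_mul]
      · intro h
        exact absurd (Finset.mem_univ k) h
    rw [h2, h1, h3]
  have hfin : (L * (ρ a).map (algebraMap B Bp) * L.adjugate).map (algebraMap Bp F) =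
      (L.map (algebraMap Bp F)).det • T := by
    rw [Matrix.map_mul, Matrix.map_mul, ← hρF, hTL, Matrix.mul_assoc]
    have h1 : L.adjugate.map (algebraMap Bp F) = (L.map (algebraMap Bp F)).adjugate :=
      RingHom.map_adjugate _ _
    rw [h1, Matrix.mul_adjugate, Matrix.mul_smul, Matrix.mul_one]
  refine ⟨fun k j hkj => ?_, fun k => ?_⟩
  · apply hinj
    have h1 := congrFun (congrFun hfin k) j
    rw [Matrix.map_apply, Matrix.smul_apply, hT1 k j hkj, smul_zero] at h1
    rw [h1, map_zero]
  · apply hinj
    have h1 := congrFun (congrFun hfin k) k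
    rw [Matrix.map_apply, Matrix.smul_apply, hT2 k, smul_eq_mul, ← hmapdet] at h1
    rw [h1, map_mul, algebraMap_descendChar]

end descend

end Crest.Agent.R188.Tri
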