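import Crest.Agent.R188.Tri4
import Crest.Agent.R188.FlgRec

/-!
# R188, block FLAG DATA (helper645), part 5: glue with `Flg.IsFlag`

`S` a commutative `B`-algebra acting on `B^r` through commuting matrices `ρ`, `A = Ω ⊗[B] S`,
`V = Ω^r` with `A` acting through `ρ`.
-/

set_option autoImplicit false
set_option linter.unusedSectionVars false

namespace Crest.Agent.R188.Tri

open TensorProduct Matrix

universe u v w x y

section minors

variable {Ω : Type y} [CommRing Ω] {r : ℕ}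

/-- if all `k`-minors of the first `k` rows vanish then all `(k+1)`-minors of the first `k+1` rows
vanish -/
theorem mu_succ_eq_zero (l : ℕ → Fin r → Ω) (k : ℕ) (h : ∀ τ, Flg.mu l k τ = 0)
    (τ : Fin (k + 1) → Fin r) : Flg.mu l (k + 1) τ = 0 := by
  rw [← Flg.ev_uv_self, Flg.ev_uv]
  exact Finset.sum_eq_zero fun j _ => by rw [h]; ring

theorem exists_minor_ne_zero (l : ℕ → Fin r → Ω) (h : Flg.mu l r id ≠ 0) {k : ℕ} (hk : k ≤ r) :
    ∃ τ, Flg.mu l k τ ≠ 0 := by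
  by_contra hcon
  push Not at hcon
  have h1 : ∀ j, ∀ τ, Flg.mu l (k + j) τ = 0 := by
    intro j
    induction j with
    | zero => exact hcon
    | succ j ih => exact mu_succ_eq_zero l (k + j) ih
  obtain ⟨j, rfl⟩ := Nat.exists_eq_add_of_le hk
  exact h (h1 j id)

end minors

section omega

variable {B : Type u} [CommRing B] {S : Type y} [CommRing S] [Algebra B S]
  (Ω : Type y) [CommRing Ω] [Algebra B Ω] {r : ℕ}

theorem commute_mapMatrix (ρ : S →ₐ[B] Matrix (Fin r) (Fin r) B) (x : Ω) (s : S) :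
    Commute (Algebra.ofId Ω (Matrix (Fin r) (Fin r) Ω) x)
      (((Algebra.ofId B Ω).mapMatrix.comp ρ) s) :=
  Algebra.commutes x (((Algebra.ofId B Ω).mapMatrix.comp ρ) s)

/-- `Ω ⊗ S → Mat_r(Ω)` -/
noncomputable def matHom (ρ : S →ₐ[B] Matrix (Fin r) (Fin r) B) :
    Ω ⊗[B] S →ₐ[Ω] Matrix (Fin r) (Fin r) Ω :=
  Algebra.TensorProduct.lift (Algebra.ofId Ω _) ((Algebra.ofId B Ω).mapMatrix.comp ρ)
    (commute_mapMatrix Ω ρ)

theorem matHom_tmul (ρ : S →ₐ[B] Matrix (Fin r) (Fin r) B) (x : Ω) (s : S) :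
    matHom Ω ρ (x ⊗ₜ s) = x • (ρ s).map (algebraMap B Ω) := by
  rw [matHom, Algebra.TensorProduct.lift_tmul, Algebra.ofId_apply, ← Algebra.smul_def]
  rfl

/-- `Ω^r` with the action of `Ω ⊗ S` through `ρ` -/
def OmV (_ρ : S →ₐ[B] Matrix (Fin r) (Fin r) B) : Type y := Fin r → Ω

variable (ρ : S →ₐ[B] Matrix (Fin r) (Fin r) B)

instance : AddCommGroup (OmV Ω ρ) := inferInstanceAs (AddCommGroup (Fin r → Ω))

instance : Module Ω (OmV Ω ρ) := inferInstanceAs (Module Ω (Fin r → Ω))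

/-- the ring hom `Ω ⊗ S → End` -/
noncomputable def endHom : Ω ⊗[B] S →+* Module.End Ω (Fin r → Ω) :=
  ((Matrix.toLinAlgEquiv' : Matrix (Fin r) (Fin r) Ω ≃ₐ[Ω] _).toAlgHom.toRingHom).comp
    (matHom Ω ρ).toRingHom

noncomputable instance : Module (Ω ⊗[B] S) (OmV Ω ρ) :=
  Module.compHom (Fin r → Ω) (endHom Ω ρ)

/-- coordinates -/
def OmV.coord : OmV Ω ρ ≃ₗ[Ω] (Fin r → Ω) := LinearEquiv.refl Ω _

theorem OmV.coord_smul (a : Ω ⊗[B] S) (x : OmV Ω ρ) :
    OmV.coord Ω ρ (a • x) = matHom Ω ρ a *ᵥ OmV.coord Ω ρ x := rfl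

instance : IsScalarTower Ω (Ω ⊗[B] S) (OmV Ω ρ) := by
  refine ⟨fun c a x => ?_⟩
  apply (OmV.coord Ω ρ).injective
  rw [OmV.coord_smul, map_smul, map_smul, OmV.coord_smul, smul_mulVec]

variable {Bp : Type x} [CommRing Bp] [Algebra B Bp] [Algebra Bp Ω] [IsScalarTower B Bp Ω]

theorem commute_char (γ : S →ₐ[B] Bp) (x : Ω) (s : S) :
    Commute (AlgHom.id Ω Ω x) (((IsScalarTower.toAlgHom B Bp Ω).comp γ) s) := mul_comm _ _

/-- the character of `Ω ⊗ S` given by a character of `S` -/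
noncomputable def charOm (γ : S →ₐ[B] Bp) : Ω ⊗[B] S →ₐ[Ω] Ω :=
  Algebra.TensorProduct.lift (AlgHom.id Ω Ω) ((IsScalarTower.toAlgHom B Bp Ω).comp γ)
    (commute_char Ω γ)

theorem charOm_tmul (γ : S →ₐ[B] Bp) (x : Ω) (s : S) :
    charOm Ω γ (x ⊗ₜ s) = x * algebraMap Bp Ω (γ s) := by
  rw [charOm, Algebra.TensorProduct.lift_tmul]
  rfl

/-- the characters in the format of `Flg` -/
noncomputable def charN (hr : 0 < r) (γ : Fin r → S →ₐ[B] Bp) (k : ℕ) : Ω ⊗[B] S →ₐ[Ω] Ω :=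
  charOm Ω (γ (if hk : k < r then ⟨k, hk⟩ else ⟨0, hr⟩))

theorem charN_of_lt (hr : 0 < r) (γ : Fin r → S →ₐ[B] Bp) {k : ℕ} (hk : k < r) :
    charN Ω hr γ k = charOm Ω (γ ⟨k, hk⟩) := by rw [charN, dif_pos hk]

variable {L : Matrix (Fin r) (Fin r) Bp} {γ : Fin r → S →ₐ[B] Bp}

/-- **GLUE**: the flag of `Tri` is a flag in the sense of `Flg`. -/
theorem IsFlag.flg (hr : 0 < r) (h : IsFlag ρ L γ) (hreg : IsSMulRegular Ω L.det) :
    Flg.IsFlag (A := Ω ⊗[B] S) (OmV.coord Ω ρ) (rows Ω L) (charN Ω hr γ) := by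
  intro k hk x hx a
  rw [OmV.coord_smul, charN_of_lt Ω hr γ hk]
  induction a using TensorProduct.induction_on with
  | zero => rw [map_zero, map_zero, zero_mulVec, Flg.ev_zero, zero_mul]
  | add a b ha hb => rw [map_add, map_add, add_mulVec, Flg.ev_add, ha, hb, add_mul]
  | tmul c s =>
    rw [matHom_tmul, charOm_tmul, smul_mulVec, Flg.ev_smul, mul_assoc]
    congr 1
    have h1 := h.ev_mulVec hreg s hk (OmV.coord Ω ρ x) hx
    rw [← h1]
    congr 2
    ext i j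
    rw [Matrix.map_apply, Matrix.map_apply, Matrix.map_apply,
      ← IsScalarTower.algebraMap_apply B Bp Ω]

/-- the rows separate points -/
theorem eq_zero_of_rows (hreg : IsSMulRegular Ω L.det) (x : OmV Ω ρ)
    (hx : ∀ i < r, Flg.ev (rows Ω L i) (OmV.coord Ω ρ x) = 0) : x = 0 := by
  have h1 : (L.map (algebraMap Bp Ω)) *ᵥ (OmV.coord Ω ρ x) = 0 := by
    funext i
    have h2 := hx i.1 i.2
    rw [ev_rows i.2] at h2
    exact h2
  have h2 : ((L.adjugate.map (algebraMap Bp Ω)) *ᵥ ((L.map (algebraMap Bp Ω)) *ᵥ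
      (OmV.coord Ω ρ x))) = L.det • (OmV.coord Ω ρ x) := by
    rw [mulVec_mulVec, ← Matrix.map_mul, Matrix.adjugate_mul]
    have h3 : (L.det • (1 : Matrix (Fin r) (Fin r) Bp)).map (algebraMap Bp Ω) =
        algebraMap Bp Ω L.det • (1 : Matrix (Fin r) (Fin r) Ω) := by
      ext i j
      rw [Matrix.map_apply, Matrix.smul_apply, Matrix.smul_apply, smul_eq_mul, smul_eq_mul,
        map_mul, Matrix.one_apply, Matrix.one_apply]
      split_ifs <;> simp
    rw [h3, smul_mulVec, one_mulVec]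
    funext i
    rw [Pi.smul_apply, Pi.smul_apply, algebraMap_smul]
  rw [h1, mulVec_zero] at h2
  apply (OmV.coord Ω ρ).injective
  rw [map_zero]
  funext i
  have h4 : L.det • (OmV.coord Ω ρ x) i = L.det • (0 : Ω) := by
    rw [smul_zero]
    exact (congrFun h2 i).symm
  exact hreg h4

omit [Algebra B Ω] [IsScalarTower B Bp Ω] [Algebra B Bp] in
/-- minors over `Ω` are images of minors over `Bp` -/
theorem mu_rows_eq {k : ℕ} (hk : k ≤ r) (τ : Fin k → Fin r) :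
    Flg.mu (rows Ω L) k τ = algebraMap Bp Ω (Flg.mu (rows Bp L) k τ) := by
  rw [mu_rows hk, mu_rows hk]
  rfl

omit [Algebra B Ω] [IsScalarTower B Bp Ω] [Algebra B Bp] [Algebra Bp Ω] in
/-- in every block some minor is nonzero -/
theorem exists_minor_rows (hdet : L.det ≠ 0) {k : ℕ} (hk : k ≤ r) :
    ∃ τ, Flg.mu (rows Bp L) k τ ≠ 0 := by
  refine exists_minor_ne_zero _ ?_ hk
  rw [mu_rows_full]
  exact hdet

end omega

end Crest.Agent.R188.Tri
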