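/-
R188 (Serre positivity), block Tring, part 10: (FACT): for the multiplier `μ_e` of an almost
splitting, a cyclic torsion module `A/I` with `μ_e ∈ I Ω` for all `e` is null; from the two numbers
`LenNull.Small`.  Author: helper270
-/
import Crest.Agent.R188.Tring9
import Crest.Agent.R188.LenNull2

set_option autoImplicit false
set_option linter.unusedSectionVars false

open TensorProduct
open scoped ENNReal Pointwise

namespace Crest.Agent.R188.Tring

open Crest.Agent.R183 Crest.Agent.R183.Om Crest.Agent.R188.Tow Crest.Agent.R188.TowN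
  Crest.Agent.R188.LenNull

section Contr

variable {p : ℕ} [hp : Fact p.Prime]
variable {A Ω : Type} [CommRing A] [CommRing Ω] [Algebra A Ω]

/-- contraction of extended ideals containing a power of `p`. -/
theorem mem_of_map_mem (hG : W.Good (p : A) (algebraMap A Ω)) {I : Ideal A} {N : ℕ}
    (hN : (p : A) ^ N ∈ I) {z : A} (hz : algebraMap A Ω z ∈ I.map (algebraMap A Ω)) : z ∈ I := by
  have hff := Env.faithfullyFlat_of_good hG N
  set R := A ⧸ Ideal.span {(p : A) ^ N}
  set S := Ω ⧸ (Ideal.span {(p : A) ^ N}).map (algebraMap A Ω)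
  have h1 : (Ideal.Quotient.mk (Ideal.span {(p : A) ^ N}) z) ∈
      ((I.map (Ideal.Quotient.mk (Ideal.span {(p : A) ^ N}))).map (algebraMap R S)).comap
        (algebraMap R S) := by
    rw [Ideal.mem_comap]
    have h2 : algebraMap R S (Ideal.Quotient.mk (Ideal.span {(p : A) ^ N}) z)
        = Ideal.Quotient.mk _ (algebraMap A Ω z) := rfl
    have h3 : (I.map (Ideal.Quotient.mk (Ideal.span {(p : A) ^ N}))).map (algebraMap R S)
        = (I.map (algebraMap A Ω)).map (Ideal.Quotient.mk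
          ((Ideal.span {(p : A) ^ N}).map (algebraMap A Ω))) := by
      rw [Ideal.map_map, Ideal.map_map]
      rfl
    rw [h2, h3]
    exact Ideal.mem_map_of_mem _ hz
  rw [Ideal.comap_map_eq_self_of_faithfullyFlat, Ideal.mem_map_iff_of_surjective _
    Ideal.Quotient.mk_surjective] at h1
  obtain ⟨b, hb, hbz⟩ := h1
  rw [Ideal.Quotient.eq, Ideal.mem_span_singleton] at hbz
  obtain ⟨c, hc⟩ := hbz
  have h4 : z = b - (p : A) ^ N * c := by rw [← hc]; ring
  rw [h4]
  exact sub_mem hb (Ideal.mul_mem_right _ _ hN)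

/-- `x ⊗ 1 = 0` in `Ω ⊗ A/I` implies `x ∈ I Ω`. -/
theorem mem_map_of_tmul_eq_zero {I : Ideal A} {x : Ω}
    (hx : x ⊗ₜ[A] (Ideal.Quotient.mk I 1) = (0 : Ω ⊗[A] (A ⧸ I))) : x ∈ I.map (algebraMap A Ω) := by
  let f : A ⧸ I →ₐ[A] Ω ⧸ I.map (algebraMap A Ω) :=
    Ideal.Quotient.liftₐ I (Algebra.ofId A (Ω ⧸ I.map (algebraMap A Ω))) (by
      intro a ha
      change Ideal.Quotient.mk _ (algebraMap A Ω a) = 0
      rw [Ideal.Quotient.eq_zero_iff_mem]
      exact Ideal.mem_map_of_mem _ ha)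
  let Ψ : Ω ⊗[A] (A ⧸ I) →ₐ[Ω] Ω ⧸ I.map (algebraMap A Ω) :=
    Algebra.TensorProduct.lift (Algebra.ofId Ω _) f (fun _ _ => Commute.all _ _)
  have h1 : Ψ (x ⊗ₜ[A] (Ideal.Quotient.mk I 1)) = Ideal.Quotient.mk _ x := by
    rw [Algebra.TensorProduct.lift_tmul, map_one (Ideal.Quotient.mk I), map_one, mul_one]
    rfl
  rw [hx, map_zero] at h1
  rwa [eq_comm, Ideal.Quotient.eq_zero_iff_mem] at h1

/-- the colon ideal commutes with the flat extension -/
theorem mem_colon_map (hG : W.Good (p : A) (algebraMap A Ω)) {I : Ideal A} {N : ℕ}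
    (hN : (p : A) ^ N ∈ I) {a : A} {x : Ω} (hx : algebraMap A Ω a * x ∈ I.map (algebraMap A Ω)) :
    x ∈ (Ideal.map (algebraMap A Ω)
      ((Submodule.comap (LinearMap.mulLeft A a) I : Submodule A A) : Ideal A)) := by
  set I' : Ideal A := Submodule.comap (LinearMap.mulLeft A a) I with hI'
  have hmem : ∀ b, b ∈ I' ↔ a * b ∈ I := fun b => Iff.rfl
  let f : (A ⧸ I') →ₗ[A] (A ⧸ I) := Submodule.mapQ I' I (LinearMap.mulLeft A a) le_rfl
  have hf : Function.Injective f := by
    rw [injective_iff_map_eq_zero]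
    intro y hy
    obtain ⟨y, rfl⟩ := Ideal.Quotient.mk_surjective y
    have h1 : Ideal.Quotient.mk I (a * y) = 0 := hy
    rw [Ideal.Quotient.eq_zero_iff_mem] at h1 ⊢
    exact h1
  have hinj := lTensor_injective (Env.flatQ_of_good hG N) f hf (by
    intro b hb m
    obtain ⟨m, rfl⟩ := Ideal.Quotient.mk_surjective m
    rw [Ideal.mem_span_singleton] at hb
    obtain ⟨c, rfl⟩ := hb
    have h1 : ((p : A) ^ N * c) • (Ideal.Quotient.mk I m) = Ideal.Quotient.mk I ((p : A) ^ N * c * m) :=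
      rfl
    rw [h1, Ideal.Quotient.eq_zero_iff_mem, mul_assoc]
    exact Ideal.mul_mem_right _ _ hN)
  apply mem_map_of_tmul_eq_zero
  apply hinj
  rw [map_zero, LinearMap.lTensor_tmul]
  have h1 : f (Ideal.Quotient.mk I' 1) = a • Ideal.Quotient.mk I 1 := by
    change Ideal.Quotient.mk I (a * 1) = Ideal.Quotient.mk I (a * 1)
    rfl
  rw [h1, ← TensorProduct.smul_tmul, Algebra.smul_def]
  refine smul_eq_zero_of_kill (I := I) ?_ hx _
  intro b hb m
  obtain ⟨m, rfl⟩ := Ideal.Quotient.mk_surjective m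
  have h1 : b • (Ideal.Quotient.mk I m) = Ideal.Quotient.mk I (b * m) := rfl
  rw [h1, Ideal.Quotient.eq_zero_iff_mem]
  exact Ideal.mul_mem_right _ _ hb

end Contr

section Fact

variable {p : ℕ} [hp : Fact p.Prime]

theorem dvd_pow_sub_pow {R : Type*} [CommRing R] (n : ℕ) (a b : R) :
    (p : R) ∣ a ^ p ^ n - b ^ p ^ n - (a - b) ^ p ^ n := by
  have h := (Commute.all (a - b) b).exists_add_pow_prime_pow_eq hp.out n
  obtain ⟨r, hr⟩ := h
  rw [sub_add_cancel] at hr
  refine ⟨(a - b) * b * r, ?_⟩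
  rw [hr]; ring

/-- roots modulo `p` -/
theorem exists_eta {R : Type*} [CommRing R] {ϖ : ℕ → R} (d : PData p R ϖ) (D : R) (n : ℕ) :
    ∃ η : R, (p : R) ∣ η ^ p ^ n - D := by
  induction n with
  | zero => exact ⟨D, by simp⟩
  | succ n ih =>
    obtain ⟨η, hη⟩ := ih
    obtain ⟨y, hy⟩ := d.fsurj η
    refine ⟨y, ?_⟩
    have h1 : (p : R) ∣ (y ^ p) ^ p ^ n - η ^ p ^ n := by
      have h2 : (y ^ p - η) ∣ (y ^ p) ^ p ^ n - η ^ p ^ n := sub_dvd_pow_sub_pow _ _ _
      refine dvd_trans ?_ h2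
      rw [← dvd_neg, neg_sub]; exact hy
    rw [pow_succ', pow_mul]
    have h3 := dvd_add h1 hη
    rwa [sub_add_sub_cancel] at h3

variable {A T : Type} [CommRing A] [CommRing T] [Algebra A T] {ϖ : ℕ → A} {H : Set (T →ₐ[A] T)}

/-- **(FACT)** for the multiplier of an almost splitting -/
theorem AlmSplit.factN (M : AlmSplit p A T ϖ H) (dA : PData p A ϖ) {κ : Type} [Finite κ]
    {s : κ → A} (i0 : κ) (hs : s i0 = p) {Λ : AddLen.{0, 0} A} (hsm : Small Λ s p ϖ) :
    FactN Λ s M.mu := by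
  intro I hI hmu
  -- a common exponent
  obtain ⟨N, hN⟩ : ∃ N, J s N ≤ I := by
    have := Fintype.ofFinite κ
    choose m hm using hI
    refine ⟨∑ i, m i, ?_⟩
    unfold J
    rw [Ideal.span_le]
    rintro _ ⟨i, rfl⟩
    exact I.pow_mem_of_pow_mem (hm i) (Finset.single_le_sum (f := m)
      (fun _ _ => Nat.zero_le _) (Finset.mem_univ i))
  have hpN : (p : A) ^ N ∈ I := by
    rw [← hs]; exact hN (Ideal.subset_span ⟨i0, rfl⟩)
  choose η hη using exists_eta dA M.D
  -- the roots of `D` in `Ω` and `η`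
  have hδpow : ∀ n, M.δ n ^ p ^ n = algebraMap A M.Ω M.D := by
    intro n
    induction n with
    | zero => rw [pow_zero, pow_one, M.δ_zero]
    | succ n ih => rw [pow_succ', pow_mul, M.δ_succ, ih]
  have hηδ : ∀ n, algebraMap A M.Ω (ϖ n) ∣ algebraMap A M.Ω (η n) - M.δ n := by
    intro n
    refine M.pdata.finj_iter M.reg n ?_
    have h1 := dvd_pow_sub_pow (p := p) n (algebraMap A M.Ω (η n)) (M.δ n)
    have h2 : (p : M.Ω) ∣ (algebraMap A M.Ω (η n)) ^ p ^ n - M.δ n ^ p ^ n := by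
      have h3 := map_dvd (algebraMap A M.Ω) (hη n)
      rwa [map_natCast, map_sub, map_pow, ← hδpow n] at h3
    have h3 := dvd_sub h2 h1
    rwa [sub_sub_cancel] at h3
  have hmem : ∀ n, ∃ b c : A, η n = b + ϖ n * c ∧ ϖ n * b ∈ I := by
    intro n
    set I' : Ideal A := Submodule.comap (LinearMap.mulLeft A (ϖ n)) I with hI'
    have h1 : M.δ n ∈ I'.map (algebraMap A M.Ω) := mem_colon_map M.good hpN (hmu n)
    have h2 : η n ∈ I' ⊔ Ideal.span {ϖ n} := by
      have hpN' : (p : A) ^ N ∈ I' ⊔ Ideal.span {ϖ n} := by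
        refine Ideal.mem_sup_left ?_
        change ϖ n * (p : A) ^ N ∈ I
        exact Ideal.mul_mem_left _ _ hpN
      apply mem_of_map_mem M.good hpN'
      obtain ⟨c, hc⟩ := hηδ n
      have h3 : algebraMap A M.Ω (η n) = M.δ n + algebraMap A M.Ω (ϖ n) * c := by
        rw [← hc]; ring
      rw [h3, Ideal.map_sup]
      refine add_mem (Ideal.mem_sup_left h1) (Ideal.mem_sup_right (Ideal.mul_mem_right _ _
        (Ideal.mem_map_of_mem _ (Ideal.mem_span_singleton_self _))))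
    obtain ⟨b, hb, c, hc, h3⟩ := Submodule.mem_sup.1 h2
    obtain ⟨c', rfl⟩ := Ideal.mem_span_singleton.1 hc
    exact ⟨b, c', h3.symm, hb⟩
  -- the estimate
  have key : ∀ n, Λ.L (A ⧸ I) ≤ ((1 : ℕ) : ℝ≥0∞) * Λ.L (A ⧸ (J s N ⊔ Ideal.span {ϖ n})) +
      ((p ^ n * N : ℕ) : ℝ≥0∞) * Λ.L (A ⧸ (J s N ⊔ Ideal.span {ϖ n} ⊔ Ideal.span {η n})) := by
    intro n
    have hmk : ∀ (a b : A), a • (Ideal.Quotient.mk I b) = Ideal.Quotient.mk I (a * b) :=
      fun a b => rfl
    let Y : Submodule A (A ⧸ I) := LinearMap.range (LinearMap.lsmul A (A ⧸ I) (ϖ n))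
    have hY1 : (ϖ n) • (Ideal.Quotient.mk I 1) ∈ Y := ⟨Ideal.Quotient.mk I 1, rfl⟩
    let y : Y := ⟨(ϖ n) • (Ideal.Quotient.mk I 1), hY1⟩
    have hYgen : ∀ z : Y, ∃ a : A, z = a • y := by
      rintro ⟨_, ⟨x, rfl⟩⟩
      obtain ⟨x, rfl⟩ := Ideal.Quotient.mk_surjective x
      refine ⟨x, Subtype.ext ?_⟩
      change Ideal.Quotient.mk I (ϖ n * x) = Ideal.Quotient.mk I (x * (ϖ n * 1))
      congr 1; ring
    rw [Λ.L_eq_add_quotient Y, add_comm, Nat.cast_one, one_mul]
    refine add_le_add ?_ ?_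
    · refine L_cyclic_le Λ (Submodule.Quotient.mk (Ideal.Quotient.mk I 1)) ?_ _ ?_
      · rw [eq_top_iff]
        rintro x -
        obtain ⟨x, rfl⟩ := Submodule.Quotient.mk_surjective _ x
        obtain ⟨x, rfl⟩ := Ideal.Quotient.mk_surjective x
        rw [Submodule.mem_span_singleton]
        refine ⟨x, ?_⟩
        rw [← Submodule.Quotient.mk_smul, hmk, mul_one]
      · intro a ha
        rw [← Submodule.Quotient.mk_smul, Submodule.Quotient.mk_eq_zero, hmk, mul_one]
        obtain ⟨b, hb, c, hc, rfl⟩ := Submodule.mem_sup.1 ha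
        obtain ⟨c', rfl⟩ := Ideal.mem_span_singleton.1 hc
        rw [map_add, Ideal.Quotient.eq_zero_iff_mem.2 (hN hb), zero_add]
        exact ⟨Ideal.Quotient.mk I c', rfl⟩
    · have h1 : ∀ z : Y, (ϖ n) ^ (p ^ n * N) • z = 0 := by
        rintro ⟨z, hz⟩
        apply Subtype.ext
        obtain ⟨z, rfl⟩ := Ideal.Quotient.mk_surjective z
        change Ideal.Quotient.mk I ((ϖ n) ^ (p ^ n * N) * z) = 0
        rw [pow_mul, dA.pow_eq_p, Ideal.Quotient.eq_zero_iff_mem]
        exact Ideal.mul_mem_right _ _ hpN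
      refine (L_le_mul_quot Λ (ϖ n) (p ^ n * N) Y h1).trans ?_
      gcongr
      refine L_cyclic_le Λ (Submodule.Quotient.mk y) ?_ _ ?_
      · rw [eq_top_iff]
        rintro x -
        obtain ⟨x, rfl⟩ := Submodule.Quotient.mk_surjective _ x
        obtain ⟨a, rfl⟩ := hYgen x
        rw [Submodule.mem_span_singleton]
        exact ⟨a, by rw [← Submodule.Quotient.mk_smul]⟩
      · intro a ha
        rw [← Submodule.Quotient.mk_smul, Submodule.Quotient.mk_eq_zero]
        have hsm : ∀ z : Y, (ϖ n) • z ∈ ((ϖ n) • (⊤ : Submodule A Y)) := fun z =>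
          Submodule.smul_mem_pointwise_smul _ _ _ trivial
        obtain ⟨b, hb, c, hc, rfl⟩ := Submodule.mem_sup.1 ha
        obtain ⟨c', rfl⟩ := Ideal.mem_span_singleton.1 hc
        obtain ⟨b, hb0, c, hc, rfl⟩ := Submodule.mem_sup.1 hb
        obtain ⟨c, rfl⟩ := Ideal.mem_span_singleton.1 hc
        obtain ⟨b', e, he, hb'⟩ := hmem n
        have hz : ∀ q : A, q * ϖ n ∈ I → q • y = 0 := by
          intro q hq
          apply Subtype.ext
          change Ideal.Quotient.mk I (q * (ϖ n * 1)) = 0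
          rw [mul_one, Ideal.Quotient.eq_zero_iff_mem]; exact hq
        have h2 : (b + ϖ n * c + η n * c') • y = ϖ n • ((c + e * c') • y) := by
          have h3 : b • y = 0 := hz b (Ideal.mul_mem_right _ _ (hN hb0))
          have h4 : (b' * c') • y = 0 := hz _ (by
            have : b' * c' * ϖ n = (ϖ n * b') * c' := by ring
            rw [this]; exact Ideal.mul_mem_right _ _ hb')
          have h5 : b + ϖ n * c + η n * c' = b + b' * c' + ϖ n * (c + e * c') := by
            rw [he]; ring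
          rw [h5, add_smul, add_smul, h3, h4, zero_add, zero_add, mul_smul]
        rw [h2]
        exact hsm _
  by_contra hne
  have hpos : 0 < Λ.L (A ⧸ I) / 2 := ENNReal.half_pos hne
  obtain ⟨n, hn⟩ := hsm M.D M.regD η hη 1 N (min (Λ.L (A ⧸ I) / 2) 1)
    (lt_min hpos one_pos)
  have h1 := (key n).trans hn
  have h2 : Λ.L (A ⧸ I) ≠ ⊤ := ne_top_of_le_ne_top ENNReal.one_ne_top
    (h1.trans (min_le_right _ _))
  exact absurd (h1.trans (min_le_left _ _)) (not_le.2 (ENNReal.half_lt_self hne h2))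

end Fact

end Crest.Agent.R188.Tring
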