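import Crest.Agent.R183.BInf7
import Crest.Agent.R188.Tow1

/-!
# R188 (helper645), block Trk, part 1: `B_∞` is free over each level `S_e = B[t^{1/p^e}]`;
the maximal ideal of `S_e`.
-/

set_option autoImplicit false
set_option linter.dupNamespace false

namespace Crest.Agent.R188.Trk

open scoped ENNReal TensorProduct NNRat
open Crest.Agent.R183 Crest.Agent.R183.BInf
open AddMonoidAlgebra (single)

section Free

variable {d : ℕ} (p : ℕ) {B : Type*} [CommRing B] (t : Fin d → B) (hp : 0 < p) (e : ℕ)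

/-- exponents `< 1 / p^e` -/
abbrev GamE (d p e : ℕ) := {δ : Gam d p // ∀ i, ((p : ℚ≥0) ^ e) * ((δ i : NP p) : ℚ≥0) < 1}

/-- `j / p^e + δ` -/
noncomputable def jn (δ : GamE d p e) (j : Fin d → Fin (p ^ e)) : Gam1 d p :=
  ⟨ex p hp e (fun i => (j i : ℕ)) + (δ : Gam d p), fun i => by
    have h0 : (0 : ℚ≥0) < (p : ℚ≥0) ^ e := pos_iff_ne_zero.mpr (pe_ne p hp e)
    have h1 := δ.2 i
    change ((j i : ℕ) : ℚ≥0) / (p : ℚ≥0) ^ e + ((δ : Gam d p) i : ℚ≥0) < 1
    have h2 : ((j i : ℕ) : ℚ≥0) + 1 ≤ (p : ℚ≥0) ^ e := by exact_mod_cast (j i).2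
    have h3 : (p : ℚ≥0) ^ e * (((j i : ℕ) : ℚ≥0) / (p : ℚ≥0) ^ e + ((δ : Gam d p) i : ℚ≥0)) <
        (p : ℚ≥0) ^ e * 1 := by
      rw [mul_add, mul_div_cancel₀ _ h0.ne', mul_one]
      exact lt_of_lt_of_le (add_lt_add_of_le_of_lt le_rfl h1) h2
    exact lt_of_mul_lt_mul_left h3 h0.le⟩

theorem fl_jn (δ : GamE d p e) (j : Fin d → Fin (p ^ e)) (i : Fin d) :
    ⌊(p : ℚ≥0) ^ e * (((jn p hp e δ j : Gam1 d p) : Gam d p) i : ℚ≥0)⌋₊ = (j i : ℕ) := by
  have h0 : (p : ℚ≥0) ^ e ≠ 0 := pe_ne p hp e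
  have h1 : (p : ℚ≥0) ^ e * (((jn p hp e δ j : Gam1 d p) : Gam d p) i : ℚ≥0) =
      ((p : ℚ≥0) ^ e * ((δ : Gam d p) i : ℚ≥0)) + ((j i : ℕ) : ℚ≥0) := by
    change (p : ℚ≥0) ^ e * (((j i : ℕ) : ℚ≥0) / (p : ℚ≥0) ^ e + ((δ : Gam d p) i : ℚ≥0)) = _
    rw [mul_add, mul_div_cancel₀ _ h0, add_comm]
  rw [h1, Nat.floor_add_natCast zero_le, Nat.floor_eq_zero.mpr (δ.2 i), zero_add]

theorem jn_inj {δ δ' : GamE d p e} {j j' : Fin d → Fin (p ^ e)}
    (h : jn p hp e δ j = jn p hp e δ' j') : δ = δ' ∧ j = j' := by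
  have hj : j = j' := by
    funext i
    apply Fin.ext
    rw [← fl_jn p hp e δ j i, h, fl_jn]
  subst hj
  refine ⟨Subtype.ext ?_, rfl⟩
  funext i
  apply Subtype.ext
  have h1 := congrArg (fun x : Gam1 d p => (((x : Gam d p) i : NP p) : ℚ≥0)) h
  have h2 : ((j i : ℕ) : ℚ≥0) / (p : ℚ≥0) ^ e + ((δ : Gam d p) i : ℚ≥0) =
      ((j i : ℕ) : ℚ≥0) / (p : ℚ≥0) ^ e + ((δ' : Gam d p) i : ℚ≥0) := h1
  exact add_left_cancel h2

theorem mon_jn (δ : GamE d p e) (j : Fin d → Fin (p ^ e)) :
    mon p t ((jn p hp e δ j : Gam1 d p) : Gam d p) =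
      mon p t (ex p hp e (fun i => (j i : ℕ))) * mon p t (δ : Gam d p) :=
  mon_add p t _ _

theorem linInd : LinearIndependent (Sub p t hp e) (fun δ : GamE d p e => mon p t (δ : Gam d p)) := by
  classical
  rw [linearIndependent_iff']
  intro s g hg δ0 hδ0
  choose c hc using fun δ => exists_sum_level p t hp e (g δ : BInf p t) (g δ).2
  have h1 : ∑ δ ∈ s, ∑ j, c δ j • basis p t (jn p hp e δ j) = 0 := by
    rw [← hg]
    refine Finset.sum_congr rfl fun δ _ => ?_
    rw [Subring.smul_def, hc δ, smul_eq_mul, Finset.sum_mul]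
    refine Finset.sum_congr rfl fun j _ => ?_
    rw [basis_apply, mon_jn, smul_mul_assoc]
  have h2 : ∀ j0, c δ0 j0 = 0 := by
    intro j0
    have h3 := congrArg (fun x => (basis p t).repr x (jn p hp e δ0 j0)) h1
    simp only [map_sum, Finsupp.finsetSum_apply, map_zero, Finsupp.coe_zero, Pi.zero_apply,
      map_smul, Module.Basis.repr_self, Finsupp.smul_apply, smul_eq_mul] at h3
    rw [Finset.sum_eq_single δ0] at h3
    · rw [Finset.sum_eq_single j0] at h3
      · rwa [Finsupp.single_eq_same, mul_one] at h3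
      · intro j _ hj
        rw [Finsupp.single_apply, if_neg, mul_zero]
        intro h4
        exact hj (jn_inj p hp e h4).2
      · intro h; exact absurd (Finset.mem_univ _) h
    · intro δ _ hδ
      refine Finset.sum_eq_zero fun j _ => ?_
      rw [Finsupp.single_apply, if_neg, mul_zero]
      intro h4
      exact hδ (jn_inj p hp e h4).1
    · intro h; exact absurd hδ0 h
  apply Subtype.ext
  rw [hc δ0]
  change _ = (0 : BInf p t)
  refine Finset.sum_eq_zero fun j _ => ?_
  rw [h2, zero_smul]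

/-- division by `p^e` -/
noncomputable def divpe (x : NP p) : NP p := ⟨(x : ℚ≥0) / (p : ℚ≥0) ^ e, by
  obtain ⟨k, n, h⟩ := x.2
  refine ⟨e + k, n, ?_⟩
  rw [pow_add, ← mul_assoc, div_mul_cancel₀ _ (pe_ne p hp e), h]⟩

theorem exists_mon_mul (γ : Gam d p) : ∃ (m : Fin d → ℕ) (δ : GamE d p e),
    mon p t γ = mon p t (ex p hp e m) * mon p t (δ : Gam d p) := by
  have h0 : (p : ℚ≥0) ^ e ≠ 0 := pe_ne p hp e
  let α : Gam d p := p ^ e • γ
  have hα : ∀ i, ((α i : NP p) : ℚ≥0) = (p : ℚ≥0) ^ e * ((γ i : NP p) : ℚ≥0) := by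
    intro i
    change (((p ^ e • γ) i : NP p) : ℚ≥0) = _
    rw [Pi.smul_apply, AddSubmonoidClass.coe_nsmul, nsmul_eq_mul]
    push_cast
    rfl
  refine ⟨fun i => fl (α i), ⟨fun i => divpe p hp e (fr (α i)), fun i => ?_⟩, ?_⟩
  · change (p : ℚ≥0) ^ e * (((fr (α i) : NP p) : ℚ≥0) / (p : ℚ≥0) ^ e) < 1
    rw [mul_div_cancel₀ _ h0]
    exact fr_lt_one _
  · rw [← mon_add]
    congr 1
    funext i
    apply Subtype.ext
    change ((γ i : NP p) : ℚ≥0) = ((fl (α i) : ℕ) : ℚ≥0) / (p : ℚ≥0) ^ e +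
      ((fr (α i) : NP p) : ℚ≥0) / (p : ℚ≥0) ^ e
    rw [← add_div, add_comm, fr_add_fl, hα, mul_div_cancel_left₀ _ h0]

theorem span_mon : ⊤ ≤ Submodule.span (Sub p t hp e)
    (Set.range fun δ : GamE d p e => mon p t (δ : Gam d p)) := by
  rintro x -
  obtain ⟨x, rfl⟩ := Ideal.Quotient.mk_surjective x
  induction x using AddMonoidAlgebra.induction_linear with
  | zero => rw [map_zero]; exact Submodule.zero_mem _
  | add x y hx hy => rw [map_add]; exact Submodule.add_mem _ hx hy
  | single γ b =>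
    obtain ⟨m, δ, h⟩ := exists_mon_mul p t hp e γ
    have h1 : (Ideal.Quotient.mk (relI p t)) (single γ b) = b • mon p t γ := by
      have h : single γ b = b • (single γ 1 : AddMonoidAlgebra B (Gam d p)) := by
        rw [AddMonoidAlgebra.smul_single, smul_eq_mul, mul_one]
      rw [h]; rfl
    let s : Sub p t hp e := ⟨b • mon p t (ex p hp e m),
      Subalgebra.smul_mem _ (mon_ex_mem p t hp e m) b⟩
    have h2 : b • mon p t γ = s • mon p t (δ : Gam d p) := by
      rw [Subring.smul_def, smul_eq_mul]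
      change _ = (b • mon p t (ex p hp e m)) * _
      rw [h, smul_mul_assoc]
    rw [h1, h2]
    exact Submodule.smul_mem _ _ (Submodule.subset_span ⟨δ, rfl⟩)

/-- `B_∞` is free over each level -/
theorem free_level : Module.Free (Sub p t hp e) (BInf p t) :=
  Module.Free.of_basis (Module.Basis.mk (linInd p t hp e) (span_mon p t hp e))

theorem flat_level : Module.Flat (Sub p t hp e) (BInf p t) := by
  have := free_level p t hp e
  infer_instance

end Free

section Max

variable {d : ℕ} (p : ℕ) {B : Type*} [CommRing B] (t : Fin d → B) (hp : 0 < p) (e : ℕ)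

/-- `t_i^{1/p^e}` as an element of level `e` -/
noncomputable def rtS (i : Fin d) : Sub p t hp e := ⟨rt p t hp e i, mon_mem_Sub p t hp e _⟩

/-- `t_i` as an element of level `e` -/
noncomputable def tS (i : Fin d) : Sub p t hp e :=
  ⟨algebraMap B (BInf p t) (t i), Subalgebra.algebraMap_mem _ _⟩

theorem rt_pow (i : Fin d) : rt p t hp e i ^ p ^ e = algebraMap B (BInf p t) (t i) := by
  induction e with
  | zero => rw [pow_zero, pow_one, rt_zero]
  | succ e ih => rw [pow_succ', pow_mul, rt_succ_pow, ih]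

theorem rtS_pow (i : Fin d) : rtS p t hp e i ^ p ^ e = tS p t hp e i :=
  Subtype.ext (rt_pow p t hp e i)

/-- the maximal ideal of level `e` -/
noncomputable def mE : Ideal (Sub p t hp e) := Ideal.span (Set.range (rtS p t hp e))

theorem tS_mem_mE (i : Fin d) : tS p t hp e i ∈ mE p t hp e := by
  rw [← rtS_pow]
  have h : rtS p t hp e i ∈ mE p t hp e := Ideal.subset_span ⟨i, rfl⟩
  exact Ideal.pow_mem_of_mem _ h _ (Nat.pow_pos hp)

/-- the structure map of level `e` -/
noncomputable def algS : B →+* Sub p t hp e :=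
  (algebraMap B (BInf p t)).codRestrict (Sub p t hp e) fun b => Subalgebra.algebraMap_mem _ b

theorem aeval_mem (f : MvPolynomial (Fin d) B) :
    (MvPolynomial.aeval (fun i => rt p t hp e i)) f ∈ Sub p t hp e := ⟨f, rfl⟩

theorem exists_sub_mem (x : Sub p t hp e) : ∃ b : B, x - algS p t hp e b ∈ mE p t hp e := by
  obtain ⟨x, f, rfl⟩ := x
  have key : ∀ f : MvPolynomial (Fin d) B, ∃ b : B, ∀ h : (MvPolynomial.aeval (fun i =>
      rt p t hp e i)) f ∈ Sub p t hp e,
      (⟨(MvPolynomial.aeval (fun i => rt p t hp e i)) f, h⟩ : Sub p t hp e) - algS p t hp e b ∈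
        mE p t hp e := by
    intro f
    induction f using MvPolynomial.induction_on with
    | C a =>
      refine ⟨a, fun h => ?_⟩
      have h1 : (⟨(MvPolynomial.aeval (fun i => rt p t hp e i)) (MvPolynomial.C a), h⟩ :
          Sub p t hp e) - algS p t hp e a = 0 := by
        apply Subtype.ext
        change (MvPolynomial.aeval (fun i => rt p t hp e i)) (MvPolynomial.C a) -
          algebraMap B (BInf p t) a = 0
        rw [MvPolynomial.aeval_C, sub_self]
      rw [h1]
      exact Ideal.zero_mem _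
    | add f g hf hg =>
      obtain ⟨b, hb⟩ := hf
      obtain ⟨b', hb'⟩ := hg
      refine ⟨b + b', fun h => ?_⟩
      have h1 := hb (aeval_mem p t hp e f)
      have h2 := hb' (aeval_mem p t hp e g)
      have h3 := Ideal.add_mem _ h1 h2
      convert h3 using 1
      apply Subtype.ext
      change (MvPolynomial.aeval (fun i => rt p t hp e i)) (f + g) -
        algebraMap B (BInf p t) (b + b') =
        ((MvPolynomial.aeval (fun i => rt p t hp e i)) f - algebraMap B (BInf p t) b) +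
        ((MvPolynomial.aeval (fun i => rt p t hp e i)) g - algebraMap B (BInf p t) b')
      rw [map_add, map_add]
      ring
    | mul_X f i hf =>
      refine ⟨0, fun h => ?_⟩
      have h1 : (⟨(MvPolynomial.aeval (fun i => rt p t hp e i)) (f * MvPolynomial.X i), h⟩ :
          Sub p t hp e) - algS p t hp e 0 =
          (⟨(MvPolynomial.aeval (fun i => rt p t hp e i)) f, aeval_mem p t hp e f⟩ :
            Sub p t hp e) *
            rtS p t hp e i := by
        apply Subtype.ext
        change (MvPolynomial.aeval (fun i => rt p t hp e i)) (f * MvPolynomial.X i) -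
          algebraMap B (BInf p t) 0 =
          (MvPolynomial.aeval (fun i => rt p t hp e i)) f * rt p t hp e i
        rw [map_mul, MvPolynomial.aeval_X, map_zero, sub_zero]
      rw [h1]
      exact Ideal.mul_mem_left _ _ (Ideal.subset_span ⟨i, rfl⟩)
  obtain ⟨b, hb⟩ := key f
  exact ⟨b, hb _⟩

variable [IsLocalRing B]

/-- the only maximal ideal of level `e` that contains the `t_i` -/
theorem eq_mE (hm : IsLocalRing.maximalIdeal B = Ideal.span (Set.range t))
    (n : Ideal (Sub p t hp e)) (hn : n.IsMaximal) (h : ∀ i, tS p t hp e i ∈ n) :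
    n = mE p t hp e := by
  have h1 : mE p t hp e ≤ n := by
    rw [mE, Ideal.span_le]
    rintro _ ⟨i, rfl⟩
    refine hn.isPrime.mem_of_pow_mem (p ^ e) ?_
    rw [rtS_pow]
    exact h i
  refine le_antisymm ?_ h1
  intro x hx
  obtain ⟨b, hb⟩ := exists_sub_mem p t hp e x
  have h2 : algS p t hp e b ∈ n := by
    have := n.sub_mem hx (h1 hb)
    rwa [sub_sub_cancel] at this
  have h3 : b ∈ IsLocalRing.maximalIdeal B := by
    rw [IsLocalRing.mem_maximalIdeal, mem_nonunits_iff]
    intro hu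
    exact hn.ne_top (Ideal.eq_top_of_isUnit_mem _ h2 (hu.map (algS p t hp e)))
  have h4 : algS p t hp e b ∈ mE p t hp e := by
    rw [hm] at h3
    have h5 : Ideal.span (Set.range t) ≤ (mE p t hp e).comap (algS p t hp e) := by
      rw [Ideal.span_le]
      rintro _ ⟨i, rfl⟩
      exact tS_mem_mE p t hp e i
    exact h5 h3
  have := Ideal.add_mem _ hb h4
  rwa [sub_add_cancel] at this

end Max

end Crest.Agent.R188.Trk
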