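import Crest.Agent.R188.Trk1

/-!
# R188 (helper645), block Trk, part 2: comparison of an additive length on `A`-modules with the
lengths of the levels (upper bound), and lower bounds for superadditive invariants.
-/

set_option autoImplicit false
set_option linter.dupNamespace false

namespace Crest.Agent.R188.Trk

open scoped ENNReal TensorProduct
open Crest.Agent.R183 Crest.Agent.R188.Tow

universe u v w

section Sup

/-- superadditive invariants of modules -/
structure SupLen (A : Type u) [CommRing A] where
  /-- the invariant -/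
  L : ∀ (M : Type u) [AddCommGroup M] [Module A M], ℝ≥0∞
  congr : ∀ {M N : Type u} [AddCommGroup M] [Module A M] [AddCommGroup N] [Module A N]
    (_ : M ≃ₗ[A] N), L M = L N
  sup : ∀ {M N P : Type u} [AddCommGroup M] [Module A M] [AddCommGroup N] [Module A N]
    [AddCommGroup P] [Module A P] (f : M →ₗ[A] N) (g : N →ₗ[A] P), Function.Injective f →
    Function.Surjective g → Function.Exact f g → L M + L P ≤ L N

/-- an additive length is superadditive -/
def SupLen.ofAddLen {A : Type u} [CommRing A] (Λ : AddLen.{u, u} A) : SupLen A where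
  L := fun M _ _ => Λ.L M
  congr := fun e => Λ.L_congr e
  sup := fun f g hf hg h => (Λ.add' f g hf hg h).ge

variable {A : Type u} [CommRing A] (Ψ : SupLen A)
variable {R C : Type u} [CommRing R] [CommRing C] [Algebra R C] [Algebra R A] [Algebra C A]
  [IsScalarTower R C A] [Module.Flat R C]

/-- `A ⊗_R -` is exact on modules killed by `a` if `R → C` is flat and `C → A` is an isomorphism
modulo `a` -/
theorem lTensor_injective (a : R)
    (sat : ∀ (x : C) (y : A), algebraMap C A x = algebraMap R A a * y →
      ∃ x', x = algebraMap R C a * x')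
    (dense : ∀ y : A, ∃ (x : C) (y' : A), y - algebraMap C A x = algebraMap R A a * y')
    {N N' : Type u} [AddCommGroup N] [Module R N] [AddCommGroup N'] [Module R N']
    (hN : ∀ y : N, a • y = 0) (i : N' →ₗ[R] N) (hi : Function.Injective i) :
    Function.Injective (i.lTensor A) := by
  have hN' : ∀ y : N', a • y = 0 := fun y => hi (by rw [map_smul, hN, map_zero])
  let f : C →ₗ[R] A := (Algebra.linearMap C A).restrictScalars R
  have hsat : ∀ (x : C) (y : A), f x = a • y → ∃ x', x = a • x' := by
    intro x y h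
    rw [Algebra.smul_def] at h
    obtain ⟨x', hx'⟩ := sat x y h
    exact ⟨x', by rw [Algebra.smul_def]; exact hx'⟩
  have hdense : ∀ y : A, ∃ (x : C) (y' : A), y - f x = a • y' := by
    intro y
    obtain ⟨x, y', h⟩ := dense y
    exact ⟨x, y', by rw [Algebra.smul_def]; exact h⟩
  have h1 := Lam.rTensor_bijective f a hsat hdense hN
  have h2 := Lam.rTensor_bijective f a hsat hdense hN'
  have h3 : Function.Injective (i.lTensor C) :=
    Module.Flat.lTensor_preserves_injective_linearMap i hi
  have h4 : ∀ x, (i.lTensor A) (f.rTensor N' x) = (f.rTensor N) (i.lTensor C x) := by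
    intro x
    rw [← LinearMap.comp_apply, ← LinearMap.comp_apply, LinearMap.lTensor_comp_rTensor,
      LinearMap.rTensor_comp_lTensor]
  rw [injective_iff_map_eq_zero]
  intro x hx
  obtain ⟨y, rfl⟩ := h2.2 x
  rw [h4] at hx
  have h5 := h3 ((h1.1 (hx.trans (map_zero _).symm)).trans (map_zero _).symm)
  rw [h5, map_zero]

/-- **lower bound for superadditive invariants** -/
theorem SupLen.tensor_le (a : R)
    (sat : ∀ (x : C) (y : A), algebraMap C A x = algebraMap R A a * y →
      ∃ x', x = algebraMap R C a * x')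
    (dense : ∀ y : A, ∃ (x : C) (y' : A), y - algebraMap C A x = algebraMap R A a * y')
    (I m : Ideal R) (haI : a ∈ I) (hm : ∀ n : Ideal R, n.IsMaximal → I ≤ n → n = m)
    {N : Type u} [AddCommGroup N] [Module R N] (hN : IsFiniteLength R N)
    (hIN : ∀ x ∈ I, ∀ y : N, x • y = 0) :
    ((Module.length R N : ℕ∞) : ℝ≥0∞) * Ψ.L (A ⊗[R] (R ⧸ m)) ≤ Ψ.L (A ⊗[R] N) := by
  induction hN with
  | of_subsingleton =>
    rw [Module.length_eq_zero]
    simp
  | @of_simple_quotient M _ _ N hs hN ih =>
    have hex : Ψ.L (A ⊗[R] N) + Ψ.L (A ⊗[R] (M ⧸ N)) ≤ Ψ.L (A ⊗[R] M) := by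
      refine Ψ.sup
        (TensorProduct.AlgebraTensorModule.lTensor A A N.subtype)
        (TensorProduct.AlgebraTensorModule.lTensor A A N.mkQ) ?_ ?_ ?_
      · exact lTensor_injective (C := C) a sat dense (hIN a haI) N.subtype N.subtype_injective
      · exact LinearMap.lTensor_surjective A N.mkQ_surjective
      · exact lTensor_exact A (LinearMap.exact_subtype_mkQ N) N.mkQ_surjective
    have hsimp : Nonempty ((M ⧸ N) ≃ₗ[R] (R ⧸ m)) := by
      obtain ⟨n, hn, ⟨e⟩⟩ := isSimpleModule_iff_quot_maximal.mp hs
      have : n = m := by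
        refine hm n hn ?_
        intro x hx
        have h1 : x • e.symm (Ideal.Quotient.mk n 1) = 0 := by
          obtain ⟨y, hy⟩ := N.mkQ_surjective (e.symm (Ideal.Quotient.mk n 1))
          rw [← hy, ← map_smul, hIN x hx, map_zero]
        rw [← map_smul, LinearEquiv.map_eq_zero_iff] at h1
        have h2 : x • (Ideal.Quotient.mk n 1) = Ideal.Quotient.mk n (x * 1) := rfl
        rw [h2, mul_one, Ideal.Quotient.eq_zero_iff_mem] at h1
        exact h1
      subst this
      exact ⟨e⟩
    obtain ⟨e⟩ := hsimp
    have h2 : Ψ.L (A ⊗[R] (M ⧸ N)) = Ψ.L (A ⊗[R] (R ⧸ m)) :=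
      Ψ.congr (TensorProduct.AlgebraTensorModule.congr (LinearEquiv.refl A A) e)
    have h4 : Module.length R M = Module.length R N + Module.length R (M ⧸ N) :=
      Module.length_eq_add_of_exact N.subtype N.mkQ N.subtype_injective N.mkQ_surjective
        (LinearMap.exact_subtype_mkQ N)
    have h5 : Module.length R (M ⧸ N) = 1 := Module.length_eq_one_iff.mpr hs
    have ih' := ih (fun x hx y => Subtype.ext (hIN x hx y))
    rw [h4, h5]
    push_cast
    rw [add_mul, one_mul]
    refine le_trans ?_ hex
    rw [h2]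
    exact add_le_add ih' le_rfl

/-- the same for `A / I A` -/
theorem SupLen.quot_le (a : R)
    (sat : ∀ (x : C) (y : A), algebraMap C A x = algebraMap R A a * y →
      ∃ x', x = algebraMap R C a * x')
    (dense : ∀ y : A, ∃ (x : C) (y' : A), y - algebraMap C A x = algebraMap R A a * y')
    (I m : Ideal R) (haI : a ∈ I) (hm : ∀ n : Ideal R, n.IsMaximal → I ≤ n → n = m)
    (hI : Module.length R (R ⧸ I) ≠ ⊤) :
    ((Module.length R (R ⧸ I) : ℕ∞) : ℝ≥0∞) * Ψ.L (A ⧸ m.map (algebraMap R A)) ≤
      Ψ.L (A ⧸ I.map (algebraMap R A)) := by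
  have h1 : ∀ J : Ideal R, Ψ.L (A ⧸ J.map (algebraMap R A)) = Ψ.L (A ⊗[R] (R ⧸ J)) := fun J =>
    Ψ.congr (Algebra.TensorProduct.quotIdealMapEquivTensorQuot A J).toLinearEquiv
  rw [h1, h1]
  refine Ψ.tensor_le (C := C) a sat dense I m haI hm (Module.length_ne_top_iff.mp hI) ?_
  intro x hx y
  obtain ⟨y, rfl⟩ := Ideal.Quotient.mk_surjective y
  have h2 : x • (Ideal.Quotient.mk I y) = Ideal.Quotient.mk I (x * y) := rfl
  rw [h2, Ideal.Quotient.eq_zero_iff_mem]
  exact Ideal.mul_mem_right _ _ hx

end Sup

section Sub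

variable {A : Type u} [CommRing A] (Φ : AddLen.{u, u} A)
variable {R : Type u} [CommRing R] [Algebra R A] {κ : Type*}

/-- **upper bound**: if `Q'` is generated over `A` by the image of the `R`-module `Q` of finite
length then `Φ(Q') ≤ ℓ_R(Q) sup_m Φ(A/mA)`. -/
theorem len_le_mul (c : ℝ≥0∞) (t : κ → R)
    (h : ∀ n : Ideal R, n.IsMaximal → (∀ i, t i ∈ n) → Φ.L (A ⧸ n.map (algebraMap R A)) ≤ c)
    {Q : Type u} [AddCommGroup Q] [Module R Q] (hQ : IsFiniteLength R Q) :
    Tors t Q → ∀ {Q' : Type u} [AddCommGroup Q'] [Module R Q'] [Module A Q'] [IsScalarTower R A Q']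
    (f : Q →ₗ[R] Q') (_ : Submodule.span A (Set.range f) = ⊤),
    Φ.L Q' ≤ ((Module.length R Q : ℕ∞) : ℝ≥0∞) * c := by
  induction hQ with
  | of_subsingleton =>
    intro _ Q' _ _ _ _ f hf
    have : Subsingleton Q' := by
      rw [← Submodule.subsingleton_iff A, ← subsingleton_iff_bot_eq_top, ← hf, eq_comm,
        Submodule.span_eq_bot]
      rintro _ ⟨x, rfl⟩
      rw [Subsingleton.elim x 0, map_zero]
    rw [Φ.L_subsingleton]
    exact zero_le
  | @of_simple_quotient M _ _ N hs hN ih =>
    intro ht Q' _ _ _ _ f hf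
    let Q1 : Submodule A Q' := Submodule.span A (f '' (N : Set M))
    have hmem : ∀ n : N, (f.domRestrict N) n ∈ Q1.restrictScalars R := fun n =>
      Submodule.subset_span ⟨n.1, n.2, rfl⟩
    have h1 : Φ.L Q1 ≤ ((Module.length R N : ℕ∞) : ℝ≥0∞) * c := by
      refine ih (ht.submodule N) (Q' := Q1)
        ((f.domRestrict N).codRestrict (Q1.restrictScalars R) hmem) ?_
      rw [eq_top_iff]
      rintro ⟨y, hy⟩ -
      have : ∀ z (hz : z ∈ Q1), (⟨z, hz⟩ : Q1) ∈ Submodule.span A
          (Set.range ((f.domRestrict N).codRestrict (Q1.restrictScalars R) hmem)) := by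
        intro z hz
        induction hz using Submodule.span_induction with
        | mem x hx =>
          obtain ⟨n, hn, rfl⟩ := hx
          exact Submodule.subset_span ⟨⟨n, hn⟩, rfl⟩
        | zero => exact Submodule.zero_mem _
        | add x y hx hy hx' hy' => exact Submodule.add_mem _ hx' hy'
        | smul a x hx hx' => exact Submodule.smul_mem _ a hx'
      exact this y hy
    have h2 : Φ.L (Q' ⧸ Q1) ≤ c := by
      have := hs.nontrivial
      obtain ⟨x0, hx0⟩ := exists_ne (0 : M ⧸ N)
      obtain ⟨x, rfl⟩ := N.mkQ_surjective x0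
      have hmax := IsSimpleModule.ker_toSpanSingleton_isMaximal R hx0
      have hsurj := IsSimpleModule.toSpanSingleton_surjective R hx0
      set m : Ideal R := LinearMap.ker (LinearMap.toSpanSingleton R (M ⧸ N) (N.mkQ x)) with hm
      have htm : ∀ i, t i ∈ m := by
        intro i
        obtain ⟨k, hk⟩ := ht x i
        refine hmax.isPrime.mem_of_pow_mem k ?_
        rw [hm, LinearMap.mem_ker, LinearMap.toSpanSingleton_apply, ← map_smul, hk, map_zero]
      let g : A →ₗ[A] Q' ⧸ Q1 := LinearMap.toSpanSingleton A (Q' ⧸ Q1) (Q1.mkQ (f x))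
      have hg : m.map (algebraMap R A) ≤ LinearMap.ker g := by
        rw [Ideal.map_le_iff_le_comap]
        intro a ha
        have ha' : N.mkQ (a • x) = 0 := by
          simpa [hm, LinearMap.mem_ker, LinearMap.toSpanSingleton_apply] using ha
        have ha'' : a • x ∈ N := by
          rwa [Submodule.mkQ_apply, Submodule.Quotient.mk_eq_zero] at ha'
        change algebraMap R A a ∈ LinearMap.ker g
        rw [LinearMap.mem_ker]
        change algebraMap R A a • Q1.mkQ (f x) = 0
        rw [← map_smul, algebraMap_smul, ← map_smul, Submodule.mkQ_apply,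
          Submodule.Quotient.mk_eq_zero]
        exact Submodule.subset_span ⟨_, ha'', rfl⟩
      have hgs : Function.Surjective (Submodule.liftQ _ g hg) := by
        rw [← LinearMap.range_eq_top, Submodule.range_liftQ]
        rw [eq_top_iff]
        rintro y -
        obtain ⟨y, rfl⟩ := Q1.mkQ_surjective y
        have hy : y ∈ Submodule.span A (Set.range f) := by rw [hf]; trivial
        induction hy using Submodule.span_induction with
        | mem z hz =>
          obtain ⟨w, rfl⟩ := hz
          obtain ⟨a, ha⟩ := hsurj (N.mkQ w)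
          have : w - a • x ∈ N := by
            have : N.mkQ (w - a • x) = 0 := by
              rw [map_sub, sub_eq_zero, ← ha, map_smul]; rfl
            rwa [Submodule.mkQ_apply, Submodule.Quotient.mk_eq_zero] at this
          refine ⟨algebraMap R A a, ?_⟩
          change algebraMap R A a • Q1.mkQ (f x) = _
          rw [← map_smul, algebraMap_smul, ← map_smul, ← sub_eq_zero, ← map_sub, ← map_sub,
            Submodule.mkQ_apply, Submodule.Quotient.mk_eq_zero]
          refine Submodule.subset_span ⟨a • x - w, ?_, rfl⟩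
          rw [← neg_sub]
          exact N.neg_mem this
        | zero => rw [map_zero]; exact Submodule.zero_mem _
        | add y z _ _ hy hz => rw [map_add]; exact Submodule.add_mem _ hy hz
        | smul a y _ hy => rw [map_smul]; exact Submodule.smul_mem _ a hy
      exact (Φ.L_le_of_surjective _ hgs).trans (h m hmax htm)
    have h3 : Φ.L Q' = Φ.L Q1 + Φ.L (Q' ⧸ Q1) := Φ.L_eq_add_quotient Q1
    have h4 : Module.length R M = Module.length R N + Module.length R (M ⧸ N) :=
      Module.length_eq_add_of_exact N.subtype N.mkQ N.subtype_injective N.mkQ_surjective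
        (LinearMap.exact_subtype_mkQ N)
    have h5 : Module.length R (M ⧸ N) = 1 := Module.length_eq_one_iff.mpr hs
    rw [h3, h4, h5]
    push_cast
    rw [add_mul, one_mul]
    exact add_le_add h1 h2

end Sub

end Crest.Agent.R188.Trk
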