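import Crest.Agent.R188.Trk2

/-!
# R188 (helper645), block Trk, part 3: the base length `Λ` on `A`-modules (`A` = `p`-completion of
`B_∞`), and its uniqueness.
-/

set_option autoImplicit false
set_option linter.dupNamespace false
set_option linter.unusedSectionVars false

namespace Crest.Agent.R188.Trk

open scoped ENNReal TensorProduct
open Crest.Agent.R183 Crest.Agent.R183.BInf Crest.Agent.R188.Tow IsLocalRing

universe u v w

section Base

variable {d : ℕ} (p : ℕ) {B : Type u} [CommRing B] [IsNoetherianRing B] (t : Fin d → B) (hp : 0 < p)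
variable (A : Type u) [CommRing A] [Algebra (BInf p t) A]

/-- the length of `A`-modules -/
noncomputable abbrev LA : AddLen.{u, u} A :=
  (AddLen.ofTower (tower p t hp)).restrict (algebraMap (BInf p t) A)

omit [IsNoetherianRing B] in
/-- the parameters in `A` -/
noncomputable def tA (i : Fin d) : A := algebraMap (BInf p t) A (algebraMap B (BInf p t) (t i))

variable {A}

theorem LA_eq (V : Type u) [AddCommGroup V] [Module A V] [Module (BInf p t) V]
    [IsScalarTower (BInf p t) A V] : (LA p t hp A).L V = (tower p t hp).lam V := by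
  rw [AddLen.restrict_L _ _ _ (fun a x => (algebraMap_smul A a x).symm), AddLen.ofTower_L]

omit [IsNoetherianRing B] in
theorem mem_span_of_compl (hc : Om.IsCompl (p : BInf p t) (algebraMap (BInf p t) A))
    {V : Type*} [AddCommGroup V] [Module A V] [Module (BInf p t) V]
    [IsScalarTower (BInf p t) A V] (E : Set V) (k : ℕ) (hk : ∀ x : V, (p : A) ^ k • x = 0) {x : V}
    (hx : x ∈ Submodule.span A E) : x ∈ Submodule.span (BInf p t) E := by
  induction hx using Submodule.span_induction with
  | mem x hx => exact Submodule.subset_span hx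
  | zero => exact Submodule.zero_mem _
  | add x y _ _ hx hy => exact Submodule.add_mem _ hx hy
  | smul a x _ hx =>
    obtain ⟨c, y, hy⟩ := hc.dense k a
    rw [map_natCast] at hy
    have h1 : a • x = c • x := by
      have h2 : (a - algebraMap (BInf p t) A c) • x = 0 := by
        rw [hy, mul_comm, mul_smul, hk, smul_zero]
      rw [sub_smul, sub_eq_zero, algebraMap_smul] at h2
      exact h2
    rw [h1]
    exact Submodule.smul_mem _ _ hx

/-- `Λ` is continuous -/
theorem contOn_LA : ContOn (LA p t hp A) (tA p t A) := by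
  intro V _ _ _
  let _ : Module (BInf p t) V := Module.compHom V (algebraMap (BInf p t) A)
  have _ : IsScalarTower (BInf p t) A V := ⟨fun a b x => by
    rw [Algebra.smul_def, mul_smul]; rfl⟩
  rw [LA_eq, (tower p t hp).lam_eq_iSup_span]
  refine iSup_mono fun E => ?_
  rw [LA_eq p t hp (Submodule.span A (E : Set V))]
  have h : Submodule.span (BInf p t) (E : Set V) ≤
      (Submodule.span A (E : Set V)).restrictScalars (BInf p t) := by
    rw [Submodule.span_le]
    exact fun x hx => Submodule.subset_span hx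
  exact (tower p t hp).lam_le_of_injective (Submodule.inclusion h)
    (Submodule.inclusion_injective h)

omit [IsNoetherianRing B] in
theorem span_tA_pow [Algebra B A] [IsScalarTower B (BInf p t) A] (N : ℕ) :
    (Ideal.span (Set.range fun i => t i ^ N)).map (algebraMap B A) =
      Ideal.span (Set.range fun i => tA p t A i ^ N) := by
  rw [Ideal.map_span, ← Set.range_comp]
  congr 2
  funext i
  rw [Function.comp_apply, map_pow, IsScalarTower.algebraMap_apply B (BInf p t) A]
  rfl

/-- a finitely generated torsion module is killed by `t_i^k`, `k ≫ 0`. -/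
theorem exists_pow_smul {A : Type*} [CommRing A] {ι : Type*} {t : ι → A} {V : Type*}
    [AddCommGroup V] [Module A V]
    (ht : Tors t V) (hfg : Module.Finite A V) (i : ι) : ∃ k : ℕ, ∀ x : V, t i ^ k • x = 0 := by
  obtain ⟨E, hE⟩ := hfg.fg_top
  choose n hn using fun x => ht x i
  refine ⟨E.sup n, fun x => ?_⟩
  have hx : x ∈ Submodule.span A (E : Set V) := by rw [hE]; trivial
  induction hx using Submodule.span_induction with
  | mem x hx =>
    obtain ⟨c, hc⟩ := Nat.exists_eq_add_of_le (Finset.le_sup (f := n) hx)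
    rw [hc, add_comm, pow_add, mul_smul, hn, smul_zero]
  | zero => rw [smul_zero]
  | add x y _ _ hx hy => rw [smul_add, hx, hy, add_zero]
  | smul a x _ hx => rw [smul_comm, hx, smul_zero]

variable [IsLocalRing B] [Algebra B A] [IsScalarTower B (BInf p t) A]

/-- the value of `Λ` on `A/(t^N)` -/
theorem LA_pow (hc : Om.IsCompl (p : BInf p t) (algebraMap (BInf p t) A))
    (hm : maximalIdeal B = Ideal.span (Set.range t)) (i0 : Fin d) (hi0 : t i0 = p) (N : ℕ) :
    (LA p t hp A).L (A ⧸ Ideal.span (Set.range fun i => tA p t A i ^ N)) =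
      ((Module.length B (B ⧸ Ideal.span (Set.range fun i => t i ^ N)) : ℕ∞) : ℝ≥0∞) := by
  rw [← span_tA_pow, LA_eq]
  have e := (Algebra.TensorProduct.quotIdealMapEquivTensorQuot A
    (Ideal.span (Set.range fun i => t i ^ N))).toLinearEquiv
  rw [(tower p t hp).lam_congr (e.restrictScalars (BInf p t))]
  refine lam_tensor_compl p t hp hc (fun i => ?_) _ N ?_
  · rw [hm]; exact Ideal.subset_span ⟨i, rfl⟩
  · intro y
    obtain ⟨y, rfl⟩ := Ideal.Quotient.mk_surjective y
    have h2 : ((p : B) ^ N) • (Ideal.Quotient.mk (Ideal.span (Set.range fun i => t i ^ N)) y) =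
      Ideal.Quotient.mk _ ((p : B) ^ N * y) := rfl
    rw [h2, Ideal.Quotient.eq_zero_iff_mem]
    refine Ideal.mul_mem_right _ _ (Ideal.subset_span ⟨i0, ?_⟩)
    change t i0 ^ N = _
    rw [hi0]

theorem eq_max (hm : maximalIdeal B = Ideal.span (Set.range t)) (N : ℕ) (n : Ideal B)
    (hn : n.IsMaximal) (_ : Ideal.span (Set.range fun i => t i ^ N) ≤ n) :
    n = Ideal.span (Set.range t) := by
  rw [IsLocalRing.eq_maximalIdeal hn, hm]

/-- **lower bound, level 0** -/
theorem SupLen.pow_le (hc : Om.IsCompl (p : BInf p t) (algebraMap (BInf p t) A))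
    (hm : maximalIdeal B = Ideal.span (Set.range t)) (i0 : Fin d) (hi0 : t i0 = p) (N : ℕ)
    (hl : Module.length B (B ⧸ Ideal.span (Set.range fun i => t i ^ N)) ≠ ⊤) (Ψ : SupLen A) :
    ((Module.length B (B ⧸ Ideal.span (Set.range fun i => t i ^ N)) : ℕ∞) : ℝ≥0∞) *
        Ψ.L (A ⧸ Ideal.span (Set.range (tA p t A))) ≤
      Ψ.L (A ⧸ Ideal.span (Set.range fun i => tA p t A i ^ N)) := by
  have h := Ψ.quot_le (R := B) (C := BInf p t) ((p : B) ^ N) (fun x y hxy => by
      rw [map_pow, map_natCast] at hxy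
      obtain ⟨z, hz⟩ := hc.sat N x ⟨y, by rw [map_natCast, hxy]⟩
      exact ⟨z, by rw [map_pow, map_natCast, hz]⟩) (fun y => by
      obtain ⟨x, z, hz⟩ := hc.dense N y
      exact ⟨x, z, by rw [hz, map_natCast, map_pow, map_natCast]⟩)
    (Ideal.span (Set.range fun i => t i ^ N)) (Ideal.span (Set.range t))
    (Ideal.subset_span ⟨i0, by change t i0 ^ N = _; rw [hi0]⟩) (eq_max t hm N) hl
  rw [span_tA_pow p t] at h
  have h1 := span_tA_pow p t (A := A) 1
  simp only [pow_one] at h1
  rwa [h1] at h

section Level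

variable (e : ℕ)

omit [IsNoetherianRing B] [IsLocalRing B] in
theorem length_level_ne_top (hm : (Ideal.span (Set.range t)).IsMaximal) :
    Module.length (Sub p t hp e) (Sub p t hp e ⧸
      ((Ideal.span (Set.range t)).map (algebraMap B (BInf p t))).comap (Sub p t hp e).subtype) =
      ((p ^ d) ^ e : ℕ) := by
  rw [length_level p t hp _ hm (fun i => Ideal.subset_span ⟨i, rfl⟩) e]
  push_cast
  rw [← pow_mul, ← pow_mul, mul_comm]

/-- **lower bound, level `e`** -/
theorem SupLen.level_le (hc : Om.IsCompl (p : BInf p t) (algebraMap (BInf p t) A))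
    (hm : maximalIdeal B = Ideal.span (Set.range t)) (i0 : Fin d) (hi0 : t i0 = p)
    (Ψ : SupLen A) :
    ((p ^ d : ℕ) : ℝ≥0∞) ^ e * Ψ.L (A ⧸ (mE p t hp e).map (algebraMap (Sub p t hp e) A)) ≤
      Ψ.L (A ⧸ Ideal.span (Set.range (tA p t A))) := by
  have hmax : (Ideal.span (Set.range t)).IsMaximal := by rw [← hm]; infer_instance
  set I : Ideal (Sub p t hp e) :=
    ((Ideal.span (Set.range t)).map (algebraMap B (BInf p t))).comap (Sub p t hp e).subtype with hI
  have hlen := length_level_ne_top p t hp e hmax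
  rw [← hI] at hlen
  have htI : ∀ i, tS p t hp e i ∈ I := fun i => by
    rw [hI, Ideal.mem_comap]
    exact Ideal.mem_map_of_mem _ (Ideal.subset_span ⟨i, rfl⟩)
  have hflat := flat_level p t hp e
  have hcoe : ∀ x : Sub p t hp e, algebraMap (Sub p t hp e) A x =
    algebraMap (BInf p t) A (x : BInf p t) := fun x => rfl
  have _ : IsScalarTower (Sub p t hp e) (BInf p t) A := IsScalarTower.of_algebraMap_eq fun x => rfl
  have h := Ψ.quot_le (R := Sub p t hp e) (C := BInf p t) (p : Sub p t hp e) (fun x y hxy => by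
      rw [map_natCast] at hxy
      obtain ⟨z, hz⟩ := hc.sat 1 x ⟨y, by rw [map_natCast, pow_one, hxy]⟩
      exact ⟨z, by rw [map_natCast, hz, pow_one]⟩) (fun y => by
      obtain ⟨x, z, hz⟩ := hc.dense 1 y
      exact ⟨x, z, by rw [hz, map_natCast, map_natCast, pow_one]⟩)
    I (mE p t hp e) (by
      have := htI i0
      have h1 : tS p t hp e i0 = (p : Sub p t hp e) := by
        apply Subtype.ext
        change algebraMap B (BInf p t) (t i0) = _
        rw [hi0, map_natCast]; rfl
      rwa [h1] at this)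
    (fun n hn hIn => eq_mE p t hp e hm n hn fun i => hIn (htI i)) (by
      rw [hlen]; exact ENat.natCast_ne_top _)
  have hIA : I.map (algebraMap (Sub p t hp e) A) = Ideal.span (Set.range (tA p t A)) := by
    apply le_antisymm
    · rw [Ideal.map_le_iff_le_comap]
      intro x hx
      rw [Ideal.mem_comap, hcoe]
      have h1 : (Ideal.span (Set.range t)).map (algebraMap B (BInf p t)) ≤
          (Ideal.span (Set.range (tA p t A))).comap (algebraMap (BInf p t) A) := by
        rw [Ideal.map_span, Ideal.span_le]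
        rintro _ ⟨_, ⟨i, rfl⟩, rfl⟩
        exact Ideal.subset_span ⟨i, rfl⟩
      exact h1 hx
    · rw [Ideal.span_le]
      rintro _ ⟨i, rfl⟩
      exact Ideal.mem_map_of_mem (algebraMap (Sub p t hp e) A) (htI i)
  rw [hIA, hlen] at h
  have h2 : ((((p ^ d) ^ e : ℕ) : ℕ∞) : ℝ≥0∞) = ((p ^ d : ℕ) : ℝ≥0∞) ^ e := by
    push_cast
    rfl
  rwa [h2] at h

/-- **upper bound**, finitely generated modules -/
theorem le_of_fg (hc : Om.IsCompl (p : BInf p t) (algebraMap (BInf p t) A))
    (hm : maximalIdeal B = Ideal.span (Set.range t)) (i0 : Fin d) (hi0 : t i0 = p)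
    (Φ : AddLen.{u, u} A) (hΦ : Φ.L (A ⧸ Ideal.span (Set.range (tA p t A))) ≠ ⊤)
    (V : Type u) [AddCommGroup V] [Module A V] (hV : Tors (tA p t A) V) (hfg : Module.Finite A V)
    (hLV : (LA p t hp A).L V ≠ ⊤) :
    Φ.L V ≤ Φ.L (A ⧸ Ideal.span (Set.range (tA p t A))) * (LA p t hp A).L V := by
  classical
  let _ : Module (BInf p t) V := Module.compHom V (algebraMap (BInf p t) A)
  have _ : IsScalarTower (BInf p t) A V := ⟨fun a b x => by
    rw [Algebra.smul_def, mul_smul]; rfl⟩
  set ρ := Φ.L (A ⧸ Ideal.span (Set.range (tA p t A))) with hρ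
  obtain ⟨E, hE⟩ := hfg.fg_top
  obtain ⟨k, hk⟩ := exists_pow_smul hV hfg i0
  have hk' : ∀ x : V, (p : A) ^ k • x = 0 := by
    intro x
    have h1 : tA p t A i0 = (p : A) := by
      unfold tA
      rw [hi0, map_natCast, map_natCast]
    rw [← h1, hk]
  have hE' : Submodule.span (BInf p t) (E : Set V) = ⊤ := by
    rw [eq_top_iff]
    rintro x -
    exact mem_span_of_compl p t hc (E : Set V) k hk' (by rw [hE]; trivial)
  have hL : (LA p t hp A).L V = ⨅ e, (tower p t hp).a e (E : Set V) := by
    rw [LA_eq, (tower p t hp).lam_eq_lamSet (tower_union p t hp) E hE']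
    rfl
  have key : ∀ e, (tower p t hp).a e (E : Set V) ≠ ⊤ →
      Φ.L V ≤ ρ * (tower p t hp).a e (E : Set V) := by
    intro e he
    let S := Sub p t hp e
    have _ : IsScalarTower S A V := ⟨fun a b x => by
      rw [Algebra.smul_def, mul_smul]
      rfl⟩
    let Q := Submodule.span S (E : Set V)
    have ha : (tower p t hp).a e (E : Set V) = ((Module.length S Q : ℕ∞) : ℝ≥0∞) /
      ((p ^ d : ℕ) : ℝ≥0∞) ^ e := rfl
    have hc0 : ((p ^ d : ℕ) : ℝ≥0∞) ^ e ≠ 0 := (tower p t hp).cE_ne_zero e
    have hct : ((p ^ d : ℕ) : ℝ≥0∞) ^ e ≠ ⊤ := (tower p t hp).cE_ne_top e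
    have hQ : Module.length S Q ≠ ⊤ := by
      intro htop
      apply he
      rw [ha, htop, ENat.toENNReal_top, ENNReal.top_div_of_ne_top hct]
    have htQ : Tors (tS p t hp e) Q := by
      intro x i
      obtain ⟨m, hm⟩ := hV (x : V) i
      refine ⟨m, Subtype.ext ?_⟩
      have : ((tS p t hp e i ^ m • x : Q) : V) = tA p t A i ^ m • (x : V) := by
        change ((tS p t hp e i ^ m : S) : BInf p t) • (x : V) = _
        have h1 : ((tS p t hp e i ^ m : S) : BInf p t) =
          algebraMap B (BInf p t) (t i) ^ m := rfl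
        rw [h1, ← algebraMap_smul A, map_pow]
        rfl
      rw [this, hm]
      rfl
    have h1 := len_le_mul Φ (R := S) (Φ.L (A ⧸ (mE p t hp e).map (algebraMap S A)))
      (tS p t hp e) (fun n hn ht => by rw [eq_mE p t hp e hm n hn ht])
      (Module.length_ne_top_iff.mp hQ) htQ Q.subtype (by
        rw [eq_top_iff, ← hE]
        refine Submodule.span_mono ?_
        intro x hx
        exact ⟨⟨x, Submodule.subset_span hx⟩, rfl⟩)
    have h2 := SupLen.level_le p t hp e hc hm i0 hi0 (SupLen.ofAddLen Φ)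
    have h3 : ((p ^ d : ℕ) : ℝ≥0∞) ^ e * Φ.L (A ⧸ (mE p t hp e).map (algebraMap S A)) ≤ ρ := h2
    have h4 : Φ.L (A ⧸ (mE p t hp e).map (algebraMap S A)) ≤ ρ / ((p ^ d : ℕ) : ℝ≥0∞) ^ e := by
      rw [ENNReal.le_div_iff_mul_le (Or.inl hc0) (Or.inl hct), mul_comm]
      exact h3
    rw [ha]
    refine h1.trans ((mul_le_mul_right h4 _).trans (le_of_eq ?_))
    rw [← mul_div_assoc, ← mul_div_assoc, mul_comm]
  rw [hL]
  by_cases hρ0 : ρ = 0
  · rw [hL] at hLV
    have h1 : ∃ e, (tower p t hp).a e (E : Set V) ≠ ⊤ := by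
      by_contra hcon
      push Not at hcon
      apply hLV
      simp only [hcon, iInf_const]
    obtain ⟨e, he⟩ := h1
    have := key e he
    rw [hρ0, zero_mul] at this ⊢
    exact this
  · rw [ENNReal.mul_iInf_of_ne hρ0 hΦ]
    refine le_iInf fun e => ?_
    by_cases he : (tower p t hp).a e (E : Set V) = ⊤
    · rw [he, ENNReal.mul_top hρ0]; exact le_top
    · exact key e he

end Level

end Base

end Crest.Agent.R188.Trk
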