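import Crest.Agent.R188.Trk3

/-!
# R188 (helper645), block Trk, part 4: uniqueness of the base length.
-/

set_option autoImplicit false
set_option linter.dupNamespace false
set_option linter.unusedSectionVars false

namespace Crest.Agent.R188.Trk

open scoped ENNReal TensorProduct
open Crest.Agent.R183 Crest.Agent.R183.BInf Crest.Agent.R188.Tow IsLocalRing

universe u v w

section Surj

variable {A : Type u} [CommRing A] {d : ℕ} {t : Fin d → A}

/-- `A / (t^N)` -/
abbrev QN (t : Fin d → A) (N : ℕ) : Type u := A ⧸ Ideal.span (Set.range fun i => t i ^ N)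

theorem tors_QN (t : Fin d → A) (N : ℕ) : Tors t (QN t N) := by
  intro x i
  obtain ⟨x, rfl⟩ := Ideal.Quotient.mk_surjective x
  refine ⟨N, ?_⟩
  have h2 : (t i ^ N) • (Ideal.Quotient.mk (Ideal.span (Set.range fun i => t i ^ N)) x) =
      Ideal.Quotient.mk _ (t i ^ N * x) := rfl
  rw [h2, Ideal.Quotient.eq_zero_iff_mem]
  exact Ideal.mul_mem_right _ _ (Ideal.subset_span ⟨i, rfl⟩)

theorem tors_pi {V : Type*} [AddCommGroup V] [Module A V] (h : Tors t V) (r : ℕ) :
    Tors t (Fin r → V) := by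
  intro x i
  choose n hn using fun j => h (x j) i
  refine ⟨∑ j, n j, ?_⟩
  funext j
  obtain ⟨c, hc⟩ := Nat.exists_eq_add_of_le
    (Finset.single_le_sum (f := n) (fun _ _ => Nat.zero_le _) (Finset.mem_univ j))
  rw [Pi.smul_apply, hc, add_comm, pow_add, mul_smul, hn, smul_zero, Pi.zero_apply]

/-- f.g. torsion modules are quotients of `(A/(t^N))^r` -/
theorem exists_surj {V : Type*} [AddCommGroup V] [Module A V] (hV : Tors t V)
    (hfg : Module.Finite A V) : ∃ (N r : ℕ) (f : (Fin r → QN t N) →ₗ[A] V),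
    0 < N ∧ Function.Surjective f := by
  classical
  choose k hk using fun i => exists_pow_smul hV hfg i
  obtain ⟨r, v, hv⟩ := Module.Finite.exists_fin (R := A) (M := V)
  let N := ∑ i, k i + 1
  have hN : ∀ i (x : V), t i ^ N • x = 0 := by
    intro i x
    obtain ⟨c, hc⟩ := Nat.exists_eq_add_of_le
      ((Finset.single_le_sum (f := k) (fun _ _ => Nat.zero_le _) (Finset.mem_univ i)).trans
        (Nat.le_succ _))
    change t i ^ (∑ i, k i).succ • x = 0
    rw [hc, add_comm, pow_add, mul_smul, hk, smul_zero]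
  have hj : ∀ j, Ideal.span (Set.range fun i => t i ^ N) ≤
      LinearMap.ker (LinearMap.toSpanSingleton A V (v j)) := by
    intro j
    rw [Ideal.span_le]
    rintro _ ⟨i, rfl⟩
    change t i ^ N ∈ LinearMap.ker _
    rw [LinearMap.mem_ker, LinearMap.toSpanSingleton_apply, hN]
  let g : (Fin r → QN t N) →ₗ[A] V :=
    LinearMap.lsum A (fun _ => QN t N) A (fun j => Submodule.liftQ _ _ (hj j))
  refine ⟨N, r, g, Nat.succ_pos _, ?_⟩
  intro y
  have hy : y ∈ Submodule.span A (Set.range v) := by rw [hv]; trivial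
  rw [Submodule.mem_span_range_iff_exists_fun] at hy
  obtain ⟨c, rfl⟩ := hy
  refine ⟨fun j => Ideal.Quotient.mk _ (c j), ?_⟩
  change (LinearMap.lsum A (fun _ => QN t N) A (fun j => Submodule.liftQ _ _ (hj j)))
    (fun j => Ideal.Quotient.mk _ (c j)) = _
  rw [LinearMap.lsum_apply, LinearMap.sum_apply]
  rfl

end Surj

/-- the standing assumptions on the base -/
structure Par {d : ℕ} (p : ℕ) {B : Type u} [CommRing B] [IsLocalRing B] (t : Fin d → B)
    (i0 : Fin d) : Prop where
  max : maximalIdeal B = Ideal.span (Set.range t)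
  eq : t i0 = p
  len : ∀ N : ℕ, Module.length B (B ⧸ Ideal.span (Set.range fun i => t i ^ N)) = ((N ^ d : ℕ) : ℕ∞)

section Uniq

variable {d : ℕ} (p : ℕ) {B : Type u} [CommRing B] [IsNoetherianRing B] [IsLocalRing B]
variable (t : Fin d → B) (hp : 0 < p)
variable {A : Type u} [CommRing A] [Algebra (BInf p t) A] [Algebra B A]
  [IsScalarTower B (BInf p t) A]
variable (hc : Om.IsCompl (p : BInf p t) (algebraMap (BInf p t) A)) {i0 : Fin d}
  (hP : Par p t i0)

include hc hP

/-- (GROW 1) -/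
theorem LA_QN (N : ℕ) : (LA p t hp A).L (QN (tA p t A) N) = (N : ℝ≥0∞) ^ d := by
  have h := LA_pow p t hp hc hP.max i0 hP.eq N
  rw [hP.len N] at h
  refine h.trans ?_
  push_cast
  rfl

theorem LA_one : (LA p t hp A).L (A ⧸ Ideal.span (Set.range (tA p t A))) = 1 := by
  have h : (LA p t hp A).L (A ⧸ Ideal.span (Set.range fun i => tA p t A i ^ 1)) =
    ((1 : ℕ) : ℝ≥0∞) ^ d := LA_QN p t hp hc hP 1
  have hI : Ideal.span (Set.range fun i => tA p t A i ^ 1) = Ideal.span (Set.range (tA p t A)) := by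
    simp only [pow_one]
  rw [hI, Nat.cast_one, one_pow] at h
  exact h

/-- (GROW 2) for superadditive invariants -/
theorem SupLen.QN_le (Ψ : SupLen A) (N : ℕ) :
    (N : ℝ≥0∞) ^ d * Ψ.L (A ⧸ Ideal.span (Set.range (tA p t A))) ≤ Ψ.L (QN (tA p t A) N) := by
  have h := SupLen.pow_le p t hc hP.max i0 hP.eq N (by rw [hP.len]; exact ENat.natCast_ne_top _) Ψ
  rw [hP.len] at h
  have h2 : (((N ^ d : ℕ) : ℕ∞) : ℝ≥0∞) = (N : ℝ≥0∞) ^ d := by push_cast; rfl
  rwa [h2] at h

/-- finitely generated torsion modules have finite length -/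
theorem LA_ne_top {V : Type u} [AddCommGroup V] [Module A V] (hV : Tors (tA p t A) V)
    (hfg : Module.Finite A V) : (LA p t hp A).L V ≠ ⊤ := by
  obtain ⟨N, r, f, -, hf⟩ := exists_surj hV hfg
  refine ne_top_of_le_ne_top ?_ ((LA p t hp A).L_le_of_surjective f hf)
  rw [AddLen.L_finset_pi, LA_QN p t hp hc hP]
  exact ENNReal.mul_ne_top (ENNReal.natCast_ne_top _) (ENNReal.pow_ne_top (ENNReal.natCast_ne_top _))

/-- **upper bound** -/
theorem le_of_cont (Φ : AddLen.{u, u} A) (hΦc : ContOn Φ (tA p t A))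
    (hΦ : Φ.L (A ⧸ Ideal.span (Set.range (tA p t A))) ≠ ⊤)
    (V : Type u) [AddCommGroup V] [Module A V] (hV : Tors (tA p t A) V) :
    Φ.L V ≤ Φ.L (A ⧸ Ideal.span (Set.range (tA p t A))) * (LA p t hp A).L V := by
  refine (hΦc V hV).trans (iSup_le fun E => ?_)
  have hfg : Module.Finite A (Submodule.span A (E : Set V)) :=
    Module.Finite.iff_fg.mpr (Submodule.fg_span E.finite_toSet)
  refine (le_of_fg p t hp hc hP.max i0 hP.eq Φ hΦ _ (hV.submodule _) hfg
    (LA_ne_top p t hp hc hP (hV.submodule _) hfg)).trans ?_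
  exact mul_le_mul_right ((LA p t hp A).L_submodule_le _) _

/-- **uniqueness of the base length** -/
theorem eq_of_cont (Φ : AddLen.{u, u} A) (hΦc : ContOn Φ (tA p t A))
    (hΦ : Φ.L (A ⧸ Ideal.span (Set.range (tA p t A))) ≠ ⊤)
    (V : Type u) [AddCommGroup V] [Module A V] (hV : Tors (tA p t A) V) :
    Φ.L V = Φ.L (A ⧸ Ideal.span (Set.range (tA p t A))) * (LA p t hp A).L V := by
  classical
  set ρ := Φ.L (A ⧸ Ideal.span (Set.range (tA p t A))) with hρ
  refine le_antisymm (le_of_cont p t hp hc hP Φ hΦc hΦ V hV) ?_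
  -- the finitely generated case
  have key : ∀ (W : Type u) [AddCommGroup W] [Module A W], Tors (tA p t A) W →
      Module.Finite A W → ρ * (LA p t hp A).L W ≤ Φ.L W := by
    intro W _ _ hW hfg
    obtain ⟨N, r, f, -, hf⟩ := exists_surj hW hfg
    have hpi : Tors (tA p t A) (Fin r → QN (tA p t A) N) := tors_pi (tors_QN _ _) r
    have h1 : Φ.L (Fin r → QN (tA p t A) N) = Φ.L (LinearMap.ker f) + Φ.L W :=
      Φ.add' (LinearMap.ker f).subtype f (Submodule.subtype_injective _) hf
        (LinearMap.exact_subtype_ker_map f)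
    have h2 : (LA p t hp A).L (Fin r → QN (tA p t A) N) =
        (LA p t hp A).L (LinearMap.ker f) + (LA p t hp A).L W :=
      (LA p t hp A).add' (LinearMap.ker f).subtype f (Submodule.subtype_injective _) hf
        (LinearMap.exact_subtype_ker_map f)
    have h3 : ρ * (LA p t hp A).L (Fin r → QN (tA p t A) N) ≤ Φ.L (Fin r → QN (tA p t A) N) := by
      rw [AddLen.L_finset_pi, AddLen.L_finset_pi, LA_QN p t hp hc hP]
      have h4 := SupLen.QN_le p t hc hP (SupLen.ofAddLen Φ) N
      have h5 : (N : ℝ≥0∞) ^ d * ρ ≤ Φ.L (QN (tA p t A) N) := h4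
      calc ρ * (r * (N : ℝ≥0∞) ^ d) = r * ((N : ℝ≥0∞) ^ d * ρ) := by ring
        _ ≤ r * Φ.L (QN (tA p t A) N) := mul_le_mul_right h5 _
    have h4 := le_of_cont p t hp hc hP Φ hΦc hΦ (LinearMap.ker f) (hpi.submodule _)
    have hfin : (LA p t hp A).L (Fin r → QN (tA p t A) N) ≠ ⊤ := by
      rw [AddLen.L_finset_pi, LA_QN p t hp hc hP]
      exact ENNReal.mul_ne_top (ENNReal.natCast_ne_top _)
        (ENNReal.pow_ne_top (ENNReal.natCast_ne_top _))
    have h5 : ρ * (LA p t hp A).L (LinearMap.ker f) ≠ ⊤ := by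
      refine ENNReal.mul_ne_top hΦ (ne_top_of_le_ne_top hfin ?_)
      rw [h2]
      exact le_self_add
    rw [h1, h2, mul_add] at h3
    have h6 : ρ * (LA p t hp A).L (LinearMap.ker f) + ρ * (LA p t hp A).L W ≤
        ρ * (LA p t hp A).L (LinearMap.ker f) + Φ.L W := h3.trans (add_le_add h4 le_rfl)
    exact (ENNReal.add_le_add_iff_left h5).mp h6
  have hcont := contOn_LA p t hp (A := A) V hV
  refine (mul_le_mul_right hcont ρ).trans ?_
  rw [ENNReal.mul_iSup]
  refine iSup_le fun E => ?_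
  refine (key _ (hV.submodule _) (Module.Finite.iff_fg.mpr
    (Submodule.fg_span E.finite_toSet))).trans ?_
  exact Φ.L_submodule_le _

end Uniq

end Crest.Agent.R188.Trk
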