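import Crest.Agent.R188.Trk5
import Crest.Agent.R188.Frb4
import Crest.Agent.R183.MixReg
import Crest.Agent.R183.HSGrowth
import Crest.Agent.R183.CohenDim
import Mathlib.RingTheory.OrderOfVanishing.Basic

/-!
# R188 (helper645), block Trk, part 6: the base `W(K)[[X_1..X_n]]`: `Par`, growth.
-/

set_option autoImplicit false
set_option linter.dupNamespace false
set_option linter.unusedSectionVars false

namespace Crest.Agent.R188.Trk

open scoped ENNReal TensorProduct
open Crest.Agent.R183 Crest.Agent.R183.BInf Crest.Agent.R188.Tow IsLocalRing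

universe u v w

section Witt

variable (n p : ℕ) [hp : Fact p.Prime] (K : Type u) [Field K] [CharP K p] [PerfectRing K p]

theorem reg_p_witt (x : WittVector p K) (hx : (p : WittVector p K) * x = 0) : x = 0 :=
  Amp.p_cancel (by rw [hx, mul_zero])

theorem length_witt (N : ℕ) :
    Module.length (WittVector p K) (WittVector p K ⧸ Ideal.span {(p : WittVector p K) ^ N}) =
      N := by
  have h1 : Ring.ord (WittVector p K) (p : WittVector p K) = 1 := by
    change Module.length (WittVector p K) (WittVector p K ⧸ Ideal.span {(p : WittVector p K)}) = 1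
    rw [← Cohen.maximalIdeal_witt, Module.length_eq_one_iff]
    exact (isSimpleModule_iff_quot_maximal).mpr
      ⟨maximalIdeal (WittVector p K), inferInstance, ⟨LinearEquiv.refl _ _⟩⟩
  have h2 : (p : WittVector p K) ∈ nonZeroDivisors (WittVector p K) := by
    rw [mem_nonZeroDivisors_iff]
    exact ⟨fun x hx => reg_p_witt p K x hx,
      fun x hx => reg_p_witt p K x (by rwa [mul_comm] at hx)⟩
  have h3 := Ring.ord_pow h2 N
  rw [h1] at h3
  change Ring.ord (WittVector p K) ((p : WittVector p K) ^ N) = N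
  rw [h3]
  simp

/-- membership in `(p^N, X^N)` -/
theorem mem_tb_pow (N : ℕ) (f : MvPowerSeries (Fin n) (WittVector p K)) :
    f ∈ Ideal.span (Set.range fun i => tb n p (WittVector p K) i ^ N) ↔
      ∀ m : Fin n →₀ ℕ, (∀ i, m i < N) → (p : WittVector p K) ^ N ∣ MvPowerSeries.coeff m f := by
  have h := MixReg.mem_span_X_pow_append_iff (n := n) N (List.finRange n)
    ((p : WittVector p K) ^ N) f
  have hset : {y : MvPowerSeries (Fin n) (WittVector p K) | y ∈ (List.finRange n).map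
      (fun i => (MvPowerSeries.X i : MvPowerSeries (Fin n) (WittVector p K)) ^ N) ++
        [MvPowerSeries.C ((p : WittVector p K) ^ N)]} =
      Set.range fun i => tb n p (WittVector p K) i ^ N := by
    ext y
    simp only [List.mem_append, List.mem_map, List.mem_finRange, true_and, List.mem_singleton,
      Set.mem_ofPred_eq, Set.mem_range]
    constructor
    · rintro (⟨i, rfl⟩ | rfl)
      · exact ⟨i.succ, rfl⟩
      · refine ⟨0, ?_⟩
        change (p : MvPowerSeries (Fin n) (WittVector p K)) ^ N = _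
        rw [map_pow, map_natCast]
    · rintro ⟨i, rfl⟩
      refine Fin.cases ?_ (fun i => ?_) i
      · right
        change (p : MvPowerSeries (Fin n) (WittVector p K)) ^ N = _
        rw [map_pow, map_natCast]
      · exact Or.inl ⟨i, rfl⟩
  rw [hset] at h
  rw [h]
  constructor
  · intro h1 m hm
    exact h1 m fun i _ => hm i
  · intro h1 m hm
    exact h1 m fun i => hm i (List.mem_finRange i)

/-- **`Par` for `W(K)[[X_1..X_n]]`** -/
theorem par_witt : Par p (tb n p (WittVector p K)) 0 where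
  max := maximalIdeal_tb n p K
  eq := tb_zero
  len := by
    intro N
    classical
    let W := WittVector p K
    let PS := MvPowerSeries (Fin n) W
    let I : Ideal PS := Ideal.span (Set.range fun i => tb n p W i ^ N)
    have hres : ∀ x : PS, ∃ a : W, x - algebraMap W PS a ∈ maximalIdeal PS := by
      intro x
      refine ⟨MvPowerSeries.constantCoeff x, ?_⟩
      rw [mem_maximalIdeal, mem_nonunits_iff, MvPowerSeries.isUnit_iff_constantCoeff]
      have h1 : algebraMap W PS (MvPowerSeries.constantCoeff x) =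
        MvPowerSeries.C (MvPowerSeries.constantCoeff x) := rfl
      rw [h1, map_sub, MvPowerSeries.constantCoeff_C, sub_self]
      exact not_isUnit_zero
    have h1 : Module.length W (PS ⧸ I) = Module.length PS (PS ⧸ I) :=
      Lam.length_eq_of_isLocalRing hres (PS ⧸ I)
    let ex : (Fin n → Fin N) → (Fin n →₀ ℕ) := fun m => Finsupp.equivFunOnFinite.symm
      fun i => (m i : ℕ)
    let g : PS →ₗ[W] ((Fin n → Fin N) → W ⧸ Ideal.span {(p : W) ^ N}) :=
      LinearMap.pi fun m => (Submodule.mkQ (Ideal.span {(p : W) ^ N})) ∘ₗ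
        MvPowerSeries.coeff (ex m)
    have hgs : Function.Surjective g := by
      intro c
      choose c' hc' using fun m => (Submodule.mkQ_surjective (Ideal.span {(p : W) ^ N})) (c m)
      let f : PS := fun m => if hm : ∀ i, m i < N then c' (fun i => ⟨m i, hm i⟩) else 0
      refine ⟨f, ?_⟩
      funext m
      change Submodule.mkQ _ (MvPowerSeries.coeff (ex m) f) = _
      rw [← hc' m]
      congr 1
      have hm : ∀ i, (ex m) i < N := fun i => (m i).2
      exact dif_pos hm
    have hgk : LinearMap.ker g = I.restrictScalars W := by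
      ext f
      rw [LinearMap.mem_ker, Submodule.restrictScalars_mem, mem_tb_pow]
      constructor
      · intro h m hm
        have h2 := congrFun h (fun i => ⟨m i, hm i⟩)
        change Submodule.mkQ _ (MvPowerSeries.coeff (ex fun i => ⟨m i, hm i⟩) f) = 0 at h2
        rw [Submodule.mkQ_apply, Submodule.Quotient.mk_eq_zero, Ideal.mem_span_singleton] at h2
        have h3 : ex (fun i => ⟨m i, hm i⟩) = m := by
          ext i; rfl
        rwa [h3] at h2
      · intro h
        funext m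
        change Submodule.mkQ _ (MvPowerSeries.coeff (ex m) f) = 0
        rw [Submodule.mkQ_apply, Submodule.Quotient.mk_eq_zero, Ideal.mem_span_singleton]
        exact h (ex m) fun i => (m i).2
    have e : (PS ⧸ I) ≃ₗ[W] ((Fin n → Fin N) → W ⧸ Ideal.span {(p : W) ^ N}) :=
      ((Submodule.Quotient.restrictScalarsEquiv W I).symm.trans
        (Submodule.quotEquivOfEq _ _ hgk.symm)).trans (g.quotKerEquivOfSurjective hgs)
    change Module.length PS (PS ⧸ I) = _
    rw [← h1, e.length_eq, Module.length_pi, length_witt, ENat.card_eq_coe_fintype_card,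
      Fintype.card_fun, Fintype.card_fin, Fintype.card_fin, pow_succ]
    push_cast
    rfl

end Witt

section Calc

variable {A : Type u} [CommRing A] (Λ : AddLen.{u, u} A)

theorem L_quot_anti {I J : Ideal A} (h : I ≤ J) : Λ.L (A ⧸ J) ≤ Λ.L (A ⧸ I) :=
  Λ.L_le_of_surjective (Submodule.factor h) (Submodule.factor_surjective h)

/-- `L(A/I) ≤ L(A/(I : a)) + L(A/(I, a))` in the form: `I'' a ≤ I`. -/
theorem L_colon_le (I I'' : Ideal A) (a : A) (h : ∀ x ∈ I'', a * x ∈ I) :
    Λ.L (A ⧸ I) ≤ Λ.L (A ⧸ I'') + Λ.L (A ⧸ (I ⊔ Ideal.span {a})) := by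
  have h1 : I'' ≤ Submodule.comap (LinearMap.mulLeft A a) I := fun x hx => h x hx
  let f : (A ⧸ I'') →ₗ[A] (A ⧸ I) := Submodule.mapQ I'' I (LinearMap.mulLeft A a) h1
  let g : (A ⧸ I) →ₗ[A] (A ⧸ (I ⊔ Ideal.span {a})) := Submodule.factor le_sup_left
  refine Λ.L_le_add_of_exact f g ?_
  intro y
  obtain ⟨y, rfl⟩ := Submodule.mkQ_surjective _ y
  constructor
  · intro hy
    change (Submodule.mkQ (I ⊔ Ideal.span {a})) y = 0 at hy
    rw [Submodule.mkQ_apply, Submodule.Quotient.mk_eq_zero] at hy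
    obtain ⟨u, hu, v, hv, rfl⟩ := Submodule.mem_sup.mp hy
    obtain ⟨c, rfl⟩ := Ideal.mem_span_singleton'.mp hv
    refine ⟨Submodule.mkQ I'' c, ?_⟩
    change Submodule.mkQ I (a * c) = Submodule.mkQ I (u + c * a)
    rw [← sub_eq_zero, ← map_sub, Submodule.mkQ_apply, Submodule.Quotient.mk_eq_zero]
    have : a * c - (u + c * a) = -u := by ring
    rw [this]
    exact I.neg_mem hu
  · rintro ⟨x, hx⟩
    obtain ⟨x, rfl⟩ := Submodule.mkQ_surjective _ x
    rw [← hx]
    change (Submodule.mkQ (I ⊔ Ideal.span {a})) (a * x) = 0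
    rw [Submodule.mkQ_apply, Submodule.Quotient.mk_eq_zero]
    exact Ideal.mem_sup_right (Ideal.mem_span_singleton'.mpr ⟨x, mul_comm x a⟩)

theorem L_mul_le (I : Ideal A) (a b : A) :
    Λ.L (A ⧸ (I ⊔ Ideal.span {a * b})) ≤
      Λ.L (A ⧸ (I ⊔ Ideal.span {b})) + Λ.L (A ⧸ (I ⊔ Ideal.span {a})) := by
  have h1 := L_colon_le Λ (I ⊔ Ideal.span {a * b}) (I ⊔ Ideal.span {b}) a (by
    intro x hx
    obtain ⟨u, hu, v, hv, rfl⟩ := Submodule.mem_sup.mp hx
    obtain ⟨c, rfl⟩ := Ideal.mem_span_singleton'.mp hv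
    rw [mul_add]
    refine Ideal.add_mem _ (Ideal.mem_sup_left (I.mul_mem_left _ hu)) (Ideal.mem_sup_right ?_)
    rw [Ideal.mem_span_singleton']
    exact ⟨c, by ring⟩)
  refine h1.trans (add_le_add le_rfl (L_quot_anti Λ ?_))
  exact sup_le_sup_right le_sup_left _

theorem L_pow_le (I : Ideal A) (a : A) (k : ℕ) :
    Λ.L (A ⧸ (I ⊔ Ideal.span {a ^ k})) ≤ k * Λ.L (A ⧸ (I ⊔ Ideal.span {a})) := by
  induction k with
  | zero =>
    have : (I ⊔ Ideal.span {a ^ 0}) = ⊤ := by rw [pow_zero, Ideal.span_singleton_one, sup_top_eq]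
    rw [this]
    have : Subsingleton (A ⧸ (⊤ : Ideal A)) := Ideal.Quotient.subsingleton_iff.2 rfl
    rw [Λ.L_subsingleton]
    exact zero_le
  | succ k ih =>
    rw [pow_succ']
    refine (L_mul_le Λ I a (a ^ k)).trans ?_
    push_cast
    rw [add_mul, one_mul]
    exact add_le_add ih le_rfl

/-- `L(A/I) ≤ k L(A/(I, a))` if `a^k ∈ I` -/
theorem L_le_pow (I : Ideal A) (a : A) (k : ℕ) (h : a ^ k ∈ I) :
    Λ.L (A ⧸ I) ≤ k * Λ.L (A ⧸ (I ⊔ Ideal.span {a})) := by
  refine (L_quot_anti Λ ?_).trans (L_pow_le Λ I a k)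
  exact sup_le le_rfl ((Ideal.span_singleton_le_iff_mem _).mpr h)

end Calc

section Gen

variable {d : ℕ} (p : ℕ) {B : Type u} [CommRing B] [IsNoetherianRing B] [IsLocalRing B]
variable (t : Fin d → B) (hp : 0 < p)
variable {A : Type u} [CommRing A] [Algebra (BInf p t) A] [Algebra B A]
  [IsScalarTower B (BInf p t) A]

/-- `Λ(A/IA) = ℓ(B/I)` -/
theorem LA_map (hc : Om.IsCompl (p : BInf p t) (algebraMap (BInf p t) A))
    (hm : maximalIdeal B = Ideal.span (Set.range t)) (I : Ideal B) (k : ℕ)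
    (hk : (p : B) ^ k ∈ I) :
    (LA p t hp A).L (A ⧸ I.map (algebraMap B A)) =
      ((Module.length B (B ⧸ I) : ℕ∞) : ℝ≥0∞) := by
  rw [LA_eq]
  have e := (Algebra.TensorProduct.quotIdealMapEquivTensorQuot A I).toLinearEquiv
  rw [(tower p t hp).lam_congr (e.restrictScalars (BInf p t))]
  refine lam_tensor_compl p t hp hc (fun i => ?_) _ k ?_
  · rw [hm]; exact Ideal.subset_span ⟨i, rfl⟩
  · intro y
    obtain ⟨y, rfl⟩ := Ideal.Quotient.mk_surjective y
    have h2 : ((p : B) ^ k) • (Ideal.Quotient.mk I y) = Ideal.Quotient.mk _ ((p : B) ^ k * y) := rfl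
    rw [h2, Ideal.Quotient.eq_zero_iff_mem]
    exact Ideal.mul_mem_right _ _ hk

end Gen

section Growth

variable (n p : ℕ) [hp : Fact p.Prime] (K : Type u) [Field K] [CharP K p] [PerfectRing K p]

local notation "BW" => MvPowerSeries (Fin n) (WittVector p K)
local notation "tW" => tb n p (WittVector p K)

theorem dim_BW : ringKrullDim BW = ((n + 1 : ℕ) : WithBot ℕ∞) := by
  have h1 : ringKrullDim (WittVector p K) = 1 :=
    IsDiscreteValuationRing.ringKrullDim_eq_one _
  rw [Cohen.ringKrullDim_mvPowerSeries, h1, add_comm]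
  rfl

theorem reg_p_BW (x : BW) (hx : (p : BW) * x = 0) : x = 0 := by
  exact (pbasis_witt n p K).reg x hx

/-- growth modulo `p` -/
theorem growth_p : ∃ C : ℕ, ∀ N : ℕ, 0 < N →
    Module.length BW (BW ⧸ (Ideal.span {(p : BW)} ⊔ Ideal.span (Set.range fun i => tW i ^ N))) ≤
      ((C * N ^ n : ℕ) : ℕ∞) := by
  obtain ⟨C, hC⟩ := HS.growth_quot_regular (R := BW) (p : BW) (by
    rw [mem_nonZeroDivisors_iff]
    exact ⟨fun x hx => reg_p_BW n p K x hx,
      fun x hx => reg_p_BW n p K x (by rwa [mul_comm] at hx)⟩) 1 (n + 1) (dim_BW n p K) tW (t := 1)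
    (by rw [pow_one, maximalIdeal_tb])
  refine ⟨C, fun N hN => ?_⟩
  have := hC N hN
  rwa [pow_one, Nat.add_sub_cancel] at this

/-- growth modulo `(p, D)` -/
theorem growth_pD (D : BW) (hD : ¬ (p : BW) ∣ D) : ∃ C : ℕ, ∀ N : ℕ, 0 < N →
    Module.length BW (BW ⧸ (Ideal.span {(p : BW)} ⊔ Ideal.span {D} ⊔
      Ideal.span (Set.range fun i => tW i ^ N))) * N ≤
      ((C * N ^ n : ℕ) : ℕ∞) := by
  let R := MvPowerSeries (Fin n) K
  let φ : BW →+* R := MvPowerSeries.map (WittVector.constantCoeff (p := p) (R := K))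
  have hk : ∀ x : WittVector p K, WittVector.constantCoeff x = 0 ↔ (p : WittVector p K) ∣ x :=
    fun x => Om.W_dvd_p_iff.symm
  have hs : Function.Surjective φ := BInf.map_surjective _ (by
    intro x
    exact ⟨WittVector.teichmuller p x, Om.constCoeff_teich x⟩)
  have hker : ∀ x : BW, φ x = 0 ↔ (p : BW) ∣ x := fun x =>
    (natCast_dvd_iff_map _ hk x).symm
  have hD0 : φ D ≠ 0 := fun h => hD ((hker D).mp h)
  -- comparison of the lengths
  have hlen : ∀ N : ℕ, 0 < N → Module.length BW (BW ⧸ (Ideal.span {(p : BW)} ⊔ Ideal.span {D} ⊔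
      Ideal.span (Set.range fun i => tW i ^ N))) ≤ Module.length R (R ⧸ (Ideal.span {φ D ^ 1} ⊔
        Ideal.span (Set.range fun i : Fin n => (MvPowerSeries.X i : R) ^ N))) := by
    intro N hN
    let _ : Algebra BW R := φ.toAlgebra
    set J : Ideal R := Ideal.span {φ D ^ 1} ⊔
        Ideal.span (Set.range fun i : Fin n => (MvPowerSeries.X i : R) ^ N) with hJ
    set I : Ideal BW := Ideal.span {(p : BW)} ⊔ Ideal.span {D} ⊔
      Ideal.span (Set.range fun i => tW i ^ N) with hI
    have hJI : J.comap φ ≤ I := by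
      have h1 : J = (Ideal.span {D} ⊔ Ideal.span (Set.range fun i : Fin n =>
          (MvPowerSeries.X i : BW) ^ N)).map φ := by
        rw [Ideal.map_sup, Ideal.map_span, Ideal.map_span, Set.image_singleton, hJ, pow_one,
          ← Set.range_comp]
        congr 3
        funext i
        rw [Function.comp_apply, map_pow]
        congr 1
        exact (MvPowerSeries.map_X _ _).symm
      rw [h1, Ideal.comap_map_of_surjective' φ hs]
      refine sup_le (sup_le (le_sup_right.trans le_sup_left) ?_) ?_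
      · refine le_trans ?_ le_sup_right
        rw [Ideal.span_le]
        rintro _ ⟨i, rfl⟩
        exact Ideal.subset_span ⟨i.succ, rfl⟩
      · intro x hx
        rw [RingHom.mem_ker, hker] at hx
        exact Ideal.mem_sup_left (Ideal.mem_sup_left (Ideal.mem_span_singleton.mpr hx))
    have h2 : Module.length BW (BW ⧸ I) ≤ Module.length BW (BW ⧸ J.comap φ) :=
      Module.length_le_of_surjective (Submodule.factor hJI) (Submodule.factor_surjective hJI)
    refine h2.trans ?_
    have h3 : Module.length BW (R ⧸ J) = Module.length R (R ⧸ J) :=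
      Lam.length_eq_of_same fun x => by
        obtain ⟨a, rfl⟩ := hs x
        exact ⟨a, fun m => (algebraMap_smul R a m)⟩
    rw [← h3]
    let g : BW →ₗ[BW] R ⧸ J := (Submodule.mkQ J).restrictScalars BW ∘ₗ Algebra.linearMap BW R
    have hg : ∀ x, g x = Submodule.mkQ J (φ x) := fun x => rfl
    have hgk : J.comap φ = LinearMap.ker g := by
      ext x
      rw [LinearMap.mem_ker, hg, Submodule.mkQ_apply, Submodule.Quotient.mk_eq_zero]
      rfl
    refine Module.length_le_of_injective (Submodule.liftQ _ g hgk.le) ?_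
    rw [← LinearMap.ker_eq_bot]
    exact Submodule.ker_liftQ_eq_bot _ _ _ hgk.ge
  rcases Nat.eq_zero_or_pos n with hn | hn
  · -- `n = 0`: `φ D` is a unit
    subst hn
    refine ⟨0, fun N hN => ?_⟩
    have hu : IsUnit (φ D) := by
      rw [MvPowerSeries.isUnit_iff_constantCoeff, isUnit_iff_ne_zero]
      intro h0
      apply hD0
      ext m
      rw [map_zero]
      have : m = 0 := Subsingleton.elim _ _
      rw [this]
      exact h0
    have h1 := hlen N hN
    have h2 : Ideal.span {φ D ^ 1} = ⊤ := by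
      rw [pow_one]; exact Ideal.span_singleton_eq_top.2 hu
    rw [h2, top_sup_eq] at h1
    have : Subsingleton (R ⧸ (⊤ : Ideal R)) := Ideal.Quotient.subsingleton_iff.2 rfl
    have h3 : Module.length R (R ⧸ (⊤ : Ideal R)) = 0 := Module.length_eq_zero
    rw [h3] at h1
    have h4 := le_antisymm h1 (zero_le)
    rw [h4]
    simp
  · have hdim : ringKrullDim R = ((n : ℕ) : WithBot ℕ∞) := by
      rw [Cohen.ringKrullDim_mvPowerSeries, ringKrullDim_eq_zero_of_field, zero_add]
    obtain ⟨C, hC⟩ := HS.growth_quot_regular (R := R) (φ D)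
      (mem_nonZeroDivisors_of_ne_zero hD0) 1 n hdim
      (fun i : Fin n => (MvPowerSeries.X i : R)) (t := 1) (by
        rw [pow_one, Cohen.maximalIdeal_mvPowerSeries, IsLocalRing.maximalIdeal_eq_bot,
          Ideal.map_bot, bot_sup_eq])
    refine ⟨C, fun N hN => ?_⟩
    have h1 := (hlen N hN).trans (hC N hN)
    calc _ ≤ ((C * N ^ (n - 1) : ℕ) : ℕ∞) * N := mul_le_mul_left h1 _
      _ = ((C * N ^ n : ℕ) : ℕ∞) := by
        rw [← Nat.cast_mul, mul_assoc, ← pow_succ, Nat.sub_add_cancel hn]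

end Growth

section Growth2

variable {n p : ℕ} [hp : Fact p.Prime] {K : Type u} [Field K] [CharP K p] [PerfectRing K p]

local notation "BX" => MvPowerSeries (Fin n) (WittVector p K)
local notation "tX" => tb n p (WittVector p K)

variable {A : Type u} [CommRing A] [Algebra (BInf p (tb n p (WittVector p K))) A]
  [Algebra (MvPowerSeries (Fin n) (WittVector p K)) A]
  [IsScalarTower (MvPowerSeries (Fin n) (WittVector p K)) (BInf p (tb n p (WittVector p K))) A]
variable (hc : Om.IsCompl (p : BInf p (tb n p (WittVector p K)))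
  (algebraMap (BInf p (tb n p (WittVector p K))) A))

local notation "ΛA" => LA p tX hp.out.pos A
local notation "ta" => tA p tX A

include hc in
/-- an element of `A` has a `p`-power in the image of `B` modulo `p` -/
theorem exists_pow_base (D : A) : ∃ (e : ℕ) (D₁ : BX), (p : A) ∣ D ^ p ^ e - algebraMap BX A D₁ := by
  obtain ⟨x, hx⟩ := hc.dense 1 D
  rw [map_natCast, pow_one] at hx
  obtain ⟨e, he⟩ := exists_mem_SA p tX hp.out.pos x
  have key : ∀ (e : ℕ) (a : BInf p tX), a ∈ SA p tX hp.out.pos e →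
      ∃ b : BX, (p : BInf p tX) ∣ a ^ p ^ e - algebraMap BX _ b := by
    intro e
    induction e with
    | zero =>
      intro a ha
      obtain ⟨c, hcc⟩ := exists_sum_level p tX hp.out.pos 0 a ha
      have h1 : ∃ b : BX, a = algebraMap BX _ b := by
        rw [hcc]
        refine ⟨∑ j, c j * ∏ i, tX i ^ ((j i : ℕ)), ?_⟩
        rw [map_sum]
        refine Finset.sum_congr rfl fun j _ => ?_
        rw [ex_level_zero, mon_natG, map_mul]
        exact Algebra.smul_def (c j) (algebraMap BX (BInf p tX) _)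
      obtain ⟨b, rfl⟩ := h1
      exact ⟨b, by rw [pow_zero, pow_one, sub_self]; exact dvd_zero _⟩
    | succ e ih =>
      intro a ha
      obtain ⟨a', ha', h1⟩ := Frb.exists_pow_mod tX e ha
      obtain ⟨b, hb⟩ := ih a' ha'
      refine ⟨b, ?_⟩
      have h2 : (p : BInf p tX) ∣ (a ^ p) ^ p ^ e - a' ^ p ^ e :=
        h1.trans (sub_dvd_pow_sub_pow _ _ _)
      have h3 := dvd_add h2 hb
      rw [← pow_mul, ← pow_succ'] at h3
      convert h3 using 1
      ring
  obtain ⟨b, hb⟩ := key e x he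
  refine ⟨e, b, ?_⟩
  have h1 : (p : A) ∣ D ^ p ^ e - (algebraMap (BInf p tX) A x) ^ p ^ e :=
    hx.trans (sub_dvd_pow_sub_pow _ _ _)
  have h2 : (p : A) ∣ (algebraMap (BInf p tX) A x) ^ p ^ e - algebraMap BX A b := by
    have := map_dvd (algebraMap (BInf p tX) A) hb
    rwa [map_natCast, map_sub, map_pow, ← IsScalarTower.algebraMap_apply] at this
  have h3 := dvd_add h1 h2
  convert h3 using 1
  ring

theorem regMod_pow {R : Type*} [CommRing R] {D q : R} (h : Om.RegMod D q) (k : ℕ) :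
    Om.RegMod (D ^ k) q := by
  induction k with
  | zero => intro x hx; simpa using hx
  | succ k ih =>
    intro x hx
    rw [pow_succ, mul_assoc] at hx
    exact h x (ih _ hx)

include hc in
/-- growth modulo `p` in `A` -/
theorem growthA_p : ∃ C : ℕ, ∀ N : ℕ, 0 < N → ∀ 𝔞 : Ideal A, (p : A) ∈ 𝔞 →
    (∀ i, ta i ^ N ∈ 𝔞) → (ΛA).L (A ⧸ 𝔞) ≤ C * (N : ℝ≥0∞) ^ n := by
  obtain ⟨C, hC⟩ := growth_p n p K
  refine ⟨C, fun N hN 𝔞 hp𝔞 ht𝔞 => ?_⟩
  set I : Ideal BX := Ideal.span {(p : BX)} ⊔ Ideal.span (Set.range fun i => tX i ^ N) with hI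
  have h1 : I.map (algebraMap BX A) ≤ 𝔞 := by
    rw [hI, Ideal.map_sup, span_tA_pow p tX, Ideal.map_span, Set.image_singleton, map_natCast]
    refine sup_le ((Ideal.span_singleton_le_iff_mem _).mpr hp𝔞) ?_
    rw [Ideal.span_le]
    rintro _ ⟨i, rfl⟩
    exact ht𝔞 i
  refine (L_quot_anti _ h1).trans ?_
  rw [LA_map p tX hp.out.pos hc (maximalIdeal_tb n p K) I 1 (by
    rw [pow_one]; exact Ideal.mem_sup_left (Ideal.mem_span_singleton_self _))]
  refine (ENat.toENNReal_mono (hC N hN)).trans (le_of_eq ?_)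
  push_cast
  rfl

include hc in
/-- growth modulo `(p, D)` in `A` -/
theorem growthA_pD (hpu : ¬ IsUnit (p : A)) (D : A) (hD : Om.RegMod D (p : A)) :
    ∃ C : ℕ, ∀ N : ℕ, 0 < N → ∀ 𝔞 : Ideal A, (p : A) ∈ 𝔞 → D ∈ 𝔞 →
    (∀ i, ta i ^ N ∈ 𝔞) → (ΛA).L (A ⧸ 𝔞) * N ≤ C * (N : ℝ≥0∞) ^ n := by
  obtain ⟨e, D₁, hD₁⟩ := exists_pow_base hc D
  have hne : ¬ (p : BX) ∣ D₁ := by
    intro h
    have h1 : (p : A) ∣ algebraMap BX A D₁ := by
      have := map_dvd (algebraMap BX A) h
      rwa [map_natCast] at this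
    have h2 : (p : A) ∣ D ^ p ^ e := by
      have := dvd_add hD₁ h1
      rwa [sub_add_cancel] at this
    have h3 : (p : A) ∣ 1 := regMod_pow hD (p ^ e) 1 (by rwa [mul_one])
    exact hpu (isUnit_of_dvd_one h3)
  obtain ⟨C, hC⟩ := growth_pD n p K D₁ hne
  refine ⟨C, fun N hN 𝔞 hp𝔞 hD𝔞 ht𝔞 => ?_⟩
  set I : Ideal BX := Ideal.span {(p : BX)} ⊔ Ideal.span {D₁} ⊔
    Ideal.span (Set.range fun i => tX i ^ N) with hI
  have hD1 : algebraMap BX A D₁ ∈ 𝔞 := by
    obtain ⟨z, hz⟩ := hD₁
    have h1 : algebraMap BX A D₁ = D ^ p ^ e - p * z := by rw [← hz]; ring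
    rw [h1]
    exact 𝔞.sub_mem (Ideal.pow_mem_of_mem _ hD𝔞 _ (Nat.pow_pos hp.out.pos))
      (𝔞.mul_mem_right _ hp𝔞)
  have h1 : I.map (algebraMap BX A) ≤ 𝔞 := by
    rw [hI, Ideal.map_sup, Ideal.map_sup, span_tA_pow p tX, Ideal.map_span, Set.image_singleton,
      map_natCast, Ideal.map_span, Set.image_singleton]
    refine sup_le (sup_le ((Ideal.span_singleton_le_iff_mem _).mpr hp𝔞)
      ((Ideal.span_singleton_le_iff_mem _).mpr hD1)) ?_
    rw [Ideal.span_le]
    rintro _ ⟨i, rfl⟩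
    exact ht𝔞 i
  refine (mul_le_mul_left (L_quot_anti _ h1) _).trans ?_
  rw [LA_map p tX hp.out.pos hc (maximalIdeal_tb n p K) I 1 (by
    rw [pow_one]; exact Ideal.mem_sup_left (Ideal.mem_sup_left (Ideal.mem_span_singleton_self _)))]
  have h2 := ENat.toENNReal_mono (hC N hN)
  push_cast at h2
  exact h2

/-- `V/σV` for `V = A/(t^N)` -/
theorem L_QS_QN {A : Type u} [CommRing A] (Λ : AddLen.{u, u} A) {d : ℕ} (t : Fin d → A) (σ : A)
    (N : ℕ) : Λ.L (QS σ (QN t N)) ≤
      Λ.L (A ⧸ (Ideal.span (Set.range fun i => t i ^ N) ⊔ Ideal.span {σ})) := by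
  let g : A →ₗ[A] QS σ (QN t N) := (Submodule.mkQ _) ∘ₗ (Submodule.mkQ _)
  have hg : Function.Surjective g :=
    (Submodule.mkQ_surjective _).comp (Submodule.mkQ_surjective _)
  have hk : (Ideal.span (Set.range fun i => t i ^ N) ⊔ Ideal.span {σ}) ≤ LinearMap.ker g := by
    refine sup_le ?_ ?_
    · intro x hx
      rw [LinearMap.mem_ker, LinearMap.comp_apply]
      have : Submodule.mkQ (Ideal.span (Set.range fun i => t i ^ N)) x = 0 := by
        rw [Submodule.mkQ_apply, Submodule.Quotient.mk_eq_zero]; exact hx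
      rw [this, map_zero]
    · rw [Ideal.span_singleton_le_iff_mem, LinearMap.mem_ker, LinearMap.comp_apply,
        Submodule.mkQ_apply, Submodule.Quotient.mk_eq_zero]
      refine ⟨Submodule.mkQ _ (1 : A), ?_⟩
      rw [LinearMap.lsmul_apply, ← map_smul, smul_eq_mul, mul_one]
  refine Λ.L_le_of_surjective (Submodule.liftQ _ g hk) ?_
  rw [← LinearMap.range_eq_top, Submodule.range_liftQ]
  exact LinearMap.range_eq_top.mpr hg

include hc in
/-- **(GROW 3)**: growth for `σ = p^k D` -/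
theorem growthA_sigma (hpu : ¬ IsUnit (p : A)) (D : A) (hD : Om.RegMod D (p : A)) (k : ℕ) :
    ∃ C : ℕ, ∀ N : ℕ, 0 < N →
      (ΛA).L (QS ((p : A) ^ k * D) (QN ta N)) * N ≤ C * (N : ℝ≥0∞) ^ (n + 1) := by
  obtain ⟨C1, hC1⟩ := growthA_p (K := K) hc
  obtain ⟨C2, hC2⟩ := growthA_pD hc hpu D hD
  refine ⟨k * C1 + C2, fun N hN => ?_⟩
  set J : Ideal A := Ideal.span (Set.range fun i => ta i ^ N) with hJ
  have htJ : ∀ i, ta i ^ N ∈ J := fun i => Ideal.subset_span ⟨i, rfl⟩
  have hpJ : (p : A) ^ N ∈ J := by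
    have h1 := htJ 0
    have h2 : ta 0 = (p : A) := by
      unfold tA
      rw [tb_zero, map_natCast, map_natCast]
    rwa [h2] at h1
  have h1 : (ΛA).L (QS ((p : A) ^ k * D) (QN ta N)) ≤
      (ΛA).L (A ⧸ (J ⊔ Ideal.span {D})) + k * (ΛA).L (A ⧸ (J ⊔ Ideal.span {(p : A)})) :=
    (L_QS_QN _ _ _ _).trans ((L_mul_le _ _ _ _).trans (add_le_add le_rfl (L_pow_le _ _ _ _)))
  have h2 : (ΛA).L (A ⧸ (J ⊔ Ideal.span {D})) ≤
      N * (ΛA).L (A ⧸ (J ⊔ Ideal.span {D} ⊔ Ideal.span {(p : A)})) :=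
    L_le_pow _ _ _ _ (Ideal.mem_sup_left hpJ)
  have h3 := hC1 N hN (J ⊔ Ideal.span {(p : A)})
    (Ideal.mem_sup_right (Ideal.mem_span_singleton_self _)) fun i => Ideal.mem_sup_left (htJ i)
  have h4 := hC2 N hN (J ⊔ Ideal.span {D} ⊔ Ideal.span {(p : A)})
    (Ideal.mem_sup_right (Ideal.mem_span_singleton_self _))
    (Ideal.mem_sup_left (Ideal.mem_sup_right (Ideal.mem_span_singleton_self _)))
    fun i => Ideal.mem_sup_left (Ideal.mem_sup_left (htJ i))
  set X := (ΛA).L (A ⧸ (J ⊔ Ideal.span {(p : A)})) with hX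
  set Y := (ΛA).L (A ⧸ (J ⊔ Ideal.span {D} ⊔ Ideal.span {(p : A)})) with hY
  calc _ ≤ (N * Y + k * X) * N := mul_le_mul_left (h1.trans (add_le_add h2 le_rfl)) _
    _ = N * (Y * N) + k * X * N := by ring
    _ ≤ N * (C2 * (N : ℝ≥0∞) ^ n) + k * (C1 * (N : ℝ≥0∞) ^ n) * N := by gcongr
    _ = ((k * C1 + C2 : ℕ) : ℝ≥0∞) * (N : ℝ≥0∞) ^ (n + 1) := by push_cast; ring

include hc in
/-- **(RK)** -/
theorem rk (hpu : ¬ IsUnit (p : A)) (D : A) (hD : Om.RegMod D (p : A)) (k : ℕ)
    {T : Type u} [AddCommGroup T] [Module A T] {r : ℕ} (u : (Fin r → A) →ₗ[A] T)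
    (w : T →ₗ[A] (Fin r → A)) (hwu : ∀ x, w (u x) = ((p : A) ^ k * D) • x)
    (huw : ∀ x, u (w x) = ((p : A) ^ k * D) • x)
    (h0 : Tor0 (ΛA) ta T) (V : Type u) [AddCommGroup V] [Module A V]
    (hV : Tors ta V) : (ΛA).L (T ⊗[A] V) = r * (ΛA).L V := by
  obtain ⟨C, hC⟩ := growthA_sigma hc hpu D hD k
  exact rk_growth p tX hp.out.pos hc (par_witt n p K) u w _ hwu huw C (ENNReal.natCast_ne_top _)
    hC h0 V hV

end Growth2

end Crest.Agent.R188.Trk
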