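import Crest.Agent.R188.Trk6
import Crest.Agent.R188.LenNull2

/-!
# R188 (helper645), block Trk, part 7: the small numbers (`LenNull.Small`).
-/

set_option autoImplicit false
set_option linter.dupNamespace false
set_option linter.unusedSectionVars false

namespace Crest.Agent.R188.Trk

open scoped ENNReal TensorProduct
open Crest.Agent.R183 Crest.Agent.R183.BInf Crest.Agent.R188.Tow IsLocalRing

universe u v w

section Small

variable {n p : ℕ} [hp : Fact p.Prime] {K : Type u} [Field K] [CharP K p] [PerfectRing K p]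

local notation "BX" => MvPowerSeries (Fin n) (WittVector p K)
local notation "tX" => tb n p (WittVector p K)

variable {A : Type u} [CommRing A] [Algebra (BInf p (tb n p (WittVector p K))) A]
  [Algebra (MvPowerSeries (Fin n) (WittVector p K)) A]
  [IsScalarTower (MvPowerSeries (Fin n) (WittVector p K)) (BInf p (tb n p (WittVector p K))) A]
variable (hc : Om.IsCompl (p : BInf p (tb n p (WittVector p K)))
  (algebraMap (BInf p (tb n p (WittVector p K))) A))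
variable {ϖ : ℕ → A} (hpd : Om.PData p A ϖ)

local notation "ΛA" => LA p tX hp.out.pos A
local notation "ta" => tA p tX A

include hpd in
/-- Frobenius, iterated -/
theorem frob_iter {κ : Type} (i0 : κ) (m : ℕ) : ∀ (g : κ → A), g i0 = ϖ m →
    (ΛA).L (A ⧸ Ideal.span (Set.range fun i => g i ^ p ^ m)) =
      ((p ^ (n + 1) : ℕ) : ℝ≥0∞) ^ m * (ΛA).L (A ⧸ Ideal.span (Set.range g)) := by
  induction m with
  | zero =>
    intro g _
    have : (fun i => g i ^ p ^ 0) = g := by funext i; rw [pow_zero, pow_one]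
    rw [this, pow_zero, one_mul]
  | succ m ih =>
    intro g hg
    have h1 := ih (fun i => g i ^ p) (by rw [hg, hpd.roots])
    have h2 : (fun i => g i ^ p ^ (m + 1)) = fun i => (g i ^ p) ^ p ^ m := by
      funext i; rw [← pow_mul, ← pow_succ']
    rw [h2, h1]
    obtain ⟨ψ, hψ⟩ := Frb.exists_tw_span hpd (fun i => g i ^ p) g (fun _ => rfl)
    have e1 : Ideal.span {ϖ 1} ⊔ Ideal.span (Set.range g) = Ideal.span (Set.range g) := by
      rw [sup_eq_right, Ideal.span_singleton_le_iff_mem]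
      have h3 : ϖ 1 = g i0 ^ p ^ m := by
        rw [hg, add_comm m 1, hpd.roots']
      rw [h3]
      have h4 : g i0 ∈ Ideal.span (Set.range g) := Ideal.subset_span ⟨i0, rfl⟩
      exact Ideal.pow_mem_of_mem _ h4 _ (Nat.pow_pos hp.out.pos)
    have e2 : Ideal.span {(p : A)} ⊔ Ideal.span (Set.range fun i => g i ^ p) =
        Ideal.span (Set.range fun i => g i ^ p) := by
      rw [sup_eq_right, Ideal.span_singleton_le_iff_mem]
      have h3 : (p : A) = (g i0 ^ p) ^ p ^ m := by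
        rw [hg, hpd.roots, hpd.pow_eq_p]
      rw [h3]
      have h4 : g i0 ^ p ∈ Ideal.span (Set.range fun i => g i ^ p) := Ideal.subset_span ⟨i0, rfl⟩
      exact Ideal.pow_mem_of_mem _ h4 _ (Nat.pow_pos hp.out.pos)
    have h5 := Frb.restrict_frob tX (pbasis_witt n p K) (algebraMap (BInf p tX) A) ψ hψ.smul
      hψ.kill
    rw [e1, e2] at h5
    have h6 : (ΛA).L (A ⧸ Ideal.span (Set.range fun i => g i ^ p)) =
      ((p ^ (n + 1) : ℕ) : ℝ≥0∞) * (ΛA).L (A ⧸ Ideal.span (Set.range g)) := h5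
    rw [h6, ← mul_assoc, ← pow_succ]

theorem span_option {R : Type*} [CommRing R] {κ : Type*} (g : Option κ → R) :
    Ideal.span (Set.range g) = Ideal.span (Set.range fun i => g (some i)) ⊔
      Ideal.span {g none} := by
  apply le_antisymm
  · rw [Ideal.span_le]
    rintro _ ⟨i, rfl⟩
    cases i with
    | none => exact Ideal.mem_sup_right (Ideal.mem_span_singleton_self _)
    | some i => exact Ideal.mem_sup_left (Ideal.subset_span ⟨i, rfl⟩)
  · refine sup_le ?_ ?_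
    · rw [Ideal.span_le]
      rintro _ ⟨i, rfl⟩
      exact Ideal.subset_span ⟨some i, rfl⟩
    · rw [Ideal.span_singleton_le_iff_mem]
      exact Ideal.subset_span ⟨none, rfl⟩

include hc hpd in
/-- (small1) -/
theorem small1 : ∃ C : ℕ, ∀ N : ℕ, 0 < N → ∀ m : ℕ,
    (p : ℝ≥0∞) ^ m * (ΛA).L (A ⧸ (LenNull.J ta N ⊔ Ideal.span {ϖ m})) ≤
      C * (N : ℝ≥0∞) ^ n := by
  obtain ⟨C, hC⟩ := growthA_p (K := K) hc
  refine ⟨C, fun N hN m => ?_⟩
  let g : Option (Fin (n + 1)) → A := fun o => o.elim (ϖ m) (fun i => ta i ^ N)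
  have hg : Ideal.span (Set.range g) = LenNull.J ta N ⊔ Ideal.span {ϖ m} := span_option g
  have hq0 : 0 < p ^ m := Nat.pow_pos hp.out.pos
  have h1 := frob_iter (K := K) (n := n) hpd none m g rfl
  rw [hg] at h1
  have h2 := hC (N * p ^ m) (Nat.mul_pos hN hq0) (Ideal.span (Set.range fun i => g i ^ p ^ m))
    (by
      have h3 : g none ^ p ^ m = (p : A) := hpd.pow_eq_p m
      rw [← h3]
      exact Ideal.subset_span ⟨none, rfl⟩)
    (fun i => by
      rw [pow_mul]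
      exact Ideal.subset_span ⟨some i, rfl⟩)
  rw [h1] at h2
  have hqe : ((p ^ m : ℕ) : ℝ≥0∞) = (p : ℝ≥0∞) ^ m := by push_cast; rfl
  have hp0 : (p : ℝ≥0∞) ≠ 0 := by exact_mod_cast hp.out.ne_zero
  have hX0 : ((p : ℝ≥0∞) ^ m) ^ n ≠ 0 := pow_ne_zero _ (pow_ne_zero _ hp0)
  have hXt : ((p : ℝ≥0∞) ^ m) ^ n ≠ ⊤ :=
    ENNReal.pow_ne_top (ENNReal.pow_ne_top (ENNReal.natCast_ne_top _))
  refine (ENNReal.mul_le_mul_iff_right hX0 hXt).mp ?_
  calc ((p : ℝ≥0∞) ^ m) ^ n * ((p : ℝ≥0∞) ^ m *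
        (ΛA).L (A ⧸ (LenNull.J ta N ⊔ Ideal.span {ϖ m})))
      = ((p ^ (n + 1) : ℕ) : ℝ≥0∞) ^ m *
        (ΛA).L (A ⧸ (LenNull.J ta N ⊔ Ideal.span {ϖ m})) := by
        push_cast; ring
    _ ≤ C * ((N * p ^ m : ℕ) : ℝ≥0∞) ^ n := h2
    _ = ((p : ℝ≥0∞) ^ m) ^ n * (C * (N : ℝ≥0∞) ^ n) := by push_cast; ring

include hc hpd in
/-- (small2) -/
theorem small2 (hpu : ¬ IsUnit (p : A)) (D : A) (hD : Om.RegMod D (p : A)) :
    ∃ C : ℕ, ∀ N : ℕ, 0 < N → ∀ (m : ℕ) (η : A), (p : A) ∣ η ^ p ^ m - D →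
    (p : ℝ≥0∞) ^ m * (((p ^ m * N : ℕ) : ℝ≥0∞) *
      (ΛA).L (A ⧸ (LenNull.J ta N ⊔ Ideal.span {ϖ m} ⊔ Ideal.span {η}))) ≤
      C * (N : ℝ≥0∞) ^ n := by
  obtain ⟨C, hC⟩ := growthA_pD hc hpu D hD
  refine ⟨C, fun N hN m η hη => ?_⟩
  let g : Option (Option (Fin (n + 1))) → A := fun o =>
    o.elim η (fun o => o.elim (ϖ m) (fun i => ta i ^ N))
  have hg : Ideal.span (Set.range g) = LenNull.J ta N ⊔ Ideal.span {ϖ m} ⊔ Ideal.span {η} := by
    rw [span_option, span_option]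
    rfl
  have hq0 : 0 < p ^ m := Nat.pow_pos hp.out.pos
  have h1 := frob_iter (K := K) (n := n) hpd (some none) m g rfl
  rw [hg] at h1
  have hp𝔞 : (p : A) ∈ Ideal.span (Set.range fun i => g i ^ p ^ m) := by
    have h3 : g (some none) ^ p ^ m = (p : A) := hpd.pow_eq_p m
    rw [← h3]
    exact Ideal.subset_span ⟨some none, rfl⟩
  have h2 := hC (N * p ^ m) (Nat.mul_pos hN hq0) (Ideal.span (Set.range fun i => g i ^ p ^ m))
    hp𝔞
    (by
      obtain ⟨z, hz⟩ := hη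
      have h3 : D = g none ^ p ^ m - p * z := by
        change D = η ^ p ^ m - p * z
        rw [← hz]; ring
      rw [h3]
      exact Ideal.sub_mem _ (Ideal.subset_span ⟨none, rfl⟩) (Ideal.mul_mem_right _ _ hp𝔞))
    (fun i => by
      rw [pow_mul]
      exact Ideal.subset_span ⟨some (some i), rfl⟩)
  rw [h1] at h2
  have hp0 : (p : ℝ≥0∞) ≠ 0 := by exact_mod_cast hp.out.ne_zero
  have hX0 : ((p : ℝ≥0∞) ^ m) ^ n ≠ 0 := pow_ne_zero _ (pow_ne_zero _ hp0)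
  have hXt : ((p : ℝ≥0∞) ^ m) ^ n ≠ ⊤ :=
    ENNReal.pow_ne_top (ENNReal.pow_ne_top (ENNReal.natCast_ne_top _))
  refine (ENNReal.mul_le_mul_iff_right hX0 hXt).mp ?_
  calc ((p : ℝ≥0∞) ^ m) ^ n * ((p : ℝ≥0∞) ^ m * (((p ^ m * N : ℕ) : ℝ≥0∞) *
        (ΛA).L (A ⧸ (LenNull.J ta N ⊔ Ideal.span {ϖ m} ⊔ Ideal.span {η}))))
      = ((p ^ (n + 1) : ℕ) : ℝ≥0∞) ^ m *
        (ΛA).L (A ⧸ (LenNull.J ta N ⊔ Ideal.span {ϖ m} ⊔ Ideal.span {η})) *
          ((N * p ^ m : ℕ) : ℝ≥0∞) := by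
        push_cast; ring
    _ ≤ C * ((N * p ^ m : ℕ) : ℝ≥0∞) ^ n := h2
    _ = ((p : ℝ≥0∞) ^ m) ^ n * (C * (N : ℝ≥0∞) ^ n) := by push_cast; ring

include hc hpd in
/-- **the small numbers** -/
theorem small (hpu : ¬ IsUnit (p : A)) : LenNull.Small (ΛA) ta p ϖ := by
  intro D hD η hη k N ε hε
  rcases Nat.eq_zero_or_pos N with hN | hN
  · subst hN
    refine ⟨0, ?_⟩
    have hJ : LenNull.J ta 0 = ⊤ := by
      rw [Ideal.eq_top_iff_one]
      exact Ideal.subset_span ⟨0, by simp⟩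
    rw [hJ, top_sup_eq, top_sup_eq]
    have : Subsingleton (A ⧸ (⊤ : Ideal A)) := Ideal.Quotient.subsingleton_iff.2 rfl
    rw [(ΛA).L_subsingleton]
    simp
  · obtain ⟨C1, h1⟩ := small1 (K := K) hc hpd
    obtain ⟨C2, h2⟩ := small2 hc hpd hpu D hD
    let K0 : ℕ := k * (C1 * N ^ n) + C2 * N ^ n
    obtain ⟨m, hm⟩ := ENNReal.exists_nat_mul_gt hε.ne' (ENNReal.natCast_ne_top K0)
    refine ⟨m, ?_⟩
    have hp0 : (p : ℝ≥0∞) ^ m ≠ 0 := pow_ne_zero _ (by exact_mod_cast hp.out.ne_zero)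
    have hpt : (p : ℝ≥0∞) ^ m ≠ ⊤ := ENNReal.pow_ne_top (ENNReal.natCast_ne_top _)
    refine (ENNReal.mul_le_mul_iff_right hp0 hpt).mp ?_
    have h3 := h1 N hN m
    have h4 := h2 N hN m (η m) (hη m)
    have hmp : (m : ℝ≥0∞) ≤ (p : ℝ≥0∞) ^ m := by
      have : m ≤ p ^ m := (Nat.lt_pow_self hp.out.one_lt).le
      exact_mod_cast this
    set X := (ΛA).L (A ⧸ (LenNull.J ta N ⊔ Ideal.span {ϖ m})) with hX
    set Y := (ΛA).L (A ⧸ (LenNull.J ta N ⊔ Ideal.span {ϖ m} ⊔ Ideal.span {η m})) with hY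
    calc (p : ℝ≥0∞) ^ m * (k * X + ((p ^ m * N : ℕ) : ℝ≥0∞) * Y)
        = k * ((p : ℝ≥0∞) ^ m * X) + (p : ℝ≥0∞) ^ m * (((p ^ m * N : ℕ) : ℝ≥0∞) * Y) := by ring
      _ ≤ k * (C1 * (N : ℝ≥0∞) ^ n) + C2 * (N : ℝ≥0∞) ^ n := by gcongr
      _ = (K0 : ℝ≥0∞) := by push_cast [K0]; ring
      _ ≤ m * ε := hm.le
      _ ≤ (p : ℝ≥0∞) ^ m * ε := mul_le_mul_left hmp _

end Small

end Crest.Agent.R188.Trk
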