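/-
R188 (Serre positivity), block (L): the world exists.   Author: helper814 (assembly of the blocks
of helper200, helper245, helper270, helper453, helper645, helper814).
-/
import Crest.Agent.R188.LenWorld6
import Crest.Agent.R188.TowNul4
import Crest.Agent.R188.Trk8
import Crest.Agent.R188.Trk7

set_option autoImplicit false

namespace Crest.Agent.R188.WorldEx

open Crest.Agent.R183 Crest.Agent.R188.Apl Crest.Agent.R188.LenWorld
open Crest.Agent.R188.Asm (BB BPlus tB World)
open Crest.Agent.R183.BInf

variable (p : ℕ) [hp : Fact p.Prime] (k : Type) [Field k] [CharP k p] [PerfectRing k p] (b : ℕ)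

/-- **the world exists** -/
theorem nonempty_world : Nonempty (World p k b) := by
  obtain ⟨A, _, _, _, ϖ, hA⟩ := exists_isBase (p := p) (k := k) (b := b)
  have hdom : IsDomain A := hA.dom
  have hnorm : IsIntegrallyClosed A := hA.normal
  have htow : IsScalarTower (BB p k b) (BI p k b) A := hA.tower
  obtain ⟨M₀⟩ := hA.model
  let F := FractionRing A
  let K := AlgebraicClosure (FractionRing A)
  let t := tb b p (WittVector p k)
  have hPar : Trk.Par p t 0 := Trk.par_witt b p k
  have hfac : ∀ a : A, a ≠ 0 → ∃ (c : A) (k : ℕ) (D : A), a * c = (p : A) ^ k * D ∧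
      Om.RegMod D (p : A) := by
    intro a ha
    obtain ⟨e, i, m, D, -, h2, h3⟩ := hA.fac a ha
    exact ⟨ϖ e ^ m, i, D, h2, h3⟩
  have hfact : ∀ (T : Type) [CommRing T] [Algebra A T] (H : Set (T →ₐ[A] T))
      (M : Tring.AlmSplit p A T ϖ H),
      TowN.FactN (Trk.LA p t hp.out.pos A) (Trk.tA p t A) M.mu :=
    fun T _ _ H M => Trk.factN_almSplit hA.compl hA.pdata hA.nonunit M
  have htA : Trk.tA p t A = tA p k b A := by
    funext i
    exact (IsScalarTower.algebraMap_apply (BB p k b) (BI p k b) A _).symm
  have hgrow : Tring.Grow p t hp.out.pos A := by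
    intro k D hD
    obtain ⟨C, hC⟩ := Trk.growthA_sigma hA.compl hA.nonunit D hD k
    exact ⟨C, ENNReal.natCast_ne_top C, hC⟩
  have hFL : TowI.HypFL A F K (tA p k b A) (lenB p k b A) := by
    rw [← htA]
    exact Tring.hypFL t hp.out.pos hA.compl hPar M₀ hA.cic hfac hgrow hfact
  have hDEC : TowI.HypDEC A F K (tA p k b A) (lenB p k b A) := by
    rw [← htA]
    exact TowN.hypDEC t hp.out.pos hPar M₀ hA.cic hfac hfact
  have hsmall : LenNull.Small (lenB p k b A) (tA p k b A) p ϖ := by
    rw [← htA]
    exact Trk.small hA.compl hA.pdata hA.nonunit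
  have hpA : (p : A) ≠ 0 := by
    intro h
    have := hA.reg 1 (by rw [h, zero_mul])
    exact one_ne_zero this
  refine nonempty_world_of_hyp (F := F) (K := K) hA hFL hDEC ?_ hsmall
  intro L n hn
  rw [← htA]
  obtain ⟨M⟩ := Tring.nonempty_almSplit (F := F) (L := L) M₀ hA.cic hfac
  have hinjL : Function.Injective (algebraMap A L) := by
    rw [IsScalarTower.algebraMap_eq A F L]
    exact (algebraMap F L).injective.comp (IsFractionRing.injective A F)
  have hpL : (p : integralClosure A L) ≠ 0 := by
    intro h
    apply hpA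
    apply hinjL
    rw [map_natCast, map_zero]
    have := congrArg (algebraMap (integralClosure A L) L) h
    rwa [map_natCast, map_zero] at this
  exact TowN.kos0_almSplit t hp.out.pos hA.compl hPar (TowN.isWeaklyRegular_tb b p k)
    (T := integralClosure A L) (fun x hx => (mul_eq_zero.1 hx).resolve_left hpL) M
    (hfact _ _ M) n hn

end Crest.Agent.R188.WorldEx
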